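import Vale.Agent.P347S.Poinc2
import Vale.Agent.P347Z.CodeRules

/-!
P347Z / BaseA (helper26): W1 absorption of a centred Lipschitz function of a Gaussian vector,
`|E φ(τ ζ + F(ξ)) - E φ(τ ζ + E F)| ≤ 2 Lip(F)² √d / τ` for bounded `1`-Lipschitz `φ`.
-/

open MeasureTheory ProbabilityTheory Function
open scoped ENNReal BigOperators ContDiff

namespace P347Z

open P347Q P347S

variable {d : ℕ}

theorem ba_polyB {φ : E d → ℝ} (hφ : ∀ x y, |φ x - φ y| ≤ ‖x - y‖) : PolyB φ := by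
  have hc : Continuous φ := by
    have : LipschitzWith 1 φ := LipschitzWith.of_dist_le_mul fun x y => by
      rw [Real.dist_eq, dist_eq_norm, NNReal.coe_one, one_mul]
      exact hφ x y
    exact this.continuous
  refine ⟨hc, 1, |φ 0| + 1, fun x => ?_⟩
  have h1 := hφ x 0
  rw [sub_zero] at h1
  have h2 : |φ x| ≤ |φ x - φ 0| + |φ 0| := by
    have := abs_add_le (φ x - φ 0) (φ 0)
    rwa [sub_add_cancel] at this
  have h3 := norm_nonneg x
  have h4 := abs_nonneg (φ 0)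
  rw [pow_one]
  nlinarith

theorem ba_int {φ : E d → ℝ} (hφ : PolyB φ) (x : E d) (ε : ℝ) :
    Integrable (fun z => φ (x + ε • z)) (stdGaussian (E d)) := (hφ.comp_shift ε x).int

theorem ba_lip {φ : E d → ℝ} (hφ : ∀ x y, |φ x - φ y| ≤ ‖x - y‖) (τ : ℝ) (x y : E d) :
    |smooth τ φ x - smooth τ φ y| ≤ ‖x - y‖ := by
  have hp := ba_polyB hφ
  unfold smooth
  rw [← integral_sub (ba_int hp x τ) (ba_int hp y τ)]
  refine abs_integral_le_integral_abs.trans ?_
  calc ∫ z, |φ (x + τ • z) - φ (y + τ • z)| ∂(stdGaussian (E d))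
      ≤ ∫ _z, ‖x - y‖ ∂(stdGaussian (E d)) :=
        integral_mono ((ba_int hp x τ).sub (ba_int hp y τ)).abs (integrable_const _) (fun z => by
          have := hφ (x + τ • z) (y + τ • z)
          rwa [add_sub_add_right_eq_sub] at this)
    _ = ‖x - y‖ := by simp

theorem ba_fd_norm {ψ : E d → ℝ} (h : ∀ x y, |ψ x - ψ y| ≤ ‖x - y‖) (x : E d) :
    ‖fderiv ℝ ψ x‖ ≤ 1 := by
  have : LipschitzWith 1 ψ := LipschitzWith.of_dist_le_mul fun x y => by
    rw [Real.dist_eq, dist_eq_norm, NNReal.coe_one, one_mul]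
    exact h x y
  have h2 := norm_fderiv_le_of_lipschitz ℝ this (x₀ := x)
  simpa using h2

theorem ba_semi {φ : E d → ℝ} (hφ : PolyB φ) {a b c : ℝ} (h : a ^ 2 + b ^ 2 = c ^ 2) (hc : 0 ≤ c) :
    smooth a (smooth b φ) = smooth c φ := by
  funext x
  have h1 := sr_gauss_conv (d := d) a b
  rw [h, Real.sqrt_sq hc] at h1
  have hm : ∀ c : ℝ, Measurable (fun z : E d => c • z) := fun c => by fun_prop
  have hpr : ∀ c : ℝ, IsProbabilityMeasure ((stdGaussian (E d)).map (c • · : E d → E d)) := fun c =>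
    Measure.isProbabilityMeasure_map (hm c).aemeasurable
  have := hpr a
  have := hpr b
  have hφ1 : Continuous (fun z : E d => φ (x + z)) := hφ.1.comp (by fun_prop)
  have e1 : smooth c φ x = ∫ z, φ (x + z) ∂((stdGaussian (E d)).map (c • · : E d → E d)) := by
    rw [integral_map (hm c).aemeasurable hφ1.aestronglyMeasurable]
    rfl
  have hint : Integrable (fun z : E d => φ (x + z))
      (((stdGaussian (E d)).map (a • · : E d → E d)).conv
        ((stdGaussian (E d)).map (b • · : E d → E d))) := by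
    rw [h1, integrable_map_measure hφ1.aestronglyMeasurable (hm c).aemeasurable]
    exact ba_int hφ x c
  rw [e1, ← h1, integral_conv hint]
  rw [integral_map (hm a).aemeasurable]
  · unfold smooth
    refine integral_congr_ae (Filter.Eventually.of_forall fun z => ?_)
    simp only
    rw [integral_map (hm b).aemeasurable]
    · simp only [add_assoc]
    · exact (hφ1.comp (by fun_prop : Continuous fun w : E d => a • z + w)).aestronglyMeasurable
  · have hsm : StronglyMeasurable (fun p : E d × E d => φ (x + (p.1 + p.2))) :=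
      (hφ.1.comp (by fun_prop : Continuous fun p : E d × E d => x + (p.1 + p.2))).stronglyMeasurable
    exact (hsm.integral_prod_right' (ν := (stdGaussian (E d)).map (b • · : E d → E d))).aestronglyMeasurable

/-- derivative of the smoothing of a temperate function with bounded derivative -/
theorem ba_smooth_fd {f : E d → ℝ} (hf : HasTemperateGrowth f) (ε : ℝ) (x w : E d) :
    fderiv ℝ (smooth ε f) x w = smooth ε (fun y => fderiv ℝ f y w) x := by
  have hc : ContDiff ℝ 1 f := hf.1.of_le (by simp)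
  obtain ⟨k, C, hC, hb⟩ := sr_tg_bound hf
  obtain ⟨k', C', hC', hb'⟩ := sr_tg_bound (P347Q.temp_fderiv hf)
  have h2 := SmAux.hasFDerivAt_shift hc hb hb' x ε
  have h3 : HasFDerivAt (smooth ε f) _ x := h2
  rw [h3.fderiv, (SmAux.int_fderiv_apply hc hb' x ε w).2]
  rfl

theorem ba_dual_sq (L : E d →L[ℝ] ℝ) : ‖L‖ ^ 2 = ∑ j, (L (bas d j)) ^ 2 := by
  obtain ⟨a, rfl⟩ := (InnerProductSpace.toDual ℝ (E d)).surjective L
  rw [LinearIsometryEquiv.norm_map, EuclideanSpace.real_norm_sq_eq]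
  refine Finset.sum_congr rfl fun j _ => ?_
  rw [InnerProductSpace.toDual_apply_apply, bas, EuclideanSpace.inner_single_right]
  simp

/-- Hilbert-Schmidt bound for the Hessian of the smoothing of a Lipschitz function -/
theorem ba_hs0 {φ : E d → ℝ} (hφ : ∀ x y, |φ x - φ y| ≤ ‖x - y‖) {τ ε : ℝ} (hε0 : 0 < ε)
    (hετ : ε < τ) (x : E d) :
    (∑ i, ‖fderiv ℝ (fun y => fderiv ℝ (smooth τ φ) y (bas d i)) x‖ ^ 2) * ε ^ 2 ≤ 1 := by
  have hp := ba_polyB hφ
  have hτ : 0 < τ := hε0.trans hετ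
  have hpos : 0 < τ ^ 2 - ε ^ 2 := by nlinarith
  set δ : ℝ := √(τ ^ 2 - ε ^ 2) with hδ
  have hδ0 : 0 < δ := Real.sqrt_pos.2 hpos
  have hδ2 : δ ^ 2 = τ ^ 2 - ε ^ 2 := Real.sq_sqrt hpos.le
  have hsem : smooth ε (smooth δ φ) = smooth τ φ :=
    ba_semi hp (by rw [hδ2]; ring) hτ.le
  set ψ := smooth δ φ with hψ
  have hψt : HasTemperateGrowth ψ := smooth_temp hp hδ0
  have hψl : ∀ x y, |ψ x - ψ y| ≤ ‖x - y‖ := ba_lip hφ δ
  have hGt : ∀ i, HasTemperateGrowth (fun y => fderiv ℝ ψ y (bas d i)) := fun i => temp_dir hψt _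
  have hGp : ∀ i, PolyB (fun y => fderiv ℝ ψ y (bas d i)) :=
    fun i => HasTemperateGrowth.polyB (hGt i)
  have e1 : ∀ i, (fun y => fderiv ℝ (smooth τ φ) y (bas d i)) =
      smooth ε (fun y => fderiv ℝ ψ y (bas d i)) := by
    intro i
    funext y
    rw [← hsem, ba_smooth_fd hψt]
  have hi : ∀ i, Integrable (fun z => (fderiv ℝ ψ (x + ε • z) (bas d i)) ^ 2)
      (stdGaussian (E d)) := by
    intro i
    have h3 := ((hGp i).mul (hGp i)).comp_shift ε x
    refine h3.int.congr (Filter.Eventually.of_forall fun z => ?_)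
    simp only
    ring
  have e2 : ∀ i, ‖fderiv ℝ (fun y => fderiv ℝ (smooth τ φ) y (bas d i)) x‖ ^ 2 ≤
      (ε ^ 2)⁻¹ * ∫ z, (fderiv ℝ ψ (x + ε • z) (bas d i)) ^ 2 ∂(stdGaussian (E d)) := by
    intro i
    rw [e1, ba_dual_sq]
    simp_rw [smooth_fderiv_gauss (hGp i) hε0, mul_pow]
    rw [← Finset.mul_sum, inv_pow]
    exact mul_le_mul_of_nonneg_left (sr_gauss_bessel ((hGp i).comp_shift ε x)) (by positivity)
  have e3 : ∑ i, ‖fderiv ℝ (fun y => fderiv ℝ (smooth τ φ) y (bas d i)) x‖ ^ 2 ≤ (ε ^ 2)⁻¹ := by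
    calc ∑ i, ‖fderiv ℝ (fun y => fderiv ℝ (smooth τ φ) y (bas d i)) x‖ ^ 2
        ≤ ∑ i, (ε ^ 2)⁻¹ * ∫ z, (fderiv ℝ ψ (x + ε • z) (bas d i)) ^ 2 ∂(stdGaussian (E d)) :=
          Finset.sum_le_sum fun i _ => e2 i
      _ = (ε ^ 2)⁻¹ * ∫ z, ∑ i, (fderiv ℝ ψ (x + ε • z) (bas d i)) ^ 2 ∂(stdGaussian (E d)) := by
          rw [integral_finsetSum _ (fun i _ => hi i), Finset.mul_sum]
      _ ≤ (ε ^ 2)⁻¹ * ∫ _z, (1 : ℝ) ∂(stdGaussian (E d)) := by
          refine mul_le_mul_of_nonneg_left ?_ (by positivity)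
          refine integral_mono (integrable_finsetSum _ (fun i _ => hi i)) (integrable_const _)
            (fun z => ?_)
          simp only
          rw [← ba_dual_sq]
          have := ba_fd_norm hψl (x + ε • z)
          nlinarith [norm_nonneg (fderiv ℝ ψ (x + ε • z))]
      _ = (ε ^ 2)⁻¹ := by simp
  have h4 : 0 < ε ^ 2 := by positivity
  calc _ ≤ (ε ^ 2)⁻¹ * ε ^ 2 := mul_le_mul_of_nonneg_right e3 h4.le
    _ = 1 := inv_mul_cancel₀ h4.ne'

theorem ba_hs {φ : E d → ℝ} (hφ : ∀ x y, |φ x - φ y| ≤ ‖x - y‖) {τ : ℝ} (hτ : 0 < τ) (x : E d) :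
    ∑ i, ‖fderiv ℝ (fun y => fderiv ℝ (smooth τ φ) y (bas d i)) x‖ ^ 2 ≤ (1 / τ) ^ 2 := by
  set A := ∑ i, ‖fderiv ℝ (fun y => fderiv ℝ (smooth τ φ) y (bas d i)) x‖ ^ 2 with hA
  have h1 : Filter.Tendsto (fun ε : ℝ => A * ε ^ 2) (nhdsWithin τ (Set.Iio τ)) (nhds (A * τ ^ 2)) :=
    ((continuous_const.mul (continuous_pow 2)).tendsto τ).mono_left nhdsWithin_le_nhds
  have h2 : A * τ ^ 2 ≤ 1 := by
    refine le_of_tendsto h1 ?_
    have h3 : ∀ᶠ ε in nhdsWithin τ (Set.Iio τ), 0 < ε :=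
      nhdsWithin_le_nhds (lt_mem_nhds hτ)
    filter_upwards [h3, self_mem_nhdsWithin] with ε h4 h5
    exact ba_hs0 hφ h4 h5 x
  rw [div_pow, one_pow, le_div_iff₀ (by positivity)]
  exact h2

end P347Z
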