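import Vale.Agent.P347Z.Defs

/-!
Module U2 of ULEVEL: joint smoothness of `US V L y` in `(L, y)`.

`∫ exp (-V (y + √L z)) γ(dz) = c L^{-d/2} exp (-|y|²/(2L)) G(1/L, y/L)`, where
`G(θ, η) = ∫ exp (-V x) exp (⟨x,η⟩ - θ |x|²/2) dx` is smooth (an exponential family).
-/

open MeasureTheory ProbabilityTheory Function
open scoped ENNReal BigOperators ContDiff

namespace P347Z

open P347Q P347S

variable {d : ℕ}

/-- domain of the parameters -/
def u2O (d : ℕ) (M : ℝ) : Set (ℝ × E d) := {p | 0 < p.1 ∧ ‖p.2‖ < M}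

theorem u2O_open (M : ℝ) : IsOpen (u2O d M) :=
  (isOpen_lt continuous_const continuous_fst).inter
    (isOpen_lt (continuous_snd.norm) continuous_const)

/-- the exponent `⟨x,η⟩ - θ |x|²/2` -/
noncomputable def u2e (x : E d) (p : ℝ × E d) : ℝ := inner ℝ x p.2 - p.1 * (‖x‖ ^ 2 / 2)

/-- the linear statistic -/
noncomputable def u2T (x : E d) : (ℝ × E d) →L[ℝ] ℝ :=
  (innerSL ℝ x).comp (ContinuousLinearMap.snd ℝ ℝ (E d)) -
    (‖x‖ ^ 2 / 2) • ContinuousLinearMap.fst ℝ ℝ (E d)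

theorem u2T_apply (x : E d) (p : ℝ × E d) : u2T x p = u2e x p := by
  simp [u2T, u2e]
  ring

theorem u2T_norm (x : E d) : ‖u2T x‖ ≤ (1 + ‖x‖) ^ 2 := by
  have hx := norm_nonneg x
  refine ContinuousLinearMap.opNorm_le_bound _ (by positivity) fun p => ?_
  rw [u2T_apply, u2e]
  have h1 : ‖p.2‖ ≤ ‖p‖ := norm_snd_le p
  have h2 : ‖p.1‖ ≤ ‖p‖ := norm_fst_le p
  have h3 : |inner ℝ x p.2| ≤ ‖x‖ * ‖p.2‖ := abs_real_inner_le_norm x p.2
  rw [Real.norm_eq_abs] at *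
  have h4 : |p.1 * (‖x‖ ^ 2 / 2)| = |p.1| * (‖x‖ ^ 2 / 2) := by
    rw [abs_mul, abs_of_nonneg (by positivity : (0:ℝ) ≤ ‖x‖ ^ 2 / 2)]
  have h5 : |inner ℝ x p.2 - p.1 * (‖x‖ ^ 2 / 2)| ≤ |inner ℝ x p.2| + |p.1 * (‖x‖ ^ 2 / 2)| := abs_sub _ _
  rw [h4] at h5
  have h6 : ‖x‖ * ‖p.2‖ ≤ ‖x‖ * ‖p‖ := mul_le_mul_of_nonneg_left h1 hx
  have h7 : |p.1| * (‖x‖ ^ 2 / 2) ≤ ‖p‖ * (‖x‖ ^ 2 / 2) :=
    mul_le_mul_of_nonneg_right h2 (by positivity)
  have h8 := norm_nonneg p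
  nlinarith [mul_nonneg h8 hx, mul_nonneg h8 (sq_nonneg ‖x‖)]

theorem u2T_cont : Continuous (fun x : E d => u2T x) := by
  unfold u2T
  have h1 : Continuous (fun x : E d => (innerSL ℝ x).comp (ContinuousLinearMap.snd ℝ ℝ (E d))) :=
    ((innerSL ℝ).continuous).clm_comp continuous_const
  exact h1.sub (((continuous_norm.pow 2).div_const 2).smul continuous_const)

/-- the basic integral -/
noncomputable def u2G {F : Type} [NormedAddCommGroup F] [NormedSpace ℝ F] (V : E d → ℝ)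
    (g : E d → F) (p : ℝ × E d) : F :=
  ∫ x, (Real.exp (-V x) * Real.exp (u2e x p)) • g x

/-- class of integrands -/
def u2C {F : Type} [NormedAddCommGroup F] (g : E d → F) : Prop :=
  Continuous g ∧ ∃ (k : ℕ) (C : ℝ), 0 ≤ C ∧ ∀ x, ‖g x‖ ≤ C * (1 + ‖x‖) ^ k

theorem u2_dom {V : E d → ℝ} {c : ℝ} (hl : ∀ x, c + ‖x‖ ^ 2 / 4 ≤ V x) {M : ℝ} (x : E d)
    {p : ℝ × E d} (hp : p ∈ u2O d M) :
    Real.exp (-V x) * Real.exp (u2e x p) ≤
      Real.exp (2 * M ^ 2 - c) * Real.exp (-(1 / 8) * ‖x‖ ^ 2) := by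
  rw [← Real.exp_add, ← Real.exp_add]
  apply Real.exp_le_exp.2
  have h1 := hl x
  have h2 : inner ℝ x p.2 ≤ ‖x‖ * M :=
    (real_inner_le_norm x p.2).trans (mul_le_mul_of_nonneg_left hp.2.le (norm_nonneg _))
  have h3 : 0 ≤ p.1 * (‖x‖ ^ 2 / 2) := mul_nonneg hp.1.le (by positivity)
  unfold u2e
  have h4 : ‖x‖ * M ≤ ‖x‖ ^ 2 / 8 + 2 * M ^ 2 := by
    have := sq_nonneg (‖x‖ - 4 * M)
    nlinarith
  linarith

theorem u2_cont {F : Type} [NormedAddCommGroup F] [NormedSpace ℝ F] {V : E d → ℝ}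
    (hV : Continuous V) {g : E d → F} (hg : Continuous g) (p : ℝ × E d) :
    Continuous (fun x => (Real.exp (-V x) * Real.exp (u2e x p)) • g x) := by
  unfold u2e
  fun_prop

theorem u2_bound_int {c : ℝ} (k : ℕ) (C M : ℝ) :
    Integrable (fun x : E d => Real.exp (2 * M ^ 2 - c) * Real.exp (-(1 / 8) * ‖x‖ ^ 2) *
      (C * (1 + ‖x‖) ^ k)) := by
  have h := (integrable_poly_exp (d := d) (b := 1 / 8) (by norm_num) k).const_mul
    (Real.exp (2 * M ^ 2 - c) * C)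
  refine h.congr (Filter.Eventually.of_forall fun x => ?_)
  simp only
  ring

theorem u2_der {F : Type} [NormedAddCommGroup F] [NormedSpace ℝ F] [CompleteSpace F] {V : E d → ℝ}
    (hV : Continuous V) {c : ℝ} (hl : ∀ x, c + ‖x‖ ^ 2 / 4 ≤ V x) {g : E d → F} (hg : u2C g)
    {M : ℝ} {p : ℝ × E d} (hp : p ∈ u2O d M) :
    HasFDerivAt (u2G V g) (u2G V (fun x => (u2T x).smulRight (g x)) p) p := by
  obtain ⟨hgc, k, C, hC, hb⟩ := hg
  have hU : u2O d M ∈ nhds p := (u2O_open M).mem_nhds hp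
  refine hasFDerivAt_integral_of_dominated_of_fderiv_le (μ := volume)
    (F := fun p x => (Real.exp (-V x) * Real.exp (u2e x p)) • g x)
    (F' := fun p x => (Real.exp (-V x) * Real.exp (u2e x p)) • (u2T x).smulRight (g x))
    (bound := fun x => Real.exp (2 * M ^ 2 - c) * Real.exp (-(1 / 8) * ‖x‖ ^ 2) *
      (C * (1 + ‖x‖) ^ (k + 2))) hU ?_ ?_ ?_ ?_ ?_ ?_
  · exact Filter.Eventually.of_forall fun q => (u2_cont hV hgc q).aestronglyMeasurable
  · refine (u2_bound_int (c := c) k C M).mono' (u2_cont hV hgc p).aestronglyMeasurable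
      (Filter.Eventually.of_forall fun x => ?_)
    rw [norm_smul, Real.norm_of_nonneg (by positivity)]
    exact mul_le_mul (u2_dom hl x hp) (hb x) (norm_nonneg _) (by positivity)
  · have h1 : Continuous (fun x => (u2T x).smulRight (g x)) := by
      have h2 := ((ContinuousLinearMap.smulRightL ℝ (ℝ × E d) F).continuous.comp (u2T_cont (d := d)))
      exact h2.clm_apply hgc
    exact (u2_cont hV h1 p).aestronglyMeasurable
  · refine Filter.Eventually.of_forall fun x q hq => ?_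
    rw [norm_smul, Real.norm_of_nonneg (by positivity), ContinuousLinearMap.norm_smulRight_apply]
    have h3 : ‖u2T x‖ * ‖g x‖ ≤ C * (1 + ‖x‖) ^ (k + 2) := by
      calc ‖u2T x‖ * ‖g x‖ ≤ (1 + ‖x‖) ^ 2 * (C * (1 + ‖x‖) ^ k) :=
            mul_le_mul (u2T_norm x) (hb x) (norm_nonneg _) (by positivity)
        _ = _ := by ring
    exact mul_le_mul (u2_dom hl x hq) h3 (by positivity) (by positivity)
  · exact u2_bound_int (c := c) (k + 2) C M
  · refine Filter.Eventually.of_forall fun x q _ => ?_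
    have h1 : HasFDerivAt (fun p : ℝ × E d => u2e x p) (u2T x) q := by
      have : (fun p : ℝ × E d => u2e x p) = u2T x := by
        funext p
        rw [u2T_apply]
      rw [this]
      exact (u2T x).hasFDerivAt
    have h2 := ((h1.exp).const_mul (Real.exp (-V x))).smul_const (g x)
    refine h2.congr_fderiv (ContinuousLinearMap.ext fun v => ?_)
    simp only [ContinuousLinearMap.smulRight_apply, smul_apply, smul_eq_mul, smul_smul]

theorem u2C_step {F : Type} [NormedAddCommGroup F] [NormedSpace ℝ F] {g : E d → F} (hg : u2C g) :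
    u2C (fun x => (u2T x).smulRight (g x)) := by
  obtain ⟨hgc, k, C, hC, hb⟩ := hg
  refine ⟨?_, k + 2, C, hC, fun x => ?_⟩
  · have h2 := ((ContinuousLinearMap.smulRightL ℝ (ℝ × E d) F).continuous.comp (u2T_cont (d := d)))
    exact h2.clm_apply hgc
  · rw [ContinuousLinearMap.norm_smulRight_apply]
    calc ‖u2T x‖ * ‖g x‖ ≤ (1 + ‖x‖) ^ 2 * (C * (1 + ‖x‖) ^ k) :=
          mul_le_mul (u2T_norm x) (hb x) (norm_nonneg _) (by positivity)
      _ = _ := by ring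

theorem u2_smooth_nat {V : E d → ℝ} (hV : Continuous V) {c : ℝ} (hl : ∀ x, c + ‖x‖ ^ 2 / 4 ≤ V x)
    (M : ℝ) (n : ℕ) : ∀ {F : Type} [NormedAddCommGroup F] [NormedSpace ℝ F] [CompleteSpace F]
    {g : E d → F}, u2C g → ContDiffOn ℝ n (u2G V g) (u2O d M) := by
  induction n with
  | zero =>
    intro F _ _ _ g hg
    rw [Nat.cast_zero, contDiffOn_zero]
    exact fun p hp => (u2_der hV hl hg hp).continuousAt.continuousWithinAt
  | succ n ih =>
    intro F _ _ _ g hg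
    have h1 := ih (u2C_step hg)
    rw [Nat.cast_succ]
    refine (contDiffOn_succ_iff_fderiv_of_isOpen (u2O_open M)).2 ⟨?_, ?_, ?_⟩
    · exact fun p hp => (u2_der hV hl hg hp).differentiableAt.differentiableWithinAt
    · intro h
      exact absurd h (by simp)
    · refine h1.congr fun p hp => ?_
      exact (u2_der hV hl hg hp).fderiv

theorem u2_smooth {V : E d → ℝ} (hV : Continuous V) {c : ℝ} (hl : ∀ x, c + ‖x‖ ^ 2 / 4 ≤ V x)
    {F : Type} [NormedAddCommGroup F] [NormedSpace ℝ F] [CompleteSpace F]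
    {g : E d → F} (hg : u2C g) :
    ContDiffOn ℝ ∞ (u2G V g) (Set.Ioi (0 : ℝ) ×ˢ Set.univ) := by
  refine contDiffOn_infty.2 fun n => ?_
  intro p hp
  have h1 : p ∈ u2O d (‖p.2‖ + 1) := ⟨hp.1, by linarith⟩
  have h2 := (u2_smooth_nat hV hl (‖p.2‖ + 1) n hg).contDiffAt ((u2O_open _).mem_nhds h1)
  exact h2.contDiffWithinAt

theorem u2_low {V : E d → ℝ} (hV : Pot d V) : ∃ c : ℝ, ∀ x, c + ‖x‖ ^ 2 / 4 ≤ V x := by
  refine ⟨V 0 - ‖fderiv ℝ V 0‖ ^ 2, fun x => ?_⟩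
  have h := second_order_lower hV.smooth 0 x (‖x‖ ^ 2) (fun t _ => hV.lower _ _)
  rw [zero_add] at h
  have h1 : -(‖fderiv ℝ V 0‖ * ‖x‖) ≤ fderiv ℝ V 0 x := by
    have := ContinuousLinearMap.le_opNorm (fderiv ℝ V 0) x
    rw [Real.norm_eq_abs] at this
    exact (abs_le.1 this).1
  have h2 : ‖fderiv ℝ V 0‖ * ‖x‖ ≤ ‖fderiv ℝ V 0‖ ^ 2 + ‖x‖ ^ 2 / 4 := by
    have := sq_nonneg (‖fderiv ℝ V 0‖ - ‖x‖ / 2)
    linarith [this, sub_sq ‖fderiv ℝ V 0‖ (‖x‖ / 2)]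
  linarith

theorem u2_eq {V : E d → ℝ} {L : ℝ} (hL : 0 < L) (y : E d) :
    ∫ z, Real.exp (-V (y + √L • z)) ∂(stdGaussian (E d)) =
      (sr_gz d * ((√L) ^ d)⁻¹) * (Real.exp (-(‖y‖ ^ 2 / (2 * L))) *
        u2G V (fun _ => (1 : ℝ)) (L⁻¹, L⁻¹ • y)) := by
  have h0 : 0 < √L := Real.sqrt_pos.2 hL
  have h1 := lc_kernel_one (W := V) h0 y
  rw [smooth] at h1
  rw [h1, abs_of_pos (pow_pos h0 d), u2G]
  congr 1
  rw [← integral_const_mul]
  refine integral_congr_ae (Filter.Eventually.of_forall fun w => ?_)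
  simp only [pot, smul_eq_mul, mul_one, u2e]
  rw [← Real.exp_add, ← Real.exp_add]
  congr 1
  rw [Real.sq_sqrt hL.le, inner_smul_right, norm_sub_sq_real]
  field_simp
  ring

/-- U2: joint smoothness in (level, point). -/
theorem us_joint' {V : E d → ℝ} (hV : Pot d V) :
    ContDiffOn ℝ ∞ (fun p : ℝ × E d => US V p.1 p.2) (Set.Ioi (0 : ℝ) ×ˢ Set.univ) := by
  obtain ⟨c, hl⟩ := u2_low hV
  have hVc : Continuous V := hV.smooth.continuous
  have hg : u2C (fun _ : E d => (1 : ℝ)) :=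
    ⟨continuous_const, 0, 1, zero_le_one, fun x => by simp⟩
  have hG := u2_smooth hVc hl hg
  -- the map (L, y) ↦ (1/L, y/L)
  have hf1 : ContDiffOn ℝ ∞ (fun p : ℝ × E d => p.1) (Set.Ioi (0 : ℝ) ×ˢ Set.univ) :=
    contDiff_fst.contDiffOn
  have hf2 : ContDiffOn ℝ ∞ (fun p : ℝ × E d => p.2) (Set.Ioi (0 : ℝ) ×ˢ Set.univ) :=
    contDiff_snd.contDiffOn
  have hi : ContDiffOn ℝ ∞ (fun p : ℝ × E d => (p.1)⁻¹) (Set.Ioi (0 : ℝ) ×ˢ Set.univ) :=
    hf1.inv fun p hp => (Set.mem_Ioi.1 hp.1).ne'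
  have hm : ContDiffOn ℝ ∞ (fun p : ℝ × E d => ((p.1)⁻¹, (p.1)⁻¹ • p.2))
      (Set.Ioi (0 : ℝ) ×ˢ Set.univ) :=
    hi.prodMk (hi.smul hf2)
  have hGm : ContDiffOn ℝ ∞ (fun p : ℝ × E d =>
      u2G V (fun _ => (1 : ℝ)) ((p.1)⁻¹, (p.1)⁻¹ • p.2)) (Set.Ioi (0 : ℝ) ×ˢ Set.univ) := by
    refine hG.comp hm fun p hp => ?_
    have : (0:ℝ) < p.1 := hp.1
    exact ⟨inv_pos.2 this, trivial⟩
  have hs : ContDiffOn ℝ ∞ (fun p : ℝ × E d => √p.1) (Set.Ioi (0 : ℝ) ×ˢ Set.univ) :=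
    hf1.sqrt fun p hp => (Set.mem_Ioi.1 hp.1).ne'
  have hA : ContDiffOn ℝ ∞ (fun p : ℝ × E d => sr_gz d * ((√p.1) ^ d)⁻¹)
      (Set.Ioi (0 : ℝ) ×ˢ Set.univ) := by
    refine contDiffOn_const.mul ((hs.pow d).inv fun p hp => ?_)
    exact (pow_pos (Real.sqrt_pos.2 hp.1) d).ne'
  have hB : ContDiffOn ℝ ∞ (fun p : ℝ × E d => Real.exp (-(‖p.2‖ ^ 2 / (2 * p.1))))
      (Set.Ioi (0 : ℝ) ×ˢ Set.univ) := by
    refine ContDiffOn.exp (ContDiffOn.neg ?_)
    refine ContDiffOn.div (hf2.norm_sq ℝ)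
      (contDiffOn_const.mul hf1) fun p hp => ?_
    have : (0:ℝ) < p.1 := hp.1
    positivity
  have hprod := hA.mul (hB.mul hGm)
  have hpos : ∀ p ∈ (Set.Ioi (0 : ℝ) ×ˢ (Set.univ : Set (E d))),
      0 < ∫ z, Real.exp (-V (p.2 + √p.1 • z)) ∂(stdGaussian (E d)) := by
    intro p hp
    refine integral_exp_pos ?_
    have hb : ∀ x, Real.exp (-V x) ≤ Real.exp (-c) := fun x => by
      apply Real.exp_le_exp.2
      have := hl x
      have h2 : 0 ≤ ‖x‖ ^ 2 / 4 := by positivity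
      linarith
    refine (integrable_const (Real.exp (-c))).mono' ?_ (Filter.Eventually.of_forall fun z => ?_)
    · exact (Continuous.aestronglyMeasurable (by fun_prop))
    · rw [Real.norm_of_nonneg (Real.exp_nonneg _)]
      exact hb _
  have hlog : ContDiffOn ℝ ∞ (fun p : ℝ × E d => -Real.log
      (∫ z, Real.exp (-V (p.2 + √p.1 • z)) ∂(stdGaussian (E d)))) (Set.Ioi (0 : ℝ) ×ˢ Set.univ) := by
    refine (ContDiffOn.log ?_ fun p hp => (hpos p hp).ne').neg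
    refine hprod.congr fun p hp => ?_
    exact u2_eq hp.1 p.2
  exact hlog

end P347Z
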