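import Vale.Agent.P347Z.U1
import Vale.Agent.P347Z.ULevelU2

/-!
Module U2.
Potentials `V ∈ Pot d V` (curvature in `[1,2]`), levels `0 < L`.

The theorems of `P347S` (`lsm_spot`, `lsm_hsb`, `gibbs_lsm`, ...) are for the class `KPot ε W`
(curvature in `[1/(1-ε²), 2/(1-ε²)]`).  Reduction by scaling: with `ε² = L/(1+L)` (so `1-ε² = 1/(1+L)`),
`ρ = √(1+L)`, `W x = V (ρ x)` one has `KPot ε W` and
`lsm ε W x = lsm (√L) V (ρ x)`  (because `ρ ε = √L`), i.e. `US V L y = lsm ε W (y/ρ)`.
For `L ≤ 1/4`: `ε ≤ 1/2`.  Derivatives of `US V L` are those of `lsm ε W` times powers of `1/ρ ≤ 1`.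
-/

open MeasureTheory ProbabilityTheory Function
open scoped ENNReal BigOperators ContDiff

namespace P347Z

open P347Q P347S

variable {d : ℕ} {V : E d → ℝ} {L : ℝ}

/-- U2: joint smoothness in (level, point).  `exp (-US V L y) = (2πL)^{-d/2} ∫ e^{-V x} e^{-|x-y|²/(2L)} dx`;
differentiate under the integral (all derivatives of the Gaussian kernel in `(L,y)` are polynomials in
`(x-y)`, `1/L` times the kernel; `e^{-V}` is bounded by a Gaussian). -/
theorem us_joint (hV : Pot d V) :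
    ContDiffOn ℝ ∞ (fun p : ℝ × E d => US V p.1 p.2) (Set.Ioi (0 : ℝ) ×ˢ Set.univ) :=
  us_joint' hV

end P347Z
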