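import Vale.Agent.P347Z.Defs

/-!
Module U3: the heat equation for `exp (-US V L)` and its consequences `us_pde`, `fo_pde`.
-/

open MeasureTheory ProbabilityTheory Function Filter Topology
open scoped ENNReal BigOperators ContDiff

namespace P347Z

open P347Q P347S

variable {d : ℕ} {V : E d → ℝ} {L : ℝ}

/-! ### the Gaussian semigroup -/

private theorem u3_sq (L : ℝ) (hL : 0 < L) (z : E d) : ‖(√L)⁻¹ • z‖ ^ 2 / 2 = ‖z‖ ^ 2 / (2 * L) := by
  rw [norm_smul, mul_pow, norm_inv, Real.norm_eq_abs, inv_pow, sq_abs, Real.sq_sqrt hL.le]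
  field_simp

private theorem u3_normsq_temp : HasTemperateGrowth (fun z : E d => ‖z‖ ^ 2) := by
  have h : (fun z : E d => ‖z‖ ^ 2) = fun z => (inner ℝ z z : ℝ) := by
    funext z
    rw [real_inner_self_eq_norm_sq]
  rw [h]
  have h1 : HasTemperateGrowth (fun z : E d => z) := by fun_prop
  exact (ContinuousLinearMap.bilinear_hasTemperateGrowth (innerSL ℝ (E := E d)) h1 h1)

/-- the kernel formula -/
private theorem u3_kernel (g : E d → ℝ) {l : ℝ} (hl : 0 < l) (x : E d) :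
    smooth (√l) g x = sr_gz d * (Real.exp (-(d / 2 * Real.log l)) *
      ∫ u, g u * Real.exp (-(‖u - x‖ ^ 2 / (2 * l)))) := by
  rw [sr_smooth_eq_Tq, sr_Tq_eq (Real.sqrt_pos.2 hl), smul_eq_mul, mul_assoc]
  congr 1
  have h1 : |√l ^ d|⁻¹ = Real.exp (-(d / 2 * Real.log l)) := by
    rw [abs_of_pos (by positivity), Real.exp_neg]
    congr 1
    have h2 : Real.log (√l) = Real.log l / 2 := Real.log_sqrt hl.le
    have h3 : (d : ℝ) / 2 * Real.log l = d * Real.log (√l) := by rw [h2]; ring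
    rw [h3, Real.exp_nat_mul, Real.exp_log (Real.sqrt_pos.2 hl)]
  rw [h1]
  congr 1
  refine integral_congr_ae (Eventually.of_forall fun u => ?_)
  simp only [sr_Kq, smul_eq_mul, mul_one]
  rw [u3_sq l hl]

private theorem u3_dJ {g : E d → ℝ} (hg : PolyB g) {L : ℝ} (hL : 0 < L) (x : E d) :
    HasDerivAt (fun l => ∫ u, g u * Real.exp (-(‖u - x‖ ^ 2 / (2 * l))))
      (∫ u, g u * (Real.exp (-(‖u - x‖ ^ 2 / (2 * L))) * (‖u - x‖ ^ 2 / (2 * L ^ 2)))) L := by
  obtain ⟨ε, hε⟩ : ∃ ε, ε = √(3 * L / 2) := ⟨_, rfl⟩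
  have hε0 : 0 < ε := by rw [hε]; exact Real.sqrt_pos.2 (by linarith)
  obtain ⟨C, hC, hdom⟩ := sr_Kq_dom hg (u3_normsq_temp (d := d)) hε0 x
  obtain ⟨C₁, hC₁, hdom₁⟩ := sr_Kq_dom hg (HasTemperateGrowth.const (1 : ℝ)) (Real.sqrt_pos.2 hL) x
  have hx : x ∈ Metric.ball x 1 := Metric.mem_ball_self one_pos
  have hgc := hg.1
  refine (hasDerivAt_integral_of_dominated_loc_of_deriv_le
    (bound := fun u => 3 / L * (C * (1 + ‖u - x‖) ^ (-((d : ℝ) + 1))))
    (F := fun (l : ℝ) (u : E d) => g u * Real.exp (-(‖u - x‖ ^ 2 / (2 * l))))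
    (F' := fun (l : ℝ) (u : E d) => g u * (Real.exp (-(‖u - x‖ ^ 2 / (2 * l))) *
      (‖u - x‖ ^ 2 / (2 * l ^ 2)))) (Metric.ball_mem_nhds L (half_pos hL)) ?_ ?_ ?_ ?_ ?_ ?_).2
  · refine Eventually.of_forall fun l => ?_
    exact (hgc.mul (by fun_prop)).aestronglyMeasurable
  · refine (sr_Kq_dom_integrable x C₁).mono' (hgc.mul (by fun_prop)).aestronglyMeasurable
      (Eventually.of_forall fun u => ?_)
    have h1 := hdom₁ x hx u
    simp only [sr_Kq, smul_eq_mul, mul_one] at h1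
    rwa [u3_sq L hL] at h1
  · exact (hgc.mul (by fun_prop)).aestronglyMeasurable
  · refine Eventually.of_forall fun u l hl => ?_
    rw [Metric.mem_ball, Real.dist_eq, abs_lt] at hl
    have hl0 : 0 < l := by linarith [hl.1]
    have hl1 : L / 2 ≤ l := by linarith [hl.1]
    have hl2 : l ≤ 3 * L / 2 := by linarith [hl.2]
    have h1 := hdom x hx u
    simp only [sr_Kq, smul_eq_mul, norm_mul, Real.norm_eq_abs] at h1
    have h2 : ‖ε⁻¹ • (u - x)‖ ^ 2 = 2 / (3 * L) * ‖u - x‖ ^ 2 := by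
      rw [norm_smul, mul_pow, norm_inv, Real.norm_eq_abs, inv_pow, sq_abs, hε,
        Real.sq_sqrt (by linarith)]
      field_simp
    rw [h2] at h1
    obtain ⟨r, hr⟩ : ∃ r, r = ‖u - x‖ ^ 2 := ⟨_, rfl⟩
    have hr0 : 0 ≤ r := by rw [hr]; positivity
    rw [← hr] at h1 ⊢
    rw [abs_of_pos (Real.exp_pos _), abs_of_nonneg (show 0 ≤ 2 / (3 * L) * r by positivity)] at h1
    rw [norm_mul, norm_mul, Real.norm_eq_abs, Real.norm_of_nonneg (Real.exp_nonneg _),
      Real.norm_of_nonneg (by positivity)]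
    have h3 : Real.exp (-(r / (2 * l))) ≤ Real.exp (-(2 / (3 * L) * r / 2)) := by
      refine Real.exp_le_exp.2 (neg_le_neg ?_)
      rw [div_le_div_iff₀ (by norm_num) (by positivity), div_mul_eq_mul_div, div_mul_eq_mul_div,
        div_le_iff₀ (by positivity)]
      nlinarith
    have h4 : r / (2 * l ^ 2) ≤ 3 / L * (2 / (3 * L) * r) := by
      have h5 : 3 / L * (2 / (3 * L) * r) = r * (2 / L ^ 2) := by
        field_simp
      have h6 : r / (2 * l ^ 2) = r * (1 / (2 * l ^ 2)) := by ring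
      rw [h5, h6]
      refine mul_le_mul_of_nonneg_left ?_ hr0
      rw [div_le_div_iff₀ (by positivity) (by positivity)]
      nlinarith
    calc |g u| * (Real.exp (-(r / (2 * l))) * (r / (2 * l ^ 2)))
        ≤ |g u| * (Real.exp (-(2 / (3 * L) * r / 2)) * (3 / L * (2 / (3 * L) * r))) := by
          refine mul_le_mul_of_nonneg_left ?_ (abs_nonneg _)
          exact mul_le_mul h3 h4 (by positivity) (Real.exp_nonneg _)
      _ = 3 / L * (|g u| * (Real.exp (-(2 / (3 * L) * r / 2)) * (2 / (3 * L) * r))) := by ring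
      _ ≤ _ := mul_le_mul_of_nonneg_left h1 (by positivity)
  · exact (sr_Kq_dom_integrable x C).const_mul _
  · refine Eventually.of_forall fun u l hl => ?_
    rw [Metric.mem_ball, Real.dist_eq, abs_lt] at hl
    have hl0 : 0 < l := by linarith [hl.1]
    refine HasDerivAt.const_mul (g u) ?_
    refine HasDerivAt.exp ?_
    have h1 : HasDerivAt (fun l : ℝ => l⁻¹) (-(l ^ 2)⁻¹) l := hasDerivAt_inv hl0.ne'
    have h2 := h1.const_mul (-(‖u - x‖ ^ 2 / 2))
    refine (h2.congr_deriv ?_).congr_of_eventuallyEq (Eventually.of_forall fun l => ?_)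
    · ring
    · simp only
      rw [div_mul_eq_div_div]
      ring

/-- derivative in the level -/
private theorem u3_dl {g : E d → ℝ} (hg : PolyB g) {L : ℝ} (hL : 0 < L) (x : E d) :
    HasDerivAt (fun l => smooth (√l) g x)
      (1 / (2 * L) * sr_Tq (√L) g (fun z => ‖z‖ ^ 2 - (d : ℝ)) x) L := by
  have h1 : HasDerivAt (fun l : ℝ => Real.exp (-(d / 2 * Real.log l)))
      (Real.exp (-(d / 2 * Real.log L)) * (-(d / 2 * L⁻¹))) L :=
    (((Real.hasDerivAt_log hL.ne').const_mul ((d : ℝ) / 2)).neg).exp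
  have h2 := (h1.mul (u3_dJ hg hL x)).const_mul (sr_gz d)
  refine (h2.congr_deriv ?_).congr_of_eventuallyEq ?_
  · rw [sr_Tq_eq (Real.sqrt_pos.2 hL)]
    have h3 : |√L ^ d|⁻¹ = Real.exp (-(d / 2 * Real.log L)) := by
      rw [abs_of_pos (by positivity), Real.exp_neg]
      congr 1
      have h2 : Real.log (√L) = Real.log L / 2 := Real.log_sqrt hL.le
      have h3 : (d : ℝ) / 2 * Real.log L = d * Real.log (√L) := by rw [h2]; ring
      rw [h3, Real.exp_nat_mul, Real.exp_log (Real.sqrt_pos.2 hL)]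
    rw [h3, smul_eq_mul]
    have hq : HasTemperateGrowth (fun z : E d => ‖z‖ ^ 2) := u3_normsq_temp
    obtain ⟨C₁, hC₁, hdom₁⟩ := sr_Kq_dom hg (HasTemperateGrowth.const (1 : ℝ)) (Real.sqrt_pos.2 hL) x
    obtain ⟨C₂, hC₂, hdom₂⟩ := sr_Kq_dom hg hq (Real.sqrt_pos.2 hL) x
    have hx : x ∈ Metric.ball x 1 := Metric.mem_ball_self one_pos
    have hgc := hg.1
    have i1 : Integrable (fun u => g u * Real.exp (-(‖u - x‖ ^ 2 / (2 * L)))) := by
      refine (sr_Kq_dom_integrable x C₁).mono' (hgc.mul (by fun_prop)).aestronglyMeasurable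
        (Eventually.of_forall fun u => ?_)
      have h1 := hdom₁ x hx u
      simp only [sr_Kq, smul_eq_mul, mul_one] at h1
      rwa [u3_sq L hL] at h1
    have i2 : Integrable (fun u => g u * (Real.exp (-(‖u - x‖ ^ 2 / (2 * L))) *
        (‖u - x‖ ^ 2 / L))) := by
      refine (sr_Kq_dom_integrable x C₂).mono' (hgc.mul (by fun_prop)).aestronglyMeasurable
        (Eventually.of_forall fun u => ?_)
      have h1 := hdom₂ x hx u
      simp only [sr_Kq, smul_eq_mul] at h1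
      have h4 : ‖(√L)⁻¹ • (u - x)‖ ^ 2 = ‖u - x‖ ^ 2 / L := by
        have := u3_sq L hL (u - x)
        have h5 : ‖u - x‖ ^ 2 / L = 2 * (‖u - x‖ ^ 2 / (2 * L)) := by field_simp
        rw [h5, ← this]; ring
      have h6 : ‖u - x‖ ^ 2 / L / 2 = ‖u - x‖ ^ 2 / (2 * L) := by ring
      rwa [h4, h6] at h1
    have e1 : ∫ u, g u * (Real.exp (-(‖u - x‖ ^ 2 / (2 * L))) * (‖u - x‖ ^ 2 / (2 * L ^ 2))) =
        1 / (2 * L) * ∫ u, g u * (Real.exp (-(‖u - x‖ ^ 2 / (2 * L))) * (‖u - x‖ ^ 2 / L)) := by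
      rw [← integral_const_mul]
      refine integral_congr_ae (Eventually.of_forall fun u => ?_)
      simp only
      field_simp
    have e2 : ∫ u, g u • sr_Kq (fun z : E d => ‖z‖ ^ 2 - (d : ℝ)) ((√L)⁻¹ • (u - x)) =
        (∫ u, g u * (Real.exp (-(‖u - x‖ ^ 2 / (2 * L))) * (‖u - x‖ ^ 2 / L))) -
        d * ∫ u, g u * Real.exp (-(‖u - x‖ ^ 2 / (2 * L))) := by
      rw [← integral_const_mul, ← integral_sub i2 (i1.const_mul _)]
      refine integral_congr_ae (Eventually.of_forall fun u => ?_)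
      simp only [sr_Kq, smul_eq_mul]
      have h4 : ‖(√L)⁻¹ • (u - x)‖ ^ 2 = ‖u - x‖ ^ 2 / L := by
        have := u3_sq L hL (u - x)
        have h5 : ‖u - x‖ ^ 2 / L = 2 * (‖u - x‖ ^ 2 / (2 * L)) := by field_simp
        rw [h5, ← this]; ring
      have h6 : ‖u - x‖ ^ 2 / L / 2 = ‖u - x‖ ^ 2 / (2 * L) := by ring
      rw [h4, h6]
      ring
    rw [e1, e2]
    field_simp
    ring
  · filter_upwards [lt_mem_nhds hL] with l hl
    exact u3_kernel g hl x

/-! ### spatial derivatives -/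

private theorem u3_fd {g : E d → ℝ} (hg : PolyB g) {ε : ℝ} (hε : 0 < ε) :
    fderiv ℝ (smooth ε g) = fun x => sr_Tq ε g (sr_dq ε (fun _ : E d => (1 : ℝ))) x := by
  funext x
  rw [sr_smooth_eq_Tq]
  exact (sr_Tq_hasFDerivAt hg (HasTemperateGrowth.const _) hε x).fderiv

private theorem u3_q1 (ε : ℝ) : sr_dq ε (fun _ : E d => (1 : ℝ)) = fun z => ε⁻¹ • innerSL ℝ z := by
  funext z
  ext w
  rw [sr_dq_apply]
  simp

private theorem u3_second {g : E d → ℝ} (hg : PolyB g) {ε : ℝ} (hε : 0 < ε) (x w : E d) :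
    HasFDerivAt (fun x => fderiv ℝ (smooth ε g) x w)
      ((fderiv ℝ (fderiv ℝ (smooth ε g)) x).flip w) x ∧
    fderiv ℝ (fderiv ℝ (smooth ε g)) x w w =
      (ε ^ 2)⁻¹ * ∫ z, g (x + ε • z) * ((inner ℝ z w) ^ 2 - ‖w‖ ^ 2) ∂(stdGaussian (E d)) := by
  have hq1 : HasTemperateGrowth (sr_dq ε (fun _ : E d => (1 : ℝ))) :=
    sr_dq_temp (HasTemperateGrowth.const _) ε
  have h1 : HasFDerivAt (fderiv ℝ (smooth ε g))
      (sr_Tq ε g (sr_dq ε (sr_dq ε (fun _ : E d => (1 : ℝ)))) x) x := by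
    rw [u3_fd hg hε]
    exact sr_Tq_hasFDerivAt hg hq1 hε x
  constructor
  · rw [h1.fderiv]
    have h2 := h1.clm_apply (hasFDerivAt_const w x)
    refine h2.congr_fderiv ?_
    ext v
    simp
  · rw [h1.fderiv]
    unfold sr_Tq
    rw [ContinuousLinearMap.integral_apply (sr_Tq_integrable hg (sr_dq_temp hq1 ε) ε x),
      ContinuousLinearMap.integral_apply, ← integral_const_mul]
    · refine integral_congr_ae (Eventually.of_forall fun z => ?_)
      simp only [smul_apply, sr_dq_apply]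
      have h3 : fderiv ℝ (sr_dq ε (fun _ : E d => (1 : ℝ))) z w = ε⁻¹ • innerSL ℝ w := by
        rw [u3_q1]
        have h4 : HasFDerivAt (fun z : E d => ε⁻¹ • innerSL ℝ z) (ε⁻¹ • (innerSL ℝ (E := E d))) z :=
          ((innerSL ℝ (E := E d)).hasFDerivAt).const_smul ε⁻¹
        rw [h4.fderiv]
        rfl
      rw [h3]
      simp only [sub_apply, smul_apply, sr_dq_apply, smul_eq_mul, innerSL_apply_apply,
        real_inner_self_eq_norm_sq, fderiv_fun_const, Pi.zero_apply, zero_apply]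
      field_simp
      ring
    · exact (sr_Tq_integrable hg (sr_dq_temp hq1 ε) ε x).apply_continuousLinearMap w

private theorem u3_sum_inner (z : E d) : ∑ i, (inner ℝ z (bas d i)) ^ 2 = ‖z‖ ^ 2 := by
  rw [EuclideanSpace.norm_sq_eq]
  refine Finset.sum_congr rfl fun i _ => ?_
  rw [inner_bas, Real.norm_eq_abs, sq_abs]

private theorem u3_lap {g : E d → ℝ} (hg : PolyB g) {ε : ℝ} (hε : 0 < ε) (x : E d) :
    ∑ i, fderiv ℝ (fderiv ℝ (smooth ε g)) x (bas d i) (bas d i) =
      (ε ^ 2)⁻¹ * sr_Tq ε g (fun z => ‖z‖ ^ 2 - (d : ℝ)) x := by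
  simp only [(u3_second hg hε x _).2]
  rw [← Finset.mul_sum, ← integral_finsetSum]
  · congr 1
    unfold sr_Tq
    refine integral_congr_ae (Eventually.of_forall fun z => ?_)
    simp only [smul_eq_mul]
    rw [← Finset.mul_sum, Finset.sum_sub_distrib, u3_sum_inner]
    simp
  · intro i _
    have h1 : HasTemperateGrowth (fun z : E d => (inner ℝ z (bas d i)) ^ 2 - ‖bas d i‖ ^ 2) := by
      have h2 : HasTemperateGrowth (fun z : E d => (inner ℝ z (bas d i) : ℝ)) :=
        hasTemperateGrowth_inner_left (bas d i)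
      have h3 := h2.mul h2
      have h4 : HasTemperateGrowth (fun _ : E d => ‖bas d i‖ ^ 2) := HasTemperateGrowth.const _
      have h5 := h3.sub h4
      have h6 : (fun z : E d => (inner ℝ z (bas d i)) ^ 2 - ‖bas d i‖ ^ 2) =
          ((fun z : E d => (inner ℝ z (bas d i) : ℝ)) * fun z => (inner ℝ z (bas d i) : ℝ)) -
            fun _ => ‖bas d i‖ ^ 2 := by
        funext z
        simp only [Pi.sub_apply, Pi.mul_apply, pow_two]
      rw [h6]
      exact h5
    exact sr_Tq_integrable hg h1 ε x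

/-! ### the potential -/

private theorem u3_V_nonneg (hV : Pot d V) (x : E d) : 0 ≤ V x := by
  have h1 := PotAux.taylor_lower hV.smooth hV.lower 0 x
  have h2 : fderiv ℝ V 0 x = 0 := by
    rw [PotAux.fderiv_eq_inner, hV.grad_zero, inner_zero_left]
  rw [zero_add, hV.zero, h2] at h1
  have : 0 ≤ ‖x‖ ^ 2 / 2 := by positivity
  linarith

private theorem u3_polyB (hV : Pot d V) : PolyB (fun x => Real.exp (-V x)) := by
  refine ⟨Real.continuous_exp.comp hV.smooth.continuous.neg, 0, 1, fun x => ?_⟩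
  rw [abs_of_pos (Real.exp_pos _), pow_zero, mul_one]
  exact Real.exp_le_one_iff.2 (neg_nonpos.2 (u3_V_nonneg hV x))

private theorem u3_N_pos (hV : Pot d V) (ε : ℝ) (y : E d) :
    0 < smooth ε (fun w => Real.exp (-V w)) y := by
  unfold smooth
  rw [integral_pos_iff_support_of_nonneg (fun x => Real.exp_nonneg _)
    ((u3_polyB hV).integrable ε y)]
  have : Function.support (fun z : E d => Real.exp (-V (y + ε • z))) = Set.univ := by
    ext x
    simp [Real.exp_ne_zero]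
  rw [this]
  simp

private theorem u3_eq (V : E d → ℝ) (l : ℝ) (y : E d) :
    US V l y = -Real.log (smooth (√l) (fun w => Real.exp (-V w)) y) := rfl

/-- U3: heat equation for `e^{-U}`: `∂_L U = (1/2) Δ U - (1/2) |∇U|²` -/
theorem us_pde (hV : Pot d V) (hL : 0 < L) (y : E d) :
    HasDerivAt (fun l => US V l y)
      ((1 / 2) * ∑ i, fderiv ℝ (fun x => fderiv ℝ (US V L) x (bas d i)) y (bas d i) -
        (1 / 2) * ‖gradient (US V L) y‖ ^ 2) L := by
  obtain ⟨g, hgd⟩ : ∃ g : E d → ℝ, g = fun w => Real.exp (-V w) := ⟨_, rfl⟩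
  have hg : PolyB g := by rw [hgd]; exact u3_polyB hV
  obtain ⟨ε, hε⟩ : ∃ ε, ε = √L := ⟨_, rfl⟩
  have hε0 : 0 < ε := by rw [hε]; exact Real.sqrt_pos.2 hL
  have hε2 : ε ^ 2 = L := by rw [hε, Real.sq_sqrt hL.le]
  obtain ⟨N, hN⟩ : ∃ N : E d → ℝ, N = smooth ε g := ⟨_, rfl⟩
  have hNpos : ∀ x, 0 < N x := by
    intro x
    rw [hN, hgd]
    exact u3_N_pos hV ε x
  have hNt : HasTemperateGrowth N := by rw [hN]; exact smooth_temp hg hε0
  have hU : US V L = fun x => -Real.log (N x) := by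
    funext x
    rw [u3_eq, hN, hε, hgd]
  have hNd : ∀ x, HasFDerivAt N (fderiv ℝ N x) x := fun x => (temp_diff hNt x).hasFDerivAt
  have hUd : ∀ x, HasFDerivAt (US V L) (-((N x)⁻¹ • fderiv ℝ N x)) x := by
    intro x
    rw [hU]
    exact ((hNd x).log (hNpos x).ne').neg
  have hUfd : ∀ x w, fderiv ℝ (US V L) x w = -((N x)⁻¹ * fderiv ℝ N x w) := by
    intro x w
    rw [(hUd x).fderiv]
    rfl
  have hdl : HasDerivAt (fun l => smooth (√l) g y)
      (1 / (2 * L) * sr_Tq (√L) g (fun z => ‖z‖ ^ 2 - (d : ℝ)) y) L := u3_dl hg hL y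
  have hNy : smooth (√L) g y = N y := by rw [hN, hε]
  have h1 : HasDerivAt (fun l => US V l y)
      (-((1 / (2 * L) * sr_Tq (√L) g (fun z => ‖z‖ ^ 2 - (d : ℝ)) y) / N y)) L := by
    have h2 := (hdl.log (by rw [hNy]; exact (hNpos y).ne')).neg
    rw [hNy] at h2
    refine h2.congr_of_eventuallyEq (Eventually.of_forall fun l => ?_)
    simp only [Pi.neg_apply]
    rw [u3_eq, hgd]
  refine h1.congr_deriv ?_
  -- the second derivatives
  have h3 : ∀ i, fderiv ℝ (fun x => fderiv ℝ (US V L) x (bas d i)) y (bas d i) =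
      -((N y)⁻¹ * fderiv ℝ (fderiv ℝ N) y (bas d i) (bas d i)) +
        ((N y)⁻¹) ^ 2 * (fderiv ℝ N y (bas d i)) ^ 2 := by
    intro i
    simp only [hUfd]
    have h4 : HasFDerivAt (fun x => fderiv ℝ N x (bas d i))
        ((fderiv ℝ (fderiv ℝ N) y).flip (bas d i)) y := by
      rw [hN]
      exact (u3_second hg hε0 y (bas d i)).1
    have h5 : HasFDerivAt (fun x => (N x)⁻¹) (-((N y) ^ 2)⁻¹ • fderiv ℝ N y) y :=
      (hasDerivAt_inv (hNpos y).ne').comp_hasFDerivAt y (hNd y)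
    have h6 := (h5.mul h4).neg
    have h7 : fderiv ℝ (fun x => -((N x)⁻¹ * fderiv ℝ N x (bas d i))) y =
      -((N y)⁻¹ • (fderiv ℝ (fderiv ℝ N) y).flip (bas d i) +
        fderiv ℝ N y (bas d i) • (-((N y) ^ 2)⁻¹ • fderiv ℝ N y)) := h6.fderiv
    rw [h7]
    simp only [neg_apply, add_apply, smul_apply, smul_eq_mul, ContinuousLinearMap.flip_apply]
    ring
  have h8 : ‖gradient (US V L) y‖ ^ 2 = ((N y)⁻¹) ^ 2 * ∑ i, (fderiv ℝ N y (bas d i)) ^ 2 := by
    rw [← u3_sum_inner, Finset.mul_sum]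
    refine Finset.sum_congr rfl fun i _ => ?_
    rw [← PotAux.fderiv_eq_inner, hUfd]
    ring
  have h9 : ∑ i, fderiv ℝ (fderiv ℝ N) y (bas d i) (bas d i) =
      L⁻¹ * sr_Tq ε g (fun z => ‖z‖ ^ 2 - (d : ℝ)) y := by
    rw [hN, u3_lap hg hε0, hε2]
  simp only [h3]
  rw [Finset.sum_add_distrib, Finset.sum_neg_distrib, ← Finset.mul_sum, ← Finset.mul_sum, h9, h8, ← hε]
  have := (hNpos y).ne'
  field_simp
  ring

/-! ### the gradient -/

/-- smoothness in space (all levels) -/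
theorem us_contDiff (hV : Pot d V) (hL : 0 < L) : ContDiff ℝ ∞ (US V L) := by
  have h1 : HasTemperateGrowth (smooth (√L) (fun w => Real.exp (-V w))) :=
    smooth_temp (u3_polyB hV) (Real.sqrt_pos.2 hL)
  have h2 : US V L = fun x => -Real.log (smooth (√L) (fun w => Real.exp (-V w)) x) := by
    funext x
    rw [u3_eq]
  rw [h2]
  exact (h1.1.log fun x => (u3_N_pos hV _ x).ne').neg

private theorem u3_dir {f : E d → ℝ} (hf : ContDiff ℝ ∞ f) (v : E d) :
    ContDiff ℝ ∞ (fun y => fderiv ℝ f y v) :=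
  (hf.fderiv_right (m := ∞) (by simp)).clm_apply contDiff_const

private theorem u3_fdir {f : E d → ℝ} (hf : ContDiff ℝ ∞ f) (v w z : E d) :
    fderiv ℝ (fun y => fderiv ℝ f y v) z w = fderiv ℝ (fderiv ℝ f) z w v := by
  have h1 : HasFDerivAt (fderiv ℝ f) (fderiv ℝ (fderiv ℝ f) z) z :=
    (((hf.fderiv_right (m := ∞) (by simp)).differentiable (by simp)) z).hasFDerivAt
  have h2 := (h1.clm_apply (hasFDerivAt_const v z)).fderiv
  rw [h2]
  simp

private theorem u3_comm {f : E d → ℝ} (hf : ContDiff ℝ ∞ f) (v w z : E d) :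
    fderiv ℝ (fun y => fderiv ℝ f y v) z w = fderiv ℝ (fun y => fderiv ℝ f y w) z v := by
  rw [u3_fdir hf, u3_fdir hf]
  have := (hf.contDiffAt (x := z)).isSymmSndFDerivAt
    (by rw [minSmoothness_of_isRCLikeNormedField]; exact ENat.LEInfty.out)
  exact this w v

private theorem u3_grad_eq (U : E d → ℝ) (x : E d) :
    gradient U x = ∑ i, (fderiv ℝ U x (bas d i)) • bas d i := by
  conv_lhs => rw [← P347Q.sum_bas (gradient U x)]
  simp only [gradient_apply]

private theorem u3_grad_smooth {U : E d → ℝ} (hU : ContDiff ℝ ∞ U) : ContDiff ℝ ∞ (gradient U) := by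
  have h : gradient U = fun x => ∑ i, (fderiv ℝ U x (bas d i)) • bas d i := funext (u3_grad_eq U)
  rw [h]
  exact ContDiff.sum fun i _ => (u3_dir hU _).smul contDiff_const

private theorem u3_inner_fd {f : E d → E d} (hf : ContDiff ℝ ∞ f) (y v w : E d) :
    inner ℝ (fderiv ℝ f y v) w = fderiv ℝ (fun x => (inner ℝ (f x) w : ℝ)) y v := by
  have h1 : HasFDerivAt f (fderiv ℝ f y) y := ((hf.differentiable (by simp)) y).hasFDerivAt
  have h2 := (h1.inner ℝ (hasFDerivAt_const w y)).fderiv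
  rw [h2]
  simp

private theorem u3_inner_HV {U : E d → ℝ} (hU : ContDiff ℝ ∞ U) (y v w : E d) :
    inner ℝ (HV U y v) w = fderiv ℝ (fun x => fderiv ℝ U x w) y v := by
  unfold HV
  rw [u3_inner_fd (u3_grad_smooth hU)]
  simp only [inner_gradient]

private theorem u3_HV_smooth {U : E d → ℝ} (hU : ContDiff ℝ ∞ U) (v : E d) :
    ContDiff ℝ ∞ (fun y => HV U y v) := by
  unfold HV
  exact ((u3_grad_smooth hU).fderiv_right (m := ∞) (by simp)).clm_apply contDiff_const

private theorem u3_inner_LG {U : E d → ℝ} (hU : ContDiff ℝ ∞ U) (y w : E d) :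
    inner ℝ (LG U y) w =
      ∑ i, fderiv ℝ (fun x => fderiv ℝ (fun x => fderiv ℝ U x (bas d i)) x (bas d i)) y w := by
  unfold LG
  rw [sum_inner]
  refine Finset.sum_congr rfl fun i _ => ?_
  rw [u3_inner_fd (u3_HV_smooth hU _)]
  simp only [u3_inner_HV hU]
  have h1 : (fun x => fderiv ℝ (fun x => fderiv ℝ U x w) x (bas d i)) =
      fun x => fderiv ℝ (fun x => fderiv ℝ U x (bas d i)) x w := by
    funext x
    exact u3_comm hU _ _ _
  rw [h1]
  exact u3_comm (u3_dir hU _) _ _ _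

/-- derivative of the right hand side of the heat equation -/
private theorem u3_R {U : E d → ℝ} (hU : ContDiff ℝ ∞ U) (y w : E d) :
    fderiv ℝ (fun y => (1 / 2) * ∑ i, fderiv ℝ (fun x => fderiv ℝ U x (bas d i)) y (bas d i) -
        (1 / 2) * ‖gradient U y‖ ^ 2) y w =
      inner ℝ ((1 / 2 : ℝ) • LG U y - HV U y (gradient U y)) w := by
  have hd : ∀ {f : E d → ℝ}, ContDiff ℝ ∞ f → HasFDerivAt f (fderiv ℝ f y) y := fun hf =>
    ((hf.differentiable (by simp)) y).hasFDerivAt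
  have h1 : HasFDerivAt (fun y => ∑ i, fderiv ℝ (fun x => fderiv ℝ U x (bas d i)) y (bas d i))
      (∑ i, fderiv ℝ (fun y => fderiv ℝ (fun x => fderiv ℝ U x (bas d i)) y (bas d i)) y) y :=
    HasFDerivAt.fun_sum fun i _ => hd (u3_dir (u3_dir hU _) _)
  have h2 : HasFDerivAt (fun y => ∑ i, (fderiv ℝ U y (bas d i)) * (fderiv ℝ U y (bas d i)))
      (∑ i, (fderiv ℝ U y (bas d i) • fderiv ℝ (fun y => fderiv ℝ U y (bas d i)) y +
        fderiv ℝ U y (bas d i) • fderiv ℝ (fun y => fderiv ℝ U y (bas d i)) y)) y :=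
    HasFDerivAt.fun_sum fun i _ => (hd (u3_dir hU _)).mul (hd (u3_dir hU _))
  have h3 := (h1.const_mul (1 / 2)).sub (h2.const_mul (1 / 2))
  have h4 : (fun y => (1 / 2) * ∑ i, fderiv ℝ (fun x => fderiv ℝ U x (bas d i)) y (bas d i) -
        (1 / 2) * ‖gradient U y‖ ^ 2) = (fun y => (1 / 2) * ∑ i, fderiv ℝ (fun x => fderiv ℝ U x
        (bas d i)) y (bas d i)) - fun y => (1 / 2) *
        ∑ i, (fderiv ℝ U y (bas d i)) * (fderiv ℝ U y (bas d i)) := by
    funext y
    simp only [Pi.sub_apply]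
    rw [norm_gradient_sq]
    simp only [pow_two]
  rw [h4, h3.fderiv]
  simp only [sub_apply, smul_apply, sum_apply, add_apply, smul_eq_mul]
  rw [inner_sub_left, inner_smul_left, u3_inner_LG hU]
  have h5 : inner ℝ (HV U y (gradient U y)) w =
      ∑ i, fderiv ℝ U y (bas d i) * fderiv ℝ (fun y => fderiv ℝ U y (bas d i)) y w := by
    have h6 : HV U y (gradient U y) = ∑ i, fderiv ℝ U y (bas d i) • HV U y (bas d i) := by
      conv_lhs => rw [u3_grad_eq U y]
      unfold HV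
      rw [map_sum]
      simp only [map_smul]
    rw [h6, sum_inner]
    refine Finset.sum_congr rfl fun i _ => ?_
    rw [inner_smul_left, u3_inner_HV hU, u3_comm hU w (bas d i)]
    simp
  rw [h5, ← Finset.sum_add_distrib.symm]
  simp only [← two_mul, ← Finset.mul_sum]
  simp
  try ring

/-- U3: gradient of `us_pde`, from joint smoothness -/
theorem fo_pde_aux (hV : Pot d V)
    (hj : ContDiffOn ℝ ∞ (fun p : ℝ × E d => US V p.1 p.2) (Set.Ioi (0 : ℝ) ×ˢ Set.univ))
    (hL : 0 < L) (y : E d) :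
    HasDerivAt (fun l => gradient (US V l) y)
      ((1 / 2 : ℝ) • LG (US V L) y - HV (US V L) y (gradient (US V L) y)) L := by
  obtain ⟨G, hG⟩ : ∃ G : ℝ × E d → ℝ, G = fun p => US V p.1 p.2 := ⟨_, rfl⟩
  rw [← hG] at hj
  have hopen : IsOpen (Set.Ioi (0 : ℝ) ×ˢ (Set.univ : Set (E d))) := isOpen_Ioi.prod isOpen_univ
  have hat : ∀ l x, 0 < l → ContDiffAt ℝ ∞ G (l, x) := fun l x hl =>
    hj.contDiffAt (hopen.mem_nhds ⟨hl, Set.mem_univ _⟩)
  have hGd : ∀ l x, 0 < l → HasFDerivAt G (fderiv ℝ G (l, x)) (l, x) := fun l x hl =>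
    ((hat l x hl).differentiableAt (by simp)).hasFDerivAt
  -- derivative in space
  have h1 : ∀ l, 0 < l → ∀ w, fderiv ℝ (US V l) y w = fderiv ℝ G (l, y) (0, w) := by
    intro l hl w
    have h2 : HasFDerivAt (fun x => G (l, x)) ((fderiv ℝ G (l, y)).comp
        (ContinuousLinearMap.inr ℝ ℝ (E d))) y :=
      (hGd l y hl).comp y (hasFDerivAt_prodMk_right l y)
    have h3 : (fun x => G (l, x)) = US V l := by
      funext x
      rw [hG]
    rw [h3] at h2
    rw [h2.fderiv]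
    simp
  -- derivative in the level
  have h2 : ∀ x, fderiv ℝ G (L, x) (1, 0) =
      (1 / 2) * ∑ i, fderiv ℝ (fun x => fderiv ℝ (US V L) x (bas d i)) x (bas d i) -
        (1 / 2) * ‖gradient (US V L) x‖ ^ 2 := by
    intro x
    have h3 : HasDerivAt (fun l => G (l, x)) (fderiv ℝ G (L, x) (1, 0)) L := by
      have h4 : HasDerivAt (fun l : ℝ => (l, x)) ((1 : ℝ), (0 : E d)) L :=
        (hasDerivAt_id L).prodMk (hasDerivAt_const L x)
      exact (hGd L x hL).comp_hasDerivAt L h4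
    have h5 : (fun l => G (l, x)) = fun l => US V l x := by
      funext l
      rw [hG]
    rw [h5] at h3
    exact h3.unique (us_pde hV hL x)
  obtain ⟨A, hA⟩ : ∃ A, A = fderiv ℝ (fderiv ℝ G) (L, y) := ⟨_, rfl⟩
  have hGdd : HasFDerivAt (fderiv ℝ G) A (L, y) := by
    rw [hA]
    have h3 : ContDiffAt ℝ ∞ (fderiv ℝ G) (L, y) := (hat L y hL).fderiv_right (m := ∞) (by simp)
    exact (h3.differentiableAt (by simp)).hasFDerivAt
  have hsymm : ∀ p q, A p q = A q p := by
    intro p q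
    rw [hA]
    have := (hat L y hL).isSymmSndFDerivAt
      (by rw [minSmoothness_of_isRCLikeNormedField]; exact ENat.LEInfty.out)
    exact this p q
  -- the coordinates
  have key : ∀ w, HasDerivAt (fun l => fderiv ℝ (US V l) y w)
      (inner ℝ ((1 / 2 : ℝ) • LG (US V L) y - HV (US V L) y (gradient (US V L) y)) w) L := by
    intro w
    have h3 : HasDerivAt (fun l => fderiv ℝ G (l, y) (0, w)) (A (1, 0) (0, w)) L := by
      have h4 : HasDerivAt (fun l : ℝ => (l, y)) ((1 : ℝ), (0 : E d)) L :=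
        (hasDerivAt_id L).prodMk (hasDerivAt_const L y)
      have h5 := hGdd.comp_hasDerivAt L h4
      have h6 := h5.clm_apply (hasDerivAt_const L ((0 : ℝ), w))
      simpa using h6
    have h7 : HasDerivAt (fun l => fderiv ℝ (US V l) y w) (A (1, 0) (0, w)) L := by
      refine h3.congr_of_eventuallyEq ?_
      filter_upwards [lt_mem_nhds hL] with l hl
      exact h1 l hl w
    refine h7.congr_deriv ?_
    rw [hsymm, ← u3_R (us_contDiff hV hL)]
    have h8 : HasFDerivAt (fun x => fderiv ℝ G (L, x) (1, 0))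
        ((A.comp (ContinuousLinearMap.inr ℝ ℝ (E d))).flip (1, 0)) y := by
      have h9 : HasFDerivAt (fun x => fderiv ℝ G (L, x))
          (A.comp (ContinuousLinearMap.inr ℝ ℝ (E d))) y :=
        hGdd.comp y (hasFDerivAt_prodMk_right L y)
      have h10 := h9.clm_apply (hasFDerivAt_const ((1 : ℝ), (0 : E d)) y)
      refine h10.congr_fderiv ?_
      ext v
      simp
    simp only [h2] at h8
    rw [h8.fderiv]
    simp
  have h3 : (fun l => gradient (US V l) y) = fun l => ∑ i, (fderiv ℝ (US V l) y (bas d i)) • bas d i := by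
    funext l
    exact u3_grad_eq _ _
  rw [h3]
  obtain ⟨T, hT⟩ : ∃ T, T = (1 / 2 : ℝ) • LG (US V L) y - HV (US V L) y (gradient (US V L) y) :=
    ⟨_, rfl⟩
  rw [← hT] at key ⊢
  have h4 : T = ∑ i, (inner ℝ T (bas d i) : ℝ) • bas d i := by
    conv_lhs => rw [← P347Q.sum_bas T]
    simp only [inner_bas]
  exact (HasDerivAt.fun_sum fun i _ => (key (bas d i)).smul_const (bas d i)).congr_deriv h4.symm

end P347Z
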