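import Vale.Agent.P347Z.U2
import Vale.Agent.P347Z.U3Aux

/-!
Module U3: `us_pde` (in `U3Aux`) and `fo_pde`.
-/

open MeasureTheory ProbabilityTheory Function
open scoped ENNReal BigOperators ContDiff

namespace P347Z

open P347Q P347S

variable {d : ℕ} {V : E d → ℝ} {L : ℝ}

/-- U3: gradient of `us_pde` (use `us_joint` to exchange derivatives):
`∂_L ∇U = (1/2) Δ∇U - D²U ∇U` -/
theorem fo_pde (hV : Pot d V) (hL : 0 < L) (y : E d) :
    HasDerivAt (fun l => gradient (US V l) y)
      ((1 / 2 : ℝ) • LG (US V L) y - HV (US V L) y (gradient (US V L) y)) L :=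
  fo_pde_aux hV (us_joint hV) hL y

end P347Z
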