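import Vale.Agent.P347Z.ULevelA

/-!
Auxiliary file for module ULEVEL (U4, U5).
-/

open MeasureTheory ProbabilityTheory Function
open scoped ENNReal BigOperators ContDiff

namespace P347Z

open P347Q P347S

variable {d : ℕ} {V : E d → ℝ} {L : ℝ}

theorem ul_cd2 (hV : Pot d V) (hL : 0 < L) (hL1 : L ≤ 1 / 4) : ContDiff ℝ 2 (US V L) :=
  (ul_temp hV hL hL1).1.of_le (by exact ENat.LEInfty.out)

theorem ul_hnn (hV : Pot d V) (hL : 0 < L) (hL1 : L ≤ 1 / 4) (x w : E d) :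
    0 ≤ fderiv ℝ (fderiv ℝ (US V L)) x w w :=
  le_trans (by positivity) (ul_lower hV hL hL1 x w)

theorem ul_lpot (hV : Pot d V) (hL : 0 < L) (hL1 : L ≤ 1 / 4) : LPot (1 / 2) (US V L) :=
  ⟨ul_cd2 hV hL hL1, ul_lower hV hL hL1⟩

theorem ul_grad_lip (hV : Pot d V) (hL : 0 < L) (hL1 : L ≤ 1 / 4) (x y : E d) :
    ‖gradient (US V L) x - gradient (US V L) y‖ ≤ 2 * ‖x - y‖ :=
  grad_lip (ul_cd2 hV hL hL1) (ul_hnn hV hL hL1) (ul_upper hV hL hL1) x y

theorem ul_grad_eq (hL : 0 < L) (y : E d) :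
    gradient (US V L) y =
      (√(1 + L))⁻¹ • gradient (lsm (ulE L) (ulW V L)) ((√(1 + L))⁻¹ • y) := by
  refine ext_inner_right ℝ fun w => ?_
  rw [inner_gradient, inner_smul_left, inner_gradient, ul_eq_fun hL, ul_fd]
  simp

theorem ul_gradW_zero (hV : Pot d V) : gradient (ulW V L) 0 = 0 := by
  refine ext_inner_right ℝ fun w => ?_
  rw [inner_gradient]
  unfold ulW
  rw [ul_fd, smul_zero, ← inner_gradient, hV.grad_zero]
  simp

theorem ul_grad_zero (hV : Pot d V) (hL : 0 < L) (hL1 : L ≤ 1 / 4) :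
    ‖gradient (US V L) 0‖ ≤ 2 * √d := by
  have h0 := ulE_pos hL
  have h1 := ulE_le hL hL1
  have key : ‖gradient (lsm (ulE L) (ulW V L)) 0‖ ≤ 3 * (ulE L * √d) := by
    have h2 := lc_grad_inner (ul_kpot hV hL) h0 h1 0 (-gradient (lsm (ulE L) (ulW V L)) 0)
    rw [ul_gradW_zero hV, zero_sub, inner_neg_neg, real_inner_self_eq_norm_sq, norm_neg, norm_zero,
      mul_zero, add_zero] at h2
    generalize ‖gradient (lsm (ulE L) (ulW V L)) 0‖ = a at *
    by_contra hn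
    push Not at hn
    have h3 : 0 ≤ ulE L * √d := by positivity
    have ha : 0 < a := by linarith
    have h4 : a * (3 * (ulE L * √d)) < a * a := mul_lt_mul_of_pos_left hn ha
    rw [sq] at h2
    linarith
  rw [ul_grad_eq hL, smul_zero, norm_smul, Real.norm_eq_abs,
    abs_of_nonneg (inv_nonneg.2 (Real.sqrt_nonneg _))]
  have h5 : (√(1 + L))⁻¹ ≤ 1 := inv_le_one_of_one_le₀ (Real.one_le_sqrt.2 (by linarith))
  have h6 : ulE L * √d ≤ 1 / 2 * √d := mul_le_mul_of_nonneg_right h1 (Real.sqrt_nonneg _)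
  have h7 : 0 ≤ √(d : ℝ) := Real.sqrt_nonneg _
  calc (√(1 + L))⁻¹ * ‖gradient (lsm (ulE L) (ulW V L)) 0‖
      ≤ 1 * ‖gradient (lsm (ulE L) (ulW V L)) 0‖ :=
        mul_le_mul_of_nonneg_right h5 (norm_nonneg _)
    _ ≤ 2 * √d := by linarith

theorem ul_grad_growth (hV : Pot d V) : ∃ C : ℝ, ∀ L : ℝ, 0 < L → L ≤ 1 / 4 → ∀ y,
    ‖gradient (US V L) y‖ ≤ C * (1 + ‖y‖) := by
  refine ⟨2 * √d + 2, fun L hL hL1 y => ?_⟩
  have h1 := ul_grad_lip hV hL hL1 y 0
  have h2 := ul_grad_zero hV hL hL1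
  rw [sub_zero] at h1
  have h3 : ‖gradient (US V L) y‖ ≤
      ‖gradient (US V L) y - gradient (US V L) 0‖ + ‖gradient (US V L) 0‖ := by
    have := norm_add_le (gradient (US V L) y - gradient (US V L) 0) (gradient (US V L) 0)
    rwa [sub_add_cancel] at this
  have h4 : 0 ≤ √(d : ℝ) * ‖y‖ := by positivity
  linarith

/-! U4: Hessian -/

theorem ul_inner_HV {U : E d → ℝ} (hU : ContDiff ℝ 2 U) (y v w : E d) :
    inner ℝ (HV U y v) w = fderiv ℝ (fderiv ℝ U) y v w := by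
  have hd : DifferentiableAt ℝ (fderiv ℝ U) y :=
    (hU.fderiv_right (m := 1) (by norm_num)).differentiable (by norm_num) y
  have h1 : HasFDerivAt (fun x => gradient U x)
      (((InnerProductSpace.toDual ℝ (E d)).symm.toContinuousLinearEquiv.toContinuousLinearMap).comp
        (fderiv ℝ (fderiv ℝ U) y)) y :=
    ((InnerProductSpace.toDual ℝ (E d)).symm.toContinuousLinearEquiv.toContinuousLinearMap
      |>.hasFDerivAt).comp y hd.hasFDerivAt
  unfold HV
  have h2 : fderiv ℝ (gradient U) y = _ := h1.fderiv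
  rw [h2]
  exact InnerProductSpace.toDual_symm_apply (𝕜 := ℝ)

theorem ul_HV (hV : Pot d V) (hL : 0 < L) (hL1 : L ≤ 1 / 4) (y v : E d) :
    ‖HV (US V L) y v‖ ≤ 2 * ‖v‖ := by
  have h1 := ul_inner_HV (ul_cd2 hV hL hL1) y v (HV (US V L) y v)
  have h2 := hess_abs_le (ul_cd2 hV hL hL1) (ul_hnn hV hL hL1) (ul_upper hV hL hL1) y v
    (HV (US V L) y v)
  rw [← h1, real_inner_self_eq_norm_sq, abs_of_nonneg (sq_nonneg _)] at h2
  generalize ‖HV (US V L) y v‖ = a at *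
  by_contra hn
  push Not at hn
  have ha : 0 < a := lt_of_le_of_lt (by positivity) hn
  have h4 : a * (2 * ‖v‖) < a * a := mul_lt_mul_of_pos_left hn ha
  rw [sq] at h2
  linarith

theorem ul_HV_symm (hV : Pot d V) (hL : 0 < L) (hL1 : L ≤ 1 / 4) (y v w : E d) :
    inner ℝ (HV (US V L) y v) w = inner ℝ v (HV (US V L) y w) := by
  rw [real_inner_comm (HV (US V L) y w) v, ul_inner_HV (ul_cd2 hV hL hL1),
    ul_inner_HV (ul_cd2 hV hL hL1), hess_symm (ul_cd2 hV hL hL1)]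

theorem ul_inner_LG (hV : Pot d V) (hL : 0 < L) (hL1 : L ≤ 1 / 4) (y w : E d) :
    inner ℝ (LG (US V L) y) w =
      ∑ i, fderiv ℝ (fun a => fderiv ℝ (fun b => fderiv ℝ (US V L) b w) a (bas d i)) y
        (bas d i) := by
  unfold LG
  rw [sum_inner]
  refine Finset.sum_congr rfl fun i _ => ?_
  have ht := ul_temp hV hL hL1
  have hg : HasTemperateGrowth (gradient (US V L)) :=
    ((InnerProductSpace.toDual ℝ (E d)).symm.toContinuousLinearEquiv.toContinuousLinearMap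
      |>.hasTemperateGrowth).comp (temp_fderiv ht)
  have hH : Differentiable ℝ (fun a => HV (US V L) a (bas d i)) := by
    intro a
    exact (temp_diff (temp_fderiv hg) a).clm_apply (differentiableAt_const _)
  have h1 : HasFDerivAt (fun a => (inner ℝ (HV (US V L) a (bas d i)) w : ℝ))
      ((innerSL ℝ w).comp (fderiv ℝ (fun a => HV (US V L) a (bas d i)) y)) y := by
    have h2 := (innerSL ℝ w).hasFDerivAt.comp y (hH y).hasFDerivAt
    refine h2.congr_of_eventuallyEq ?_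
    filter_upwards with a
    simp only [Function.comp, innerSL_apply_apply]
    exact real_inner_comm _ _
  have h3 : (fun a => (inner ℝ (HV (US V L) a (bas d i)) w : ℝ)) =
      fun a => fderiv ℝ (fun b => fderiv ℝ (US V L) b w) a (bas d i) := by
    funext a
    rw [ul_inner_HV (ul_cd2 hV hL hL1), fderiv_dir ht]
  rw [← h3, h1.fderiv]
  simp only [ContinuousLinearMap.comp_apply, innerSL_apply_apply]
  exact real_inner_comm _ _

theorem ul_LG : ∃ B : ℝ, 0 < B ∧ ∀ (d : ℕ) (V : E d → ℝ) (L : ℝ), Pot d V → 0 < L → L ≤ 1 / 4 →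
    ∀ y, ‖LG (US V L) y‖ ≤ B * √d / √L := by
  obtain ⟨B, hB, h⟩ := ul_hsb
  refine ⟨√(B 2) + 1, by positivity, fun d V L hV hL hL1 y => ?_⟩
  have h2 := h d V L hV hL hL1 2 (by norm_num) (LG (US V L) y) y
  have h3 := ul_inner_LG hV hL hL1 y (LG (US V L) y)
  rw [real_inner_self_eq_norm_sq] at h3
  simp only [hs] at h2
  norm_num at h2
  rw [Real.sq_sqrt hL.le] at h2
  set a : ℝ := ‖LG (US V L) y‖ with ha
  set F : Fin d → Fin d → ℝ := fun i j =>
    fderiv ℝ (fun a => fderiv ℝ (fun b => fderiv ℝ (US V L) b (LG (US V L) y)) a (bas d i)) y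
      (bas d j) with hF
  have h4 : (∑ i, F i i) ^ 2 ≤ d * ∑ i, F i i ^ 2 := by
    have := sq_sum_le_card_mul_sum_sq (s := (Finset.univ : Finset (Fin d))) (f := fun i => F i i)
    simpa using this
  have h5 : ∑ i, F i i ^ 2 ≤ ∑ i, ∑ j, F i j ^ 2 :=
    Finset.sum_le_sum fun i _ =>
      Finset.single_le_sum (f := fun j => F i j ^ 2) (fun j _ => sq_nonneg _) (Finset.mem_univ i)
  have h3' : a ^ 2 = ∑ i, F i i := h3
  have h6 : (a ^ 2) ^ 2 ≤ d * (B 2 * L⁻¹ * a ^ 2) :=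
    calc (a ^ 2) ^ 2 = (∑ i, F i i) ^ 2 := congrArg (fun t : ℝ => t ^ 2) h3'
      _ ≤ d * ∑ i, F i i ^ 2 := h4
      _ ≤ d * (B 2 * L⁻¹ * a ^ 2) := mul_le_mul_of_nonneg_left (h5.trans h2) (by positivity)
  have ha0 : 0 ≤ a := norm_nonneg _
  have h7 : a ^ 2 ≤ d * (B 2 * L⁻¹) := by
    by_contra hn
    push Not at hn
    have hp : 0 ≤ (d : ℝ) * (B 2 * L⁻¹) := by have := hB 2; positivity
    have h8 : 0 < a ^ 2 := lt_of_le_of_lt hp hn
    have h9 : a ^ 2 * (d * (B 2 * L⁻¹)) < a ^ 2 * a ^ 2 := mul_lt_mul_of_pos_left hn h8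
    nlinarith
  have h10 : a ≤ √(d * (B 2 * L⁻¹)) := Real.le_sqrt_of_sq_le h7
  refine h10.trans ?_
  rw [Real.sqrt_mul (by positivity), Real.sqrt_mul (hB 2), Real.sqrt_inv]
  have h11 : 0 ≤ √(d : ℝ) := Real.sqrt_nonneg _
  have h12 : 0 < √L := Real.sqrt_pos.2 hL
  rw [le_div_iff₀ h12]
  calc √(d : ℝ) * (√(B 2) * (√L)⁻¹) * √L = √(B 2) * √d := by field_simp
    _ ≤ (√(B 2) + 1) * √d := mul_le_mul_of_nonneg_right (by linarith) h11

end P347Z
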