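import Vale.Agent.P347Z.U1
import Vale.Agent.P347Z.ULevelB

/-!
Module U4.
Potentials `V ∈ Pot d V` (curvature in `[1,2]`), levels `0 < L`.

The theorems of `P347S` (`lsm_spot`, `lsm_hsb`, `gibbs_lsm`, ...) are for the class `KPot ε W`
(curvature in `[1/(1-ε²), 2/(1-ε²)]`).  Reduction by scaling: with `ε² = L/(1+L)` (so `1-ε² = 1/(1+L)`),
`ρ = √(1+L)`, `W x = V (ρ x)` one has `KPot ε W` and
`lsm ε W x = lsm (√L) V (ρ x)`  (because `ρ ε = √L`), i.e. `US V L y = lsm ε W (y/ρ)`.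
For `L ≤ 1/4`: `ε ≤ 1/2`.  Derivatives of `US V L` are those of `lsm ε W` times powers of `1/ρ ≤ 1`.
-/

open MeasureTheory ProbabilityTheory Function
open scoped ENNReal BigOperators ContDiff

namespace P347Z

open P347Q P347S

variable {d : ℕ} {V : E d → ℝ} {L : ℝ}

/-- U4: growth -/
theorem us_grad_growth (hV : Pot d V) : ∃ C : ℝ, ∀ L : ℝ, 0 < L → L ≤ 1 / 4 → ∀ y,
    ‖gradient (US V L) y‖ ≤ C * (1 + ‖y‖) :=
  ul_grad_growth hV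

/-- U4 -/
theorem us_HV (hV : Pot d V) (hL : 0 < L) (hL1 : L ≤ 1 / 4) (y v : E d) :
    ‖HV (US V L) y v‖ ≤ 2 * ‖v‖ :=
  ul_HV hV hL hL1 y v

/-- U4 -/
theorem us_HV_symm (hV : Pot d V) (hL : 0 < L) (hL1 : L ≤ 1 / 4) (y v w : E d) :
    inner ℝ (HV (US V L) y v) w = inner ℝ v (HV (US V L) y w) :=
  ul_HV_symm hV hL hL1 y v w

/-- U4: from `us_hsb` with `n = 2` and Cauchy-Schwarz -/
theorem us_LG : ∃ B : ℝ, 0 < B ∧ ∀ (d : ℕ) (V : E d → ℝ) (L : ℝ), Pot d V → 0 < L → L ≤ 1 / 4 →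
    ∀ y, ‖LG (US V L) y‖ ≤ B * √d / √L :=
  ul_LG

/-- U4 -/
theorem us_grad_lip (hV : Pot d V) (hL : 0 < L) (hL1 : L ≤ 1 / 4) (x y : E d) :
    ‖gradient (US V L) x - gradient (US V L) y‖ ≤ 2 * ‖x - y‖ :=
  ul_grad_lip hV hL hL1 x y

end P347Z
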