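import Vale.Agent.P347Z.ULevelB

/-!
Auxiliary file for module ULEVEL (U5): the Gibbs measure of `US V L` is the Gaussian convolution of
`gibbs V`.
-/

open MeasureTheory ProbabilityTheory Function
open scoped ENNReal BigOperators ContDiff

namespace P347Z

open P347Q P347S

variable {d : ℕ} {V : E d → ℝ} {L : ℝ}

theorem ul_gw_lint {W : E d → ℝ} (hW : Continuous W) {f : E d → ℝ≥0∞} (hf : Measurable f) :
    ∫⁻ x, f x ∂(gibbs W) = (∫⁻ x, ENNReal.ofReal (Real.exp (-W x)))⁻¹ *
      ∫⁻ x, ENNReal.ofReal (Real.exp (-W x)) * f x := by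
  have hm : Measurable (fun x : E d => ENNReal.ofReal (Real.exp (-W x))) := by
    have := hW.measurable
    fun_prop
  rw [gibbs, lintegral_smul_measure, lintegral_withDensity_eq_lintegral_mul _ hm hf]
  rfl

theorem ul_exp_int {W : E d → ℝ} (hW : Continuous W) (h0 : ∀ x, 0 ≤ W x) (e : ℝ) (y : E d) :
    Integrable (fun z => Real.exp (-W (y + e • z))) (stdGaussian (E d)) := by
  refine Integrable.mono' (integrable_const (1 : ℝ)) ?_ (Filter.Eventually.of_forall fun z => ?_)
  · have : Continuous fun z : E d => Real.exp (-W (y + e • z)) := by fun_prop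
    exact this.aestronglyMeasurable
  · rw [Real.norm_eq_abs, abs_of_pos (Real.exp_pos _)]
    exact Real.exp_le_one_iff.2 (by linarith [h0 (y + e • z)])

theorem ul_exp_lsm {W : E d → ℝ} (hW : Continuous W) (h0 : ∀ x, 0 ≤ W x) (e : ℝ) (y : E d) :
    Real.exp (-lsm e W y) = ∫ z, Real.exp (-W (y + e • z)) ∂(stdGaussian (E d)) := by
  unfold lsm
  rw [neg_neg, Real.exp_log]
  exact integral_exp_pos (ul_exp_int hW h0 e y)

theorem ul_lintN {W : E d → ℝ} (hW : Continuous W) (h0 : ∀ x, 0 ≤ W x) (e : ℝ) (y : E d) :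
    ∫⁻ z, ENNReal.ofReal (Real.exp (-W (y - e • z))) ∂(stdGaussian (E d)) =
      ENNReal.ofReal (Real.exp (-lsm e W y)) := by
  have hm : Measurable (fun x : E d => ENNReal.ofReal (Real.exp (-W x))) := by
    have := hW.measurable
    fun_prop
  have hm2 : Measurable (fun z : E d => ENNReal.ofReal (Real.exp (-W (y + e • z)))) :=
    hm.comp (by fun_prop)
  have e1 : ∫⁻ z, ENNReal.ofReal (Real.exp (-W (y - e • z))) ∂(stdGaussian (E d)) =
      ∫⁻ z, ENNReal.ofReal (Real.exp (-W (y + e • z))) ∂(stdGaussian (E d)) := by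
    conv_rhs => rw [← lc_neg d]
    rw [lintegral_map hm2 measurable_neg]
    refine lintegral_congr fun z => ?_
    rw [smul_neg, sub_eq_add_neg]
  rw [e1, ul_exp_lsm hW h0, ofReal_integral_eq_lintegral_ofReal]
  · exact ul_exp_int hW h0 e y
  · exact Filter.Eventually.of_forall fun z => Real.exp_nonneg _

theorem ul_cv_lint {W : E d → ℝ} (hW : Continuous W) (h0 : ∀ x, 0 ≤ W x)
    [hp1 : IsProbabilityMeasure (gibbs W)] (t : ℝ) {f : E d → ℝ≥0∞} (hf : Measurable f) :
    ∫⁻ y, f y ∂(cv W t) = (∫⁻ x, ENNReal.ofReal (Real.exp (-W x)))⁻¹ *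
      ∫⁻ y, ENNReal.ofReal (Real.exp (-lsm (√t) W y)) * f y := by
  have hm : Measurable (fun x : E d => ENNReal.ofReal (Real.exp (-W x))) := by
    have := hW.measurable
    fun_prop
  have hp : Measurable (fun p : E d × E d => p.1 + √t • p.2) := by fun_prop
  have hp' : Measurable (fun p : E d × E d => f (p.1 + √t • p.2)) := hf.comp hp
  rw [cv, lintegral_map hf hp, lintegral_prod_symm' _ hp']
  have e1 : ∀ z : E d, ∫⁻ x, f (x + √t • z) ∂(gibbs W) =
      (∫⁻ x, ENNReal.ofReal (Real.exp (-W x)))⁻¹ *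
        ∫⁻ y, ENNReal.ofReal (Real.exp (-W (y - √t • z))) * f y := by
    intro z
    rw [ul_gw_lint hW (f := fun x => f (x + √t • z))
      (hf.comp (by fun_prop : Measurable fun x : E d => x + √t • z))]
    congr 1
    rw [← lintegral_add_right_eq_self (fun y => ENNReal.ofReal (Real.exp (-W (y - √t • z))) * f y)
      (√t • z)]
    refine lintegral_congr fun x => ?_
    rw [add_sub_cancel_right]
  simp only [e1]
  have hq : Measurable (fun p : E d × E d =>
      ENNReal.ofReal (Real.exp (-W (p.2 - √t • p.1))) * f p.2) :=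
    (hm.comp (by fun_prop : Measurable fun p : E d × E d => p.2 - √t • p.1)).mul
      (hf.comp measurable_snd)
  have hq' : Measurable (fun p : E d × E d =>
      ENNReal.ofReal (Real.exp (-W (p.1 - √t • p.2))) * f p.1) :=
    (hm.comp (by fun_prop : Measurable fun p : E d × E d => p.1 - √t • p.2)).mul
      (hf.comp measurable_fst)
  rw [lintegral_const_mul _ hq.lintegral_prod_right', lintegral_lintegral_swap hq.aemeasurable]
  congr 1
  refine lintegral_congr fun y => ?_
  have hr : Measurable (fun z : E d => ENNReal.ofReal (Real.exp (-W (y - √t • z)))) :=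
    hm.comp (by fun_prop : Measurable fun z : E d => y - √t • z)
  rw [← ul_lintN hW h0, ← lintegral_mul_const _ hr]

theorem ul_nonneg (hV : Pot d V) (x : E d) : 0 ≤ V x :=
  le_trans (by positivity) (hV.lower_bound x)

theorem ul_cv (hV : Pot d V) (hL : 0 < L) (hL1 : L ≤ 1 / 4) : gibbs (US V L) = cv V L := by
  have := hV.prob
  have hp : Measurable (fun p : E d × E d => p.1 + √L • p.2) := by fun_prop
  have hpr : IsProbabilityMeasure (cv V L) := by
    rw [cv]
    exact Measure.isProbabilityMeasure_map hp.aemeasurable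
  have hm : Measurable (fun x : E d => ENNReal.ofReal (Real.exp (-US V L x))) := by
    have := (ul_cd2 hV hL hL1).continuous.measurable
    fun_prop
  have h2 := ul_cv_lint hV.cont (ul_nonneg hV) L (f := fun _ => (1 : ℝ≥0∞)) measurable_const
  rw [lintegral_const, measure_univ, mul_one] at h2
  simp only [mul_one] at h2
  have h3 : (∫⁻ x, ENNReal.ofReal (Real.exp (-V x)))⁻¹ =
      (∫⁻ x, ENNReal.ofReal (Real.exp (-US V L x)))⁻¹ := by
    exact ENNReal.eq_inv_of_mul_eq_one_left h2.symm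
  ext s hs
  have h4 := ul_cv_lint hV.cont (ul_nonneg hV) L (f := s.indicator 1) (measurable_one.indicator hs)
  rw [lintegral_indicator_one hs] at h4
  rw [h4, h3, gibbs, Measure.smul_apply, withDensity_apply _ hs, smul_eq_mul]
  congr 1
  rw [← lintegral_indicator hs]
  refine lintegral_congr fun x => ?_
  by_cases hx : x ∈ s
  · simp [hx, US]
  · simp [hx]

theorem ul_prob (hV : Pot d V) (hL : 0 < L) (hL1 : L ≤ 1 / 4) :
    IsProbabilityMeasure (gibbs (US V L)) :=
  (ul_lpot hV hL hL1).prob (by norm_num)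

/-! ### characteristic functions -/

theorem ul_char (μ : Measure (E d)) [IsProbabilityMeasure μ] (r : ℝ) (t : E d) :
    charFun ((μ.prod (stdGaussian (E d))).map (fun p => p.1 + r • p.2)) t =
      charFun μ t * Complex.exp (-((r ^ 2 * ‖t‖ ^ 2 : ℝ) : ℂ) / 2) := by
  have hp : Measurable (fun p : E d × E d => p.1 + r • p.2) := by fun_prop
  have h1 : charFun ((μ.prod (stdGaussian (E d))).map (fun p => p.1 + r • p.2)) t =
      charFun μ t * charFun (stdGaussian (E d)) (r • t) := by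
    simp only [charFun_apply]
    rw [integral_map hp.aemeasurable (by fun_prop), ← integral_prod_mul]
    refine integral_congr_ae (Filter.Eventually.of_forall fun p => ?_)
    dsimp only
    rw [← Complex.exp_add]
    congr 1
    rw [inner_add_left, inner_smul_left, inner_smul_right]
    simp only [conj_trivial]
    push_cast
    ring
  rw [h1, charFun_stdGaussian]
  congr 2
  rw [norm_smul, Real.norm_eq_abs]
  push_cast
  rw [mul_pow]
  congr 2
  norm_cast
  rw [sq_abs]

theorem ul_char_us (hV : Pot d V) (hL : 0 < L) (hL1 : L ≤ 1 / 4) (t : E d) :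
    charFun (gibbs (US V L)) t =
      charFun (gibbs V) t * Complex.exp (-((L * ‖t‖ ^ 2 : ℝ) : ℂ) / 2) := by
  have := hV.prob
  rw [ul_cv hV hL hL1, cv, ul_char, Real.sq_sqrt hL.le]

theorem ul_add (hV : Pot d V) (hL : 0 < L) {r : ℝ} (hL1 : L + r ^ 2 ≤ 1 / 4) :
    ((gibbs (US V L)).prod (stdGaussian (E d))).map (fun p => p.1 + r • p.2) =
      gibbs (US V (L + r ^ 2)) := by
  have hr2 : 0 ≤ r ^ 2 := sq_nonneg r
  have hL2 : L ≤ 1 / 4 := by linarith
  have hL3 : 0 < L + r ^ 2 := by linarith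
  have := ul_prob hV hL hL2
  have := ul_prob hV hL3 hL1
  have hp : Measurable (fun p : E d × E d => p.1 + r • p.2) := by fun_prop
  have : IsProbabilityMeasure
      (((gibbs (US V L)).prod (stdGaussian (E d))).map (fun p => p.1 + r • p.2)) :=
    Measure.isProbabilityMeasure_map hp.aemeasurable
  apply Measure.ext_of_charFun
  funext t
  rw [ul_char, ul_char_us hV hL hL2, ul_char_us hV hL3 hL1, mul_assoc, ← Complex.exp_add]
  congr 2
  push_cast
  ring

theorem ul_centre (hV : Pot d V) (hL : 0 < L) {r : ℝ} (hL1 : L + r ^ 2 ≤ 1 / 4) :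
    (mu3 V L).map (fun x => x.1 - r • x.2.1) = gibbs (US V (L + r ^ 2)) := by
  have hr2 : 0 ≤ r ^ 2 := sq_nonneg r
  have hL2 : L ≤ 1 / 4 := by linarith
  have := ul_prob hV hL hL2
  have h1 : (mu3 V L).map (Prod.map id Prod.fst) =
      (gibbs (US V L)).prod (stdGaussian (E d)) := by
    unfold mu3
    rw [← Measure.map_prod_map _ _ measurable_id measurable_fst, Measure.map_id,
      Measure.map_fst_prod, measure_univ, one_smul]
  have h2 : (fun x : Z3 d => x.1 - r • x.2.1) =
      (fun p : E d × E d => p.1 + (-r) • p.2) ∘ (Prod.map id Prod.fst) := by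
    funext x
    simp [sub_eq_add_neg]
  have hp : Measurable (fun p : E d × E d => p.1 + (-r) • p.2) := by fun_prop
  rw [h2, ← Measure.map_map hp (measurable_id.prodMap measurable_fst), h1]
  have h3 := ul_add hV hL (r := -r) (by rw [neg_sq]; exact hL1)
  rw [neg_sq] at h3
  exact h3

/-! ### moments -/

theorem ul_pgr_fd (hV : Pot d V) (hL : 0 < L) (hL1 : L ≤ 1 / 4) : Pgr (fderiv ℝ (US V L)) :=
  P347S.App.pgr_fderiv (ul_temp hV hL hL1)

theorem ul_moment : ∃ C : ℝ, 0 < C ∧ ∀ (d : ℕ) (V : E d → ℝ) (L : ℝ), Pot d V → 0 < L →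
    L ≤ 1 / 4 → ∫ x, ‖x‖ ^ 2 ∂(gibbs (US V L)) ≤ C * (d + 1) := by
  refine ⟨36, by norm_num, fun d V L hV hL hL1 => ?_⟩
  have h := (ul_lpot hV hL hL1).moment (by norm_num) (ul_pgr_fd hV hL hL1) 0
  simp only [sub_zero] at h
  refine h.trans ?_
  have h0 := ul_grad_zero hV hL hL1
  have hs : √(d : ℝ) ^ 2 = d := Real.sq_sqrt (Nat.cast_nonneg d)
  have h1 : √((d : ℝ) / (1 / 2)) ≤ 2 * √d := by
    rw [show (d : ℝ) / (1 / 2) = 2 * d by ring]
    apply Real.sqrt_le_iff.2
    constructor
    · positivity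
    · rw [mul_pow, hs]
      have : (0 : ℝ) ≤ d := Nat.cast_nonneg d
      linarith
  have h2 : √((d : ℝ) / (1 / 2)) + ‖gradient (US V L) 0‖ / (1 / 2) ≤ 6 * √d := by
    rw [div_eq_mul_inv]
    norm_num
    norm_num at h1
    linarith
  have h3 : 0 ≤ √((d : ℝ) / (1 / 2)) + ‖gradient (US V L) 0‖ / (1 / 2) := by positivity
  calc (√((d : ℝ) / (1 / 2)) + ‖gradient (US V L) 0‖ / (1 / 2)) ^ 2 ≤ (6 * √d) ^ 2 :=
        pow_le_pow_left₀ h3 h2 2
    _ = 36 * d := by rw [mul_pow, hs]; norm_num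
    _ ≤ 36 * (d + 1) := by linarith

theorem ul_grad_sq (hV : Pot d V) (hL : 0 < L) (hL1 : L ≤ 1 / 4) :
    ∫ x, ‖gradient (US V L) x‖ ^ 2 ∂(gibbs (US V L)) ≤ 2 * d := by
  have hp := ul_prob hV hL hL1
  have ht := ul_temp hV hL hL1
  have hl := ul_lpot hV hL hL1
  have hk : (0 : ℝ) < 1 / 2 := by norm_num
  have hcd : ∀ i, HasTemperateGrowth (fun x => fderiv ℝ (US V L) x (bas d i)) :=
    fun i => temp_dir ht (bas d i)
  have e1 : ∀ x, ‖gradient (US V L) x‖ ^ 2 = ∑ i, (fderiv ℝ (US V L) x (bas d i)) ^ 2 := by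
    intro x
    exact norm_gradient_sq _ x
  simp only [e1]
  have hint : ∀ i, Integrable (fun x => (fderiv ℝ (US V L) x (bas d i)) ^ 2)
      (gibbs (US V L)) := by
    intro i
    have h1 := hcd i
    have h2 : Pgr (fun x => (fderiv ℝ (US V L) x (bas d i)) ^ 2) := by
      have := lc_pgr_mul (P347S.App.pgr_temp h1) (P347S.App.pgr_temp h1)
      simpa [sq] using this
    exact hl.integrable hk (h1.1.continuous.pow 2) h2
  rw [integral_finsetSum _ fun i _ => hint i]
  have e2 : ∀ i, ∫ x, (fderiv ℝ (US V L) x (bas d i)) ^ 2 ∂(gibbs (US V L)) ≤ 2 := by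
    intro i
    have h1 := hcd i
    have h3 := hl.ibp hk (ul_pgr_fd hV hL hL1) (f := fun x => fderiv ℝ (US V L) x (bas d i))
      (h1.1.of_le (by exact ENat.LEInfty.out)) (P347S.App.pgr_temp h1) (P347S.App.pgr_fderiv h1) (bas d i)
    have h4 : ∀ x, fderiv ℝ (fun x => fderiv ℝ (US V L) x (bas d i)) x (bas d i) ≤ 2 := by
      intro x
      rw [fderiv_dir ht]
      have := ul_upper hV hL hL1 x (bas d i)
      rwa [norm_bas, one_pow, mul_one] at this
    have h5 : ∫ x, (fderiv ℝ (US V L) x (bas d i)) ^ 2 ∂(gibbs (US V L)) =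
        ∫ x, fderiv ℝ (US V L) x (bas d i) * fderiv ℝ (US V L) x (bas d i) ∂(gibbs (US V L)) := by
      simp only [sq]
    rw [h5, ← h3]
    have h6 : ∫ x, fderiv ℝ (fun x => fderiv ℝ (US V L) x (bas d i)) x (bas d i)
        ∂(gibbs (US V L)) ≤ ∫ _x, (2 : ℝ) ∂(gibbs (US V L)) := by
      refine integral_mono_of_nonneg (Filter.Eventually.of_forall fun x => ?_)
        (integrable_const _) (Filter.Eventually.of_forall h4)
      dsimp only
      rw [fderiv_dir ht]
      exact ul_hnn hV hL hL1 x _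
    simpa using h6
  calc ∑ i, ∫ x, (fderiv ℝ (US V L) x (bas d i)) ^ 2 ∂(gibbs (US V L)) ≤ ∑ _i : Fin d, (2 : ℝ) :=
        Finset.sum_le_sum fun i _ => e2 i
    _ = 2 * d := by simp [mul_comm]

end P347Z
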