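import Vale.Agent.P347Z.U4
import Vale.Agent.P347Z.ULevelC

/-!
Module U5.
Potentials `V ∈ Pot d V` (curvature in `[1,2]`), levels `0 < L`.

The theorems of `P347S` (`lsm_spot`, `lsm_hsb`, `gibbs_lsm`, ...) are for the class `KPot ε W`
(curvature in `[1/(1-ε²), 2/(1-ε²)]`).  Reduction by scaling: with `ε² = L/(1+L)` (so `1-ε² = 1/(1+L)`),
`ρ = √(1+L)`, `W x = V (ρ x)` one has `KPot ε W` and
`lsm ε W x = lsm (√L) V (ρ x)`  (because `ρ ε = √L`), i.e. `US V L y = lsm ε W (y/ρ)`.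
For `L ≤ 1/4`: `ε ≤ 1/2`.  Derivatives of `US V L` are those of `lsm ε W` times powers of `1/ρ ≤ 1`.
-/

open MeasureTheory ProbabilityTheory Function
open scoped ENNReal BigOperators ContDiff

namespace P347Z

open P347Q P347S

variable {d : ℕ} {V : E d → ℝ} {L : ℝ}

/-- U5 -/
theorem us_prob (hV : Pot d V) (hL : 0 < L) (hL1 : L ≤ 1 / 4) :
    IsProbabilityMeasure (gibbs (US V L)) :=
  ul_prob hV hL hL1

/-- U5: `gibbs (US V L)` is the law of `X + √L ζ`, `X ∼ gibbs V` (`gibbs_lsm`) -/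
theorem us_cv (hV : Pot d V) (hL : 0 < L) (hL1 : L ≤ 1 / 4) : gibbs (US V L) = cv V L :=
  ul_cv hV hL hL1

/-- U5: semigroup property -/
theorem us_add (hV : Pot d V) (hL : 0 < L) {r : ℝ} (hr : 0 ≤ r) (hL1 : L + r ^ 2 ≤ 1 / 4) :
    ((gibbs (US V L)).prod (stdGaussian (E d))).map (fun p => p.1 + r • p.2) =
      gibbs (US V (L + r ^ 2)) :=
  ul_add hV hL hL1

/-- U5: `Y ∼ π_L`, `w ∼ γ` independent: `Y - r w ∼ π_{L + r²}` and the pair `(y, w)`; used only for the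
marginal of the centre -/
theorem us_centre (hV : Pot d V) (hL : 0 < L) {r : ℝ} (hL1 : L + r ^ 2 ≤ 1 / 4) :
    (mu3 V L).map (fun x => x.1 - r • x.2.1) = gibbs (US V (L + r ^ 2)) :=
  ul_centre hV hL hL1

/-- U5: every polynomially bounded continuous function is integrable (via `int` of `gibbs_ibp`) -/
theorem us_grad_sq (hV : Pot d V) (hL : 0 < L) (hL1 : L ≤ 1 / 4) :
    ∫ x, ‖gradient (US V L) x‖ ^ 2 ∂(gibbs (US V L)) ≤ 2 * d :=
  ul_grad_sq hV hL hL1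

/-- U5: second moment, `|x|² ≤ 2⟨x,∇U(x) - ∇U(0)⟩` etc.; `E|x|² ≤ C d` uniformly -/
theorem us_moment : ∃ C : ℝ, 0 < C ∧ ∀ (d : ℕ) (V : E d → ℝ) (L : ℝ), Pot d V → 0 < L → L ≤ 1 / 4 →
    ∫ x, ‖x‖ ^ 2 ∂(gibbs (US V L)) ≤ C * (d + 1) :=
  ul_moment

end P347Z
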