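import Vale.Agent.P347Z.U1
import Vale.Agent.P347Z.U2
import Vale.Agent.P347Z.U3
import Vale.Agent.P347Z.U4
import Vale.Agent.P347Z.U5

/-! collects U1..U5 -/
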