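import Vale.Agent.P347S.Bias
import Vale.Agent.P347Z.ULevel

/-!
P347Z / BaseB (helper26): `|E ∇V(y + √L ξ) - f_L(y)| ≤ 9 L √L √d + 5 L |∇V(y)|`, from `P347S.bias_le`.
-/

open MeasureTheory ProbabilityTheory Function
open scoped ENNReal BigOperators ContDiff

namespace P347Z

open P347Q P347S

variable {d : ℕ} {V : E d → ℝ} {L : ℝ}

theorem bb_gradW (x : E d) :
    gradient (ulW V L) x = √(1 + L) • gradient V (√(1 + L) • x) := by
  refine ext_inner_right ℝ fun w => ?_
  rw [inner_gradient, inner_smul_left, inner_gradient]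
  unfold ulW
  rw [ul_fd]
  simp

theorem bb_lip (hV : Pot d V) (x y : E d) : ‖gradient V x - gradient V y‖ ≤ 2 * ‖x - y‖ := by
  refine grad_lip hV.smooth (fun x w => ?_) hV.upper x y
  exact (by positivity : (0 : ℝ) ≤ ‖w‖ ^ 2).trans (hV.lower x w)

theorem bb_int (hV : Pot d V) (a : E d) (c : ℝ) :
    Integrable (fun z => gradient V (a + c • z)) (stdGaussian (E d)) := by
  have hl : ∀ x y : E d, ‖gradient V (a + c • x) - gradient V (a + c • y)‖ ≤ (2 * |c|) * ‖x - y‖ := by
    intro x y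
    refine (bb_lip hV _ _).trans (le_of_eq ?_)
    rw [add_sub_add_left_eq_sub, ← smul_sub, norm_smul, Real.norm_eq_abs, mul_assoc]
  have hc : Continuous (fun z => gradient V (a + c • z)) := by
    have : LipschitzWith (Real.toNNReal (2 * |c|)) (fun z => gradient V (a + c • z)) :=
      LipschitzWith.of_dist_le_mul fun x y => by
        rw [dist_eq_norm, dist_eq_norm, Real.coe_toNNReal _ (by positivity)]
        exact hl x y
    exact this.continuous
  exact integrable_of_lip hc hl

theorem bb_bias (hV : Pot d V) (hL : 0 < L) (hL1 : L ≤ 1 / 4) (y : E d) :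
    ‖(∫ z, gradient V (y + √L • z) ∂(stdGaussian (E d))) - fo V L y‖ ≤
      9 * L * √L * √d + 5 * L * ‖gradient V y‖ := by
  have hρ := ul_rho_pos hL
  have hρ1 : 1 ≤ √(1 + L) := by
    rw [show (1 : ℝ) = √1 by simp]
    exact Real.sqrt_le_sqrt (by simpa using hL.le)
  have hε0 := ulE_pos hL
  have hε1 := ulE_le hL hL1
  have hre := ul_rho_eps hL
  set ρ := √(1 + L) with hρd
  set ε := ulE L with hεd
  have hg : ∀ x, gradient (ulW V L) x = ρ • gradient V (ρ • x) := fun x => bb_gradW x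
  have hy : ρ • (ρ⁻¹ • y) = y := by rw [smul_smul, mul_inv_cancel₀ hρ.ne', one_smul]
  have hε2 : ρ ^ 2 * ε ^ 2 = L := by
    rw [← mul_pow, hre, Real.sq_sqrt hL.le]
  have hbias : bias (ulW V L) ε (ρ⁻¹ • y) = ρ • ((∫ z, gradient V ((y - L • gradient V y) + √L • z)
      ∂(stdGaussian (E d))) - fo V L y) := by
    have h1 : ∀ X : E d, err (ulW V L) ε (ρ⁻¹ • y) X =
        ρ • (gradient V ((y - L • gradient V y) + √L • X) - fo V L y) := by
      intro X
      unfold err est
      rw [hg, hg (ρ⁻¹ • y), hy]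
      have e1 : ρ • (ρ⁻¹ • y - ε ^ 2 • ρ • gradient V y + ε • X) =
          (y - L • gradient V y) + √L • X := by
        rw [smul_add, smul_sub, hy, smul_smul, smul_smul, smul_smul, hre]
        congr 2
        rw [← hε2]
        congr 1
        ring
      rw [e1, smul_sub]
      congr 1
      rw [fo, ul_grad_eq hL, smul_smul, mul_inv_cancel₀ hρ.ne', one_smul]
    unfold bias
    simp_rw [h1]
    rw [integral_smul, integral_sub (bb_int hV _ _) (integrable_const _)]
    simp
  have h2 := bias_le (ul_kpot hV hL) hε0 hε1 (ρ⁻¹ • y)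
  rw [hbias, hg, hy, norm_smul, norm_smul, Real.norm_of_nonneg hρ.le] at h2
  set A := (∫ z, gradient V ((y - L • gradient V y) + √L • z) ∂(stdGaussian (E d))) with hA
  set g := ‖gradient V y‖ with hgd
  have hg0 : 0 ≤ g := norm_nonneg _
  have hεL : ε ≤ √L := by
    rw [← hre]
    nlinarith
  have hsL : √L ^ 2 = L := Real.sq_sqrt hL.le
  have hsL0 := Real.sqrt_nonneg L
  have e3 : ε ^ 3 ≤ L * √L := by
    calc ε ^ 3 ≤ √L ^ 3 := pow_le_pow_left₀ hε0.le hεL 3
      _ = L * √L := by rw [pow_succ, hsL]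
  have e4 : ε ^ 4 ≤ L ^ 2 := by
    calc ε ^ 4 ≤ √L ^ 4 := pow_le_pow_left₀ hε0.le hεL 4
      _ = L ^ 2 := by rw [show (4 : ℕ) = 2 * 2 by norm_num, pow_mul, hsL]
  have h3 : ‖A - fo V L y‖ ≤ 9 * (L * √L * √d + L ^ 2 * g) := by
    have h4 : ρ * ‖A - fo V L y‖ ≤ ρ * (9 * (L * √L * √d + L ^ 2 * g)) := by
      refine h2.trans ?_
      have h5 : 0 ≤ √(d : ℝ) := Real.sqrt_nonneg _
      calc 9 * (ε ^ 3 * √d + ε ^ 4 * (ρ * g)) ≤ 9 * (ρ * (L * √L * √d) + L ^ 2 * (ρ * g)) := by
            have h6 : ε ^ 3 * √d ≤ ρ * (L * √L * √d) := by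
              calc ε ^ 3 * √d ≤ (L * √L) * √d := mul_le_mul_of_nonneg_right e3 h5
                _ ≤ ρ * (L * √L * √d) := by
                    have : 0 ≤ L * √L * √d := by positivity
                    nlinarith
            have h7 : ε ^ 4 * (ρ * g) ≤ L ^ 2 * (ρ * g) :=
              mul_le_mul_of_nonneg_right e4 (by positivity)
            linarith
        _ = _ := by ring
    exact le_of_mul_le_mul_left h4 hρ
  have h4 : ‖(∫ z, gradient V (y + √L • z) ∂(stdGaussian (E d))) - A‖ ≤ 2 * (L * g) := by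
    rw [hA, ← integral_sub (bb_int hV _ _) (bb_int hV _ _)]
    refine (norm_integral_le_of_norm_le_const (C := 2 * (L * g))
      (Filter.Eventually.of_forall fun z => ?_)).trans (by simp)
    refine (bb_lip hV _ _).trans (le_of_eq ?_)
    have : y + √L • z - (y - L • gradient V y + √L • z) = L • gradient V y := by abel
    rw [this, norm_smul, Real.norm_of_nonneg hL.le]
  have h5 : ‖(∫ z, gradient V (y + √L • z) ∂(stdGaussian (E d))) - fo V L y‖ ≤
      2 * (L * g) + 9 * (L * √L * √d + L ^ 2 * g) := by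
    have := norm_add_le ((∫ z, gradient V (y + √L • z) ∂(stdGaussian (E d))) - A) (A - fo V L y)
    rw [sub_add_sub_cancel] at this
    linarith
  refine h5.trans ?_
  have h6 : L ^ 2 * g ≤ (1 / 4) * (L * g) := by
    have : 0 ≤ L * g := by positivity
    nlinarith
  nlinarith [mul_nonneg hL.le hg0]

theorem bb_grad (hV : Pot d V) (y : E d) : ‖gradient V y‖ ≤ 2 * ‖y‖ := by
  have := bb_lip hV y 0
  rwa [hV.grad_zero, sub_zero, sub_zero] at this

end P347Z
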