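import Vale.Agent.P347Z.BaseA
import Vale.Agent.P347Q.GaussDens
import Vale.Agent.P347S.Appell

/-!
P347Z / BaseC (helper26): W1 absorption of a centred Lipschitz function of a Gaussian vector.
-/

open MeasureTheory ProbabilityTheory Function
open scoped ENNReal BigOperators ContDiff

namespace P347Z

open P347Q P347S

variable {d : ℕ}

theorem bc_lpot (d : ℕ) : LPot 1 (fun v : E d => ‖v‖ ^ 2 / 2) := by
  have h := spot_sq d
  refine ⟨h.temp.1.of_le ENat.LEInfty.out, fun x w => ?_⟩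
  rw [one_mul]
  exact h.lower x w

theorem bc_poincare {f : E d → ℝ} (hf : HasTemperateGrowth f) :
    ∫ x, (f x - ∫ y, f y ∂(stdGaussian (E d))) ^ 2 ∂(stdGaussian (E d)) ≤
      ∫ x, ‖fderiv ℝ f x‖ ^ 2 ∂(stdGaussian (E d)) := by
  have h := (bc_lpot d).poincare one_pos (hf.1.of_le ENat.LEInfty.out) (P347S.App.pgr_temp hf)
    (P347S.App.pgr_fderiv hf)
  rw [← stdGaussian_eq_gibbs, inv_one, one_mul] at h
  exact h

theorem bc_var_lip {f : E d → ℝ} {L : ℝ} (hf : ∀ x y, |f x - f y| ≤ L * ‖x - y‖) :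
    ∫ x, (f x - ∫ y, f y ∂(stdGaussian (E d))) ^ 2 ∂(stdGaussian (E d)) ≤ L ^ 2 := by
  have h := (bc_lpot d).var_lip one_pos hf
  rw [← stdGaussian_eq_gibbs, inv_one, one_mul] at h
  exact h

theorem bc_temp_int {f : E d → ℝ} (hf : HasTemperateGrowth f) : Integrable f (stdGaussian (E d)) :=
  (HasTemperateGrowth.polyB hf).int

/-- the smooth case -/
theorem bc_smooth {ψ : E d → ℝ} (hψ : HasTemperateGrowth ψ) {K : ℝ} (hK : 0 < K)
    (h1 : ∀ x, ‖fderiv ℝ ψ x‖ ≤ 1)
    (h2 : ∀ x, ∑ i, ‖fderiv ℝ (fun y => fderiv ℝ ψ y (bas d i)) x‖ ^ 2 ≤ K ^ 2)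
    {F : E d → E d} (hF : HasTemperateGrowth F) {L : ℝ} (hL : 0 ≤ L)
    (hFL : ∀ x y, ‖F x - F y‖ ≤ L * ‖x - y‖) :
    |∫ ξ, ψ (F ξ) ∂(stdGaussian (E d)) - ψ (∫ ξ, F ξ ∂(stdGaussian (E d)))| ≤ K * L ^ 2 * √d := by
  rcases Nat.eq_zero_or_pos d with hd | hd
  · subst hd
    have : ∀ ξ : E 0, ψ (F ξ) = ψ 0 := fun ξ => by rw [Subsingleton.elim (F ξ) 0]
    rw [integral_congr_ae (Filter.Eventually.of_forall this),
      Subsingleton.elim (∫ ξ, F ξ ∂(stdGaussian (E 0))) 0]
    simp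
  have hd1 : (0 : ℝ) < √d := Real.sqrt_pos.2 (by exact_mod_cast hd)
  set γ := stdGaussian (E d) with hγ
  have hFi : Integrable F γ := integrable_of_lip hF.1.continuous hFL
  set m := ∫ ξ, F ξ ∂γ with hm
  -- centred function
  set Ft : E d → E d := fun ξ => F ξ - m with hFt
  have hFtt : HasTemperateGrowth Ft := hF.sub (HasTemperateGrowth.const m)
  have hFti : Integrable Ft γ := hFi.sub (integrable_const _)
  have hFt0 : ∫ ξ, Ft ξ ∂γ = 0 := by
    rw [hFt]
    simp only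
    rw [integral_sub hFi (integrable_const _)]
    simp [hm]
  have hcoord : ∀ i, HasTemperateGrowth (fun ξ => Ft ξ i) := by
    intro i
    exact ((EuclideanSpace.proj i : E d →L[ℝ] ℝ).hasTemperateGrowth).comp hFtt
  have hc0 : ∀ i, ∫ ξ, Ft ξ i ∂γ = 0 := by
    intro i
    have := (EuclideanSpace.proj i : E d →L[ℝ] ℝ).integral_comp_comm hFti
    rw [hFt0] at this
    simpa using this
  have hcl : ∀ i, ∀ x y, |Ft x i - Ft y i| ≤ L * ‖x - y‖ := by
    intro i x y
    have h3 : |(Ft x - Ft y) i| ≤ ‖Ft x - Ft y‖ := by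
      rw [← Real.norm_eq_abs]
      exact PiLp.norm_apply_le (Ft x - Ft y) i
    have h4 : Ft x - Ft y = F x - F y := by simp [hFt]
    rw [h4] at h3
    have h5 : (F x - F y) i = Ft x i - Ft y i := by simp [hFt]
    rw [h5] at h3
    exact h3.trans (hFL x y)
  have hvF : ∀ i, ∫ ξ, (Ft ξ i) ^ 2 ∂γ ≤ L ^ 2 := by
    intro i
    have := bc_var_lip (hcl i)
    rw [hc0 i] at this
    simpa using this
  -- derivative in u
  let g : ℝ → ℝ := fun u => ∫ ξ, ψ (m + u • Ft ξ) ∂γ
  let g' : ℝ → ℝ := fun u => ∫ ξ, fderiv ℝ ψ (m + u • Ft ξ) (Ft ξ) ∂γ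
  have hψd : Differentiable ℝ ψ := temp_diff hψ
  have hline : ∀ u : ℝ, HasTemperateGrowth (fun ξ => m + u • Ft ξ) := fun u =>
    (HasTemperateGrowth.const m).add (by
      have := (u • ContinuousLinearMap.id ℝ (E d)).hasTemperateGrowth.comp hFtt
      exact this)
  have hgd : ∀ u, HasDerivAt g (g' u) u := by
    intro u
    refine (hasDerivAt_integral_of_dominated_loc_of_deriv_le (μ := γ)
      (F := fun u ξ => ψ (m + u • Ft ξ)) (F' := fun u ξ => fderiv ℝ ψ (m + u • Ft ξ) (Ft ξ))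
      (bound := fun ξ => ‖Ft ξ‖) (x₀ := u) (s := Set.univ) Filter.univ_mem ?_ ?_ ?_ ?_ ?_ ?_).2
    · exact Filter.Eventually.of_forall fun v =>
        (hψ.1.continuous.comp (hline v).1.continuous).aestronglyMeasurable
    · exact bc_temp_int (hψ.comp (hline u))
    · refine Continuous.aestronglyMeasurable ?_
      exact ((P347Q.temp_fderiv hψ).1.continuous.comp (hline u).1.continuous).clm_apply
        hFtt.1.continuous
    · refine Filter.Eventually.of_forall fun ξ v _ => ?_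
      refine (ContinuousLinearMap.le_opNorm _ _).trans ?_
      exact mul_le_of_le_one_left (norm_nonneg _) (h1 _)
    · exact hFti.norm
    · refine Filter.Eventually.of_forall fun ξ v _ => ?_
      have h3 : HasDerivAt (fun u : ℝ => m + u • Ft ξ) (Ft ξ) v := by
        simpa using ((hasDerivAt_id v).smul_const (Ft ξ)).const_add m
      exact (hψd _).hasFDerivAt.comp_hasDerivAt v h3
  -- bound for the derivative
  have hbound : ∀ u ∈ Set.Icc (0 : ℝ) 1, |g' u| ≤ K * L ^ 2 * √d := by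
    intro u hu
    let G : Fin d → E d → ℝ := fun i ξ => fderiv ℝ ψ (m + u • Ft ξ) (bas d i)
    have hGt : ∀ i, HasTemperateGrowth (G i) := fun i => (temp_dir hψ (bas d i)).comp (hline u)
    have hGi : ∀ i, Integrable (G i) γ := fun i => bc_temp_int (hGt i)
    set c : Fin d → ℝ := fun i => ∫ ξ, G i ξ ∂γ with hc
    have hGF : ∀ i, Integrable (fun ξ => (G i ξ - c i) * Ft ξ i) γ := fun i =>
      bc_temp_int (((hGt i).sub (HasTemperateGrowth.const _)).mul (hcoord i))
    have hGF' : ∀ i, Integrable (fun ξ => G i ξ * Ft ξ i) γ := fun i =>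
      bc_temp_int ((hGt i).mul (hcoord i))
    have hG2 : ∀ i, Integrable (fun ξ => (G i ξ - c i) ^ 2) γ := fun i => by
      have := bc_temp_int (f := fun ξ => (G i ξ - c i) * (G i ξ - c i))
        (((hGt i).sub (HasTemperateGrowth.const (c i))).mul
        ((hGt i).sub (HasTemperateGrowth.const (c i))))
      refine this.congr (Filter.Eventually.of_forall fun ξ => ?_)
      simp only
      ring
    have hF2 : ∀ i, Integrable (fun ξ => (Ft ξ i) ^ 2) γ := fun i => by
      have := bc_temp_int (f := fun ξ => Ft ξ i * Ft ξ i) ((hcoord i).mul (hcoord i))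
      refine this.congr (Filter.Eventually.of_forall fun ξ => ?_)
      simp only
      ring
    have e1 : g' u = ∑ i, ∫ ξ, (G i ξ - c i) * Ft ξ i ∂γ := by
      have e2 : ∀ ξ, fderiv ℝ ψ (m + u • Ft ξ) (Ft ξ) = ∑ i, G i ξ * Ft ξ i := by
        intro ξ
        have h0 := congrArg (fderiv ℝ ψ (m + u • Ft ξ)) (sum_bas (Ft ξ)).symm
        rw [h0, map_sum]
        refine Finset.sum_congr rfl fun i _ => ?_
        rw [map_smul, smul_eq_mul, mul_comm]
      have e3 : ∀ i, ∫ ξ, (G i ξ - c i) * Ft ξ i ∂γ = ∫ ξ, G i ξ * Ft ξ i ∂γ := by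
        intro i
        have e4 : ∀ ξ, (G i ξ - c i) * Ft ξ i = G i ξ * Ft ξ i - c i * Ft ξ i := fun ξ => by ring
        simp_rw [e4]
        rw [integral_sub (hGF' i)
          ((bc_temp_int (hcoord i)).const_mul _), integral_const_mul, hc0 i, mul_zero, sub_zero]
      simp only [g', e2]
      rw [integral_finsetSum _ (fun i _ => hGF' i)]
      exact Finset.sum_congr rfl fun i _ => (e3 i).symm
    -- variance of G
    have hvG : ∑ i, ∫ ξ, (G i ξ - c i) ^ 2 ∂γ ≤ K ^ 2 * L ^ 2 := by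
      have e5 : ∀ i ξ, ‖fderiv ℝ (G i) ξ‖ ≤
          ‖fderiv ℝ (fun y => fderiv ℝ ψ y (bas d i)) (m + u • Ft ξ)‖ * L := by
        intro i ξ
        have h3 : HasFDerivAt (fun ξ => m + u • Ft ξ) (fderiv ℝ (fun ξ => m + u • Ft ξ) ξ) ξ :=
          (temp_diff (hline u) ξ).hasFDerivAt
        have h4 : HasFDerivAt (G i) _ ξ :=
          HasFDerivAt.comp (g := fun y => fderiv ℝ ψ y (bas d i)) (f := fun ξ => m + u • Ft ξ) ξ
            ((temp_diff (temp_dir hψ (bas d i)) (m + u • Ft ξ)).hasFDerivAt) h3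
        rw [h4.fderiv]
        refine (ContinuousLinearMap.opNorm_comp_le _ _).trans ?_
        refine mul_le_mul_of_nonneg_left ?_ (norm_nonneg _)
        have h5 : LipschitzWith (Real.toNNReal L) (fun ξ => m + u • Ft ξ) :=
          LipschitzWith.of_dist_le_mul fun x y => by
            rw [dist_eq_norm, dist_eq_norm, Real.coe_toNNReal _ hL, add_sub_add_left_eq_sub,
              ← smul_sub, norm_smul, Real.norm_of_nonneg hu.1]
            have h6 : Ft x - Ft y = F x - F y := by simp [hFt]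
            rw [h6]
            calc u * ‖F x - F y‖ ≤ 1 * ‖F x - F y‖ :=
                  mul_le_mul_of_nonneg_right hu.2 (norm_nonneg _)
              _ ≤ L * ‖x - y‖ := by rw [one_mul]; exact hFL x y
        have h6 := norm_fderiv_le_of_lipschitz ℝ h5 (x₀ := ξ)
        rwa [Real.coe_toNNReal _ hL] at h6
      have hDi : ∀ i, Integrable (fun ξ => ‖fderiv ℝ (G i) ξ‖ ^ 2) γ := by
        intro i
        have h3 := P347Q.temp_fderiv (hGt i)
        obtain ⟨k, C, hC, hb⟩ := sr_tg_bound h3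
        refine PolyB.int ⟨(h3.1.continuous.norm.pow 2), 2 * k, C ^ 2, fun x => ?_⟩
        rw [abs_of_nonneg (by positivity), mul_comm 2 k, pow_mul, ← mul_pow]
        exact pow_le_pow_left₀ (norm_nonneg _) (hb x) 2
      calc ∑ i, ∫ ξ, (G i ξ - c i) ^ 2 ∂γ ≤ ∑ i, ∫ ξ, ‖fderiv ℝ (G i) ξ‖ ^ 2 ∂γ :=
            Finset.sum_le_sum fun i _ => bc_poincare (hGt i)
        _ = ∫ ξ, ∑ i, ‖fderiv ℝ (G i) ξ‖ ^ 2 ∂γ := (integral_finsetSum _ (fun i _ => hDi i)).symm
        _ ≤ ∫ _ξ, K ^ 2 * L ^ 2 ∂γ := by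
            refine integral_mono (integrable_finsetSum _ (fun i _ => hDi i)) (integrable_const _)
              (fun ξ => ?_)
            simp only
            calc ∑ i, ‖fderiv ℝ (G i) ξ‖ ^ 2
                ≤ ∑ i, ‖fderiv ℝ (fun y => fderiv ℝ ψ y (bas d i)) (m + u • Ft ξ)‖ ^ 2 * L ^ 2 := by
                  refine Finset.sum_le_sum fun i _ => ?_
                  rw [← mul_pow]
                  exact pow_le_pow_left₀ (norm_nonneg _) (e5 i ξ) 2
              _ = (∑ i, ‖fderiv ℝ (fun y => fderiv ℝ ψ y (bas d i)) (m + u • Ft ξ)‖ ^ 2) * L ^ 2 := by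
                  rw [Finset.sum_mul]
              _ ≤ K ^ 2 * L ^ 2 := mul_le_mul_of_nonneg_right (h2 _) (by positivity)
        _ = K ^ 2 * L ^ 2 := by simp
    -- weighted Cauchy-Schwarz
    set θ : ℝ := √d / K with hθ
    have hθ0 : 0 < θ := by positivity
    have e6 : ∀ i, |∫ ξ, (G i ξ - c i) * Ft ξ i ∂γ| ≤
        (θ / 2) * ∫ ξ, (G i ξ - c i) ^ 2 ∂γ + (1 / (2 * θ)) * ∫ ξ, (Ft ξ i) ^ 2 ∂γ := by
      intro i
      rw [← integral_const_mul, ← integral_const_mul,
        ← integral_add ((hG2 i).const_mul _) ((hF2 i).const_mul _)]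
      refine abs_integral_le_integral_abs.trans ?_
      refine integral_mono (hGF i).abs (((hG2 i).const_mul _).add ((hF2 i).const_mul _)) fun ξ => ?_
      simp only [Pi.add_apply]
      generalize G i ξ - c i = a
      generalize Ft ξ i = b
      have h3 : 0 ≤ (θ * |a| - |b|) ^ 2 / (2 * θ) := by positivity
      have h4 : (θ * |a| - |b|) ^ 2 / (2 * θ) = θ / 2 * a ^ 2 + 1 / (2 * θ) * b ^ 2 - |a| * |b| := by
        have ha := sq_abs a
        have hb := sq_abs b
        field_simp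
        rw [← ha, ← hb]
        ring
      rw [abs_mul]
      linarith
    rw [e1]
    calc |∑ i, ∫ ξ, (G i ξ - c i) * Ft ξ i ∂γ|
        ≤ ∑ i, |∫ ξ, (G i ξ - c i) * Ft ξ i ∂γ| := Finset.abs_sum_le_sum_abs _ _
      _ ≤ ∑ i, ((θ / 2) * ∫ ξ, (G i ξ - c i) ^ 2 ∂γ + (1 / (2 * θ)) * ∫ ξ, (Ft ξ i) ^ 2 ∂γ) :=
          Finset.sum_le_sum fun i _ => e6 i
      _ = (θ / 2) * ∑ i, ∫ ξ, (G i ξ - c i) ^ 2 ∂γ + (1 / (2 * θ)) * ∑ i, ∫ ξ, (Ft ξ i) ^ 2 ∂γ := by
          rw [Finset.sum_add_distrib, Finset.mul_sum, Finset.mul_sum]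
      _ ≤ (θ / 2) * (K ^ 2 * L ^ 2) + (1 / (2 * θ)) * (d * L ^ 2) := by
          have h3 : ∑ i : Fin d, ∫ ξ, (Ft ξ i) ^ 2 ∂γ ≤ d * L ^ 2 := by
            calc ∑ i : Fin d, ∫ ξ, (Ft ξ i) ^ 2 ∂γ ≤ ∑ _i : Fin d, L ^ 2 :=
                  Finset.sum_le_sum fun i _ => hvF i
              _ = d * L ^ 2 := by simp
          exact add_le_add (mul_le_mul_of_nonneg_left hvG (by positivity))
            (mul_le_mul_of_nonneg_left h3 (by positivity))
      _ = K * L ^ 2 * √d := by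
          have h3 : (d : ℝ) = √d ^ 2 := (Real.sq_sqrt (Nat.cast_nonneg d)).symm
          rw [hθ]
          nth_rewrite 3 [h3]
          field_simp
          ring
  have hfin : ‖g 1 - g 0‖ ≤ K * L ^ 2 * √d * ‖(1 : ℝ) - 0‖ :=
    (convex_Icc (0 : ℝ) 1).norm_image_sub_le_of_norm_hasDerivWithin_le
      (fun u hu => (hgd u).hasDerivWithinAt) (fun u hu => by
        rw [Real.norm_eq_abs]
        exact hbound u hu) (Set.left_mem_Icc.2 zero_le_one) (Set.right_mem_Icc.2 zero_le_one)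
  have hg1 : g 1 = ∫ ξ, ψ (F ξ) ∂γ := by
    simp [g, hFt]
  have hg0 : g 0 = ψ m := by
    simp [g]
  rw [hg1, hg0] at hfin
  simpa using hfin

/-- the general case, with the smooth test function `ψ` -/
theorem bc_lipF {ψ : E d → ℝ} (hψ : HasTemperateGrowth ψ) {K : ℝ} (hK : 0 < K)
    (h0 : ∀ x y, |ψ x - ψ y| ≤ ‖x - y‖)
    (h2 : ∀ x, ∑ i, ‖fderiv ℝ (fun y => fderiv ℝ ψ y (bas d i)) x‖ ^ 2 ≤ K ^ 2)
    {F : E d → E d} (hFc : Continuous F) {L : ℝ} (hL : 0 ≤ L)
    (hFL : ∀ x y, ‖F x - F y‖ ≤ L * ‖x - y‖) :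
    |∫ ξ, ψ (F ξ) ∂(stdGaussian (E d)) - ψ (∫ ξ, F ξ ∂(stdGaussian (E d)))| ≤ K * L ^ 2 * √d := by
  set γ := stdGaussian (E d) with hγ
  have hFi : Integrable F γ := integrable_of_lip hFc hFL
  -- mollification
  have key : ∀ δ : ℝ, 0 < δ →
      |∫ ξ, ψ (F ξ) ∂γ - ψ (∫ ξ, F ξ ∂γ)| ≤ K * L ^ 2 * √d + 2 * (L * δ * √d) := by
    intro δ hδ
    have hi : ∀ x, Integrable (fun z => F (x + δ • z)) γ := by
      intro x
      refine integrable_of_lip (L := L * δ) (hFc.comp (by fun_prop)) fun a b => ?_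
      refine (hFL _ _).trans (le_of_eq ?_)
      rw [add_sub_add_left_eq_sub, ← smul_sub, norm_smul, Real.norm_of_nonneg hδ.le, mul_assoc]
    set Fd : E d → E d := fun x => ∫ z, F (x + δ • z) ∂γ with hFd
    have hcoord : ∀ i x, Fd x i = smooth δ (fun y => F y i) x := by
      intro i x
      have := (EuclideanSpace.proj i : E d →L[ℝ] ℝ).integral_comp_comm (hi x)
      exact this.symm
    have hpol : ∀ i, PolyB (fun y => F y i) := by
      intro i
      refine ⟨(EuclideanSpace.proj i : E d →L[ℝ] ℝ).continuous.comp hFc, 1, ‖F 0‖ + L, fun x => ?_⟩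
      have h3 : |(F x) i| ≤ ‖F x‖ := by
        rw [← Real.norm_eq_abs]
        exact PiLp.norm_apply_le (F x) i
      have h4 : ‖F x‖ ≤ ‖F x - F 0‖ + ‖F 0‖ := by
        have := norm_add_le (F x - F 0) (F 0)
        rwa [sub_add_cancel] at this
      have h5 := hFL x 0
      rw [sub_zero] at h5
      have h6 := norm_nonneg x
      have h7 := norm_nonneg (F 0)
      rw [pow_one]
      nlinarith [mul_nonneg hL h6, mul_nonneg h7 h6]
    have hFdt : HasTemperateGrowth Fd := by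
      have h3 : Fd = fun x => ∑ i, smooth δ (fun y => F y i) x • bas d i := by
        funext x
        conv_lhs => rw [← sum_bas (Fd x)]
        refine Finset.sum_congr rfl fun i _ => ?_
        rw [hcoord]
      rw [h3]
      refine HasTemperateGrowth.sum fun i _ => ?_
      exact (smooth_temp (hpol i) hδ).smul (HasTemperateGrowth.const _)
    have hFdL : ∀ x y, ‖Fd x - Fd y‖ ≤ L * ‖x - y‖ := by
      intro x y
      rw [hFd]
      simp only
      rw [← integral_sub (hi x) (hi y)]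
      refine (norm_integral_le_of_norm_le_const (C := L * ‖x - y‖)
        (Filter.Eventually.of_forall fun z => ?_)).trans (by simp)
      refine (hFL _ _).trans (le_of_eq ?_)
      rw [add_sub_add_right_eq_sub]
    have hclose : ∀ x, ‖F x - Fd x‖ ≤ L * δ * √d := by
      intro x
      have h3 : F x = ∫ _z, F x ∂γ := by simp
      rw [hFd]
      simp only
      nth_rewrite 1 [h3]
      rw [← integral_sub (integrable_const _) (hi x)]
      refine (norm_integral_le_integral_norm _).trans ?_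
      calc ∫ z, ‖F x - F (x + δ • z)‖ ∂γ ≤ ∫ z, L * δ * ‖z‖ ∂γ := by
            refine integral_mono ((integrable_const _).sub (hi x)).norm
              (((IsGaussian.integrable_id (μ := stdGaussian (E d))).norm).const_mul _) fun z => ?_
            refine (hFL _ _).trans (le_of_eq ?_)
            rw [sub_add_cancel_left, norm_neg, norm_smul, Real.norm_of_nonneg hδ.le, mul_assoc]
        _ = L * δ * ∫ z, ‖z‖ ∂γ := integral_const_mul _ _
        _ ≤ L * δ * √d := mul_le_mul_of_nonneg_left (gauss_norm d) (by positivity)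
    have hFdi : Integrable Fd γ := integrable_of_lip hFdt.1.continuous hFdL
    have hs := bc_smooth hψ hK (ba_fd_norm h0) h2 hFdt hL hFdL
    have hψi : ∀ {G : E d → E d}, Continuous G → (∀ x y, ‖G x - G y‖ ≤ L * ‖x - y‖) →
        Integrable (fun ξ => ψ (G ξ)) γ := by
      intro G hG hGL
      have h3 := integrable_of_lip hG hGL
      refine (h3.norm.add (integrable_const (|ψ 0|))).mono'
        (hψ.1.continuous.comp hG).aestronglyMeasurable (Filter.Eventually.of_forall fun ξ => ?_)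
      have h4 := h0 (G ξ) 0
      rw [sub_zero] at h4
      have h5 : |ψ (G ξ)| ≤ |ψ (G ξ) - ψ 0| + |ψ 0| := by
        have := abs_add_le (ψ (G ξ) - ψ 0) (ψ 0)
        rwa [sub_add_cancel] at this
      rw [Real.norm_eq_abs]
      simp only [Pi.add_apply]
      linarith
    have e1 : |∫ ξ, ψ (F ξ) ∂γ - ∫ ξ, ψ (Fd ξ) ∂γ| ≤ L * δ * √d := by
      rw [← integral_sub (hψi hFc hFL) (hψi hFdt.1.continuous hFdL), ← Real.norm_eq_abs]
      refine (norm_integral_le_of_norm_le_const (C := L * δ * √d)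
        (Filter.Eventually.of_forall fun z => ?_)).trans (by simp)
      rw [Real.norm_eq_abs]
      exact (h0 _ _).trans (hclose z)
    have e2 : |ψ (∫ ξ, Fd ξ ∂γ) - ψ (∫ ξ, F ξ ∂γ)| ≤ L * δ * √d := by
      refine (h0 _ _).trans ?_
      rw [← integral_sub hFdi hFi]
      refine (norm_integral_le_of_norm_le_const (C := L * δ * √d)
        (Filter.Eventually.of_forall fun z => ?_)).trans (by simp)
      rw [norm_sub_rev]
      exact hclose z
    have e3 : ∫ ξ, ψ (F ξ) ∂γ - ψ (∫ ξ, F ξ ∂γ) =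
        (∫ ξ, ψ (F ξ) ∂γ - ∫ ξ, ψ (Fd ξ) ∂γ) + ((∫ ξ, ψ (Fd ξ) ∂γ - ψ (∫ ξ, Fd ξ ∂γ)) +
          (ψ (∫ ξ, Fd ξ ∂γ) - ψ (∫ ξ, F ξ ∂γ))) := by ring
    rw [e3]
    refine (abs_add_le _ _).trans ?_
    have := abs_add_le (∫ ξ, ψ (Fd ξ) ∂γ - ψ (∫ ξ, Fd ξ ∂γ)) (ψ (∫ ξ, Fd ξ ∂γ) - ψ (∫ ξ, F ξ ∂γ))
    linarith
  have h3 : Filter.Tendsto (fun δ : ℝ => K * L ^ 2 * √d + 2 * (L * δ * √d))
      (nhdsWithin 0 (Set.Ioi 0)) (nhds (K * L ^ 2 * √d + 2 * (L * 0 * √d))) :=
    ((by fun_prop : Continuous fun δ : ℝ => K * L ^ 2 * √d + 2 * (L * δ * √d)).tendsto 0).mono_left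
      nhdsWithin_le_nhds
  have h4 := ge_of_tendsto h3 (Filter.eventually_of_mem self_mem_nhdsWithin fun δ hδ => key δ hδ)
  simpa using h4

theorem w1_absorb' {F : E d → E d} (hFc : Continuous F) {L τ : ℝ} (hL : 0 ≤ L)
    (hFL : ∀ x y, ‖F x - F y‖ ≤ L * ‖x - y‖) (hτ : 0 < τ) :
    W1le (((stdGaussian (E d)).prod (stdGaussian (E d))).map (fun p => τ • p.1 + F p.2))
      (gau (∫ g, F g ∂(stdGaussian (E d))) τ) (ENNReal.ofReal (L ^ 2 * √d / τ)) := by
  intro φ hφ hb
  obtain ⟨C, hC⟩ := hb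
  have hφ' : ∀ x y, |φ x - φ y| ≤ ‖x - y‖ := fun x y => by
    have := hφ.dist_le_mul x y
    rwa [NNReal.coe_one, one_mul, Real.dist_eq, dist_eq_norm] at this
  have hp := ba_polyB hφ'
  have hψ : HasTemperateGrowth (smooth τ φ) := smooth_temp hp hτ
  have h1 := bc_lipF hψ (K := 1 / τ) (by positivity) (ba_lip hφ' τ) (ba_hs hφ' hτ) hFc hL hFL
  have e1 : ∫ x, φ x ∂(((stdGaussian (E d)).prod (stdGaussian (E d))).map
      (fun p => τ • p.1 + F p.2)) = ∫ ξ, smooth τ φ (F ξ) ∂(stdGaussian (E d)) := by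
    rw [integral_map (by fun_prop) hφ.continuous.aestronglyMeasurable]
    have hi : Integrable (fun p : E d × E d => φ (τ • p.1 + F p.2))
        ((stdGaussian (E d)).prod (stdGaussian (E d))) :=
      Integrable.of_bound (hφ.continuous.comp (by fun_prop)).aestronglyMeasurable C
        (Filter.Eventually.of_forall fun p => hC _)
    rw [integral_prod_symm _ hi]
    refine integral_congr_ae (Filter.Eventually.of_forall fun ξ => ?_)
    unfold smooth
    simp only [add_comm]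
  have e2 : ∫ x, φ x ∂(gau (∫ g, F g ∂(stdGaussian (E d))) τ) =
      smooth τ φ (∫ g, F g ∂(stdGaussian (E d))) := by
    unfold gau
    rw [integral_map (by fun_prop) hφ.continuous.aestronglyMeasurable]
    rfl
  rw [e1, e2]
  refine ENNReal.ofReal_le_ofReal (h1.trans (le_of_eq ?_))
  ring

end P347Z
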