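import Vale.Agent.P347S.Fin6
import Vale.Agent.P347Z.CompX

/-!
P347Z / Chain: passes between noise levels, composition, iteration, and the end of the proof of
`gamma_* = 0` from passes.
-/

open MeasureTheory ProbabilityTheory Function

namespace P347Z

open P347Q P347S

variable {d : ℕ}

/-- `μ` and `ν` are `e`-close on bounded `1`-Lipschitz test functions -/
def BLle (μ ν : Measure (E d)) (e : ℝ) : Prop :=
  ∀ (φ : E d → ℝ) (M : ℝ), (∀ x, |φ x| ≤ M) → (∀ x y, |φ x - φ y| ≤ ‖x - y‖) →
    |∫ x, φ x ∂μ - ∫ x, φ x ∂ν| ≤ e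

/-- a randomised map computed with `q` queries that maps `cv V s` to `cv V s'` up to `e` and is
`ρ`-Lipschitz for every seed -/
structure PassM (d q : ℕ) (s s' ρ e : ℝ) where
  Ω : Type
  mΩ : MeasurableSpace Ω
  P : Measure Ω
  prob : IsProbabilityMeasure P
  S : (E d → ℝ) → Ω × E d → E d
  comp : Comp q S
  lip : ∀ V, Pot d V → ∀ ω x y, ‖S V (ω, x) - S V (ω, y)‖ ≤ ρ * ‖x - y‖
  acc : ∀ V, Pot d V → BLle ((P.prod (cv V s)).map (S V)) (cv V s') e

attribute [instance] PassM.mΩ PassM.prob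

/-- existence of a pass -/
def Pass (d q : ℕ) (s s' ρ e : ℝ) : Prop := Nonempty (PassM d q s s' ρ e)

theorem BLle.mono {μ ν : Measure (E d)} {e e' : ℝ} (h : BLle μ ν e) (he : e ≤ e') : BLle μ ν e' :=
  fun φ M h1 h2 => (h φ M h1 h2).trans he

theorem BLle.trans {μ ν κ : Measure (E d)} {e e' : ℝ} (h : BLle μ ν e) (h' : BLle ν κ e') :
    BLle μ κ (e + e') := by
  intro φ M h1 h2
  exact (abs_sub_le _ _ _).trans (add_le_add (h φ M h1 h2) (h' φ M h1 h2))

theorem BLle.scale {μ ν : Measure (E d)} [IsProbabilityMeasure μ] [IsProbabilityMeasure ν]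
    {e : ℝ} (h : BLle μ ν e) {ρ : ℝ} (hρ : 0 ≤ ρ)
    {φ : E d → ℝ} {M : ℝ} (h1 : ∀ x, |φ x| ≤ M) (h2 : ∀ x y, |φ x - φ y| ≤ ρ * ‖x - y‖) :
    |∫ x, φ x ∂μ - ∫ x, φ x ∂ν| ≤ ρ * e := by
  rcases hρ.eq_or_lt with h0 | h0
  · subst h0
    have hc : φ = fun _ => φ 0 := by
      funext x
      have := h2 x 0
      simp only [zero_mul] at this
      have := abs_nonpos_iff.1 this
      linarith
    rw [hc]
    simp
  · have := h (fun x => ρ⁻¹ * φ x) (ρ⁻¹ * M) (fun x => by
      rw [abs_mul, abs_of_pos (inv_pos.2 h0)]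
      exact mul_le_mul_of_nonneg_left (h1 x) (inv_pos.2 h0).le) (fun x y => by
      rw [← mul_sub, abs_mul, abs_of_pos (inv_pos.2 h0)]
      calc ρ⁻¹ * |φ x - φ y| ≤ ρ⁻¹ * (ρ * ‖x - y‖) :=
            mul_le_mul_of_nonneg_left (h2 x y) (inv_pos.2 h0).le
        _ = ‖x - y‖ := by field_simp)
    rw [integral_const_mul, integral_const_mul, ← mul_sub, abs_mul, abs_of_pos (inv_pos.2 h0)] at this
    rwa [inv_mul_le_iff₀ h0] at this

theorem lip_meas {φ : E d → ℝ} {ρ : ℝ} (h2 : ∀ x y, |φ x - φ y| ≤ ρ * ‖x - y‖) :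
    Continuous φ := by
  have : LipschitzWith (Real.toNNReal ρ) φ := by
    refine LipschitzWith.of_dist_le_mul fun x y => ?_
    rw [Real.dist_eq, dist_eq_norm]
    refine (h2 x y).trans ?_
    gcongr
    exact Real.le_coe_toNNReal ρ
  exact this.continuous

theorem lip_meas1 {φ : E d → ℝ} (h2 : ∀ x y, |φ x - φ y| ≤ ‖x - y‖) : Continuous φ :=
  lip_meas (ρ := 1) (fun x y => by simpa using h2 x y)

theorem int_bdd {X : Type*} [MeasurableSpace X] (μ : Measure X) [IsFiniteMeasure μ] {φ : X → ℝ}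
    (hm : Measurable φ) {M : ℝ} (h : ∀ x, |φ x| ≤ M) : Integrable φ μ :=
  (integrable_const M).mono' hm.aestronglyMeasurable (Filter.Eventually.of_forall fun x => by
    simpa using h x)

/-- law of a randomised Lipschitz map applied to two close laws -/
theorem BLle.push {Ω : Type*} [MeasurableSpace Ω] {μ ν : Measure (E d)} [IsProbabilityMeasure μ]
    [IsProbabilityMeasure ν] {e : ℝ} (h : BLle μ ν e) {ρ : ℝ} (hρ : 0 ≤ ρ) (P : Measure Ω)
    [IsProbabilityMeasure P] {S : Ω × E d → E d} (hS : Measurable S)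
    (hl : ∀ ω x y, ‖S (ω, x) - S (ω, y)‖ ≤ ρ * ‖x - y‖) :
    BLle ((P.prod μ).map S) ((P.prod ν).map S) (ρ * e) := by
  intro φ M h1 h2
  have hφ := lip_meas1 h2
  rw [integral_map hS.aemeasurable hφ.aestronglyMeasurable,
    integral_map hS.aemeasurable hφ.aestronglyMeasurable]
  have key : ∀ κ : Measure (E d), IsProbabilityMeasure κ →
      ∫ p, φ (S p) ∂(P.prod κ) = ∫ x, (∫ ω, φ (S (ω, x)) ∂P) ∂κ := by
    intro κ hκ
    exact integral_prod_symm (fun p => φ (S p)) (int_bdd _ (hφ.measurable.comp hS) (fun p => h1 _))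
  rw [key μ inferInstance, key ν inferInstance]
  refine h.scale hρ (M := M) ?_ ?_
  · intro x
    have : |∫ ω, φ (S (ω, x)) ∂P| ≤ ∫ ω, |φ (S (ω, x))| ∂P := abs_integral_le_integral_abs
    refine this.trans ?_
    have hm : Measurable fun ω => φ (S (ω, x)) := hφ.measurable.comp (hS.comp measurable_prodMk_right)
    calc ∫ ω, |φ (S (ω, x))| ∂P ≤ ∫ _ω : Ω, M ∂P :=
          integral_mono (int_bdd P hm (fun ω => h1 _)).abs (integrable_const _) (fun ω => h1 _)
      _ = M := by simp
  · intro x y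
    have hm : ∀ x, Measurable fun ω => φ (S (ω, x)) := fun x =>
      hφ.measurable.comp (hS.comp measurable_prodMk_right)
    have i1 := int_bdd P (hm x) (fun ω => h1 _)
    have i2 := int_bdd P (hm y) (fun ω => h1 _)
    rw [← integral_sub i1 i2]
    refine abs_integral_le_integral_abs.trans ?_
    calc ∫ ω, |φ (S (ω, x)) - φ (S (ω, y))| ∂P ≤ ∫ _ω : Ω, ρ * ‖x - y‖ ∂P :=
          integral_mono (i1.sub i2).abs (integrable_const _) (fun ω => (h2 _ _).trans (hl ω x y))
      _ = _ := by simp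

/-- the identity pass -/
theorem pass_id (s : ℝ) : Pass d 0 s s 1 0 := by
  refine ⟨{ Ω := Unit
            mΩ := inferInstance
            P := Measure.dirac ()
            prob := inferInstance
            S := fun _ p => p.2
            comp := Comp.zero measurable_snd
            lip := fun V _ ω x y => by simp
            acc := ?_ }⟩
  intro V hV φ M h1 h2
  have := cv_prob (Pot.cpot hV) s
  have : (((Measure.dirac ()).prod (cv V s)).map (fun p : Unit × E d => p.2)) = cv V s := by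
    have h := Measure.map_snd_prod (μ := (Measure.dirac () : Measure Unit)) (ν := cv V s)
    rw [h]
    simp
  rw [this, sub_self, abs_zero]

/-- composition of passes -/
theorem Pass.comp {q1 q2 : ℕ} {s s' s'' ρ1 ρ2 e1 e2 : ℝ} (hρ2 : 0 ≤ ρ2)
    (h1 : Pass d q1 s s' ρ1 e1) (h2 : Pass d q2 s' s'' ρ2 e2) :
    Pass d (q1 + q2) s s'' (ρ2 * ρ1) (ρ2 * e1 + e2) := by
  obtain ⟨A⟩ := h1
  obtain ⟨B⟩ := h2
  have hA : Comp (d := d) (q1 + 0) (fun V (p : (A.Ω × B.Ω) × E d) => A.S V (p.1.1, p.2)) :=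
    Comp.comap A.comp (by fun_prop)
  have hc : Comp (d := d) (q1 + q2) (fun V (p : (A.Ω × B.Ω) × E d) =>
      B.S V (p.1.2, A.S V (p.1.1, p.2))) := by
    have h3 := Comp.bind hA B.comp (g := fun r : ((A.Ω × B.Ω) × E d) × E d => (r.1.1.2, r.2))
      (by fun_prop)
    have h4 := h3.map (g := fun r : ((A.Ω × B.Ω) × E d) × (E d × E d) => r.2.2) (by fun_prop)
    exact h4
  refine ⟨{ Ω := A.Ω × B.Ω
            mΩ := inferInstance
            P := A.P.prod B.P
            prob := inferInstance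
            S := fun V p => B.S V (p.1.2, A.S V (p.1.1, p.2))
            comp := hc
            lip := ?_
            acc := ?_ }⟩
  · intro V hV ω x y
    refine (B.lip V hV _ _ _).trans ?_
    rw [mul_assoc]
    exact mul_le_mul_of_nonneg_left (A.lip V hV _ _ _) hρ2
  · intro V hV
    obtain ⟨mV, mV'⟩ := pot_meas hV
    have mA : Measurable (A.S V) := Comp.meas A.comp mV mV'
    have mB : Measurable (B.S V) := Comp.meas B.comp mV mV'
    have pc := fun t => cv_prob (Pot.cpot hV) t
    have p1 := pc s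
    have p2 := pc s'
    have pA : IsProbabilityMeasure ((A.P.prod (cv V s)).map (A.S V)) :=
      Measure.isProbabilityMeasure_map mA.aemeasurable
    have k1 := BLle.push (A.acc V hV) hρ2 B.P mB (B.lip V hV)
    refine BLle.trans ?_ (B.acc V hV)
    intro φ M g1 g2
    have := k1 φ M g1 g2
    refine le_trans (le_of_eq ?_) this
    congr 2
    have hφ := lip_meas1 g2
    have mC : Measurable (fun p : (A.Ω × B.Ω) × E d => B.S V (p.1.2, A.S V (p.1.1, p.2))) := by
      fun_prop
    rw [integral_map mC.aemeasurable hφ.aestronglyMeasurable,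
      integral_map mB.aemeasurable hφ.aestronglyMeasurable]
    have b1 : Integrable (fun p : B.Ω × E d => φ (B.S V p))
        (B.P.prod ((A.P.prod (cv V s)).map (A.S V))) :=
      int_bdd _ (hφ.measurable.comp mB) (fun p => g1 _)
    rw [integral_prod _ b1]
    have b2 : ∀ ω : B.Ω, ∫ y, φ (B.S V (ω, y)) ∂((A.P.prod (cv V s)).map (A.S V)) =
        ∫ p, φ (B.S V (ω, A.S V p)) ∂(A.P.prod (cv V s)) := by
      intro ω
      rw [integral_map mA.aemeasurable]
      exact (hφ.measurable.comp (mB.comp measurable_prodMk_left)).aestronglyMeasurable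
    simp_rw [b2]
    -- change of variables
    have b3 : ∫ p, φ (B.S V (p.1.2, A.S V (p.1.1, p.2))) ∂((A.P.prod B.P).prod (cv V s)) =
        ∫ r, φ (B.S V (r.1, A.S V r.2)) ∂(B.P.prod (A.P.prod (cv V s))) := by
      have mp1 : MeasurePreserving (fun r : B.Ω × (A.Ω × E d) => ((r.2.1, r.1), r.2.2))
          (B.P.prod (A.P.prod (cv V s))) ((A.P.prod B.P).prod (cv V s)) := by
        have m1 := (measurePreserving_prodAssoc B.P A.P (cv V s)).symm
        have m2 := (Measure.measurePreserving_swap (μ := B.P) (ν := A.P)).prod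
          (MeasurePreserving.id (cv V s))
        exact m2.comp m1
      have h5 := integral_map (μ := B.P.prod (A.P.prod (cv V s))) mp1.measurable.aemeasurable
        (f := fun p : (A.Ω × B.Ω) × E d => φ (B.S V (p.1.2, A.S V (p.1.1, p.2))))
        ((hφ.measurable.comp mC).aestronglyMeasurable)
      rw [mp1.map_eq] at h5
      exact h5
    rw [b3, integral_prod]
    exact int_bdd _ (hφ.measurable.comp (by fun_prop)) (fun p => g1 _)

/-- weakening of the constants -/
theorem Pass.mono {q q' : ℕ} {s s' ρ ρ' e e' : ℝ} (h : Pass d q s s' ρ e) (hq : q ≤ q')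
    (hρ : ρ ≤ ρ') (he : e ≤ e') : Pass d q' s s' ρ' e' := by
  obtain ⟨A⟩ := h
  have hz : Comp (d := d) (Ω := A.Ω × E d) (q' - q) (fun _ p => p) := by
    have h0 : Comp (d := d) (Ω := A.Ω × E d) 0 (fun _ p => p) := Comp.zero measurable_id
    have h1 := h0.batch (q' - q) (fun _ _ => 0) (fun _ => measurable_const)
    have h2 := h1.map (g := fun r : (A.Ω × E d) × ((A.Ω × E d) × (Fin (q' - q) → ℝ × E d)) => r.2.1)
      (by fun_prop)
    rw [Nat.zero_add] at h2
    exact h2
  have hc : Comp (d := d) q' A.S := by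
    have h3 := Comp.bind hz A.comp (g := fun r : (A.Ω × E d) × (A.Ω × E d) => r.2) measurable_snd
    have h4 := h3.map (g := fun r : (A.Ω × E d) × ((A.Ω × E d) × E d) => r.2.2) (by fun_prop)
    rw [Nat.sub_add_cancel hq] at h4
    exact h4
  exact ⟨{ Ω := A.Ω
           mΩ := A.mΩ
           P := A.P
           prob := A.prob
           S := A.S
           comp := hc
           lip := fun V hV ω x y => (A.lip V hV ω x y).trans
             (mul_le_mul_of_nonneg_right hρ (norm_nonneg _))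
           acc := fun V hV => (A.acc V hV).mono he }⟩

/-- iteration of a contraction -/
theorem Pass.iter {q : ℕ} {s ρ e : ℝ} (hρ0 : 0 ≤ ρ) (hρ : ρ < 1) (he : 0 ≤ e)
    (h : Pass d q s s ρ e) (N : ℕ) : Pass d (N * q) s s (ρ ^ N) (e / (1 - ρ)) := by
  induction N with
  | zero =>
    have := pass_id (d := d) s
    refine this.mono (by simp) (by simp) ?_
    exact div_nonneg he (by linarith)
  | succ N ih =>
    have h1 := Pass.comp hρ0 ih h
    refine h1.mono (by rw [Nat.succ_mul]) (by rw [pow_succ']) ?_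
    have : 0 < 1 - ρ := by linarith
    rw [div_eq_mul_inv]
    have e1 : ρ * (e * (1 - ρ)⁻¹) + e = e * (1 - ρ)⁻¹ := by
      field_simp
      ring
    exact e1.le

end P347Z
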