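import Vale.Agent.P347Z.Chain

/-!
P347Z / ChainEnd: noise pass, initial distance, conversion into total variation, and the number of
queries: from passes to `P347Q.Suff`.
-/

open MeasureTheory ProbabilityTheory Function

namespace P347Z

open P347Q P347S

variable {d : ℕ}

/-- adding two independent Gaussian noises -/
theorem gauss_add_map {s t : ℝ} (hs : 0 ≤ s) (ht : 0 ≤ t) :
    MeasurePreserving (fun p : E d × E d => √s • p.1 + √t • p.2)
      ((stdGaussian (E d)).prod (stdGaussian (E d)))
      ((stdGaussian (E d)).map (fun z => √(s + t) • z)) := by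
  refine ⟨by fun_prop, ?_⟩
  have h := sr_gauss_conv (d := d) (√s) (√t)
  rw [Real.sq_sqrt hs, Real.sq_sqrt ht] at h
  rw [← h, Measure.conv]
  have i1 : IsProbabilityMeasure ((stdGaussian (E d)).map (fun z : E d => √s • z)) :=
    Measure.isProbabilityMeasure_map (by fun_prop)
  have i2 : IsProbabilityMeasure ((stdGaussian (E d)).map (fun z : E d => √t • z)) :=
    Measure.isProbabilityMeasure_map (by fun_prop)
  have m1 : MeasurePreserving (fun z : E d => √s • z) (stdGaussian (E d))
    ((stdGaussian (E d)).map (fun z : E d => √s • z)) := ⟨by fun_prop, rfl⟩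
  have m2 : MeasurePreserving (fun z : E d => √t • z) (stdGaussian (E d))
    ((stdGaussian (E d)).map (fun z : E d => √t • z)) := ⟨by fun_prop, rfl⟩
  have m3 := m1.prod m2
  rw [← m3.map_eq, Measure.map_map (by fun_prop) m3.measurable]
  rfl

theorem cv_add {V : E d → ℝ} (hV : Pot d V) {s t : ℝ} (hs : 0 ≤ s) (ht : 0 ≤ t) :
    MeasurePreserving (fun p : E d × E d => p.2 + √t • p.1) ((stdGaussian (E d)).prod (cv V s))
      (cv V (s + t)) := by
  have hp := (Pot.cpot hV).prob
  have p1 := cv_prob (Pot.cpot hV) s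
  refine ⟨by fun_prop, ?_⟩
  -- `cv V s` as an image
  have m1 : MeasurePreserving (fun p : E d × E d => p.1 + √s • p.2)
      ((gibbs V).prod (stdGaussian (E d))) (cv V s) := ⟨by fun_prop, rfl⟩
  have m2 := (MeasurePreserving.id (stdGaussian (E d))).prod m1
  have m3 := (MeasurePreserving.id (gibbs V)).prod (gauss_add_map (d := d) hs ht)
  -- `(z, (x, z')) ↦ (x, (z', z))`
  have m4 : MeasurePreserving (fun r : E d × (E d × E d) => (r.2.1, (r.2.2, r.1)))
      ((stdGaussian (E d)).prod ((gibbs V).prod (stdGaussian (E d))))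
      ((gibbs V).prod ((stdGaussian (E d)).prod (stdGaussian (E d)))) := by
    have a1 := Measure.measurePreserving_swap (μ := stdGaussian (E d))
      (ν := (gibbs V).prod (stdGaussian (E d)))
    have a2 := measurePreserving_prodAssoc (gibbs V) (stdGaussian (E d)) (stdGaussian (E d))
    exact a2.comp a1
  have e1 : cv V (s + t) = (((gibbs V).prod ((stdGaussian (E d)).map (fun z => √(s + t) • z)))).map
      (fun p => p.1 + p.2) := by
    have m5 : MeasurePreserving (fun z : E d => √(s + t) • z) (stdGaussian (E d))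
      ((stdGaussian (E d)).map (fun z : E d => √(s + t) • z)) := ⟨by fun_prop, rfl⟩
    have i5 : IsProbabilityMeasure ((stdGaussian (E d)).map (fun z : E d => √(s + t) • z)) :=
      Measure.isProbabilityMeasure_map (by fun_prop)
    have m6 := (MeasurePreserving.id (gibbs V)).prod m5
    rw [← m6.map_eq, Measure.map_map (by fun_prop) m6.measurable]
    rfl
  have i5 : IsProbabilityMeasure ((stdGaussian (E d)).map (fun z : E d => √(s + t) • z)) :=
      Measure.isProbabilityMeasure_map (by fun_prop)
  rw [e1, ← m3.map_eq, Measure.map_map (by fun_prop) m3.measurable, ← m4.map_eq,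
    Measure.map_map (by fun_prop) m4.measurable, ← m2.map_eq,
    Measure.map_map (by fun_prop) m2.measurable]
  congr 1
  funext r
  show (r.2.1 + √s • r.2.2) + √t • r.1 = r.2.1 + (√s • r.2.2 + √t • r.1)
  rw [add_assoc]

/-- the noise pass -/
theorem pass_noise {s t : ℝ} (hs : 0 ≤ s) (ht : 0 ≤ t) : Pass d 0 s (s + t) 1 0 := by
  refine ⟨{ Ω := E d
            mΩ := inferInstance
            P := stdGaussian (E d)
            prob := inferInstance
            S := fun _ p => p.2 + √t • p.1
            comp := Comp.zero (by fun_prop)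
            lip := fun V _ ω x y => by simp
            acc := ?_ }⟩
  intro V hV φ M h1 h2
  rw [(cv_add hV hs ht).map_eq, sub_self, abs_zero]

/-- distance of the starting point -/
theorem start_dist {V : E d → ℝ} (hV : Pot d V) {s : ℝ} (hs : 0 ≤ s) (hs1 : s ≤ 1) :
    BLle (Measure.dirac 0) (cv V s) (4 * √d) := by
  have p1 := cv_prob (Pot.cpot hV) s
  obtain ⟨i1, b1⟩ := cv_grad_sq (Pot.cpot hV) zero_le_one le_rfl hs hs1
  have hx : ∀ x : E d, ‖x‖ ≤ ‖gradient V x‖ := by
    intro x
    have h1 := second_order_lower hV.smooth 0 x (‖x‖ ^ 2) (fun t _ => hV.lower _ _)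
    have h2 := second_order_lower hV.smooth x (-x) (‖x‖ ^ 2) (fun t _ => by
      have := hV.lower (x + t • -x) (-x)
      rwa [norm_neg] at this)
    rw [zero_add] at h1
    rw [add_neg_cancel, map_neg] at h2
    have h3 : fderiv ℝ V 0 = 0 := by
      have := hV.grad_zero
      rw [gradient] at this
      simpa using this
    rw [h3] at h1
    simp only [zero_apply] at h1
    have h4 : fderiv ℝ V x x = inner ℝ (gradient V x) x := (inner_gradient V x x).symm
    have h5 : inner ℝ (gradient V x) x ≤ ‖gradient V x‖ * ‖x‖ := real_inner_le_norm _ _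
    have h6 : ‖x‖ ^ 2 ≤ ‖gradient V x‖ * ‖x‖ := by
      rw [← h4] at h5
      linarith
    rcases (norm_nonneg x).eq_or_lt with h7 | h7
    · rw [← h7]
      exact norm_nonneg _
    · nlinarith
  have mg := (pot_meas hV).2
  have i2 : Integrable (fun y : E d => ‖y‖ ^ 2) (cv V s) := by
    refine i1.mono' (by fun_prop) (Filter.Eventually.of_forall fun y => ?_)
    rw [Real.norm_of_nonneg (sq_nonneg _)]
    exact pow_le_pow_left₀ (norm_nonneg _) (hx y) 2
  have b2 : ∫ y : E d, ‖y‖ ^ 2 ∂(cv V s) ≤ 12 * d :=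
    (integral_mono i2 i1 fun y => pow_le_pow_left₀ (norm_nonneg _) (hx y) 2).trans b1
  have i3 : Integrable (fun y : E d => ‖y‖) (cv V s) := by
    refine (i2.add (integrable_const 1)).mono' (by fun_prop)
      (Filter.Eventually.of_forall fun y => ?_)
    rw [norm_norm, Pi.add_apply]
    nlinarith [sq_nonneg (‖y‖ - 1), norm_nonneg y]
  have b3 : ∫ y : E d, ‖y‖ ∂(cv V s) ≤ 4 * √d := by
    set e := ∫ y : E d, ‖y‖ ∂(cv V s) with he
    have h0 : 0 ≤ ∫ y : E d, (‖y‖ - e) ^ 2 ∂(cv V s) := integral_nonneg fun y => sq_nonneg _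
    have h1 : ∫ y : E d, (‖y‖ - e) ^ 2 ∂(cv V s) = ∫ y : E d, ‖y‖ ^ 2 ∂(cv V s) - e ^ 2 := by
      have : ∀ y : E d, (‖y‖ - e) ^ 2 = ‖y‖ ^ 2 - 2 * e * ‖y‖ + e ^ 2 := fun y => by ring
      simp_rw [this]
      have i5 : Integrable (fun y : E d => 2 * e * ‖y‖) (cv V s) := i3.const_mul _
      have i6 : Integrable (fun y : E d => ‖y‖ ^ 2 - 2 * e * ‖y‖) (cv V s) := i2.sub i5
      rw [integral_add i6 (integrable_const _), integral_sub i2 i5, integral_const_mul, ← he]
      simp
      ring
    have h2 : e ^ 2 ≤ (4 * √d) ^ 2 := by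
      rw [mul_pow, Real.sq_sqrt (Nat.cast_nonneg d)]
      have : (0 : ℝ) ≤ d := Nat.cast_nonneg d
      linarith
    exact le_of_abs_le (abs_le_of_sq_le_sq h2 (by positivity))
  intro φ M h1 h2
  rw [integral_dirac]
  have hφ := lip_meas1 h2
  have i4 := int_bdd (cv V s) hφ.measurable h1
  have e1 : φ 0 - ∫ x, φ x ∂(cv V s) = ∫ x, (φ 0 - φ x) ∂(cv V s) := by
    rw [integral_sub (integrable_const _) i4]
    simp
  rw [e1]
  refine abs_integral_le_integral_abs.trans ((integral_mono ((integrable_const _).sub i4).abs i3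
    (fun x => ?_)).trans b3)
  simpa using h2 0 x

/-- the law at noise level `t` is close to the target -/
theorem cv_tv {V : E d → ℝ} (hV : Pot d V) {t : ℝ} (ht : 0 < t) (ht1 : t ≤ 1) :
    TVle (cv V t) (gibbs V) (4 * t * √d) := by
  have hp := (Pot.cpot hV).prob
  have hε : 0 < √(t / 5) := Real.sqrt_pos.2 (by linarith)
  have hε1 : √(t / 5) ≤ 1 := by
    rw [Real.sqrt_le_one]
    linarith
  have hε2 : √(t / 5) ^ 2 = t / 5 := Real.sq_sqrt (by linarith)
  have h1 := smooth_tv hV hε hε1
  have hsp := smooth_spot hV hε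
  have hpr := hsp.prob
  have h2 := heat_tv hsp ht.le
  have hm : Measurable (fun p : E d × E d => p.1 + √t • p.2) := by fun_prop
  have h3 := (h1.symm.prod_right (stdGaussian (E d))).map hm
  have h4 := (h3.trans h2).trans h1
  rw [hε2] at h4
  refine h4.mono (le_of_eq ?_)
  ring

/-- end of the chain: Gaussian regularisation turns closeness on Lipschitz functions into total
variation -/
theorem end_tv {V : E d → ℝ} (hV : Pot d V) {t e : ℝ} (ht : 0 < t) (ht1 : t ≤ 1 / 2)
    {μ : Measure (E d)} [IsProbabilityMeasure μ] (h : BLle μ (cv V t) e) :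
    TVle (((stdGaussian (E d)).prod μ).map (fun p => p.2 + √t • p.1)) (gibbs V)
      (e / √t + 8 * t * √d) := by
  have hp := (Pot.cpot hV).prob
  have p1 := cv_prob (Pot.cpot hV) t
  have hst : 0 < √t := Real.sqrt_pos.2 ht
  have hm : Measurable (fun p : E d × E d => p.2 + √t • p.1) := by fun_prop
  have h2 : TVle (((stdGaussian (E d)).prod μ).map (fun p => p.2 + √t • p.1))
      (((stdGaussian (E d)).prod (cv V t)).map (fun p => p.2 + √t • p.1)) (e / √t) := by
    intro f hf h0 h1
    rw [integral_map hm.aemeasurable hf.aestronglyMeasurable,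
      integral_map hm.aemeasurable hf.aestronglyMeasurable]
    have hfa : ∀ x, |f x| ≤ 1 := fun x => by
      rw [abs_of_nonneg (h0 x)]
      exact h1 x
    have key : ∀ κ : Measure (E d), IsProbabilityMeasure κ →
        ∫ p, f (p.2 + √t • p.1) ∂((stdGaussian (E d)).prod κ) =
          ∫ x, (∫ z, f (x + √t • z) ∂(stdGaussian (E d))) ∂κ := by
      intro κ hκ
      exact integral_prod_symm (fun p : E d × E d => f (p.2 + √t • p.1))
        (int_bdd _ (hf.comp hm) (fun p => hfa _))
    rw [key μ inferInstance, key (cv V t) inferInstance]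
    have := BLle.scale h (ρ := (√t)⁻¹) (by positivity) (M := 1)
      (φ := fun x => ∫ z, f (x + √t • z) ∂(stdGaussian (E d))) ?_ ?_
    · rwa [inv_mul_eq_div] at this
    · intro x
      have := int01_mem (stdGaussian (E d)) (f := fun z => f (x + √t • z)) (hf.comp (by fun_prop))
        (fun _ => h0 _) (fun _ => h1 _)
      rw [abs_of_nonneg this.1]
      exact this.2
    · intro x y
      have := gauss_shift x y hst f hf h0 h1
      have mx : ∀ a : E d, Measurable (fun z : E d => a + √t • z) := fun a => by fun_prop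
      rw [integral_map (mx x).aemeasurable hf.aestronglyMeasurable,
        integral_map (mx y).aemeasurable hf.aestronglyMeasurable] at this
      rw [inv_mul_eq_div]
      exact this
  have h3 := cv_tv hV (t := t + t) (by linarith) (by linarith)
  rw [← (cv_add hV ht.le ht.le).map_eq] at h3
  refine (h2.trans h3).mono (le_of_eq ?_)
  ring

/-- a pass started at the origin, followed by a Gaussian regularisation, is a sampler -/
theorem pass_suff {q : ℕ} {s s' ρ e : ℝ} (hs : 0 ≤ s) (hs1 : s ≤ 1) (hs' : 0 < s') (hs1' : s' ≤ 1 / 2)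
    (hρ : 0 ≤ ρ) (h : Pass d q s s' ρ e)
    (hb : (ρ * (4 * √d) + e) / √s' + 8 * s' * √d ≤ 1 / 10) : Suff d q := by
  obtain ⟨A⟩ := h
  have hc : Comp (d := d) (q + 0) (fun V (p : E d × A.Ω) => A.S V (p.2, 0) + √s' • p.1) := by
    have h1 : Comp (d := d) q (fun V (p : E d × A.Ω) => A.S V (p.2, 0)) :=
      Comp.comap A.comp (by fun_prop)
    have h2 := h1.map (g := fun r : (E d × A.Ω) × E d => r.2 + √s' • r.1.1) (by fun_prop)
    exact h2
  refine suff_of_comp hc ((stdGaussian (E d)).prod A.P) ?_
  intro V hV B hB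
  obtain ⟨mV, mV'⟩ := pot_meas hV
  have mA : Measurable (A.S V) := Comp.meas A.comp mV mV'
  have hp := (Pot.cpot hV).prob
  have p1 := cv_prob (Pot.cpot hV) s
  have p2 := cv_prob (Pot.cpot hV) s'
  have m0 : Measurable (fun ω => A.S V (ω, 0)) := mA.comp measurable_prodMk_right
  have i0 : IsProbabilityMeasure (A.P.map (fun ω => A.S V (ω, 0))) :=
    Measure.isProbabilityMeasure_map m0.aemeasurable
  have k1 := BLle.push (start_dist hV hs hs1) hρ A.P mA (A.lip V hV)
  have k2 := k1.trans (A.acc V hV)
  have e1 : (A.P.prod (Measure.dirac (0 : E d))).map (A.S V) = A.P.map (fun ω => A.S V (ω, 0)) := by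
    rw [Measure.prod_dirac, Measure.map_map mA (by fun_prop)]
    rfl
  rw [e1] at k2
  have k3 := end_tv hV hs' hs1' k2
  have e2 : ((stdGaussian (E d)).prod (A.P.map (fun ω => A.S V (ω, 0)))).map
      (fun p => p.2 + √s' • p.1) = ((stdGaussian (E d)).prod A.P).map
      (fun p => A.S V (p.2, 0) + √s' • p.1) := by
    have m1 : MeasurePreserving (fun ω => A.S V (ω, 0)) A.P (A.P.map (fun ω => A.S V (ω, 0))) :=
      ⟨m0, rfl⟩
    have m2 := (MeasurePreserving.id (stdGaussian (E d))).prod m1
    rw [← m2.map_eq, Measure.map_map (by fun_prop) m2.measurable]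
    rfl
  rw [e2] at k3
  have i3 : IsProbabilityMeasure (((stdGaussian (E d)).prod A.P).map
      (fun p => A.S V (p.2, 0) + √s' • p.1)) := by
    refine Measure.isProbabilityMeasure_map (Measurable.aemeasurable ?_)
    exact (m0.comp measurable_snd).add (by fun_prop)
  exact (TVle.real k3 hB).trans hb

end P347Z
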