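import Vale.Agent.P347Z.CodeW1
import Vale.Agent.P347Z.ULevel
import Vale.Agent.P347Z.ChainEnd

/-!
P347Z / PassHas: a code over the hidden space `(y, w₀, z₀)`, `y`, `w₀` exactly known, is a pass.
-/

open MeasureTheory ProbabilityTheory Function
open scoped ENNReal

namespace P347Z

open P347Q P347S

variable {d : ℕ}

/-- potentials -/
abbrev PotT (d : ℕ) := {V : E d → ℝ // Pot d V}

/-- hidden space of the free path: the starting point `y` (kind `true`) and the label `w₀`
(kind `false`), both exactly known; the third component of `Z3 d` is not used -/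
noncomputable def fctx (d : ℕ) (s : ℝ) : Inp d (PotT d) (Z3 d) Bool where
  g := fun V => gradient V.1
  ρ := fun V => mu3 V.1 s
  cen := fun b _ x => if b then x.1 else x.2.1
  sig := fun _ => 0
  sh := fun b => if b then 1 else 0

theorem Comp.more {Ω : Type} [MeasurableSpace Ω] {X : Type*} [MeasurableSpace X] {q q' : ℕ}
    {F : (E d → ℝ) → Ω → X} (h : Comp q F) (hq : q ≤ q') : Comp q' F := by
  have hz : Comp (d := d) (Ω := Ω) (q' - q) (fun _ p => p) := by
    have h0 : Comp (d := d) (Ω := Ω) 0 (fun _ p => p) := Comp.zero measurable_id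
    have h1 := h0.batch (q' - q) (fun _ _ => 0) (fun _ => measurable_const)
    have h2 := h1.map (g := fun r : Ω × (Ω × (Fin (q' - q) → ℝ × E d)) => r.2.1)
      (by fun_prop)
    rw [Nat.zero_add] at h2
    exact h2
  have h3 := Comp.bind hz h (g := fun r : Ω × Ω => r.2) measurable_snd
  have h4 := h3.map (g := fun r : Ω × (Ω × X) => r.2.2) (by fun_prop)
  rw [Nat.sub_add_cancel hq] at h4
  exact h4

/-- programs are computable -/
theorem comp_ev {Ω : Type} [MeasurableSpace Ω] {I : Type} {X : Ω → I → E d}
    (hX : ∀ i, Measurable (fun ω => X ω i)) (t : Pg I) :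
    Comp t.size (fun V ω => t.ev (gradient V) (X ω)) := by
  induction t with
  | var i => exact Comp.more (Comp.zero (hX i)) (by simp [Pg.size])
  | zero => exact Comp.more (Comp.zero measurable_const) (by simp [Pg.size])
  | add a b iha ihb =>
    have h1 := Comp.bind iha ihb (g := fun r : Ω × E d => r.1) measurable_fst
    have h2 := h1.map (g := fun r : Ω × (E d × E d) => r.2.1 + r.2.2) (by fun_prop)
    exact Comp.more h2 (by simp [Pg.size])
  | smul c a iha =>
    have h2 := iha.map (g := fun r : Ω × E d => c • r.2) (by fun_prop)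
    exact Comp.more h2 (by simp [Pg.size])
  | grad a iha =>
    have h1 := iha.query (x := fun r : Ω × E d => r.2) measurable_snd
    have h2 := h1.map (g := fun r : Ω × (E d × (ℝ × E d)) => r.2.2.2) (by fun_prop)
    exact Comp.more h2 (by simp [Pg.size])

theorem pass_of_has {s s' τ ε a κ : ℝ} {L : Bool → ℝ} {S : ℕ} {q : PotT d → Z3 d → E d}
    (hs : 0 < s) (hs1 : s ≤ 1 / 4)
    (hε : 0 ≤ ε) (hq : ∀ V, Measurable (q V)) (h : Has (fctx d s) q τ ε L a κ S)
    (hlaw : ∀ V : PotT d, ((mu3 V.1 s).prod (stdGaussian (E d))).map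
      (fun p => q V p.1 + τ • p.2) = cv V.1 s') : Pass d S s s' (|a| + κ) ε := by
  classical
  obtain ⟨I, hI, kd, t, l, err, hc, h1, -, h3⟩ := h
  -- the inputs
  let X : ((E d × E d) × (I → E d)) × E d → I → E d := fun p i =>
    match kd i with
    | none => p.1.2 i
    | some b => if b then p.2 else p.1.1.1
  have hX : ∀ i, Measurable (fun p => X p i) := by
    intro i
    simp only [X]
    cases hk : kd i with
    | none => fun_prop
    | some b => cases b <;> simp <;> fun_prop
  have hinp : ∀ (V : PotT d) (y w z : E d) (G : I → E d),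
      (fctx d s).inp kd V (y, w, z) G = X (((w, z), G), y) := by
    intro V y w z G
    funext i
    simp only [X, Inp.inp]
    cases hk : kd i with
    | none => simp [Inp.cn, Inp.sg]
    | some b => cases b <;> simp [Inp.cn, Inp.sg, fctx]
  refine ⟨{ Ω := (E d × E d) × (I → E d)
            mΩ := inferInstance
            P := ((stdGaussian (E d)).prod (stdGaussian (E d))).prod (gpi I d)
            prob := inferInstance
            S := fun V p => t.ev (gradient V) (X p)
            comp := Comp.more (comp_ev hX t) h1
            lip := ?_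
            acc := ?_ }⟩
  · intro V hV ω x y
    have h4 := hc.shift ⟨V, hV⟩ (X (ω, y)) (x - y)
    have h5 : (fun i => X (ω, y) i + (fctx d s).so (kd i) • (x - y)) = X (ω, x) := by
      funext i
      simp only [X]
      cases hk : kd i with
      | none => simp [Inp.so]
      | some b => cases b <;> simp [Inp.so, fctx]
    rw [h5] at h4
    simp only [fctx] at h4
    calc ‖t.ev (gradient V) (X (ω, x)) - t.ev (gradient V) (X (ω, y))‖
        = ‖(t.ev (gradient V) (X (ω, x)) - t.ev (gradient V) (X (ω, y)) - a • (x - y)) +
            a • (x - y)‖ := by rw [sub_add_cancel]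
      _ ≤ κ * ‖x - y‖ + |a| * ‖x - y‖ := by
          refine (norm_add_le _ _).trans (add_le_add h4 ?_)
          rw [norm_smul, Real.norm_eq_abs]
      _ = _ := by ring
  · intro V hV φ M g1 g2
    have p1 := cv_prob (Pot.cpot hV) s
    obtain ⟨mV, mV'⟩ := pot_meas hV
    have mS : Measurable (fun p => t.ev (gradient V) (X p)) := Comp.meas (comp_ev hX t) mV mV'
    have hφ := lip_meas1 g2
    have hlip : LipschitzWith 1 φ := by
      refine LipschitzWith.of_dist_le_mul fun x y => ?_
      rw [NNReal.coe_one, one_mul, Real.dist_eq, dist_eq_norm]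
      exact g2 x y
    have hmu : mu3 V s = (cv V s).prod ((stdGaussian (E d)).prod (stdGaussian (E d))) := by
      unfold mu3
      rw [us_cv hV hs hs1]
    set ρ : Measure (Z3 d) := (cv V s).prod ((stdGaussian (E d)).prod (stdGaussian (E d))) with hρ
    let C := fctx d s
    let A : Z3 d → ℝ := fun x => ∫ y, φ y ∂(C.law kd t ⟨V, hV⟩ x)
    let B : Z3 d → ℝ := fun x => ∫ y, φ y ∂(gau (q ⟨V, hV⟩ x) τ)
    have hA : ∀ x, A x = ∫ G, φ (t.ev (gradient V) (X ((x.2, G), x.1))) ∂(gpi I d) := by
      intro x
      have e1 : C.law kd t ⟨V, hV⟩ x =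
          (gpi I d).map (fun G => t.ev (gradient V) (X ((x.2, G), x.1))) := by
        unfold Inp.law
        congr 1
        funext G
        rw [← hinp ⟨V, hV⟩]
        rfl
      simp only [A]
      rw [e1, integral_map]
      · exact (mS.comp (by fun_prop : Measurable fun G : I → E d => ((x.2, G), x.1))).aemeasurable
      · exact hφ.aestronglyMeasurable
    have hB : ∀ x, B x = ∫ z, φ (q ⟨V, hV⟩ x + τ • z) ∂(stdGaussian (E d)) := by
      intro x
      simp only [B]
      unfold gau
      rw [integral_map (meas_gau _ _).aemeasurable hφ.aestronglyMeasurable]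
    have hw : ∀ x, ENNReal.ofReal |A x - B x| ≤ err ⟨V, hV⟩ x := fun x =>
      hc.law ⟨V, hV⟩ x φ hlip ⟨M, g1⟩
    -- joint measurability
    have mF : Measurable (fun r : Z3 d × (I → E d) =>
        φ (t.ev (gradient V) (X ((r.1.2, r.2), r.1.1)))) :=
      hφ.measurable.comp (mS.comp (by fun_prop))
    have mK : Measurable (fun r : Z3 d × E d => φ (q ⟨V, hV⟩ r.1 + τ • r.2)) := by
      have := hq ⟨V, hV⟩
      exact hφ.measurable.comp (by fun_prop)
    have iF : Integrable (fun r : Z3 d × (I → E d) =>
        φ (t.ev (gradient V) (X ((r.1.2, r.2), r.1.1)))) (ρ.prod (gpi I d)) :=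
      int_bdd _ mF (fun r => g1 _)
    have iK : Integrable (fun r : Z3 d × E d => φ (q ⟨V, hV⟩ r.1 + τ • r.2))
        (ρ.prod (stdGaussian (E d))) := int_bdd _ mK (fun r => g1 _)
    have jA : Integrable A ρ := by
      have := iF.integral_prod_left
      refine this.congr (Filter.Eventually.of_forall fun x => (hA x).symm)
    have jB : Integrable B ρ := by
      have := iK.integral_prod_left
      refine this.congr (Filter.Eventually.of_forall fun x => (hB x).symm)
    have e1 : ∫ x, φ x ∂(((((stdGaussian (E d)).prod (stdGaussian (E d))).prod (gpi I d)).prod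
        (cv V s)).map (fun p => t.ev (gradient V) (X p))) = ∫ x, A x ∂ρ := by
      rw [integral_map mS.aemeasurable hφ.aestronglyMeasurable]
      have mp1 : MeasurePreserving (fun r : Z3 d × (I → E d) => ((r.1.2, r.2), r.1.1))
          (ρ.prod (gpi I d))
          ((((stdGaussian (E d)).prod (stdGaussian (E d))).prod (gpi I d)).prod (cv V s)) := by
        have m1 := measurePreserving_prodAssoc (cv V s)
          ((stdGaussian (E d)).prod (stdGaussian (E d))) (gpi I d)
        have m2 := Measure.measurePreserving_swap (μ := cv V s)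
          (ν := ((stdGaussian (E d)).prod (stdGaussian (E d))).prod (gpi I d))
        exact m2.comp m1
      have h5 := integral_map (μ := ρ.prod (gpi I d)) mp1.measurable.aemeasurable
        (f := fun p : ((E d × E d) × (I → E d)) × E d => φ (t.ev (gradient V) (X p)))
        (hφ.measurable.comp mS).aestronglyMeasurable
      rw [mp1.map_eq] at h5
      rw [h5, integral_prod _ iF]
      refine integral_congr_ae (Filter.Eventually.of_forall fun x => ?_)
      exact (hA x).symm
    have e2 : ∫ x, φ x ∂(cv V s') = ∫ x, B x ∂ρ := by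
      have h6 := hlaw ⟨V, hV⟩
      simp only [hmu] at h6
      rw [← h6, integral_map (Measurable.aemeasurable (by
        have := hq ⟨V, hV⟩
        fun_prop)) hφ.aestronglyMeasurable, integral_prod _ iK]
      refine integral_congr_ae (Filter.Eventually.of_forall fun x => ?_)
      exact (hB x).symm
    rw [e1, e2, ← integral_sub jA jB]
    refine abs_integral_le_integral_abs.trans ?_
    have e3 := integral_eq_lintegral_of_nonneg_ae (μ := ρ) (f := fun x => |A x - B x|)
      (Filter.Eventually.of_forall fun x => abs_nonneg _) (jA.sub jB).abs.aestronglyMeasurable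
    rw [e3]
    apply ENNReal.toReal_le_of_le_ofReal hε
    refine (lintegral_mono hw).trans ?_
    have h7 := h3 ⟨V, hV⟩
    simp only [fctx, hmu] at h7
    exact h7

end P347Z
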