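import Vale.Agent.P347Z.RUDefs
import Vale.Agent.P347Z.RulesA

/-!
Module RULES: quadrature and differentiation rules on `N+1` common nodes `t_j ∈ [0,1]`, `t_0 = 0`, exact for
polynomials of degree `< m`.
Existence: the nodes are those of a positive rule (`P347Q.rule_exists`) together with `0` and `m` distinct extra
nodes of weight zero in `w`; the evaluations at `m` distinct nodes span the dual of the polynomials of degree
`< m`, which gives the rows of `A` and `D` (for example by Lagrange interpolation).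
Errors: Taylor's formula, see `P347Q/QuadErr.lean` (`taylor_err'`; there the interval is `[0,1/4]`, here `[0,h]`).
-/

open MeasureTheory ProbabilityTheory Function
open scoped ENNReal BigOperators ContDiff

namespace P347Z

open P347Q P347S

/-- RU2 -/
theorem rs_err {m N : ℕ} (R : RS m N) (hm : 3 ≤ m) : ∃ C : ℝ, 0 < C ∧ ∀ (d : ℕ) (h : ℝ), 0 < h →
    ∀ g : ℕ → ℝ → E d, (∀ k, ∀ t ∈ Set.Icc (0 : ℝ) h,
      HasDerivWithinAt (g k) (g (k + 1) t) (Set.Icc (0 : ℝ) h) t) →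
    ‖(∫ t in (0 : ℝ)..h, g 0 t) - h • ∑ j, R.w j • g 0 (h * R.t j)‖ ≤
      C * h ^ (m - 1) * ∫ t in (0 : ℝ)..h, ‖g (m - 1) t‖ ∧
    (∀ k, ‖(∫ t in (0 : ℝ)..(h * R.t k), g 0 t) - h • ∑ j, R.A k j • g 0 (h * R.t j)‖ ≤
      C * h ^ (m - 1) * ∫ t in (0 : ℝ)..h, ‖g (m - 1) t‖) ∧
    ‖g 1 0 - h⁻¹ • ∑ j, R.D j • g 0 (h * R.t j)‖ ≤
      C * h ^ (m - 3) * ∫ t in (0 : ℝ)..h, ‖g (m - 1) t‖ := by
  obtain ⟨n, rfl⟩ : ∃ n, m = n + 3 := ⟨m - 3, by omega⟩
  have e1 : n + 3 - 1 = n + 2 := by omega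
  have e3 : n + 3 - 3 = n := by omega
  rw [e1, e3]
  have hW : 0 ≤ ∑ j, |R.w j| := Finset.sum_nonneg fun _ _ => abs_nonneg _
  have hA : ∀ k, 0 ≤ ∑ j, |R.A k j| := fun k => Finset.sum_nonneg fun _ _ => abs_nonneg _
  have hAA : 0 ≤ ∑ k, ∑ j, |R.A k j| := Finset.sum_nonneg fun k _ => hA k
  have hD : 0 ≤ ∑ j, |R.D j| := Finset.sum_nonneg fun _ _ => abs_nonneg _
  refine ⟨1 + ∑ j, |R.w j| + ∑ k, ∑ j, |R.A k j| + ∑ j, |R.D j|, by positivity, ?_⟩
  intro d h hh g hg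
  have hJ0 : 0 ≤ ∫ t in (0 : ℝ)..h, ‖g (n + 2) t‖ :=
    intervalIntegral.integral_nonneg hh.le fun s _ => norm_nonneg _
  have hmono : ∀ a C : ℝ, a ≤ C → ∀ k : ℕ, a * h ^ k * (∫ t in (0 : ℝ)..h, ‖g (n + 2) t‖) ≤
      C * h ^ k * ∫ t in (0 : ℝ)..h, ‖g (n + 2) t‖ := by
    intro a C haC k
    exact mul_le_mul_of_nonneg_right (mul_le_mul_of_nonneg_right haC (by positivity)) hJ0
  refine ⟨?_, fun k => ?_, ?_⟩
  · have h1 := RulesAux.quad_err hh.le g hg (n + 1) 1 ⟨zero_le_one, le_rfl⟩ R.w R.t R.t_mem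
      (fun i hi => by rw [one_pow]; exact R.w_exact i (by omega))
    rw [mul_one] at h1
    exact h1.trans (hmono _ _ (by linarith) _)
  · have h1 := RulesAux.quad_err hh.le g hg (n + 1) (R.t k) (R.t_mem k) (R.A k) R.t R.t_mem
      (fun i hi => R.A_exact k i (by omega))
    have h2 : ∑ j, |R.A k j| ≤ ∑ k, ∑ j, |R.A k j| :=
      Finset.single_le_sum (f := fun k => ∑ j, |R.A k j|) (fun k _ => hA k) (Finset.mem_univ k)
    exact h1.trans (hmono _ _ (by linarith) _)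
  · have h1 := RulesAux.diff_err hh g hg n R.D R.t R.t_mem (fun i hi => R.D_exact i (by omega))
    exact h1.trans (hmono _ _ (by linarith) _)

end P347Z
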