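import Vale.Agent.P347Z.RU2

/-!
Module RULES: quadrature and differentiation rules on `N+1` common nodes `t_j ∈ [0,1]`, `t_0 = 0`, exact for
polynomials of degree `< m`.
Existence: the nodes are those of a positive rule (`P347Q.rule_exists`) together with `0` and `m` distinct extra
nodes of weight zero in `w`; the evaluations at `m` distinct nodes span the dual of the polynomials of degree
`< m`, which gives the rows of `A` and `D` (for example by Lagrange interpolation).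
Errors: Taylor's formula, see `P347Q/QuadErr.lean` (`taylor_err'`; there the interval is `[0,1/4]`, here `[0,h]`).
-/

open MeasureTheory ProbabilityTheory Function
open scoped ENNReal BigOperators ContDiff

namespace P347Z

open P347Q P347S

/-- `L¹` bound from the second moment -/
theorem ru3_l1 {d : ℕ} {μ : Measure (Z3 d)} [IsProbabilityMeasure μ] {f : Z3 d → E d} {B : ℝ}
    (hf : AEStronglyMeasurable f μ) (h2 : Integrable (fun x => ‖f x‖ ^ 2) μ)
    (hB : ∫ x, ‖f x‖ ^ 2 ∂μ ≤ B) : Integrable (fun x => ‖f x‖) μ ∧ ∫ x, ‖f x‖ ∂μ ≤ √B := by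
  have h1 : Integrable (fun x => ‖f x‖) μ := by
    refine Integrable.mono' ((h2.add (integrable_const (1:ℝ)))) hf.norm ?_
    refine Filter.Eventually.of_forall fun x => ?_
    simp only [Pi.add_apply, norm_norm]
    nlinarith [sq_nonneg (‖f x‖ - 1), norm_nonneg (f x)]
  refine ⟨h1, ?_⟩
  refine Real.le_sqrt_of_sq_le ?_
  refine le_trans ?_ hB
  have h3 : 0 ≤ ∫ x, (‖f x‖ - ∫ y, ‖f y‖ ∂μ) ^ 2 ∂μ := integral_nonneg fun x => sq_nonneg _
  have e : (fun x => (‖f x‖ - ∫ y, ‖f y‖ ∂μ) ^ 2) =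
      fun x => ‖f x‖ ^ 2 - (2 * (∫ y, ‖f y‖ ∂μ)) * ‖f x‖ + (∫ y, ‖f y‖ ∂μ) ^ 2 := by
    funext x
    ring
  have e2 : ∫ x, (‖f x‖ ^ 2 - (2 * (∫ y, ‖f y‖ ∂μ)) * ‖f x‖ + (∫ y, ‖f y‖ ∂μ) ^ 2) ∂μ =
      (∫ x, ‖f x‖ ^ 2 ∂μ) - (2 * (∫ y, ‖f y‖ ∂μ)) * (∫ x, ‖f x‖ ∂μ) + (∫ y, ‖f y‖ ∂μ) ^ 2 := by
    have i1 : Integrable (fun x => (2 * (∫ y, ‖f y‖ ∂μ)) * ‖f x‖) μ := h1.const_mul _
    have i2 : Integrable (fun x => ‖f x‖ ^ 2 - (2 * (∫ y, ‖f y‖ ∂μ)) * ‖f x‖) μ := h2.sub i1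
    have a1 := integral_add i2 (integrable_const ((∫ y, ‖f y‖ ∂μ) ^ 2))
    have a2 := integral_sub h2 i1
    rw [a1, a2, integral_const_mul, integral_const, probReal_univ, one_smul]
  rw [e, e2] at h3
  nlinarith

/-- Fubini for the time integral of a continuous path observable -/
theorem ru3_fub {d : ℕ} {μ : Measure (Z3 d)} [IsProbabilityMeasure μ] {G : ℝ → Z3 d → E d} {T t1 h B : ℝ}
    (ht1 : 0 ≤ t1) (hh : 0 ≤ h) (hT : t1 + h ≤ T)
    (hc : ContinuousOn (fun p : ℝ × Z3 d => G p.1 p.2) (Set.Icc (0 : ℝ) T ×ˢ Set.univ))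
    (h2 : ∀ t ∈ Set.Icc (0 : ℝ) T, Integrable (fun x => ‖G t x‖ ^ 2) μ ∧ ∫ x, ‖G t x‖ ^ 2 ∂μ ≤ B) :
    AEStronglyMeasurable (fun x => ∫ t in (0 : ℝ)..h, G (t1 + t) x) μ ∧
    Integrable (fun x => ∫ t in (0 : ℝ)..h, ‖G (t1 + t) x‖) μ ∧
      ∫ x, (∫ t in (0 : ℝ)..h, ‖G (t1 + t) x‖) ∂μ ≤ h * √B := by
  have hsec : ∀ t ∈ Set.Icc (0 : ℝ) T, Continuous (fun x => G t x) := by
    intro t ht
    rw [← continuousOn_univ]
    exact hc.comp (f := fun x : Z3 d => (t, x)) (Continuous.continuousOn (by fun_prop))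
      (fun x _ => ⟨ht, Set.mem_univ _⟩)
  have hl1 : ∀ t ∈ Set.Icc (0 : ℝ) T, Integrable (fun x => ‖G t x‖) μ ∧ ∫ x, ‖G t x‖ ∂μ ≤ √B :=
    fun t ht => ru3_l1 (hsec t ht).aestronglyMeasurable (h2 t ht).1 (h2 t ht).2
  have hmem : ∀ t ∈ Set.Ioc (0:ℝ) h, t1 + t ∈ Set.Icc (0:ℝ) T := by
    intro t ht
    exact ⟨by linarith [ht.1], by linarith [ht.2]⟩
  -- joint measurability
  have hm : AEStronglyMeasurable (fun p : ℝ × Z3 d => G (t1 + p.1) p.2)
      ((volume.restrict (Set.Ioc (0:ℝ) h)).prod μ) := by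
    have h1 : ContinuousOn (fun p : ℝ × Z3 d => G (t1 + p.1) p.2) (Set.Ioc (0:ℝ) h ×ˢ Set.univ) :=
      hc.comp (f := fun p : ℝ × Z3 d => (t1 + p.1, p.2)) (Continuous.continuousOn (by fun_prop))
        (fun p hp => ⟨hmem p.1 hp.1, Set.mem_univ _⟩)
    have h3 := h1.aestronglyMeasurable (μ := (volume : Measure ℝ).prod μ)
      (measurableSet_Ioc.prod MeasurableSet.univ)
    rwa [← Measure.prod_restrict, Measure.restrict_univ] at h3
  have hi : Integrable (fun p : ℝ × Z3 d => G (t1 + p.1) p.2)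
      ((volume.restrict (Set.Ioc (0:ℝ) h)).prod μ) := by
    rw [integrable_prod_iff hm]
    constructor
    · rw [ae_restrict_iff' measurableSet_Ioc]
      refine Filter.Eventually.of_forall fun t ht => ?_
      exact (integrable_norm_iff (hsec _ (hmem t ht)).aestronglyMeasurable).1 (hl1 _ (hmem t ht)).1
    · refine Integrable.mono' (integrable_const (√B)) hm.norm.integral_prod_right' ?_
      rw [ae_restrict_iff' measurableSet_Ioc]
      refine Filter.Eventually.of_forall fun t ht => ?_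
      rw [Real.norm_of_nonneg (integral_nonneg fun x => norm_nonneg _)]
      exact (hl1 _ (hmem t ht)).2
  have e1 : (fun x => ∫ t in (0 : ℝ)..h, G (t1 + t) x) =
      fun x => ∫ t, G (t1 + t) x ∂(volume.restrict (Set.Ioc (0:ℝ) h)) := by
    funext x
    rw [intervalIntegral.integral_of_le hh]
  have e2 : (fun x => ∫ t in (0 : ℝ)..h, ‖G (t1 + t) x‖) =
      fun x => ∫ t, ‖G (t1 + t) x‖ ∂(volume.restrict (Set.Ioc (0:ℝ) h)) := by
    funext x
    rw [intervalIntegral.integral_of_le hh]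
  refine ⟨?_, ?_, ?_⟩
  · rw [e1]
    exact hi.integral_prod_right.aestronglyMeasurable
  · rw [e2]
    exact hi.norm.integral_prod_right
  · rw [e2]
    have h4 := integral_integral_swap (f := fun t x => ‖G (t1 + t) x‖) hi.norm
    rw [← h4]
    have h5 : ∫ t, (∫ x, ‖G (t1 + t) x‖ ∂μ) ∂(volume.restrict (Set.Ioc (0:ℝ) h)) ≤
        ∫ _t, √B ∂(volume.restrict (Set.Ioc (0:ℝ) h)) := by
      refine integral_mono_ae hi.norm.integral_prod_left (integrable_const _) ?_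
      rw [Filter.EventuallyLE, ae_restrict_iff' measurableSet_Ioc]
      exact Filter.Eventually.of_forall fun t ht => (hl1 _ (hmem t ht)).2
    refine h5.trans ?_
    rw [integral_const, smul_eq_mul]
    simp [hh]

/-- RU3: the same in `L¹(μ)` for tame observables, on the interval `[t1, t1 + h] ⊆ [0, T]` -/
theorem rs_tame {m N : ℕ} (R : RS m N) (hm : 3 ≤ m) : ∃ K : ℝ, 0 < K ∧ ∀ (d : ℕ) (C T t1 h : ℝ)
    (μ : Measure (Z3 d)) (g : ℝ → Z3 d → E d), IsProbabilityMeasure μ → Tame m C T μ g → 0 < C →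
    0 ≤ t1 → 0 < h → t1 + h ≤ T →
    (Integrable (fun x => ‖(∫ t in t1..(t1 + h), g t x) - h • ∑ j, R.w j • g (t1 + h * R.t j) x‖) μ ∧
      ∫ x, ‖(∫ t in t1..(t1 + h), g t x) - h • ∑ j, R.w j • g (t1 + h * R.t j) x‖ ∂μ ≤
        K * h ^ m * √(C * d)) ∧
    (∀ k, Integrable (fun x => ‖(∫ t in t1..(t1 + h * R.t k), g t x) -
        h • ∑ j, R.A k j • g (t1 + h * R.t j) x‖) μ ∧
      ∫ x, ‖(∫ t in t1..(t1 + h * R.t k), g t x) - h • ∑ j, R.A k j • g (t1 + h * R.t j) x‖ ∂μ ≤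
        K * h ^ m * √(C * d)) ∧
    (∀ G1 : Z3 d → E d, (∀ x, HasDerivWithinAt (fun τ => g τ x) (G1 x) (Set.Icc (0 : ℝ) T) t1) →
      Integrable (fun x => ‖G1 x - h⁻¹ • ∑ j, R.D j • g (t1 + h * R.t j) x‖) μ ∧
      ∫ x, ‖G1 x - h⁻¹ • ∑ j, R.D j • g (t1 + h * R.t j) x‖ ∂μ ≤ K * h ^ (m - 2) * √(C * d)) := by
  obtain ⟨K, hK, hr⟩ := rs_err R hm
  refine ⟨K, hK, fun d C T t1 h μ g hμ hT hC ht1 hh hTh => ?_⟩
  obtain ⟨G, hG0, hder, hcont, hL2⟩ := hT
  subst hG0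
  have hT0 : 0 < T := by linarith
  have ht1T : t1 ∈ Set.Icc (0:ℝ) T := ⟨ht1, by linarith⟩
  have hnode : ∀ j, h * R.t j ∈ Set.Icc (0:ℝ) h := fun j =>
    ⟨mul_nonneg hh.le (R.t_mem j).1, by nlinarith [(R.t_mem j).2]⟩
  have hnodeT : ∀ j, t1 + h * R.t j ∈ Set.Icc (0:ℝ) T := fun j =>
    ⟨by linarith [(hnode j).1], by linarith [(hnode j).2]⟩
  have hsec : ∀ k, ∀ t ∈ Set.Icc (0 : ℝ) T, Continuous (fun x => G k t x) := by
    intro k t ht
    rw [← continuousOn_univ]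
    exact (hcont k).comp (f := fun x : Z3 d => (t, x)) (Continuous.continuousOn (by fun_prop))
      (fun x _ => ⟨ht, Set.mem_univ _⟩)
  -- the pathwise estimate
  have hpath : ∀ x, ∀ k, ∀ t ∈ Set.Icc (0 : ℝ) h,
      HasDerivWithinAt (fun τ => G k (t1 + τ) x) (G (k + 1) (t1 + t) x) (Set.Icc (0 : ℝ) h) t := by
    intro x k t ht
    have h1 := hder k x (t1 + t) ⟨by linarith [ht.1], by linarith [ht.2]⟩
    have h2 : HasDerivWithinAt (fun τ : ℝ => t1 + τ) 1 (Set.Icc (0:ℝ) h) t :=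
      (hasDerivWithinAt_id t _).const_add t1
    have h3 := HasDerivWithinAt.scomp t h1 h2
      (fun τ hτ => (⟨by linarith [hτ.1], by linarith [hτ.2]⟩ : t1 + τ ∈ Set.Icc (0:ℝ) T))
    rw [one_smul] at h3
    exact h3
  have hp := fun x => hr d h hh (fun k τ => G k (t1 + τ) x) (hpath x)
  obtain ⟨-, hFi, hFb⟩ := ru3_fub (μ := μ) (G := G (m - 1)) ht1 hh.le hTh (hcont (m - 1))
    (B := C * d) (hL2 (m - 1) (Nat.sub_le _ _))
  have hsh : ∀ (τ : ℝ) (x : Z3 d), (∫ t in t1..(t1 + τ), G 0 t x) = ∫ t in (0:ℝ)..τ, G 0 (t1 + t) x := by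
    intro τ x
    rw [intervalIntegral.integral_comp_add_left (fun t => G 0 t x) t1, add_zero]
  have hmeas : ∀ τ ∈ Set.Icc (0:ℝ) h, AEStronglyMeasurable (fun x => ∫ t in (0:ℝ)..τ, G 0 (t1 + t) x) μ := by
    intro τ hτ
    exact (ru3_fub (μ := μ) (G := G 0) ht1 hτ.1 (by linarith [hτ.2]) (hcont 0)
      (B := C * d) (hL2 0 (Nat.zero_le _))).1
  have hsum : ∀ (a : ℝ) (w : Fin (N + 1) → ℝ),
      AEStronglyMeasurable (fun x => a • ∑ j, w j • G 0 (t1 + h * R.t j) x) μ := by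
    intro a w
    refine Continuous.aestronglyMeasurable ?_
    refine Continuous.const_smul (continuous_finsetSum _ fun j _ => ?_) a
    exact (hsec 0 (t1 + h * R.t j) (hnodeT j)).const_smul (w j)
  -- domination
  have hdom : ∀ (f : Z3 d → E d) (a : ℝ), 0 ≤ a → AEStronglyMeasurable f μ →
      (∀ x, ‖f x‖ ≤ a * ∫ t in (0 : ℝ)..h, ‖G (m - 1) (t1 + t) x‖) →
      Integrable (fun x => ‖f x‖) μ ∧ ∫ x, ‖f x‖ ∂μ ≤ a * (h * √(C * d)) := by
    intro f a ha hf hb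
    have hi : Integrable (fun x => ‖f x‖) μ := by
      refine Integrable.mono' (hFi.const_mul a) hf.norm (Filter.Eventually.of_forall fun x => ?_)
      rw [norm_norm]
      exact hb x
    refine ⟨hi, (integral_mono hi (hFi.const_mul a) hb).trans ?_⟩
    rw [integral_const_mul]
    exact mul_le_mul_of_nonneg_left hFb ha
  have hpow : h ^ (m - 1) * h = h ^ m := by
    rw [← pow_succ]
    congr 1
    omega
  have hpow3 : h ^ (m - 3) * h = h ^ (m - 2) := by
    rw [← pow_succ]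
    congr 1
    omega
  have e1 : K * h ^ (m - 1) * (h * √(C * d)) = K * h ^ m * √(C * d) := by
    rw [← hpow]
    ring
  have e3 : K * h ^ (m - 3) * (h * √(C * d)) = K * h ^ (m - 2) * √(C * d) := by
    rw [← hpow3]
    ring
  refine ⟨?_, ?_, ?_⟩
  · have h1 := hdom (fun x => (∫ t in t1..(t1 + h), G 0 t x) - h • ∑ j, R.w j • G 0 (t1 + h * R.t j) x)
      (K * h ^ (m - 1)) (by positivity)
      (((hmeas h ⟨hh.le, le_rfl⟩).congr (Filter.Eventually.of_forall fun x => (hsh h x).symm)).sub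
        (hsum h R.w)) (fun x => by
        rw [hsh]
        exact (hp x).1)
    rw [e1] at h1
    exact h1
  · intro k
    have h1 := hdom (fun x => (∫ t in t1..(t1 + h * R.t k), G 0 t x) -
        h • ∑ j, R.A k j • G 0 (t1 + h * R.t j) x)
      (K * h ^ (m - 1)) (by positivity)
      (((hmeas (h * R.t k) (hnode k)).congr
        (Filter.Eventually.of_forall fun x => (hsh (h * R.t k) x).symm)).sub
        (hsum h (R.A k))) (fun x => by
        rw [hsh]
        exact (hp x).2.1 k)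
    rw [e1] at h1
    exact h1
  · intro G1 hG1
    have hG1e : G1 = fun x => G 1 t1 x := by
      funext x
      exact ((uniqueDiffOn_Icc hT0) t1 ht1T).eq_deriv _ (hG1 x) (hder 0 x t1 ht1T)
    subst hG1e
    have h1 := hdom (fun x => G 1 t1 x - h⁻¹ • ∑ j, R.D j • G 0 (t1 + h * R.t j) x)
      (K * h ^ (m - 3)) (by positivity)
      ((hsec 1 t1 ht1T).aestronglyMeasurable.sub (hsum h⁻¹ R.D)) (fun x => by
        have h2 := (hp x).2.2
        simp only [add_zero] at h2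
        exact h2)
    rw [e3] at h1
    exact h1

end P347Z
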