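import Vale.Agent.P347Z.RegFlow
import Vale.Agent.P347Z.Rules

/-!
Module SS: the exact paths seen by the algorithm (nodes, stationarity, quadrature residuals).  Everything follows
from `gflow_exists`, `reg_main`, `reg_R`, `rs_tame`, the fundamental theorem of calculus and `IsG`.
S1: free path from the clock time `t0`.  S2: kick flow at the fixed clock time `t0`.  S3: main path.
-/

open MeasureTheory ProbabilityTheory Function
open scoped ENNReal BigOperators ContDiff

namespace P347Z

open P347Q P347S

/-- composite weights: contribution of the node `(b', j)` to the integral up to the node `(b, i)` -/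
noncomputable def Wt {m N J : ℕ} (R : RS m N) (h : ℝ) (p q : Fin J × Fin (N + 1)) : ℝ :=
  if q.1 < p.1 then h * R.w q.2 else if q.1 = p.1 then h * R.A p.2 q.2 else 0

/-- time of the node `(b, i)` -/
noncomputable def nt {m N J : ℕ} (R : RS m N) (h : ℝ) (p : Fin J × Fin (N + 1)) : ℝ :=
  h * ((p.1 : ℕ) + R.t p.2)



end P347Z
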