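import Vale.Agent.P347Z.SSAux
import Vale.Agent.P347Z.SSDefs

/-!
Module SS: the exact paths seen by the algorithm (nodes, stationarity, quadrature residuals).  Everything follows
from `gflow_exists`, `reg_main`, `reg_R`, `rs_tame`, the fundamental theorem of calculus and `IsG`.
S1: free path from the clock time `t0`.  S2: kick flow at the fixed clock time `t0`.  S3: main path.
-/

open MeasureTheory ProbabilityTheory Function
open scoped ENNReal BigOperators ContDiff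

namespace P347Z

open P347Q P347S

/-- S2.  `X j` = state of the kick flow at time `H t_j` (clock fixed at `t0`). -/
theorem s2_exists {m N : ℕ} (R : RS m N) (hm : 3 ≤ m) : ∃ C : ℝ, 0 < C ∧
    ∀ (d : ℕ) (V : E d → ℝ) (s t0 H : ℝ), Pot d V → 0 < s → s ≤ 1 / 4 → 0 < H → H ≤ 1 →
    ∃ X : Fin (N + 1) → Z3 d → Z3 d,
      (∀ j, MeasurePreserving (X j) (mu3 V (lev s t0)) (mu3 V (lev s t0))) ∧
      (∀ j p, (X j p).1 - rr s t0 • (X j p).2.1 = p.1 - rr s t0 • p.2.1) ∧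
      (∀ i, Integrable (fun p => ‖(X i p).2.1 - p.2.1 + ∑ j, (H * R.A i j * qq t0) •
          oA V s t0 (X j p)‖) (mu3 V (lev s t0)) ∧
        ∫ p, ‖(X i p).2.1 - p.2.1 + ∑ j, (H * R.A i j * qq t0) • oA V s t0 (X j p)‖
          ∂(mu3 V (lev s t0)) ≤ C * H ^ m * √d) ∧
      (∀ i, Integrable (fun p => ‖(X i p).2.2 - p.2.2 - ∑ j, (H * R.A i j * qq t0) •
          GG (US V (lev s t0)) (rr s t0) (X j p).1 (X j p).2.1‖) (mu3 V (lev s t0)) ∧
        ∫ p, ‖(X i p).2.2 - p.2.2 - ∑ j, (H * R.A i j * qq t0) •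
          GG (US V (lev s t0)) (rr s t0) (X j p).1 (X j p).2.1‖ ∂(mu3 V (lev s t0)) ≤
            C * H ^ m * √d) ∧
      (Integrable (fun p => ‖H⁻¹ • ∑ j, R.D j • fo V (lev s t0) (X j p).1 + √s • oK V s t0 p‖)
          (mu3 V (lev s t0)) ∧
        ∫ p, ‖H⁻¹ • ∑ j, R.D j • fo V (lev s t0) (X j p).1 + √s • oK V s t0 p‖
          ∂(mu3 V (lev s t0)) ≤ C * H ^ (m - 2) * √d) := by
  obtain ⟨C1, hC1, hreg⟩ := reg_R m
  obtain ⟨K, hK, hrs⟩ := rs_tame R hm
  refine ⟨K * √C1, by positivity, ?_⟩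
  intro d V s t0 H hV hs hs1 hh hh1
  obtain ⟨Φ, hΦ, -⟩ := gflow_exists hV hs hs1 (contDiff_const (c := rr s t0))
    (contDiff_const (c := qq t0)) (fun t => ssa_rr_sq_lt hs _) (T := H) hh.le
  obtain ⟨T1, T2, T3⟩ := hreg d V s t0 H Φ hV hs hs1 hh.le hΦ
  have hp := ssa_mu3_prob hV (ssa_lev_pos hs t0) (le_trans (ssa_lev_le hs t0) hs1)
  obtain ⟨-, q2, -⟩ := hrs d C1 H 0 H (mu3 V (lev s t0)) _ hp T2 hC1 le_rfl hh (by simp)
  obtain ⟨-, q4, -⟩ := hrs d C1 H 0 H (mu3 V (lev s t0)) _ hp T3 hC1 le_rfl hh (by simp)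
  obtain ⟨-, -, q3⟩ := hrs d C1 H 0 H (mu3 V (lev s t0)) _ hp T1 hC1 le_rfl hh (by simp)
  have hmem : ∀ i, H * R.t i ∈ Set.Icc (0 : ℝ) H := fun i =>
    ⟨mul_nonneg hh.le (R.t_mem i).1, mul_le_of_le_one_right hh.le (R.t_mem i).2⟩
  have hmp : ∀ i, MeasurePreserving (Φ (H * R.t i)) (mu3 V (lev s t0)) (mu3 V (lev s t0)) := by
    intro i
    have := hΦ.mp _ (hmem i)
    simp only [lev_rr hs] at this
    exact this
  refine ⟨fun i p => Φ (H * R.t i) p, hmp, fun i p => hΦ.centre p _ (hmem i), ?_, ?_, ?_⟩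
  · intro i
    obtain ⟨j1, j2⟩ := q2 i
    have key : (fun p : Z3 d => ‖(Φ (H * R.t i) p).2.1 - p.2.1 + ∑ j, (H * R.A i j * qq t0) •
          oA V s t0 (Φ (H * R.t j) p)‖) =
        fun p => ‖(∫ t in (0 : ℝ)..(0 + H * R.t i), qq t0 • oA V s t0 (Φ t p)) -
          H • ∑ j, R.A i j • (qq t0 • oA V s t0 (Φ (0 + H * R.t j) p))‖ := by
      funext p
      have e2 := ssa_wR hs hΦ T2 p le_rfl (hmem i).1 (hmem i).2
      rw [hΦ.zero] at e2
      simp only [zero_add]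
      have e5 : ∑ j, (H * R.A i j * qq t0) • oA V s t0 (Φ (H * R.t j) p) =
          H • ∑ j, R.A i j • (qq t0 • oA V s t0 (Φ (H * R.t j) p)) := by
        rw [Finset.smul_sum]
        refine Finset.sum_congr rfl fun j _ => ?_
        module
      rw [e2, e5, ← norm_neg]
      congr 1
      abel
    rw [key]
    refine ⟨j1, ?_⟩
    rw [← ssa_sqrt K C1 H m d hC1]
    exact j2
  · intro i
    obtain ⟨j1, j2⟩ := q4 i
    have key : (fun p : Z3 d => ‖(Φ (H * R.t i) p).2.2 - p.2.2 - ∑ j, (H * R.A i j * qq t0) •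
          GG (US V (lev s t0)) (rr s t0) (Φ (H * R.t j) p).1 (Φ (H * R.t j) p).2.1‖) =
        fun p => ‖(∫ t in (0 : ℝ)..(0 + H * R.t i), qq t0 •
            GG (US V (lev s t0)) (rr s t0) (Φ t p).1 (Φ t p).2.1) -
          H • ∑ j, R.A i j • (qq t0 •
            GG (US V (lev s t0)) (rr s t0) (Φ (0 + H * R.t j) p).1 (Φ (0 + H * R.t j) p).2.1)‖ := by
      funext p
      have e2 := ssa_zR hs hΦ T3 p le_rfl (hmem i).1 (hmem i).2
      rw [hΦ.zero] at e2
      simp only [zero_add]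
      have e5 : ∑ j, (H * R.A i j * qq t0) •
          GG (US V (lev s t0)) (rr s t0) (Φ (H * R.t j) p).1 (Φ (H * R.t j) p).2.1 =
          H • ∑ j, R.A i j • (qq t0 •
            GG (US V (lev s t0)) (rr s t0) (Φ (H * R.t j) p).1 (Φ (H * R.t j) p).2.1) := by
        rw [Finset.smul_sum]
        refine Finset.sum_congr rfl fun j _ => ?_
        module
      rw [e2, e5]
    rw [key]
    refine ⟨j1, ?_⟩
    rw [← ssa_sqrt K C1 H m d hC1]
    exact j2
  · have h1 : ∀ x, HasDerivWithinAt (fun τ => fo V (lev s t0) (Φ τ x).1) (-(√s • oK V s t0 x))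
        (Set.Icc (0 : ℝ) H) 0 := by
      intro x
      have h2 := ssa_fo_along hV hΦ (fun t => ssa_rr_sq_lt hs _) x (t := 0) ⟨le_rfl, hh.le⟩
        (differentiableAt_const _)
      simp only [lev_rr hs, hΦ.zero, deriv_const, zero_smul, zero_sub] at h2
      refine h2.congr_deriv ?_
      rw [oK, smul_smul, rr]
      congr 2
      ring
    obtain ⟨j1, j2⟩ := q3 _ h1
    simp only [zero_add] at j1 j2
    have key : (fun p : Z3 d => ‖H⁻¹ • ∑ j, R.D j • fo V (lev s t0) (Φ (H * R.t j) p).1 +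
        √s • oK V s t0 p‖) = fun p => ‖-(√s • oK V s t0 p) - H⁻¹ • ∑ j, R.D j •
          fo V (lev s t0) (Φ (H * R.t j) p).1‖ := by
      funext p
      rw [← norm_neg]
      congr 1
      abel
    rw [key]
    refine ⟨j1, ?_⟩
    rw [← ssa_sqrt K C1 H (m - 2) d hC1]
    exact j2

end P347Z
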