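import Vale.Agent.P347Z.WdFam

/-!
Module WALONG: chain rule along the flows of `IsG`.  With `r = rr s (t0 + ·)` (`deriv r t = rr' s (t0 + t)`) and
`a = lam qq²` the velocity of `(t0 + τ, Φ τ x)` is `VF + lam c VR` of `PU V s lam`; with `r` constant and
`a = qq t0` the velocity of `(t0, Φ τ x)` is `VR` (`pu_vf`, `pu_vTz`, `pu_vg`).
-/

open MeasureTheory ProbabilityTheory Function
open scoped ENNReal BigOperators ContDiff

namespace P347Z

open P347Q P347S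

variable {d : ℕ} {V : E d → ℝ} {s lam : ℝ}

theorem rr_eq (s t : ℝ) : rr s t = √s * th t := by
  rw [rr, th_eq]

theorem rr'_eq (s t : ℝ) : rr' s t = √s * cc t ^ 2 := by
  rw [rr', cc, inv_pow, div_eq_mul_inv]

theorem deriv_rr (s t0 t : ℝ) : deriv (fun τ => rr s (t0 + τ)) t = rr' s (t0 + t) := by
  have h : (fun τ => rr s (t0 + τ)) = fun τ => √s * th (t0 + τ) := funext fun τ => rr_eq s _
  rw [h, rr'_eq]
  exact (((hasDerivAt_th (t0 + t)).comp_const_add t0 t).const_mul (√s)).deriv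

/-- level along the clock: `s - rr² = lev` -/
theorem lev_rr (hs : 0 < s) (t : ℝ) : s - rr s t ^ 2 = lev s t := by
  have h1 := cc_sq_add t
  have h2 : lev s t = s * cc t ^ 2 := by rw [lev, cc, inv_pow, div_eq_mul_inv]
  rw [rr_eq, h2, mul_pow, Real.sq_sqrt hs.le]
  linear_combination (-s) * h1

theorem along_main {t0 T : ℝ} (hV : Pot d V) (hs : 0 < s) (hs1 : s ≤ 1 / 4)
    {Φ : ℝ → Z3 d → Z3 d}
    (hΦ : IsG V s (fun t => rr s (t0 + t)) (fun t => lam * qq (t0 + t) ^ 2) T Φ) {F : TS d → ℝ}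
    (hF : ContDiff ℝ ∞ F) (x : Z3 d) (t : ℝ) (ht : t ∈ Set.Icc (0 : ℝ) T) :
    HasDerivWithinAt (fun τ => F (t0 + τ, Φ τ x))
      (fderiv ℝ F (t0 + t, Φ t x) (VF (PU V s lam) (t0 + t, Φ t x) +
        (lam * cc (t0 + t)) • VR (PU V s lam) (t0 + t, Φ t x)))
      (Set.Icc (0 : ℝ) T) t := by
  have hY := hΦ.dY x t ht
  have hw := hΦ.dw x t ht
  have hz := hΦ.dz x t ht
  have ht0 : HasDerivWithinAt (fun τ : ℝ => t0 + τ) 1 (Set.Icc (0 : ℝ) T) t := by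
    simpa using ((hasDerivAt_id t).const_add t0).hasDerivWithinAt
  have hγ := ht0.prodMk (hY.prodMk (hw.prodMk hz))
  have hγ' : HasDerivWithinAt (fun τ => ((t0 + τ, Φ τ x) : TS d)) _ (Set.Icc (0 : ℝ) T) t := hγ
  have h2 : HasFDerivAt F (fderiv ℝ F (t0 + t, Φ t x)) (t0 + t, Φ t x) :=
    (hF.differentiable (by simp) _).hasFDerivAt
  refine (h2.comp_hasDerivWithinAt t hγ').congr_deriv ?_
  congr 1
  simp only [deriv_rr, lev_rr hs]
  have e1 : gradient (US V (lev s (t0 + t))) (Φ t x).1 = vf (PU V s lam) (t0 + t, Φ t x) :=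
    (pu_vf hV hs hs1 (t0 + t) (Φ t x)).symm
  have e2 : HV (US V (lev s (t0 + t))) (Φ t x).1 (Φ t x).2.2 =
      vTz (PU V s lam) (t0 + t, Φ t x) := (pu_vTz hV hs hs1 (t0 + t) (Φ t x)).symm
  have e3 := pu_vg (lam := lam) hV hs hs1 (t0 + t) (Φ t x)
  rw [e1, e2]
  have hsq : √s * √s = s := Real.mul_self_sqrt hs.le
  have hq : (PU V s lam).q (t0 + t) = (√s * √s) * cc (t0 + t) ^ 2 := by rw [hsq]; rfl
  have hρ : (PU V s lam).ρ (t0 + t) = √s * cc (t0 + t) := rfl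
  have hS : (PU V s lam).s = s := rfl
  have hc := cc_eq (t0 + t)
  refine Prod.ext ?_ (Prod.ext ?_ (Prod.ext ?_ ?_))
  · simp [VF, VR]
  · simp only [VF, VR, Prod.snd_add, Prod.fst_add, Prod.smul_snd, Prod.smul_fst, hq, hρ, hS,
      rr_eq, rr'_eq, ← hc]
    module
  · simp only [VF, VR, Prod.snd_add, Prod.fst_add, Prod.smul_snd, Prod.smul_fst, hq, hρ, hS,
      rr'_eq, ← hc]
    module
  · simp only [VF, VR, Prod.snd_add, Prod.smul_snd, zero_add]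
    rw [e3, smul_smul, hc]
    congr 1
    ring

theorem along_R {t0 T : ℝ} (hV : Pot d V) (hs : 0 < s) (hs1 : s ≤ 1 / 4)
    {Φ : ℝ → Z3 d → Z3 d} (hΦ : IsG V s (fun _ => rr s t0) (fun _ => qq t0) T Φ) {F : TS d → ℝ}
    (hF : ContDiff ℝ ∞ F) (x : Z3 d) (t : ℝ) (ht : t ∈ Set.Icc (0 : ℝ) T) :
    HasDerivWithinAt (fun τ => F (t0, Φ τ x))
      (fderiv ℝ F (t0, Φ t x) (VR (PU V s lam) (t0, Φ t x)))
      (Set.Icc (0 : ℝ) T) t := by
  have hY := hΦ.dY x t ht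
  have hw := hΦ.dw x t ht
  have hz := hΦ.dz x t ht
  have ht0 : HasDerivWithinAt (fun _ : ℝ => t0) 0 (Set.Icc (0 : ℝ) T) t :=
    (hasDerivAt_const t t0).hasDerivWithinAt
  have hγ := ht0.prodMk (hY.prodMk (hw.prodMk hz))
  have hγ' : HasDerivWithinAt (fun τ => ((t0, Φ τ x) : TS d)) _ (Set.Icc (0 : ℝ) T) t := hγ
  have h2 : HasFDerivAt F (fderiv ℝ F (t0, Φ t x)) (t0, Φ t x) :=
    (hF.differentiable (by simp) _).hasFDerivAt
  refine (h2.comp_hasDerivWithinAt t hγ').congr_deriv ?_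
  congr 1
  simp only [deriv_const, lev_rr hs]
  have e2 : HV (US V (lev s t0)) (Φ t x).1 (Φ t x).2.2 =
      vTz (PU V s lam) (t0, Φ t x) := (pu_vTz hV hs hs1 t0 (Φ t x)).symm
  have e3 := pu_vg (lam := lam) hV hs hs1 t0 (Φ t x)
  rw [e2]
  have hρ : (PU V s lam).ρ t0 = √s * cc t0 := rfl
  have hc := cc_eq t0
  refine Prod.ext ?_ (Prod.ext ?_ (Prod.ext ?_ ?_))
  · simp [VR]
  · simp only [VR, hρ, rr_eq, ← hc]
    module
  · simp only [VR, ← hc]
    module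
  · simp only [VR]
    rw [e3]

end P347Z
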