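import Vale.Agent.P347Z.WdAlong
import Vale.Agent.P347Z.WdDer
import Vale.Agent.P347Z.WdBound

/-!
Module WTAME: every vector valued word is tame along the main flow and along the R-flow.
`G k τ x = vec (sem P (der^[k] a)) (t0 + τ, Φ τ x)` (`derR` for the R-flow): derivative by `along_main`, `sem_der`
(`along_R`, `sem_derR`), `ok` is preserved (`ok_der`, `ok_derR`), `L²` bounds by `sem_sq` and `IsG.mp`.
-/

open MeasureTheory ProbabilityTheory Function
open scoped ENNReal BigOperators ContDiff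

namespace P347Z

open P347Q P347S

/-- vector valued path observable `g t x` (`x` = initial state) with derivatives `G k`, bounded in `L²(μ)` up to
order `m` -/
def Tame {d : ℕ} (m : ℕ) (C T : ℝ) (μ : Measure (Z3 d)) (g : ℝ → Z3 d → E d) : Prop :=
  ∃ G : ℕ → ℝ → Z3 d → E d, G 0 = g ∧
    (∀ k, ∀ x, ∀ t ∈ Set.Icc (0 : ℝ) T,
      HasDerivWithinAt (fun τ => G k τ x) (G (k + 1) t x) (Set.Icc (0 : ℝ) T) t) ∧
    (∀ k, ContinuousOn (fun p : ℝ × Z3 d => G k p.1 p.2) (Set.Icc (0 : ℝ) T ×ˢ Set.univ)) ∧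
    (∀ k ≤ m, ∀ t ∈ Set.Icc (0 : ℝ) T, Integrable (fun x => ‖G k t x‖ ^ 2) μ ∧
      ∫ x, ‖G k t x‖ ^ 2 ∂μ ≤ C * d)

theorem tame_smul {d m : ℕ} {C T : ℝ} {μ : Measure (Z3 d)} {g : ℝ → Z3 d → E d} {a : ℝ}
    (ha : |a| ≤ 1) (h : Tame m C T μ g) (_hC : 0 ≤ C) : Tame m C T μ (fun t x => a • g t x) := by
  obtain ⟨G, h0, h1, h2, h3⟩ := h
  refine ⟨fun k t x => a • G k t x, ?_, ?_, ?_, ?_⟩
  · rw [← h0]
  · intro k x t ht
    exact (h1 k x t ht).const_smul a
  · intro k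
    exact (h2 k).const_smul a
  · intro k hk t ht
    obtain ⟨h4, h5⟩ := h3 k hk t ht
    have e : (fun x => ‖a • G k t x‖ ^ 2) = fun x => a ^ 2 * ‖G k t x‖ ^ 2 := by
      funext x
      rw [norm_smul, mul_pow, Real.norm_eq_abs, sq_abs]
    rw [e]
    refine ⟨h4.const_mul _, ?_⟩
    rw [integral_const_mul]
    have ha2 : a ^ 2 ≤ 1 := by
      rw [← sq_abs]
      exact pow_le_one₀ (abs_nonneg a) ha
    have hn : 0 ≤ ∫ x, ‖G k t x‖ ^ 2 ∂μ := integral_nonneg fun x => by positivity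
    calc a ^ 2 * ∫ x, ‖G k t x‖ ^ 2 ∂μ ≤ 1 * ∫ x, ‖G k t x‖ ^ 2 ∂μ :=
          mul_le_mul_of_nonneg_right ha2 hn
      _ ≤ C * d := by rw [one_mul]; exact h5

theorem tame_mono {d m : ℕ} {C C' T : ℝ} {μ : Measure (Z3 d)} {g : ℝ → Z3 d → E d}
    (h : Tame m C T μ g) (hC : C ≤ C') : Tame m C' T μ g := by
  obtain ⟨G, h0, h1, h2, h3⟩ := h
  refine ⟨G, h0, h1, h2, fun k hk t ht => ⟨(h3 k hk t ht).1, (h3 k hk t ht).2.trans ?_⟩⟩
  exact mul_le_mul_of_nonneg_right hC (Nat.cast_nonneg d)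

namespace TameW

theorem vec_eq {d : ℕ} (F : TF d) (x : TS d) : vec F x = ∑ i, F [i] x • bas d i :=
  sum_bas (vec F x)

theorem vec_norm_sq {d : ℕ} (F : TF d) (x : TS d) : ‖vec F x‖ ^ 2 = ∑ i, (F [i] x) ^ 2 := by
  rw [EuclideanSpace.norm_sq_eq]
  simp [vec]

theorem vec_cont {d : ℕ} {F : TF d} (hF : RTF F) : Continuous (vec F) := by
  have : vec F = fun x => ∑ i, F [i] x • bas d i := funext (vec_eq F)
  rw [this]
  exact continuous_finsetSum _ fun i _ => ((hF [i]).1.continuous).smul continuous_const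

/-- pullback of the stationary bound -/
theorem vec_int {d : ℕ} {B : ℕ → ℝ} {P : Prm d} (hP : Fam B P) {F : TF d} (hF : RTF F) {t : ℝ}
    {μ : Measure (Z3 d)} {Φ : Z3 d → Z3 d} (hΦ : MeasurePreserving Φ μ (P.mu t)) {C : ℝ}
    (hC : ∫ y, ∑ i, (F [i] (t, y)) ^ 2 ∂(P.mu t) ≤ C) :
    Integrable (fun x => ‖vec F (t, Φ x)‖ ^ 2) μ ∧ ∫ x, ‖vec F (t, Φ x)‖ ^ 2 ∂μ ≤ C := by
  have hi : Integrable (fun y => ‖vec F (t, y)‖ ^ 2) (P.mu t) := by
    simp only [vec_norm_sq]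
    refine integrable_finsetSum _ fun i _ => ?_
    have := reg_int hP ((hF [i]).mul (hF [i])) t
    simpa [pow_two] using this
  constructor
  · exact (hΦ.integrable_comp hi.aestronglyMeasurable).2 hi
  · have h1 : ∫ x, ‖vec F (t, Φ x)‖ ^ 2 ∂μ = ∫ y, ‖vec F (t, y)‖ ^ 2 ∂(P.mu t) := by
      have h2 : AEStronglyMeasurable (fun y => ‖vec F (t, y)‖ ^ 2) (μ.map Φ) := by
        rw [hΦ.map_eq]
        exact hi.aestronglyMeasurable
      have h3 := integral_map hΦ.measurable.aemeasurable h2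
      rw [hΦ.map_eq] at h3
      exact h3.symm
    rw [h1]
    simp only [vec_norm_sq]
    exact hC

end TameW

open TameW

theorem tame_main (a : Wd) (ha : a.ok 1) (m : ℕ) : ∃ C : ℝ, 0 < C ∧
    ∀ (d : ℕ) (V : E d → ℝ) (s lam t0 T : ℝ) (Φ : ℝ → Z3 d → Z3 d), Pot d V → 0 < s → s ≤ 1 / 4 →
    0 ≤ lam → lam ≤ 1 → 0 ≤ T →
    IsG V s (fun t => rr s (t0 + t)) (fun t => lam * qq (t0 + t) ^ 2) T Φ →
    Tame m C T (mu3 V (lev s t0)) (fun t x => vec (sem (PU V s lam) a) (t0 + t, Φ t x)) := by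
  obtain ⟨B, hB⟩ := fam_us
  have hok : ∀ k, (Wd.der^[k] a).ok 1 := by
    intro k
    induction k with
    | zero => exact ha
    | succ k ih =>
      rw [Function.iterate_succ_apply']
      exact ok_der ih
  choose Ck hCk hbound using fun k => sem_sq B (Wd.der^[k] a) (hok k)
  refine ⟨1 + ∑ k ∈ Finset.range (m + 1), Ck k, ?_, ?_⟩
  · have : 0 ≤ ∑ k ∈ Finset.range (m + 1), Ck k := Finset.sum_nonneg fun k _ => hCk k
    linarith
  intro d V s lam t0 T Φ hV hs hs1 hlam hlam1 hT hΦ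
  have hP := hB d V s lam hV hs hs1 hlam hlam1
  refine ⟨fun k t x => vec (sem (PU V s lam) (Wd.der^[k] a)) (t0 + t, Φ t x), rfl, ?_, ?_, ?_⟩
  · intro k x t ht
    simp only [vec_eq]
    refine HasDerivWithinAt.fun_sum fun i _ => ?_
    refine HasDerivWithinAt.smul_const ?_ _
    have h1 := along_main hV hs hs1 hΦ (sem_reg hP (Wd.der^[k] a) [i]).1 x t ht
    have h2 := sem_der hP (Wd.der^[k] a) [i] (t0 + t, Φ t x)
    have h3 : (PU V s lam).lam = lam := rfl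
    rw [h3] at h2
    rw [h2] at h1
    rw [Function.iterate_succ_apply']
    exact h1
  · intro k
    refine (vec_cont (sem_reg hP (Wd.der^[k] a))).comp_continuousOn ?_
    exact ((continuous_const.add continuous_fst).continuousOn).prodMk hΦ.cont
  · intro k hk t ht
    have hmp := hΦ.mp t ht
    simp only [add_zero, lev_rr hs] at hmp
    have hmu : (PU V s lam).mu (t0 + t) = mu3 V (lev s (t0 + t)) := pu_mu V s lam (t0 + t)
    rw [← hmu] at hmp
    refine vec_int hP (sem_reg hP (Wd.der^[k] a)) hmp ((hbound k d _ (t0 + t) hP).trans ?_)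
    refine mul_le_mul_of_nonneg_right ?_ (Nat.cast_nonneg d)
    have : Ck k ≤ ∑ k ∈ Finset.range (m + 1), Ck k :=
      Finset.single_le_sum (fun k _ => hCk k) (Finset.mem_range.2 (by omega))
    linarith

theorem tame_R (a : Wd) (ha : a.ok 1) (m : ℕ) : ∃ C : ℝ, 0 < C ∧
    ∀ (d : ℕ) (V : E d → ℝ) (s lam t0 T : ℝ) (Φ : ℝ → Z3 d → Z3 d), Pot d V → 0 < s → s ≤ 1 / 4 →
    0 ≤ lam → lam ≤ 1 → 0 ≤ T →
    IsG V s (fun _ => rr s t0) (fun _ => qq t0) T Φ →
    Tame m C T (mu3 V (lev s t0)) (fun t x => vec (sem (PU V s lam) a) (t0, Φ t x)) := by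
  obtain ⟨B, hB⟩ := fam_us
  have hok : ∀ k, (Wd.derR^[k] a).ok 1 := by
    intro k
    induction k with
    | zero => exact ha
    | succ k ih =>
      rw [Function.iterate_succ_apply']
      exact ok_derR ih
  choose Ck hCk hbound using fun k => sem_sq B (Wd.derR^[k] a) (hok k)
  refine ⟨1 + ∑ k ∈ Finset.range (m + 1), Ck k, ?_, ?_⟩
  · have : 0 ≤ ∑ k ∈ Finset.range (m + 1), Ck k := Finset.sum_nonneg fun k _ => hCk k
    linarith
  intro d V s lam t0 T Φ hV hs hs1 hlam hlam1 hT hΦ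
  have hP := hB d V s lam hV hs hs1 hlam hlam1
  refine ⟨fun k t x => vec (sem (PU V s lam) (Wd.derR^[k] a)) (t0, Φ t x), rfl, ?_, ?_, ?_⟩
  · intro k x t ht
    simp only [vec_eq]
    refine HasDerivWithinAt.fun_sum fun i _ => ?_
    refine HasDerivWithinAt.smul_const ?_ _
    have h1 := along_R (lam := lam) hV hs hs1 hΦ (sem_reg hP (Wd.derR^[k] a) [i]).1 x t ht
    have h2 := congrFun (congrFun (sem_derR hP (Wd.derR^[k] a)) [i]) (t0, Φ t x)
    rw [Function.iterate_succ_apply', ← h2]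
    exact h1
  · intro k
    refine (vec_cont (sem_reg hP (Wd.derR^[k] a))).comp_continuousOn ?_
    exact continuousOn_const.prodMk hΦ.cont
  · intro k hk t ht
    have hmp := hΦ.mp t ht
    simp only [lev_rr hs] at hmp
    have hmu : (PU V s lam).mu t0 = mu3 V (lev s t0) := pu_mu V s lam t0
    rw [← hmu] at hmp ⊢
    refine vec_int hP (sem_reg hP (Wd.derR^[k] a)) hmp ((hbound k d _ t0 hP).trans ?_)
    refine mul_le_mul_of_nonneg_right ?_ (Nat.cast_nonneg d)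
    have : Ck k ≤ ∑ k ∈ Finset.range (m + 1), Ck k :=
      Finset.single_le_sum (fun k _ => hCk k) (Finset.mem_range.2 (by omega))
    linarith

end P347Z
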