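import Vale.Agent.P347Z.GFlow
import Vale.Agent.P347Z.WdAlong
import Vale.Agent.P347Z.WdTame

/-!
Helper file for module SS (helper26): the law `mu3`, the clock functions, and the derivative of the force along
the flows of `IsG`.
-/

open MeasureTheory ProbabilityTheory Function
open scoped ENNReal BigOperators ContDiff

namespace P347Z

open P347Q P347S

variable {d : ℕ} {V : E d → ℝ} {s L : ℝ}

theorem ssa_mu3_prob (hV : Pot d V) (hL : 0 < L) (hL1 : L ≤ 1 / 4) :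
    IsProbabilityMeasure (mu3 V L) := by
  have := us_prob hV hL hL1
  unfold mu3
  infer_instance

theorem ssa_mu3_fst (hV : Pot d V) (hL : 0 < L) (hL1 : L ≤ 1 / 4) :
    (mu3 V L).map Prod.fst = gibbs (US V L) := by
  have := us_prob hV hL hL1
  unfold mu3
  have h := Measure.map_fst_prod (μ := gibbs (US V L))
    (ν := (stdGaussian (E d)).prod (stdGaussian (E d)))
  rw [h]
  simp

theorem ssa_lev_pos (hs : 0 < s) (t : ℝ) : 0 < lev s t := by
  unfold lev
  have := Real.cosh_pos t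
  positivity

theorem ssa_lev_le (hs : 0 < s) (t : ℝ) : lev s t ≤ s := by
  unfold lev
  have h1 := Real.one_le_cosh t
  refine div_le_self hs.le ?_
  nlinarith

theorem ssa_rr_sq_lt (hs : 0 < s) (t : ℝ) : rr s t ^ 2 < s := by
  have h1 := lev_rr hs t
  have h2 := ssa_lev_pos hs t
  linarith

theorem ssa_abs_rr_le (hs : 0 < s) (hs1 : s ≤ 1 / 4) (t : ℝ) : |rr s t| ≤ 1 := by
  have h1 := ssa_rr_sq_lt hs t
  have h2 : |rr s t| ^ 2 < 1 := by
    rw [sq_abs]
    linarith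
  have h3 := abs_nonneg (rr s t)
  nlinarith

theorem ssa_tanh_smooth : ContDiff ℝ ∞ Real.tanh := by
  have : Real.tanh = fun t => Real.sinh t / Real.cosh t := by
    funext t
    exact Real.tanh_eq_sinh_div_cosh t
  rw [this]
  exact Real.contDiff_sinh.div Real.contDiff_cosh fun t => (Real.cosh_pos t).ne'

theorem ssa_rr_smooth (s t0 : ℝ) : ContDiff ℝ ∞ (fun t => rr s (t0 + t)) := by
  unfold rr
  exact contDiff_const.mul (ssa_tanh_smooth.comp (contDiff_const.add contDiff_id))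

theorem ssa_qq_smooth : ContDiff ℝ ∞ qq := by
  have : qq = fun t => (1 : ℝ) / Real.cosh t := by
    funext t
    rfl
  rw [this]
  exact contDiff_const.div Real.contDiff_cosh fun t => (Real.cosh_pos t).ne'

theorem ssa_a_smooth (lam t0 : ℝ) : ContDiff ℝ ∞ (fun t => lam * qq (t0 + t) ^ 2) :=
  contDiff_const.mul ((ssa_qq_smooth.comp (contDiff_const.add contDiff_id)).pow 2)

/-- joint smoothness of the force -/
theorem ssa_fo_smooth (hV : Pot d V) :
    ContDiffOn ℝ ∞ (fun p : ℝ × E d => fo V p.1 p.2) (Set.Ioi (0 : ℝ) ×ˢ Set.univ) := by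
  have hO : IsOpen (Set.Ioi (0 : ℝ) ×ˢ (Set.univ : Set (E d))) := isOpen_Ioi.prod isOpen_univ
  have h1 : ContDiffOn ℝ ∞ (fun p : ℝ × E d => fderiv ℝ (fun p : ℝ × E d => US V p.1 p.2) p)
      (Set.Ioi (0 : ℝ) ×ˢ Set.univ) :=
    (us_joint hV).fderiv_of_isOpen hO (by simp)
  have h2 : ∀ p ∈ Set.Ioi (0 : ℝ) ×ˢ (Set.univ : Set (E d)), fo V p.1 p.2 =
      (InnerProductSpace.toDual ℝ (E d)).symm
        ((fderiv ℝ (fun p : ℝ × E d => US V p.1 p.2) p).comp
          (ContinuousLinearMap.inr ℝ ℝ (E d))) := by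
    intro p hp
    have hd : HasFDerivAt (fun p : ℝ × E d => US V p.1 p.2)
        (fderiv ℝ (fun p : ℝ × E d => US V p.1 p.2) p) p :=
      (((us_joint hV).contDiffAt (hO.mem_nhds hp)).differentiableAt (by simp)).hasFDerivAt
    have hi : HasFDerivAt (fun y : E d => ((p.1, y) : ℝ × E d))
        (ContinuousLinearMap.inr ℝ ℝ (E d)) p.2 := hasFDerivAt_prodMk_right p.1 p.2
    have hc : HasFDerivAt ((fun p : ℝ × E d => US V p.1 p.2) ∘ (fun y : E d => ((p.1, y) : ℝ × E d)))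
        _ p.2 := HasFDerivAt.comp p.2 (g := fun p : ℝ × E d => US V p.1 p.2) hd hi
    unfold fo gradient
    rw [show fderiv ℝ (US V p.1) p.2 = _ from hc.fderiv]
  refine ContDiffOn.congr ?_ h2
  have h3 : ContDiffOn ℝ ∞ (fun p : ℝ × E d =>
      (fderiv ℝ (fun p : ℝ × E d => US V p.1 p.2) p).comp (ContinuousLinearMap.inr ℝ ℝ (E d)))
      (Set.Ioi (0 : ℝ) ×ˢ Set.univ) := h1.clm_comp contDiffOn_const
  exact ((InnerProductSpace.toDual ℝ (E d)).symm.toContinuousLinearEquiv.contDiff).comp_contDiffOn h3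

/-- total derivative of the force -/
theorem ssa_fo_fderiv (hV : Pot d V) (hL : 0 < L) (y : E d) :
    HasFDerivAt (fun p : ℝ × E d => fo V p.1 p.2)
      ((ContinuousLinearMap.fst ℝ ℝ (E d)).smulRight
        ((1 / 2 : ℝ) • LG (US V L) y - HV (US V L) y (gradient (US V L) y)) +
        (fderiv ℝ (gradient (US V L)) y).comp (ContinuousLinearMap.snd ℝ ℝ (E d))) (L, y) := by
  have hO : IsOpen (Set.Ioi (0 : ℝ) ×ˢ (Set.univ : Set (E d))) := isOpen_Ioi.prod isOpen_univ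
  have hp : ((L, y) : ℝ × E d) ∈ Set.Ioi (0 : ℝ) ×ˢ (Set.univ : Set (E d)) := ⟨hL, trivial⟩
  have hd : HasFDerivAt (fun p : ℝ × E d => fo V p.1 p.2)
      (fderiv ℝ (fun p : ℝ × E d => fo V p.1 p.2) (L, y)) (L, y) :=
    (((ssa_fo_smooth hV).contDiffAt (hO.mem_nhds hp)).differentiableAt (by simp)).hasFDerivAt
  refine hd.congr_fderiv ?_
  have h1 : HasDerivAt (fun l => fo V l y)
      (fderiv ℝ (fun p : ℝ × E d => fo V p.1 p.2) (L, y) (1, 0)) L := by
    have hi : HasDerivAt (fun l : ℝ => ((l, y) : ℝ × E d)) ((1, 0) : ℝ × E d) L :=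
      (hasDerivAt_id L).prodMk (hasDerivAt_const L y)
    exact hd.comp_hasDerivAt L hi
  have h2 : HasFDerivAt (fun x => fo V L x)
      ((fderiv ℝ (fun p : ℝ × E d => fo V p.1 p.2) (L, y)).comp (ContinuousLinearMap.inr ℝ ℝ (E d))) y := by
    have hi : HasFDerivAt (fun y : E d => ((L, y) : ℝ × E d))
        (ContinuousLinearMap.inr ℝ ℝ (E d)) y := hasFDerivAt_prodMk_right L y
    exact hd.comp y hi
  have h3 := h1.unique (fo_pde hV hL y)
  have h4 : fderiv ℝ (gradient (US V L)) y =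
      (fderiv ℝ (fun p : ℝ × E d => fo V p.1 p.2) (L, y)).comp (ContinuousLinearMap.inr ℝ ℝ (E d)) :=
    h2.fderiv
  refine ContinuousLinearMap.ext fun v => ?_
  rw [h4, ← h3]
  have : v = v.1 • ((1, 0) : ℝ × E d) + ((0, v.2) : ℝ × E d) := by
    ext <;> simp
  conv_lhs => rw [this, map_add, map_smul]
  simp

/-- derivative of the force along the flow: `d/dt f = r' G - a r T² z` -/
theorem ssa_fo_along (hV : Pot d V) {r a : ℝ → ℝ} {T : ℝ} {Φ : ℝ → Z3 d → Z3 d}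
    (hΦ : IsG V s r a T Φ) (hlev : ∀ t, r t ^ 2 < s) (x : Z3 d) {t : ℝ}
    (ht : t ∈ Set.Icc (0 : ℝ) T) (hr : DifferentiableAt ℝ r t) :
    HasDerivWithinAt (fun τ => fo V (s - r τ ^ 2) (Φ τ x).1)
      (deriv r t • GG (US V (s - r t ^ 2)) (r t) (Φ t x).1 (Φ t x).2.1 -
        (r t * a t) • HV (US V (s - r t ^ 2)) (Φ t x).1
          (HV (US V (s - r t ^ 2)) (Φ t x).1 (Φ t x).2.2)) (Set.Icc (0 : ℝ) T) t := by
  have hpos : 0 < s - r t ^ 2 := by linarith [hlev t]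
  have h1 := ssa_fo_fderiv hV hpos (Φ t x).1
  have hl : HasDerivWithinAt (fun τ => s - r τ ^ 2) (-(2 * r t * deriv r t)) (Set.Icc (0 : ℝ) T) t := by
    have := (hr.hasDerivAt.pow 2).const_sub s
    refine (this.congr_deriv ?_).hasDerivWithinAt
    simp
  have hc : HasDerivWithinAt (fun τ => ((s - r τ ^ 2, (Φ τ x).1) : ℝ × E d)) _
      (Set.Icc (0 : ℝ) T) t := hl.prodMk (hΦ.dY x t ht)
  have h2 := HasFDerivAt.comp_hasDerivWithinAt (f := fun τ => ((s - r τ ^ 2, (Φ τ x).1) : ℝ × E d))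
    t h1 hc
  refine h2.congr_deriv ?_
  simp only [add_apply, ContinuousLinearMap.smulRight_apply, ContinuousLinearMap.coe_fst',
    ContinuousLinearMap.comp_apply, ContinuousLinearMap.coe_snd', map_sub, map_smul, GG, HV, map_add]
  module

theorem ssa_tame_cont {m : ℕ} {C T : ℝ} {μ : Measure (Z3 d)} {g : ℝ → Z3 d → E d}
    (h : Tame m C T μ g) (x : Z3 d) : ContinuousOn (fun t => g t x) (Set.Icc (0 : ℝ) T) := by
  obtain ⟨G, h0, _, hc, _⟩ := h
  rw [← h0]
  exact (hc 0).comp (f := fun t : ℝ => ((t, x) : ℝ × Z3 d)) (by fun_prop) fun t ht => ⟨ht, trivial⟩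

theorem ssa_ftc {G : Type*} [NormedAddCommGroup G] [NormedSpace ℝ G] [CompleteSpace G]
    {T : ℝ} {F F' : ℝ → G}
    (hF : ∀ t ∈ Set.Icc (0 : ℝ) T, HasDerivWithinAt F (F' t) (Set.Icc (0 : ℝ) T) t)
    (hc : ContinuousOn F' (Set.Icc (0 : ℝ) T)) {a b : ℝ} (ha : 0 ≤ a) (hab : a ≤ b) (hb : b ≤ T) :
    ∫ t in a..b, F' t = F b - F a := by
  have hsub : Set.Icc a b ⊆ Set.Icc (0 : ℝ) T := Set.Icc_subset_Icc ha hb
  refine intervalIntegral.integral_eq_sub_of_hasDeriv_right_of_le hab ?_ ?_ ?_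
  · exact fun t ht => ((hF t (hsub ht)).continuousWithinAt).mono hsub
  · intro t ht
    have h1 := hF t (hsub (Set.Ioo_subset_Icc_self ht))
    have h2 : Set.Icc (0 : ℝ) T ∈ nhds t :=
      Icc_mem_nhds (lt_of_le_of_lt ha ht.1) (lt_of_lt_of_le ht.2 hb)
    exact (h1.hasDerivAt h2).hasDerivWithinAt
  · refine ContinuousOn.intervalIntegrable ?_
    rw [Set.uIcc_of_le hab]
    exact hc.mono hsub

theorem ssa_sqrt (K C h : ℝ) (m d : ℕ) (hC : 0 < C) :
    K * h ^ m * √(C * d) = K * √C * h ^ m * √d := by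
  rw [Real.sqrt_mul hC.le]
  ring

/-- the `w` component along the flow -/
theorem ssa_w {m : ℕ} {C μ1 : ℝ} {t0 T lam : ℝ} {Φ : ℝ → Z3 d → Z3 d} {μ : Measure (Z3 d)}
    (hs : 0 < s) (hΦ : IsG V s (fun t => rr s (t0 + t)) (fun t => lam * qq (t0 + t) ^ 2) T Φ)
    (h1 : Tame m C T μ (fun t x => rr' s (t0 + t) • fo V (lev s (t0 + t)) (Φ t x).1))
    (h2 : Tame m μ1 T μ (fun t x => (lam * qq (t0 + t) ^ 2) • oA V s (t0 + t) (Φ t x)))
    (x : Z3 d) {a b : ℝ} (ha : 0 ≤ a) (hab : a ≤ b) (hb : b ≤ T) :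
    (Φ b x).2.1 - (Φ a x).2.1 = -(∫ t in a..b, rr' s (t0 + t) • fo V (lev s (t0 + t)) (Φ t x).1) -
      ∫ t in a..b, (lam * qq (t0 + t) ^ 2) • oA V s (t0 + t) (Φ t x) := by
  have c1 := ssa_tame_cont h1 x
  have c2 := ssa_tame_cont h2 x
  have hsub : Set.uIcc a b ⊆ Set.Icc (0 : ℝ) T := by
    rw [Set.uIcc_of_le hab]
    exact Set.Icc_subset_Icc ha hb
  have i1 := (c1.mono hsub).intervalIntegrable (μ := volume)
  have i2 := (c2.mono hsub).intervalIntegrable (μ := volume)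
  have h3 := ssa_ftc (T := T) (F := fun t => (Φ t x).2.1)
    (F' := fun t => -(rr' s (t0 + t) • fo V (lev s (t0 + t)) (Φ t x).1) -
      (lam * qq (t0 + t) ^ 2) • oA V s (t0 + t) (Φ t x)) (fun t ht => by
        have := hΦ.dw x t ht
        rw [deriv_rr] at this
        simp only [lev_rr hs] at this
        exact this) (c1.neg.sub c2) ha hab hb
  rw [← h3, ← intervalIntegral.integral_neg]
  exact intervalIntegral.integral_sub i1.neg i2

/-- the `z` component along the flow -/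
theorem ssa_z {m : ℕ} {C : ℝ} {t0 T lam : ℝ} {Φ : ℝ → Z3 d → Z3 d} {μ : Measure (Z3 d)}
    (hs : 0 < s) (hΦ : IsG V s (fun t => rr s (t0 + t)) (fun t => lam * qq (t0 + t) ^ 2) T Φ)
    (h1 : Tame m C T μ (fun t x => (lam * qq (t0 + t) ^ 2) •
      GG (US V (lev s (t0 + t))) (rr s (t0 + t)) (Φ t x).1 (Φ t x).2.1))
    (x : Z3 d) {a b : ℝ} (ha : 0 ≤ a) (hab : a ≤ b) (hb : b ≤ T) :
    (Φ b x).2.2 - (Φ a x).2.2 = ∫ t in a..b, (lam * qq (t0 + t) ^ 2) •
      GG (US V (lev s (t0 + t))) (rr s (t0 + t)) (Φ t x).1 (Φ t x).2.1 := by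
  have c1 := ssa_tame_cont h1 x
  exact (ssa_ftc (T := T) (F := fun t => (Φ t x).2.2) (fun t ht => by
        have := hΦ.dz x t ht
        simp only [lev_rr hs] at this
        exact this) c1 ha hab hb).symm

/-- the `w` and `z` components along the kick flow -/
theorem ssa_wR {m : ℕ} {C : ℝ} {t0 T : ℝ} {Φ : ℝ → Z3 d → Z3 d} {μ : Measure (Z3 d)}
    (hs : 0 < s) (hΦ : IsG V s (fun _ => rr s t0) (fun _ => qq t0) T Φ)
    (h1 : Tame m C T μ (fun t x => qq t0 • oA V s t0 (Φ t x)))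
    (x : Z3 d) {a b : ℝ} (ha : 0 ≤ a) (hab : a ≤ b) (hb : b ≤ T) :
    (Φ b x).2.1 - (Φ a x).2.1 = -∫ t in a..b, qq t0 • oA V s t0 (Φ t x) := by
  have c1 := ssa_tame_cont h1 x
  have h3 := ssa_ftc (T := T) (F := fun t => (Φ t x).2.1)
    (F' := fun t => -(qq t0 • oA V s t0 (Φ t x))) (fun t ht => by
        have := hΦ.dw x t ht
        simp only [deriv_const, zero_smul, neg_zero, zero_sub, lev_rr hs] at this
        exact this) c1.neg ha hab hb
  rw [← h3, ← intervalIntegral.integral_neg]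

theorem ssa_zR {m : ℕ} {C : ℝ} {t0 T : ℝ} {Φ : ℝ → Z3 d → Z3 d} {μ : Measure (Z3 d)}
    (hs : 0 < s) (hΦ : IsG V s (fun _ => rr s t0) (fun _ => qq t0) T Φ)
    (h1 : Tame m C T μ (fun t x => qq t0 •
      GG (US V (lev s t0)) (rr s t0) (Φ t x).1 (Φ t x).2.1))
    (x : Z3 d) {a b : ℝ} (ha : 0 ≤ a) (hab : a ≤ b) (hb : b ≤ T) :
    (Φ b x).2.2 - (Φ a x).2.2 = ∫ t in a..b, qq t0 •
      GG (US V (lev s t0)) (rr s t0) (Φ t x).1 (Φ t x).2.1 := by
  have c1 := ssa_tame_cont h1 x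
  exact (ssa_ftc (T := T) (F := fun t => (Φ t x).2.2) (fun t ht => by
        have := hΦ.dz x t ht
        simp only [lev_rr hs] at this
        exact this) c1 ha hab hb).symm

end P347Z
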