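import Vale.Agent.P347Z.SSDefs
import Vale.Agent.P347Z.SSAux

/-!
Module SS: the exact paths seen by the algorithm (nodes, stationarity, quadrature residuals).  Everything follows
from `gflow_exists`, `reg_main`, `reg_R`, `rs_tame`, the fundamental theorem of calculus and `IsG`.
S1: free path from the clock time `t0`.  S2: kick flow at the fixed clock time `t0`.  S3: main path.
-/

open MeasureTheory ProbabilityTheory Function
open scoped ENNReal BigOperators ContDiff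

namespace P347Z

open P347Q P347S

section comp

variable {m N J : ℕ}

theorem s3_nt_eq (R : RS m N) (h : ℝ) (b : Fin J × Fin (N + 1)) :
    nt R h b = (b.1 : ℕ) * h + h * R.t b.2 := by
  unfold nt
  ring

theorem s3_nt_mem (R : RS m N) {h : ℝ} (hh : 0 < h) (b : Fin J × Fin (N + 1)) :
    nt R h b ∈ Set.Icc (0 : ℝ) (J * h) := by
  rw [s3_nt_eq]
  obtain ⟨h1, h2⟩ := R.t_mem b.2
  have h3 : ((b.1 : ℕ) : ℝ) + 1 ≤ J := by exact_mod_cast b.1.2
  have h4 : (0 : ℝ) ≤ ((b.1 : ℕ) : ℝ) := Nat.cast_nonneg _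
  constructor
  · positivity
  · nlinarith

theorem s3_sum_fin {W : Type*} [AddCommMonoid W] (b : Fin J) (P : ℕ → W) (Q : W) :
    ∑ i : Fin J, (if i < b then P i else if i = b then Q else 0) =
      ∑ k ∈ Finset.range b, P k + Q := by
  have h1 : ∀ i : Fin J, (if i < b then P i else if i = b then Q else 0) =
      (if (i : ℕ) < b then P i else 0) + (if i = b then Q else 0) := by
    intro i
    by_cases h : i < b
    · have h' : i ≠ b := ne_of_lt h
      have h'' : (i : ℕ) < b := h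
      simp only [h, h', h'', if_true, if_false, add_zero]
    · have h'' : ¬ (i : ℕ) < b := h
      simp only [h, h'', if_false, zero_add]
  rw [Finset.sum_congr rfl fun i _ => h1 i, Finset.sum_add_distrib,
    Fin.sum_univ_eq_sum_range (fun k => if k < (b : ℕ) then P k else 0) J,
    Finset.sum_ite_eq' Finset.univ b (fun _ => Q), if_pos (Finset.mem_univ b),
    ← Finset.sum_filter]
  congr 2
  ext k
  simp only [Finset.mem_filter, Finset.mem_range]
  have := b.2
  constructor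
  · exact fun hk => hk.2
  · exact fun hk => ⟨by omega, hk⟩

theorem s3_sum {d : ℕ} (R : RS m N) (h : ℝ) (b : Fin J × Fin (N + 1)) (G : ℝ → E d) :
    ∑ c, Wt R h b c • G (nt R h c) =
      ∑ k ∈ Finset.range b.1, (h • ∑ j, R.w j • G (k * h + h * R.t j)) +
        h • ∑ j, R.A b.2 j • G ((b.1 : ℕ) * h + h * R.t j) := by
  rw [Fintype.sum_prod_type]
  have h1 : ∀ i : Fin J, ∑ j, Wt R h b (i, j) • G (nt R h (i, j)) =
      (if i < b.1 then (fun k : ℕ => h • ∑ j, R.w j • G (k * h + h * R.t j)) i else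
        if i = b.1 then h • ∑ j, R.A b.2 j • G ((b.1 : ℕ) * h + h * R.t j) else 0) := by
    intro i
    by_cases hi : i < b.1
    · simp only [hi, if_true, Wt]
      rw [Finset.smul_sum]
      refine Finset.sum_congr rfl fun j _ => ?_
      rw [s3_nt_eq, mul_smul]
    · by_cases hi' : i = b.1
      · subst hi'
        simp only [lt_irrefl, if_true, if_false, Wt]
        rw [Finset.smul_sum]
        refine Finset.sum_congr rfl fun j _ => ?_
        rw [s3_nt_eq, mul_smul]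
      · simp only [hi, hi', if_false, Wt, zero_smul, Finset.sum_const_zero]
  rw [Finset.sum_congr rfl fun i _ => h1 i]
  exact s3_sum_fin b.1 (fun k : ℕ => h • ∑ j, R.w j • G (k * h + h * R.t j)) _

theorem s3_sum_end {d : ℕ} (R : RS m N) (h : ℝ) (G : ℝ → E d) :
    ∑ c : Fin J × Fin (N + 1), (h * R.w c.2) • G (nt R h c) =
      ∑ k ∈ Finset.range J, (h • ∑ j, R.w j • G (k * h + h * R.t j)) := by
  rw [Fintype.sum_prod_type, ← Fin.sum_univ_eq_sum_range
    (fun k : ℕ => h • ∑ j, R.w j • G (k * h + h * R.t j)) J]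
  refine Finset.sum_congr rfl fun i _ => ?_
  rw [Finset.smul_sum]
  refine Finset.sum_congr rfl fun j _ => ?_
  rw [s3_nt_eq, mul_smul]

/-- composite quadrature for tame observables -/
theorem s3_comp (R : RS m N) (hm : 3 ≤ m) : ∃ K : ℝ, 0 < K ∧ ∀ (d J : ℕ) (C h : ℝ)
    (μ : Measure (Z3 d)) (g : ℝ → Z3 d → E d), IsProbabilityMeasure μ → Tame m C (J * h) μ g →
    0 < C → 0 < h →
    (∀ b : Fin J × Fin (N + 1), ∃ B : Z3 d → ℝ, Integrable B μ ∧
      ∫ x, B x ∂μ ≤ J * (K * h ^ m * √(C * d)) ∧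
      ∀ x, ‖(∫ t in (0 : ℝ)..nt R h b, g t x) - ∑ c, Wt R h b c • g (nt R h c) x‖ ≤ B x) ∧
    (∃ B : Z3 d → ℝ, Integrable B μ ∧
      ∫ x, B x ∂μ ≤ J * (K * h ^ m * √(C * d)) ∧
      ∀ x, ‖(∫ t in (0 : ℝ)..(J * h), g t x) -
        ∑ c : Fin J × Fin (N + 1), (h * R.w c.2) • g (nt R h c) x‖ ≤ B x) := by
  obtain ⟨K, hK, hrs⟩ := rs_tame R hm
  refine ⟨K, hK, ?_⟩
  intro d J C h μ g hμ hg hC hh
  have hcont : ∀ x, ContinuousOn (fun t => g t x) (Set.Icc (0 : ℝ) (J * h)) :=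
    fun x => ssa_tame_cont hg x
  have hint : ∀ x, ∀ a b : ℝ, 0 ≤ a → a ≤ b → b ≤ J * h →
      IntervalIntegrable (fun t => g t x) volume a b := by
    intro x a b ha hab hb
    refine ContinuousOn.intervalIntegrable ?_
    rw [Set.uIcc_of_le hab]
    exact (hcont x).mono (Set.Icc_subset_Icc ha hb)
  have hmem : ∀ k : ℕ, k < J → (0 : ℝ) ≤ k * h ∧ (k : ℝ) * h + h ≤ J * h := by
    intro k hk
    have h3 : (k : ℝ) + 1 ≤ J := by exact_mod_cast hk
    have h4 : (0 : ℝ) ≤ (k : ℝ) := Nat.cast_nonneg _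
    constructor
    · positivity
    · nlinarith
  have hK0 : 0 ≤ K * h ^ m * √(C * d) := by positivity
  -- the blocks
  let D : ℕ → Z3 d → ℝ := fun k x =>
    ‖(∫ t in (k * h : ℝ)..(k * h + h), g t x) - h • ∑ j, R.w j • g (k * h + h * R.t j) x‖
  have hD : ∀ k < J, Integrable (D k) μ ∧ ∫ x, D k x ∂μ ≤ K * h ^ m * √(C * d) := by
    intro k hk
    obtain ⟨h1, h2⟩ := hmem k hk
    exact (hrs d C (J * h) (k * h) h μ g hμ hg hC h1 hh h2).1
  have hsplit : ∀ x, ∀ n ≤ J, ∑ k ∈ Finset.range n, (∫ t in (k * h : ℝ)..(k * h + h), g t x) =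
      ∫ t in (0 : ℝ)..(n * h), g t x := by
    intro x n hn
    have h1 := intervalIntegral.sum_integral_adjacent_intervals (f := fun t => g t x)
      (μ := volume) (a := fun k : ℕ => (k : ℝ) * h) (n := n) (by
        intro k hk
        obtain ⟨h2, h3⟩ := hmem k (hk.trans_le hn)
        refine hint x _ _ h2 ?_ ?_
        · push_cast
          nlinarith
        · push_cast
          nlinarith)
    simp only [Nat.cast_zero, zero_mul] at h1
    rw [← h1]
    refine Finset.sum_congr rfl fun k _ => ?_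
    have h2 : (k : ℝ) * h + h = ((k + 1 : ℕ) : ℝ) * h := by
      push_cast
      ring
    rw [h2]
  have hDsum : ∀ n ≤ J, Integrable (fun x => ∑ k ∈ Finset.range n, D k x) μ ∧
      ∫ x, ∑ k ∈ Finset.range n, D k x ∂μ ≤ n * (K * h ^ m * √(C * d)) := by
    intro n hn
    refine ⟨integrable_finsetSum _ fun k hk =>
      (hD k ((Finset.mem_range.1 hk).trans_le hn)).1, ?_⟩
    rw [integral_finsetSum _ fun k hk => (hD k ((Finset.mem_range.1 hk).trans_le hn)).1]
    calc ∑ k ∈ Finset.range n, ∫ x, D k x ∂μ ≤ ∑ _k ∈ Finset.range n, K * h ^ m * √(C * d) :=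
          Finset.sum_le_sum fun k hk => (hD k ((Finset.mem_range.1 hk).trans_le hn)).2
      _ = n * (K * h ^ m * √(C * d)) := by
          rw [Finset.sum_const, Finset.card_range, nsmul_eq_mul]
  have hDle : ∀ x, ∀ n ≤ J, ‖(∫ t in (0 : ℝ)..(n * h), g t x) -
      ∑ k ∈ Finset.range n, (h • ∑ j, R.w j • g (k * h + h * R.t j) x)‖ ≤
      ∑ k ∈ Finset.range n, D k x := by
    intro x n hn
    rw [← hsplit x n hn, ← Finset.sum_sub_distrib]
    exact norm_sum_le _ _
  constructor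
  · intro b
    have hb1 : (b.1 : ℕ) < J := b.1.2
    obtain ⟨h1, h2⟩ := hmem b.1 hb1
    obtain ⟨e1, e2⟩ := (hrs d C (J * h) ((b.1 : ℕ) * h) h μ g hμ hg hC h1 hh h2).2.1 b.2
    refine ⟨fun x => ∑ k ∈ Finset.range b.1, D k x +
      ‖(∫ t in (((b.1 : ℕ) : ℝ) * h)..(((b.1 : ℕ) : ℝ) * h + h * R.t b.2), g t x) -
        h • ∑ j, R.A b.2 j • g ((b.1 : ℕ) * h + h * R.t j) x‖,
      (hDsum b.1 hb1.le).1.add e1, ?_, ?_⟩
    · rw [integral_add (hDsum b.1 hb1.le).1 e1]
      have h3 := (hDsum b.1 hb1.le).2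
      have h4 : ((b.1 : ℕ) : ℝ) + 1 ≤ J := by exact_mod_cast hb1
      nlinarith
    · intro x
      have h5 := s3_sum R h b (fun t => g t x)
      rw [h5, s3_nt_eq]
      have h6 : (∫ t in (0 : ℝ)..(((b.1 : ℕ) : ℝ) * h + h * R.t b.2), g t x) =
          (∫ t in (0 : ℝ)..(((b.1 : ℕ) : ℝ) * h), g t x) +
          ∫ t in (((b.1 : ℕ) : ℝ) * h)..(((b.1 : ℕ) : ℝ) * h + h * R.t b.2), g t x := by
        have h7 := R.t_mem b.2
        refine (intervalIntegral.integral_add_adjacent_intervals ?_ ?_).symm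
        · exact hint x _ _ le_rfl h1 (by linarith)
        · refine hint x _ _ h1 ?_ ?_
          · nlinarith [h7.1]
          · nlinarith [h7.2]
      rw [h6]
      have h8 := hDle x b.1 hb1.le
      have h9 : ∀ a₁ a₂ b₁ b₂ : E d, a₁ + a₂ - (b₁ + b₂) = (a₁ - b₁) + (a₂ - b₂) := by
        intros
        abel
      rw [h9]
      exact (norm_add_le _ _).trans (add_le_add h8 le_rfl)
  · refine ⟨fun x => ∑ k ∈ Finset.range J, D k x, (hDsum J le_rfl).1, (hDsum J le_rfl).2, ?_⟩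
    intro x
    have h5 := s3_sum_end (J := J) R h (fun t => g t x)
    rw [h5]
    exact hDle x J le_rfl

end comp

theorem s3_final {X : Type*} [MeasurableSpace X] {F : Type*} [NormedAddCommGroup F]
    {μ : Measure X} {f : X → F} {B : X → ℝ} {b : ℝ} (hf : AEStronglyMeasurable f μ)
    (hB : Integrable B μ) (hb : ∫ x, B x ∂μ ≤ b) (h : ∀ x, ‖f x‖ ≤ B x) :
    Integrable (fun x => ‖f x‖) μ ∧ ∫ x, ‖f x‖ ∂μ ≤ b := by
  have h1 : Integrable (fun x => ‖f x‖) μ :=
    (hB.mono' hf (Filter.Eventually.of_forall h)).norm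
  exact ⟨h1, (integral_mono h1 hB h).trans hb⟩

/-- S3.  Main path on `[0, J h]` (`r(t) = √s tanh t`, `a(t) = lam qq²`), `p = (y, w₀, z₀) ∼ mu3 V s`:
`X b` state at the node `b`, `Xe` state at the time `J h`. -/
theorem s3_exists {m N : ℕ} (R : RS m N) (hm : 3 ≤ m) : ∃ C : ℝ, 0 < C ∧
    ∀ (d : ℕ) (V : E d → ℝ) (s lam h : ℝ) (J : ℕ), Pot d V → 0 < s → s ≤ 1 / 4 → 0 ≤ lam → lam ≤ 1 →
    0 < h → h ≤ 1 →
    ∃ (X : Fin J × Fin (N + 1) → Z3 d → Z3 d) (Xe : Z3 d → Z3 d),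
      (∀ b, MeasurePreserving (X b) (mu3 V s) (mu3 V (lev s (nt R h b)))) ∧
      MeasurePreserving Xe (mu3 V s) (mu3 V (lev s (J * h))) ∧
      (∀ b p, (X b p).1 - rr s (nt R h b) • (X b p).2.1 = p.1) ∧
      (∀ p, (Xe p).1 - rr s (J * h) • (Xe p).2.1 = p.1) ∧
      (∀ b, Integrable (fun p => ‖(X b p).2.1 - p.2.1 + ∑ c, (Wt R h b c * rr' s (nt R h c)) •
            fo V (lev s (nt R h c)) (X c p).1 + ∑ c, (Wt R h b c * (lam * qq (nt R h c) ^ 2)) •
            oA V s (nt R h c) (X c p)‖) (mu3 V s) ∧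
        ∫ p, ‖(X b p).2.1 - p.2.1 + ∑ c, (Wt R h b c * rr' s (nt R h c)) •
            fo V (lev s (nt R h c)) (X c p).1 + ∑ c, (Wt R h b c * (lam * qq (nt R h c) ^ 2)) •
            oA V s (nt R h c) (X c p)‖ ∂(mu3 V s) ≤ C * J * h ^ m * √d) ∧
      (∀ b, Integrable (fun p => ‖(X b p).2.2 - p.2.2 - ∑ c, (Wt R h b c * (lam * qq (nt R h c) ^ 2)) •
            GG (US V (lev s (nt R h c))) (rr s (nt R h c)) (X c p).1 (X c p).2.1‖) (mu3 V s) ∧
        ∫ p, ‖(X b p).2.2 - p.2.2 - ∑ c, (Wt R h b c * (lam * qq (nt R h c) ^ 2)) •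
            GG (US V (lev s (nt R h c))) (rr s (nt R h c)) (X c p).1 (X c p).2.1‖ ∂(mu3 V s) ≤
              C * J * h ^ m * √d) ∧
      (Integrable (fun p => ‖(Xe p).2.1 - p.2.1 + ∑ c, (h * R.w c.2 * rr' s (nt R h c)) •
            fo V (lev s (nt R h c)) (X c p).1 + ∑ c, (h * R.w c.2 * (lam * qq (nt R h c) ^ 2)) •
            oA V s (nt R h c) (X c p)‖) (mu3 V s) ∧
        ∫ p, ‖(Xe p).2.1 - p.2.1 + ∑ c, (h * R.w c.2 * rr' s (nt R h c)) •
            fo V (lev s (nt R h c)) (X c p).1 + ∑ c, (h * R.w c.2 * (lam * qq (nt R h c) ^ 2)) •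
            oA V s (nt R h c) (X c p)‖ ∂(mu3 V s) ≤ C * J * h ^ m * √d) ∧
      (Integrable (fun p => ‖√s • (Xe p).2.2 + lam • fo V s p.1 - √s • p.2.2 -
            lam • fo V (lev s (J * h)) (Xe p).1 -
            (lam * √s) • ∑ c, (h * R.w c.2 * (lam * qq (nt R h c))) •
            oK V s (nt R h c) (X c p)‖) (mu3 V s) ∧
        ∫ p, ‖√s • (Xe p).2.2 + lam • fo V s p.1 - √s • p.2.2 -
            lam • fo V (lev s (J * h)) (Xe p).1 -
            (lam * √s) • ∑ c, (h * R.w c.2 * (lam * qq (nt R h c))) •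
            oK V s (nt R h c) (X c p)‖ ∂(mu3 V s) ≤ C * J * h ^ m * √d) ∧
      (∀ y : E d, ((stdGaussian (E d)).prod (stdGaussian (E d))).map
          (fun p : E d × E d => (Xe (y, p.1, p.2)).2.2) = stdGaussian (E d)) := by
  obtain ⟨K, hK, hcomp⟩ := s3_comp R hm
  obtain ⟨C₀, hC₀, hreg⟩ := reg_main m
  refine ⟨2 * K * √C₀, by positivity, ?_⟩
  intro d V s lam h J hV hs hs1 hlam hlam1 hh hh1
  have hT : (0 : ℝ) ≤ J * h := by positivity
  obtain ⟨Φ, hΦ, hmarg⟩ := gflow_exists (V := V) (s := s) hV hs hs1 (ssa_rr_smooth s 0)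
    (ssa_a_smooth lam 0) (fun t => ssa_rr_sq_lt hs (0 + t)) hT
  have hrr0 : rr s 0 = 0 := by simp [rr]
  have hlev0 : lev s 0 = s := by simp [lev]
  obtain ⟨-, g1, g2, g3, g5⟩ := hreg d V s lam 0 (J * h) Φ hV hs hs1 hlam hlam1 hT hΦ
  rw [hlev0] at g1 g2 g3 g5
  have hprob : IsProbabilityMeasure (mu3 V s) := ssa_mu3_prob hV hs hs1
  have hmp : ∀ t ∈ Set.Icc (0 : ℝ) (J * h), MeasurePreserving (Φ t) (mu3 V s) (mu3 V (lev s t)) := by
    intro t ht
    have h1 := hΦ.mp t ht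
    simp only [zero_add, add_zero, lev_rr hs, hrr0] at h1
    simpa using h1
  have hcen : ∀ x, ∀ t ∈ Set.Icc (0 : ℝ) (J * h), (Φ t x).1 - rr s t • (Φ t x).2.1 = x.1 := by
    intro x t ht
    have h1 := hΦ.centre x t ht
    simp only [zero_add, add_zero, hrr0, zero_smul, sub_zero] at h1
    exact h1
  have hΦc : ∀ t ∈ Set.Icc (0 : ℝ) (J * h), Continuous (Φ t) := by
    intro t ht
    have h1 : Continuous fun x : Z3 d => (fun p : ℝ × Z3 d => Φ p.1 p.2) (t, x) :=
      hΦ.cont.comp_continuous (by fun_prop) fun x => ⟨ht, trivial⟩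
    exact h1
  simp only [zero_add] at g1 g2 g3 g5
  obtain ⟨G1, hG1⟩ : ∃ G : ℝ → Z3 d → E d, G = fun t x => rr' s t • fo V (lev s t) (Φ t x).1 :=
    ⟨_, rfl⟩
  obtain ⟨G2, hG2⟩ : ∃ G : ℝ → Z3 d → E d, G = fun t x => (lam * qq t ^ 2) • oA V s t (Φ t x) :=
    ⟨_, rfl⟩
  obtain ⟨G3, hG3⟩ : ∃ G : ℝ → Z3 d → E d, G = fun t x => (lam * qq t ^ 2) •
      GG (US V (lev s t)) (rr s t) (Φ t x).1 (Φ t x).2.1 := ⟨_, rfl⟩
  obtain ⟨G5, hG5⟩ : ∃ G : ℝ → Z3 d → E d, G = fun t x => (lam * qq t) • oK V s t (Φ t x) :=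
    ⟨_, rfl⟩
  rw [← hG1] at g1
  rw [← hG2] at g2
  rw [← hG3] at g3
  rw [← hG5] at g5
  have cx : ∀ {g : ℝ → Z3 d → E d}, Tame m C₀ (J * h) (mu3 V s) g →
      ∀ t ∈ Set.Icc (0 : ℝ) (J * h), Continuous (g t) := by
    intro g hg t ht
    obtain ⟨G, h0, _, hc, _⟩ := hg
    rw [← h0]
    have h1 : Continuous fun x : Z3 d => (fun p : ℝ × Z3 d => G 0 p.1 p.2) (t, x) :=
      (hc 0).comp_continuous (by fun_prop) fun x => ⟨ht, trivial⟩
    exact h1
  have ci : ∀ {g : ℝ → Z3 d → E d}, Tame m C₀ (J * h) (mu3 V s) g → ∀ x,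
      ∀ t ∈ Set.Icc (0 : ℝ) (J * h), IntervalIntegrable (fun τ => g τ x) volume 0 t := by
    intro g hg x t ht
    refine ContinuousOn.intervalIntegrable ?_
    rw [Set.uIcc_of_le ht.1]
    exact (ssa_tame_cont hg x).mono (Set.Icc_subset_Icc le_rfl ht.2)
  have hdr : ∀ τ, deriv (fun t => rr s t) τ = rr' s τ := by
    intro τ
    have h1 := deriv_rr s 0 τ
    simp only [zero_add] at h1
    exact h1
  -- the integral equations
  have kw : ∀ x, ∀ t ∈ Set.Icc (0 : ℝ) (J * h), (Φ t x).2.1 - x.2.1 =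
      -(∫ τ in (0 : ℝ)..t, G1 τ x) - ∫ τ in (0 : ℝ)..t, G2 τ x := by
    intro x t ht
    have h1 : ∀ τ ∈ Set.Icc (0 : ℝ) (J * h), HasDerivWithinAt (fun τ => (Φ τ x).2.1)
        (-(G1 τ x + G2 τ x)) (Set.Icc (0 : ℝ) (J * h)) τ := by
      intro τ hτ
      have h2 := hΦ.dw x τ hτ
      simp only [zero_add, hdr, lev_rr hs] at h2
      rw [hG1, hG2]
      refine h2.congr_deriv ?_
      exact (neg_add' (rr' s τ • fo V (lev s τ) (Φ τ x).1)
        ((lam * qq τ ^ 2) • oA V s τ (Φ τ x))).symm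
    have hc : ContinuousOn (fun τ => -(G1 τ x + G2 τ x)) (Set.Icc (0 : ℝ) (J * h)) :=
      ((ssa_tame_cont g1 x).add (ssa_tame_cont g2 x)).neg
    have h3 := ssa_ftc h1 hc le_rfl ht.1 ht.2
    rw [intervalIntegral.integral_neg, intervalIntegral.integral_add (ci g1 x t ht) (ci g2 x t ht),
      hΦ.zero] at h3
    rw [← h3]
    abel
  have kz : ∀ x, ∀ t ∈ Set.Icc (0 : ℝ) (J * h), (Φ t x).2.2 - x.2.2 =
      ∫ τ in (0 : ℝ)..t, G3 τ x := by
    intro x t ht
    have h1 : ∀ τ ∈ Set.Icc (0 : ℝ) (J * h), HasDerivWithinAt (fun τ => (Φ τ x).2.2)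
        (G3 τ x) (Set.Icc (0 : ℝ) (J * h)) τ := by
      intro τ hτ
      have h2 := hΦ.dz x τ hτ
      simp only [zero_add, lev_rr hs] at h2
      rw [hG3]
      exact h2
    have h3 := ssa_ftc h1 (ssa_tame_cont g3 x) le_rfl ht.1 ht.2
    rw [hΦ.zero] at h3
    exact h3.symm
  have kf : ∀ x, (√s • (Φ (J * h) x).2.2 - lam • fo V (lev s (J * h)) (Φ (J * h) x).1) -
      (√s • x.2.2 - lam • fo V s x.1) = (lam * √s) • ∫ τ in (0 : ℝ)..(J * h), G5 τ x := by
    intro x
    have h1 : ∀ τ ∈ Set.Icc (0 : ℝ) (J * h), HasDerivWithinAt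
        (fun τ => √s • (Φ τ x).2.2 - lam • fo V (lev s τ) (Φ τ x).1)
        ((lam * √s) • G5 τ x) (Set.Icc (0 : ℝ) (J * h)) τ := by
      intro τ hτ
      have h2 := (hΦ.dz x τ hτ).const_smul (√s)
      have h3 := (ssa_fo_along hV hΦ (fun t => ssa_rr_sq_lt hs (0 + t)) x hτ
        ((ssa_rr_smooth s 0).differentiable (by simp) τ)).const_smul lam
      have h4 := h2.sub h3
      simp only [zero_add, hdr, lev_rr hs] at h4
      rw [hG5]
      refine h4.congr_deriv ?_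
      have e1 : rr' s τ = √s * qq τ ^ 2 := by
        simp only [rr', qq]
        ring
      have e2 : rr s τ = √s * Real.tanh τ := rfl
      simp only [oK, smul_sub, smul_smul]
      rw [e1, e2]
      have e3 : √s * (lam * qq τ ^ 2) = lam * (√s * qq τ ^ 2) := by ring
      have e4 : lam * √s * (lam * qq τ * (qq τ * Real.tanh τ)) =
          lam * (√s * Real.tanh τ * (lam * qq τ ^ 2)) := by ring
      rw [e3, e4]
      exact sub_sub_cancel _ _
    have h3 := ssa_ftc h1 ((ssa_tame_cont g5 x).const_smul (lam * √s)) le_rfl hT le_rfl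
    rw [hΦ.zero, hlev0, intervalIntegral.integral_smul] at h3
    exact h3.symm
  -- bounds
  have hsq : √(C₀ * d) = √C₀ * √(d : ℝ) := Real.sqrt_mul hC₀.le _
  have hbd : J * (K * h ^ m * √(C₀ * d)) + J * (K * h ^ m * √(C₀ * d)) =
      2 * K * √C₀ * J * h ^ m * √(d : ℝ) := by
    rw [hsq]
    ring
  have hbd0 : 0 ≤ J * (K * h ^ m * √(C₀ * d)) := by positivity
  have hbd1 : J * (K * h ^ m * √(C₀ * d)) ≤ 2 * K * √C₀ * J * h ^ m * √(d : ℝ) := by
    rw [← hbd]
    linarith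
  obtain ⟨q1, q1e⟩ := hcomp d J C₀ h (mu3 V s) G1 hprob g1 hC₀ hh
  obtain ⟨q2, q2e⟩ := hcomp d J C₀ h (mu3 V s) G2 hprob g2 hC₀ hh
  obtain ⟨q3, q3e⟩ := hcomp d J C₀ h (mu3 V s) G3 hprob g3 hC₀ hh
  obtain ⟨q5, q5e⟩ := hcomp d J C₀ h (mu3 V s) G5 hprob g5 hC₀ hh
  have hN : ∀ b : Fin J × Fin (N + 1), nt R h b ∈ Set.Icc (0 : ℝ) (J * h) := s3_nt_mem R hh
  have hTT : (J * h : ℝ) ∈ Set.Icc (0 : ℝ) (J * h) := ⟨hT, le_rfl⟩
  have smeas : ∀ {g : ℝ → Z3 d → E d}, Tame m C₀ (J * h) (mu3 V s) g →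
      ∀ a : Fin J × Fin (N + 1) → ℝ, Continuous fun p => ∑ c, a c • g (nt R h c) p :=
    fun hg a => continuous_finsetSum _ fun c _ => (cx hg _ (hN c)).const_smul (a c)
  refine ⟨fun b => Φ (nt R h b), Φ (J * h), fun b => hmp _ (hN b), hmp _ hTT,
    fun b p => hcen p _ (hN b), fun p => hcen p _ hTT, ?_, ?_, ?_, ?_, ?_⟩
  · intro b
    obtain ⟨B1, i1, j1, k1⟩ := q1 b
    obtain ⟨B2, i2, j2, k2⟩ := q2 b
    have hfun : (fun p : Z3 d => (Φ (nt R h b) p).2.1 - p.2.1 +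
        ∑ c, (Wt R h b c * rr' s (nt R h c)) • fo V (lev s (nt R h c)) (Φ (nt R h c) p).1 +
        ∑ c, (Wt R h b c * (lam * qq (nt R h c) ^ 2)) • oA V s (nt R h c) (Φ (nt R h c) p)) =
        fun p => (Φ (nt R h b) p).2.1 - p.2.1 + ∑ c, Wt R h b c • G1 (nt R h c) p +
          ∑ c, Wt R h b c • G2 (nt R h c) p := by
      funext p
      simp only [hG1, hG2, mul_smul]
    have hle : ∀ p, ‖(Φ (nt R h b) p).2.1 - p.2.1 + ∑ c, Wt R h b c • G1 (nt R h c) p +
          ∑ c, Wt R h b c • G2 (nt R h c) p‖ ≤ B1 p + B2 p := by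
      intro p
      have e1 : (Φ (nt R h b) p).2.1 - p.2.1 + ∑ c, Wt R h b c • G1 (nt R h c) p +
          ∑ c, Wt R h b c • G2 (nt R h c) p =
          -(((∫ t in (0 : ℝ)..nt R h b, G1 t p) - ∑ c, Wt R h b c • G1 (nt R h c) p) +
            ((∫ t in (0 : ℝ)..nt R h b, G2 t p) - ∑ c, Wt R h b c • G2 (nt R h c) p)) := by
        rw [kw p _ (hN b)]
        abel
      rw [e1, norm_neg]
      exact (norm_add_le _ _).trans (add_le_add (k1 p) (k2 p))
    have hmeas : AEStronglyMeasurable (fun p : Z3 d => (Φ (nt R h b) p).2.1 - p.2.1 +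
        ∑ c, Wt R h b c • G1 (nt R h c) p + ∑ c, Wt R h b c • G2 (nt R h c) p) (mu3 V s) := by
      have h1 := hΦc _ (hN b)
      have h2 := smeas g1 (Wt R h b)
      have h3 := smeas g2 (Wt R h b)
      exact (((h1.snd.fst.sub continuous_snd.fst).add h2).add h3).aestronglyMeasurable
    have hres := s3_final (b := 2 * K * √C₀ * J * h ^ m * √(d : ℝ)) hmeas (i1.add i2) (by
      rw [← hbd]
      have := integral_add i1 i2
      simp only [Pi.add_apply] at this ⊢
      rw [this]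
      exact add_le_add j1 j2) hle
    rw [← hfun] at hmeas
    simp only [hG1, hG2, smul_smul] at hres
    exact hres
  · intro b
    obtain ⟨B3, i3, j3, k3⟩ := q3 b
    have hle : ∀ p, ‖(Φ (nt R h b) p).2.2 - p.2.2 - ∑ c, Wt R h b c • G3 (nt R h c) p‖ ≤ B3 p := by
      intro p
      rw [kz p _ (hN b)]
      exact k3 p
    have hmeas : AEStronglyMeasurable (fun p : Z3 d => (Φ (nt R h b) p).2.2 - p.2.2 -
        ∑ c, Wt R h b c • G3 (nt R h c) p) (mu3 V s) := by
      have h1 := hΦc _ (hN b)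
      have h2 := smeas g3 (Wt R h b)
      exact ((h1.snd.snd.sub continuous_snd.snd).sub h2).aestronglyMeasurable
    have hres := s3_final hmeas i3 (j3.trans hbd1) hle
    simp only [hG3, smul_smul] at hres
    exact hres
  · obtain ⟨B1, i1, j1, k1⟩ := q1e
    obtain ⟨B2, i2, j2, k2⟩ := q2e
    have hle : ∀ p, ‖(Φ (J * h) p).2.1 - p.2.1 +
          ∑ c : Fin J × Fin (N + 1), (h * R.w c.2) • G1 (nt R h c) p +
          ∑ c : Fin J × Fin (N + 1), (h * R.w c.2) • G2 (nt R h c) p‖ ≤ B1 p + B2 p := by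
      intro p
      have e1 : (Φ (J * h) p).2.1 - p.2.1 +
          ∑ c : Fin J × Fin (N + 1), (h * R.w c.2) • G1 (nt R h c) p +
          ∑ c : Fin J × Fin (N + 1), (h * R.w c.2) • G2 (nt R h c) p =
          -(((∫ t in (0 : ℝ)..(J * h), G1 t p) -
              ∑ c : Fin J × Fin (N + 1), (h * R.w c.2) • G1 (nt R h c) p) +
            ((∫ t in (0 : ℝ)..(J * h), G2 t p) -
              ∑ c : Fin J × Fin (N + 1), (h * R.w c.2) • G2 (nt R h c) p)) := by
        rw [kw p _ hTT]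
        abel
      rw [e1, norm_neg]
      exact (norm_add_le _ _).trans (add_le_add (k1 p) (k2 p))
    have hmeas : AEStronglyMeasurable (fun p : Z3 d => (Φ (J * h) p).2.1 - p.2.1 +
        ∑ c : Fin J × Fin (N + 1), (h * R.w c.2) • G1 (nt R h c) p +
        ∑ c : Fin J × Fin (N + 1), (h * R.w c.2) • G2 (nt R h c) p) (mu3 V s) := by
      have h1 := hΦc _ hTT
      have h2 := smeas g1 (fun c => h * R.w c.2)
      have h3 := smeas g2 (fun c => h * R.w c.2)
      exact (((h1.snd.fst.sub continuous_snd.fst).add h2).add h3).aestronglyMeasurable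
    have hres := s3_final (b := 2 * K * √C₀ * J * h ^ m * √(d : ℝ)) hmeas (i1.add i2) (by
      rw [← hbd]
      have := integral_add i1 i2
      simp only [Pi.add_apply] at this ⊢
      rw [this]
      exact add_le_add j1 j2) hle
    simp only [hG1, hG2, smul_smul] at hres
    exact hres
  · obtain ⟨B5, i5, j5, k5⟩ := q5e
    have hls : |lam * √s| ≤ 1 := by
      have h1 : √s ≤ 1 := by
        rw [Real.sqrt_le_left (by norm_num)]
        linarith
      rw [abs_of_nonneg (by positivity)]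
      calc lam * √s ≤ 1 * 1 := mul_le_mul hlam1 h1 (Real.sqrt_nonneg s) zero_le_one
        _ = 1 := one_mul 1
    have hle : ∀ p : Z3 d, ‖√s • (Φ (J * h) p).2.2 + lam • fo V s p.1 - √s • p.2.2 -
        lam • fo V (lev s (J * h)) (Φ (J * h) p).1 - (lam * √s) •
        ∑ c : Fin J × Fin (N + 1), (h * R.w c.2) • G5 (nt R h c) p‖ ≤ B5 p := by
      intro p
      have e1 : √s • (Φ (J * h) p).2.2 + lam • fo V s p.1 - √s • p.2.2 -
          lam • fo V (lev s (J * h)) (Φ (J * h) p).1 =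
          (√s • (Φ (J * h) p).2.2 - lam • fo V (lev s (J * h)) (Φ (J * h) p).1) -
            (√s • p.2.2 - lam • fo V s p.1) := by abel
      rw [e1, kf p, ← smul_sub, norm_smul, Real.norm_eq_abs]
      calc |lam * √s| * _ ≤ 1 * _ := mul_le_mul_of_nonneg_right hls (norm_nonneg _)
        _ ≤ B5 p := by
          rw [one_mul]
          exact k5 p
    have hmeas : AEStronglyMeasurable (fun p : Z3 d => √s • (Φ (J * h) p).2.2 +
        lam • fo V s p.1 - √s • p.2.2 -
        lam • fo V (lev s (J * h)) (Φ (J * h) p).1 - (lam * √s) •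
        ∑ c : Fin J × Fin (N + 1), (h * R.w c.2) • G5 (nt R h c) p) (mu3 V s) := by
      have h1 := hΦc _ hTT
      have h2 := smeas g5 (fun c => h * R.w c.2)
      have h4 : ∀ L : ℝ, 0 < L → Continuous fun y : E d => fo V L y := by
        intro L hL
        have h5 : Continuous fun y : E d => (fun p : ℝ × E d => fo V p.1 p.2) (L, y) :=
          (ssa_fo_smooth hV).continuousOn.comp_continuous (by fun_prop) fun y => ⟨hL, trivial⟩
        exact h5
      have h6 := (h4 s hs).comp (continuous_fst : Continuous fun p : Z3 d => p.1)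
      have h7 := (h4 (lev s (J * h)) (ssa_lev_pos hs _)).comp h1.fst
      exact (((((h1.snd.snd.const_smul (√s)).add (h6.const_smul lam)).sub
        (continuous_snd.snd.const_smul (√s))).sub (h7.const_smul lam)).sub
        (h2.const_smul (lam * √s))).aestronglyMeasurable
    have hres := s3_final hmeas i5 (j5.trans hbd1) hle
    simp only [hG5, smul_smul] at hres
    exact hres
  · intro y
    exact hmarg (by rw [add_zero, hrr0]) y _ hTT

end P347Z
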