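import Vale.Agent.P347Z.CodeMarg
import Vale.Agent.P347Z.PassHas
import Vale.Agent.P347Z.SS

/-!
P347Z: contexts and oracles of the program half.

* `octx d L c`: hidden point `y ∼ π_L`, inputs `N(y, c² L)`.
* `Orc d L c lam del Lp kap S`: a code for `f_L(y)` with output noise `√L / lam`, mean error
  `del √L √d`, total Lipschitz constant `Lp`, shift `3/2 ± kap`, size `S`.
* `zctx d s t c`: hidden `p = (Y, w, z) ∼ mu3 V (lev s t)`, inputs `Y` (noise `c √(lev s t)`,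
  kind `0`), `w` (noise `c`, kind `1`), `z` (noise `c`, kind `2`).
* `AG`: codes for `oA` (`T z`) and `oG`, in natural units; `KCode`: codes for `√s oK`.
* `mctx d s σ c`: hidden `(y, w₀, z₀) ∼ mu3 V s`, exactly known shared inputs `X₁ = y + σ w₀`, `z₀`, and
  inputs `y` with noise `c √s`.
-/

open MeasureTheory ProbabilityTheory Function
open scoped ENNReal BigOperators

namespace P347Z

open P347Q P347S

/-- hidden point `y ∼ π_L`, inputs `N(y, c² L)` -/
noncomputable def octx (d : ℕ) (L c : ℝ) : Inp d (PotT d) (E d) Unit where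
  g := fun V => gradient V.1
  ρ := fun V => gibbs (US V.1 L)
  cen := fun _ _ y => y
  sig := fun _ => c * √L
  sh := fun _ => 1

/-- oracle for the force at the level `L` with ratio `lam` and accuracy `del` -/
def Orc (d : ℕ) (L c lam del Lp kap : ℝ) (S : ℕ) : Prop :=
  Has (octx d L c) (fun V y => fo V.1 L y) (√L / lam) (del * (√L * √d)) (fun _ => Lp) (3 / 2)
    kap S

/-- hidden state `(Y, w, z) ∼ mu3 V (lev s t)` -/
noncomputable def zctx (d : ℕ) (s t c : ℝ) : Inp d (PotT d) (Z3 d) (Fin 3) where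
  g := fun V => gradient V.1
  ρ := fun V => mu3 V.1 (lev s t)
  cen := ![fun _ p => p.1, fun _ p => p.2.1, fun _ p => p.2.2]
  sig := ![c * √(lev s t), c, c]
  sh := ![1, 0, 0]

/-- code for `oA` (`T z`) at the clock time `t` -/
def ACode (d : ℕ) (s t c τ ε LY Lz : ℝ) (S : ℕ) : Prop :=
  Has (zctx d s t c) (fun V p => oA V.1 s t p) τ ε ![LY, 0, Lz] 0 LY S

/-- code for `oG` at the clock time `t` -/
def GCode (d : ℕ) (s t c τ ε LY Lw : ℝ) (S : ℕ) : Prop :=
  Has (zctx d s t c) (fun V p => oG V.1 s t p) τ ε ![LY, Lw, 0] 0 LY S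

/-- codes for `oA` and `oG` at the clock time `t`; noise `τ`, mean error `ε`, Lipschitz constant `Λ` in
natural units -/
def AG (d : ℕ) (s t c τ ε Λ : ℝ) (S : ℕ) : Prop :=
  ACode d s t c τ ε (Λ / √(lev s t)) Λ S ∧
    GCode d s t c (τ * √(lev s t)) (ε * √(lev s t)) Λ (Λ * √(lev s t)) S

/-- code for `√s oK` at the clock time `t` -/
def KCode (d : ℕ) (s t c τ ε LY Lw Lz : ℝ) (S : ℕ) : Prop :=
  Has (zctx d s t c) (fun V p => √s • oK V.1 s t p) τ ε ![LY, Lw, Lz] 0 LY S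

/-- hidden `(y, w₀, z₀) ∼ mu3 V s` -/
noncomputable def mctx (d : ℕ) (s σ c : ℝ) : Inp d (PotT d) (Z3 d) (Fin 3) where
  g := fun V => gradient V.1
  ρ := fun V => mu3 V.1 s
  cen := ![fun _ p => p.1 + σ • p.2.1, fun _ p => p.2.2, fun _ p => p.1]
  sig := ![0, 0, c * √s]
  sh := ![1, 0, 1]

variable {d : ℕ} {Θ X P : Type} [MeasurableSpace X]

/-- linear combinations of codes -/
theorem Has.lin {C : Inp d Θ X P} {ι : Type} (s : Finset ι) (b : ι → ℝ) {q : ι → Θ → X → E d}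
    {τ ε a κ : ι → ℝ} {L : ι → P → ℝ} {S : ℕ}
    (h : ∀ j ∈ s, Has C (q j) (τ j) (ε j) (L j) (a j) (κ j) S) (hε : ∀ j ∈ s, 0 ≤ ε j) :
    Has C (fun θ x => ∑ j ∈ s, b j • q j θ x) √(∑ j ∈ s, (b j * τ j) ^ 2) (∑ j ∈ s, |b j| * ε j)
      (fun p => ∑ j ∈ s, |b j| * L j p) (∑ j ∈ s, b j * a j) (∑ j ∈ s, |b j| * κ j)
      (s.card * (S + 2) + 1) := by
  have h1 := Has.sum s (q := fun j θ x => b j • q j θ x) (S := fun _ => S + 1)
    (fun j hj => (h j hj).smul (b j)) (fun j hj => mul_nonneg (abs_nonneg _) (hε j hj))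
  simpa [Finset.sum_const] using h1

/-- the shift property is a consequence of the Lipschitz property -/
theorem Has.shift0 [Fintype P] {C : Inp d Θ X P} {q : Θ → X → E d} {τ ε a κ : ℝ} {L : P → ℝ}
    {S : ℕ} (h : Has C q τ ε L a κ S) : Has C q τ ε L 0 (∑ p, L p * |C.sh p|) S := by
  classical
  obtain ⟨I, hI, kd, t, l, err, hc, h1, h2, h3⟩ := h
  refine ⟨I, hI, kd, t, l, err, ⟨hc.l_nonneg, hc.lip, fun θ Y e => ?_, hc.meas, hc.law⟩, h1, h2,
    h3⟩
  rw [zero_smul, sub_zero]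
  refine (hc.lip θ _ _).trans ?_
  have e1 : ∀ i, l i * ‖Y i + C.so (kd i) • e - Y i‖ = (l i * |C.so (kd i)|) * ‖e‖ := by
    intro i
    rw [add_sub_cancel_left, norm_smul, Real.norm_eq_abs, mul_assoc]
  simp_rw [e1]
  rw [← Finset.sum_mul]
  refine mul_le_mul_of_nonneg_right ?_ (norm_nonneg _)
  calc ∑ i, l i * |C.so (kd i)| = ∑ i, ∑ p, (if kd i = some p then l i else 0) * |C.sh p| := by
        refine Finset.sum_congr rfl fun i _ => ?_
        rcases hk : kd i with _ | p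
        · simp [Inp.so]
        · simp only [Option.some.injEq]
          rw [Finset.sum_eq_single p]
          · simp [Inp.so]
          · intro p' _ hp'
            rw [if_neg (fun h => hp' h.symm), zero_mul]
          · simp
    _ = ∑ p, (∑ i, (if kd i = some p then l i else 0)) * |C.sh p| := by
        rw [Finset.sum_comm]
        refine Finset.sum_congr rfl fun p _ => ?_
        rw [Finset.sum_mul]
    _ ≤ ∑ p, L p * |C.sh p| := Finset.sum_le_sum fun p _ =>
        mul_le_mul_of_nonneg_right (h2 p) (abs_nonneg _)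

/-- changing the shift coefficient -/
theorem Has.reshift {C : Inp d Θ X P} {q : Θ → X → E d} {τ ε a κ : ℝ} {L : P → ℝ}
    {S : ℕ} (h : Has C q τ ε L a κ S) (a' : ℝ) : Has C q τ ε L a' (κ + |a - a'|) S := by
  obtain ⟨I, hI, kd, t, l, err, hc, h1, h2, h3⟩ := h
  refine ⟨I, hI, kd, t, l, err, ⟨hc.l_nonneg, hc.lip, fun θ Y e => ?_, hc.meas, hc.law⟩, h1, h2,
    h3⟩
  have e1 : t.ev (C.g θ) (fun i => Y i + C.so (kd i) • e) - t.ev (C.g θ) Y - a' • e =
      (t.ev (C.g θ) (fun i => Y i + C.so (kd i) • e) - t.ev (C.g θ) Y - a • e) +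
        (a - a') • e := by
    rw [sub_smul]
    abel
  rw [e1, add_mul]
  refine (norm_add_le _ _).trans (add_le_add (hc.shift θ Y e) ?_)
  rw [norm_smul, Real.norm_eq_abs]

/-- calling an oracle -/
theorem Orc.call {C : Inp d (PotT d) X P} (hg : ∀ V : PotT d, C.g V = gradient V.1)
    {L c lam del Lp kap : ℝ} {S' S : ℕ} (h' : Orc d L c lam del Lp kap S') {φ : PotT d → X → E d}
    (hφ : ∀ V, MeasurePreserving (φ V) (C.ρ V) (gibbs (US V.1 L))) {ε κ : ℝ} {Lx : P → ℝ}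
    (h : Has C φ (c * √L) ε Lx 1 κ S) (hdel : 0 ≤ del) (hε : 0 ≤ ε) (hκ : 0 ≤ κ)
    (hLx : ∀ p, 0 ≤ Lx p) (hS : 1 ≤ S) :
    Has C (fun V x => fo V.1 L (φ V x)) (√L / lam) (del * (√L * √d) + Lp * ε)
      (fun p => Lp * Lx p) (3 / 2) (kap + Lp * κ) (S' * S) := by
  have := Has.app (C := C) (C' := octx d L c) (fun V => (hg V).symm) hφ h'
    (ε := fun _ => ε) (κ := fun _ => κ) (L := fun _ => Lx) (fun _ => h) (by positivity)
    (fun _ => hε) (fun _ => hκ) (fun _ => hLx) hS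
  simpa using this

/-- calling a code over `zctx` -/
theorem zcall {C : Inp d (PotT d) X P} (hg : ∀ V : PotT d, C.g V = gradient V.1)
    {s t c τ ε a κ LY Lw Lz : ℝ} {S' S : ℕ} {q : PotT d → Z3 d → E d}
    (h' : Has (zctx d s t c) q τ ε ![LY, Lw, Lz] a κ S') {φ : PotT d → X → Z3 d}
    (hφ : ∀ V, MeasurePreserving (φ V) (C.ρ V) (mu3 V.1 (lev s t)))
    {εY εw εz κY κw κz : ℝ} {MY Mw Mz : P → ℝ}
    (hY : Has C (fun V x => (φ V x).1) (c * √(lev s t)) εY MY 1 κY S)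
    (hw : Has C (fun V x => (φ V x).2.1) c εw Mw 0 κw S)
    (hz : Has C (fun V x => (φ V x).2.2) c εz Mz 0 κz S)
    (hε : 0 ≤ ε) (h1 : 0 ≤ εY) (h2 : 0 ≤ εw) (h3 : 0 ≤ εz) (k1 : 0 ≤ κY) (k2 : 0 ≤ κw)
    (k3 : 0 ≤ κz) (m1 : ∀ p, 0 ≤ MY p) (m2 : ∀ p, 0 ≤ Mw p) (m3 : ∀ p, 0 ≤ Mz p) (hS : 1 ≤ S) :
    Has C (fun V x => q V (φ V x)) τ (ε + (LY * εY + Lw * εw + Lz * εz))
      (fun p => LY * MY p + Lw * Mw p + Lz * Mz p) a (κ + (LY * κY + Lw * κw + Lz * κz))
      (S' * S) := by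
  have := Has.app (C := C) (C' := zctx d s t c) (fun V => (hg V).symm) hφ h'
    (ε := ![εY, εw, εz]) (κ := ![κY, κw, κz]) (L := ![MY, Mw, Mz]) (S := S) (by
      intro p
      fin_cases p
      · exact hY
      · exact hw
      · exact hz) hε (by intro p; fin_cases p <;> assumption)
    (by intro p; fin_cases p <;> assumption) (by intro p; fin_cases p <;> assumption) hS
  simpa [Fin.sum_univ_three, add_assoc] using this

end P347Z
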