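import Vale.Agent.P347S.LogConv

/-!
Shared definitions for the project `gamma_* = 0` (P347).  Paper proof: `Vale/Agent/P347/NOTE_allorder64.md`
and `Vale/Agent/P347Z/BLUEPRINT.md`.

State space `Z3 d` with coordinates `(Y, w, z)`; `y = Y - r w` is the centre.
-/

open MeasureTheory ProbabilityTheory Function
open scoped ENNReal BigOperators ContDiff

namespace P347Z

open P347Q P347S

/-- states `(Y, w, z)` -/
abbrev Z3 (d : ℕ) := E d × E d × E d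

/-- `U_L = -log (e^{-V} * N(0, L))` (up to normalisation) -/
noncomputable def US {d : ℕ} (V : E d → ℝ) (L : ℝ) : E d → ℝ := lsm (√L) V

/-- Hessian of `U` at `Y` applied to `v` -/
noncomputable def HV {d : ℕ} (U : E d → ℝ) (Y v : E d) : E d := fderiv ℝ (gradient U) Y v

/-- Laplacian of the gradient of `U` -/
noncomputable def LG {d : ℕ} (U : E d → ℝ) (Y : E d) : E d :=
  ∑ i, fderiv ℝ (fun y => HV U y (bas d i)) Y (bas d i)

/-- `D_w^* (D²U (y + r w)) = D²U(Y) (r ∇U(Y) + w) - r Δ∇U(Y)` -/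
noncomputable def GG {d : ℕ} (U : E d → ℝ) (r : ℝ) (Y w : E d) : E d :=
  HV U Y (r • gradient U Y + w) - r • LG U Y

/-- the stationary law `π_L ⊗ γ ⊗ γ` of `(Y, w, z)` -/
noncomputable def mu3 {d : ℕ} (V : E d → ℝ) (L : ℝ) : Measure (Z3 d) :=
  (gibbs (US V L)).prod ((stdGaussian (E d)).prod (stdGaussian (E d)))

/-- `Φ` is the flow along the curve `(r(t), a(t))`, `t ∈ [0,T]`, in the coordinates `(Y, w, z)`;
the level at time `t` is `s - r(t)²`. -/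
structure IsG {d : ℕ} (V : E d → ℝ) (s : ℝ) (r a : ℝ → ℝ) (T : ℝ) (Φ : ℝ → Z3 d → Z3 d) :
    Prop where
  zero : ∀ x, Φ 0 x = x
  centre : ∀ x, ∀ t ∈ Set.Icc (0 : ℝ) T, (Φ t x).1 - r t • (Φ t x).2.1 = x.1 - r 0 • x.2.1
  dY : ∀ x, ∀ t ∈ Set.Icc (0 : ℝ) T, HasDerivWithinAt (fun τ => (Φ τ x).1)
    (deriv r t • ((Φ t x).2.1 - r t • gradient (US V (s - r t ^ 2)) (Φ t x).1) -
      (r t * a t) • HV (US V (s - r t ^ 2)) (Φ t x).1 (Φ t x).2.2) (Set.Icc (0 : ℝ) T) t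
  dw : ∀ x, ∀ t ∈ Set.Icc (0 : ℝ) T, HasDerivWithinAt (fun τ => (Φ τ x).2.1)
    (-(deriv r t • gradient (US V (s - r t ^ 2)) (Φ t x).1) -
      a t • HV (US V (s - r t ^ 2)) (Φ t x).1 (Φ t x).2.2) (Set.Icc (0 : ℝ) T) t
  dz : ∀ x, ∀ t ∈ Set.Icc (0 : ℝ) T, HasDerivWithinAt (fun τ => (Φ τ x).2.2)
    (a t • GG (US V (s - r t ^ 2)) (r t) (Φ t x).1 (Φ t x).2.1) (Set.Icc (0 : ℝ) T) t
  cont : ContinuousOn (fun p : ℝ × Z3 d => Φ p.1 p.2) (Set.Icc (0 : ℝ) T ×ˢ Set.univ)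
  mp : ∀ t ∈ Set.Icc (0 : ℝ) T,
    MeasurePreserving (Φ t) (mu3 V (s - r 0 ^ 2)) (mu3 V (s - r t ^ 2))

/-! ### the natural clock -/

/-- `r(t) = √s tanh t` -/
noncomputable def rr (s t : ℝ) : ℝ := √s * Real.tanh t

/-- `r'(t) = √s / cosh² t` -/
noncomputable def rr' (s t : ℝ) : ℝ := √s / Real.cosh t ^ 2

/-- level `s - r(t)² = s / cosh² t` -/
noncomputable def lev (s t : ℝ) : ℝ := s / Real.cosh t ^ 2

/-- `q(t) = 1 / cosh t` -/
noncomputable def qq (t : ℝ) : ℝ := 1 / Real.cosh t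

/-! ### observables -/

/-- force `f_L(Y)` -/
noncomputable def fo {d : ℕ} (V : E d → ℝ) (L : ℝ) (Y : E d) : E d := gradient (US V L) Y

/-- `T z` -/
noncomputable def oA {d : ℕ} (V : E d → ℝ) (s t : ℝ) (x : Z3 d) : E d :=
  HV (US V (lev s t)) x.1 x.2.2

/-- derivative of the force along the free path: `r'(t) G` -/
noncomputable def oG {d : ℕ} (V : E d → ℝ) (s t : ℝ) (x : Z3 d) : E d :=
  rr' s t • GG (US V (lev s t)) (rr s t) x.1 x.2.1

/-- `q tanh T T z` -/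
noncomputable def oK {d : ℕ} (V : E d → ℝ) (s t : ℝ) (x : Z3 d) : E d :=
  (qq t * Real.tanh t) • HV (US V (lev s t)) x.1 (HV (US V (lev s t)) x.1 x.2.2)

end P347Z
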