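import Vale.Agent.P347Z.ChainEnd

/-!
P347Z / Fin0: from passes at all levels to `d ^ κ` queries for every `κ > 0`.
-/

open MeasureTheory ProbabilityTheory Function Filter

namespace P347Z

open P347Q P347S

/-- passes of arbitrary accuracy with few queries at all levels between `d^{-10}` and `d^{-k}` -/
def PassAll : Prop :=
  ∀ k A κ : ℝ, 0 < k → k ≤ 1 / 10 → 0 < A → 0 < κ → ∀ᶠ d : ℕ in atTop,
    ∀ s : ℝ, (d : ℝ) ^ (-10 : ℝ) ≤ s → s ≤ (d : ℝ) ^ (-k) →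
      ∃ q : ℕ, (q : ℝ) ≤ (d : ℝ) ^ κ ∧ Pass d q s (s / 4) (1 - s / 8) ((d : ℝ) ^ (-A))

/-- the descent -/
theorem descent {d q Q : ℕ} {s0 ρ e e' : ℝ} (_he : 0 ≤ e) (hs0 : 0 < s0) (hs1 : s0 ≤ 1) (J : ℕ)
    (h : Pass d Q (s0 / 4) (s0 / 4) ρ e') (hρ : 0 ≤ ρ)
    (hp : ∀ j < J, Pass d q (s0 / 4 ^ (j + 1)) (s0 / 4 ^ (j + 1) / 4)
      (1 - s0 / 4 ^ (j + 1) / 8) e) :
    Pass d (Q + J * q) (s0 / 4) (s0 / 4 ^ (J + 1)) ρ (max e' 0 + J * e) := by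
  induction J with
  | zero =>
    have e1 : s0 / 4 ^ (0 + 1) = s0 / 4 := by norm_num
    rw [e1]
    refine h.mono (by simp) le_rfl ?_
    simp
  | succ J ih =>
    have h1 := ih (fun j hj => hp j (by omega))
    have h2 := hp J (by omega)
    have hx : 0 < s0 / 4 ^ (J + 1) := by positivity
    have hx1 : s0 / 4 ^ (J + 1) ≤ 1 := by
      rw [div_le_one (by positivity)]
      exact hs1.trans (one_le_pow₀ (by norm_num))
    have h3 := Pass.comp (by linarith) h1 h2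
    have e2 : s0 / 4 ^ (J + 1) / 4 = s0 / 4 ^ (J + 1 + 1) := by
      rw [pow_succ (4 : ℝ) (J + 1)]
      field_simp
    rw [e2] at h3
    have hm : 0 ≤ max e' 0 := le_max_right _ _
    have hJ : (0 : ℝ) ≤ J * e := by positivity
    refine h3.mono ?_ ?_ ?_
    · rw [Nat.succ_mul]
      omega
    · nlinarith
    · push_cast
      nlinarith

/-- the final parameters: everything that has to be true for large `d` -/
theorem fin_params {κ k : ℝ} (hκ : 0 < κ) (_hk : 0 < k) (_hkκ : k ≤ κ / 4) (hk1 : k ≤ 1 / 10) :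
    ∀ᶠ d : ℕ in atTop, 210 ≤ (d : ℝ) ∧ 1 ≤ Real.log d ∧ 167 * Real.log d ≤ (d : ℝ) ^ (κ / 4) ∧
      7 * Real.log d ≤ d ∧ 16 * (d : ℝ) ^ k ≤ d := by
  have h1 : Tendsto (fun d : ℕ => (d : ℝ)) atTop atTop := tendsto_natCast_atTop_atTop
  have a1 := h1.eventually (eventually_ge_atTop (210 : ℝ))
  have a2 := h1.eventually (Real.tendsto_log_atTop.eventually (eventually_ge_atTop 1))
  have b3 : ∀ᶠ x : ℝ in atTop, 167 * Real.log x ≤ x ^ (κ / 4) := by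
    have := (isLittleO_log_rpow_atTop (r := κ / 4) (by positivity)).bound
      (show (0 : ℝ) < 1 / 167 by norm_num)
    filter_upwards [this, eventually_ge_atTop (1 : ℝ)] with x hx hx1
    rw [Real.norm_of_nonneg (Real.log_nonneg hx1), Real.norm_of_nonneg (by positivity)] at hx
    linarith
  have b4 : ∀ᶠ x : ℝ in atTop, 7 * Real.log x ≤ x := by
    have := (isLittleO_log_rpow_atTop (r := 1) (by norm_num)).bound
      (show (0 : ℝ) < 1 / 7 by norm_num)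
    filter_upwards [this, eventually_ge_atTop (1 : ℝ)] with x hx hx1
    rw [Real.norm_of_nonneg (Real.log_nonneg hx1), Real.norm_of_nonneg (by positivity),
      Real.rpow_one] at hx
    linarith
  have b5 : ∀ᶠ x : ℝ in atTop, 16 * x ^ k ≤ x := by
    have h2 : Tendsto (fun x : ℝ => x ^ (1 - k)) atTop atTop :=
      tendsto_rpow_atTop (by linarith)
    filter_upwards [h2.eventually (eventually_ge_atTop 16), eventually_gt_atTop (0 : ℝ)] with x hx hx1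
    calc 16 * x ^ k ≤ x ^ (1 - k) * x ^ k := by gcongr
      _ = x := by rw [← Real.rpow_add hx1, sub_add_cancel, Real.rpow_one]
  filter_upwards [a1, a2, h1.eventually b3, h1.eventually b4, h1.eventually b5] with d x1 x2 x3 x4 x5
  exact ⟨x1, x2, x3, x4, x5⟩

theorem fin_low {D T s0 : ℝ} {J : ℕ} (D210 : 210 ≤ D) (hT0 : 0 < T) (hTD : 16 * T ≤ D)
    (hsT : s0 = T⁻¹) (hJ3 : (4 : ℝ) ^ J ≤ 4 * D ^ 5) {j : ℕ} (hj : j < J) :
    (D ^ 10)⁻¹ ≤ s0 / 4 ^ (j + 1) := by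
  have D0 : 0 < D := by linarith
  rw [inv_eq_one_div, div_le_div_iff₀ (by positivity) (by positivity), one_mul]
  have h1 : (4 : ℝ) ^ (j + 1) ≤ 4 ^ J := pow_le_pow_right₀ (by norm_num) hj
  have h3 : 1 ≤ s0 * D := by
    rw [hsT, inv_mul_eq_div, one_le_div hT0]
    linarith
  have hs0 : 0 ≤ s0 := by rw [hsT]; positivity
  have h4 : 4 ≤ D ^ 4 := by
    have := pow_le_pow_left₀ (by norm_num) D210 4
    norm_num at this
    linarith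
  calc (4 : ℝ) ^ (j + 1) ≤ 4 * D ^ 5 := h1.trans hJ3
    _ ≤ D ^ 4 * D ^ 5 := by gcongr
    _ = 1 * D ^ 9 := by ring
    _ ≤ (s0 * D) * D ^ 9 := by gcongr
    _ = s0 * D ^ 10 := by ring

theorem fin_level {D T s0 : ℝ} {J : ℕ} (D210 : 210 ≤ D) (hT0 : 0 < T) (hTD : 16 * T ≤ D)
    (hsT : s0 = T⁻¹) (hs01 : s0 ≤ 1) (hJ2 : D ^ 5 ≤ 4 ^ J) (hJ3 : (4 : ℝ) ^ J ≤ 4 * D ^ 5) :
    0 < s0 / 4 ^ (J + 1) ∧ s0 / 4 ^ (J + 1) ≤ (D ^ 5)⁻¹ ∧ (D ^ 3)⁻¹ ≤ √(s0 / 4 ^ (J + 1)) := by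
  have D0 : 0 < D := by linarith
  have hs0 : 0 < s0 := by rw [hsT]; positivity
  refine ⟨by positivity, ?_, ?_⟩
  · rw [div_le_iff₀ (by positivity), pow_succ (4 : ℝ)]
    have h1 : 1 ≤ (D ^ 5)⁻¹ * 4 ^ J := by
      rw [inv_mul_eq_div, one_le_div (by positivity)]
      exact hJ2
    set x := (D ^ 5)⁻¹
    set y := (4 : ℝ) ^ J
    have : x * (y * 4) = 4 * (x * y) := by ring
    rw [this]
    linarith
  · apply Real.le_sqrt_of_sq_le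
    rw [inv_pow, ← pow_mul, inv_eq_one_div, div_le_div_iff₀ (by positivity) (by positivity),
      one_mul, pow_succ (4 : ℝ)]
    have h3 : 16 ≤ s0 * D := by
      rw [hsT, inv_mul_eq_div, le_div_iff₀ hT0]
      exact hTD
    calc (4 : ℝ) ^ J * 4 ≤ (4 * D ^ 5) * 4 := by gcongr
      _ = 16 * D ^ 5 := by ring
      _ ≤ (s0 * D) * D ^ 5 := by gcongr
      _ = s0 * D ^ (3 * 2) := by ring

theorem fin_err {D T s0 s' j : ℝ} (D210 : 210 ≤ D) (hT0 : 0 < T) (hTD : 16 * T ≤ D)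
    (hsT : s0 = T⁻¹) (_hj0 : 0 ≤ j) (hj : j ≤ D) (hs'0 : 0 < s') (hs'1 : s' ≤ (D ^ 5)⁻¹)
    (hsq : (D ^ 3)⁻¹ ≤ √s') :
    ((D ^ 20)⁻¹ * (4 * √D) + (max ((D ^ 20)⁻¹ / (1 - (1 - s0 / 8))) 0 + j * (D ^ 20)⁻¹)) / √s' +
      8 * s' * √D ≤ 1 / 10 := by
  have D0 : 0 < D := by linarith
  have D1 : 1 ≤ D := by linarith
  have hsD : √D ≤ D := by
    rw [Real.sqrt_le_left D0.le]
    nlinarith
  have he1 : max ((D ^ 20)⁻¹ / (1 - (1 - s0 / 8))) 0 + j * (D ^ 20)⁻¹ ≤ 9 * (D ^ 19)⁻¹ := by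
    have h1 : (D ^ 20)⁻¹ / (1 - (1 - s0 / 8)) = 8 * T * (D ^ 20)⁻¹ := by
      rw [hsT]
      field_simp
      ring
    rw [h1, max_eq_left (by positivity)]
    calc 8 * T * (D ^ 20)⁻¹ + j * (D ^ 20)⁻¹ ≤ 8 * D * (D ^ 20)⁻¹ + D * (D ^ 20)⁻¹ := by
          have : T ≤ D := by linarith
          gcongr
      _ = 9 * (D ^ 19)⁻¹ := by
          field_simp
          ring
  have g0 : (D ^ 20)⁻¹ * (4 * √D) ≤ 4 * (D ^ 19)⁻¹ := by
    have : (D ^ 20)⁻¹ * (4 * √D) ≤ (D ^ 20)⁻¹ * (4 * D) := by gcongr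
    have e2 : (D ^ 20)⁻¹ * (4 * D) = 4 * (D ^ 19)⁻¹ := by
      field_simp
    linarith
  have hsp : 0 < √s' := Real.sqrt_pos.2 hs'0
  have hi : (0 : ℝ) < D⁻¹ := by positivity
  have g1 : ((D ^ 20)⁻¹ * (4 * √D) + (max ((D ^ 20)⁻¹ / (1 - (1 - s0 / 8))) 0 + j * (D ^ 20)⁻¹)) / √s'
      ≤ 13 * D⁻¹ := by
    rw [div_le_iff₀ hsp]
    have h2 : 13 * (D ^ 19)⁻¹ ≤ 13 * D⁻¹ * (D ^ 3)⁻¹ := by
      have : (D ^ 19)⁻¹ ≤ (D ^ 4)⁻¹ :=
        inv_anti₀ (by positivity) (pow_le_pow_right₀ D1 (by norm_num))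
      have e3 : 13 * D⁻¹ * (D ^ 3)⁻¹ = 13 * (D ^ 4)⁻¹ := by
        field_simp
      rw [e3]
      linarith
    have h3 : 13 * D⁻¹ * (D ^ 3)⁻¹ ≤ 13 * D⁻¹ * √s' :=
      mul_le_mul_of_nonneg_left hsq (by positivity)
    linarith
  have g2 : 8 * s' * √D ≤ 8 * D⁻¹ := by
    have h1 : 8 * s' * √D ≤ 8 * (D ^ 5)⁻¹ * D :=
      mul_le_mul (mul_le_mul_of_nonneg_left hs'1 (by norm_num)) hsD (Real.sqrt_nonneg _)
        (by positivity)
    have h2 : 8 * (D ^ 5)⁻¹ * D = 8 * (D ^ 4)⁻¹ := by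
      field_simp
    have h3 : (D ^ 4)⁻¹ ≤ D⁻¹ := inv_anti₀ (by positivity) (le_self_pow₀ D1 (by norm_num))
    linarith
  have g3 : 21 * D⁻¹ ≤ 1 / 10 := by
    rw [← div_eq_mul_inv, div_le_iff₀ D0]
    linarith
  linarith

theorem fin_cost {D T L κ N J q : ℝ} (D1 : 1 ≤ D) (hT1 : 1 ≤ T) (L1 : 1 ≤ L) (hκ : 0 < κ)
    (L2 : 167 * L ≤ D ^ (κ / 4)) (hT2 : T ≤ D ^ (κ / 4)) (hN : N ≤ 160 * L * T + 1)
    (hJ : J ≤ 5 * L + 1) (hq0 : 0 ≤ q) (hq : q ≤ D ^ (κ / 4)) : N * q + J * q ≤ D ^ κ := by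
  have D0 : 0 < D := by linarith
  have L0 : 0 < L := by linarith
  have hT0 : 0 < T := by linarith
  have h2 : N + J ≤ 167 * L * T := by
    have : L ≤ L * T := le_mul_of_one_le_right L0.le hT1
    nlinarith
  calc N * q + J * q = (N + J) * q := by ring
    _ ≤ (167 * L * T) * D ^ (κ / 4) := by gcongr
    _ ≤ (D ^ (κ / 4) * D ^ (κ / 4)) * D ^ (κ / 4) := by gcongr
    _ = D ^ (κ / 4 + κ / 4 + κ / 4) := by rw [Real.rpow_add D0, Real.rpow_add D0]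
    _ ≤ D ^ κ := Real.rpow_le_rpow_of_exponent_le D1 (by linarith)

theorem fin_J {D L : ℝ} (D210 : 210 ≤ D) (hL : L = Real.log D) (L1 : 1 ≤ L) :
    ∃ J : ℕ, (J : ℝ) ≤ 5 * L + 1 ∧ D ^ 5 ≤ (4 : ℝ) ^ J ∧ (4 : ℝ) ^ J ≤ 4 * D ^ 5 := by
  have D0 : 0 < D := by linarith
  have L0 : 0 < L := by linarith
  have hl4 : 1 ≤ Real.log 4 := by
    rw [Real.le_log_iff_exp_le (by norm_num)]
    have := Real.exp_one_lt_d9
    linarith
  have h1 : (⌈5 * L / Real.log 4⌉₊ : ℝ) < 5 * L / Real.log 4 + 1 := Nat.ceil_lt_add_one (by positivity)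
  refine ⟨⌈5 * L / Real.log 4⌉₊, ?_, ?_, ?_⟩
  · have h2 : 5 * L / Real.log 4 ≤ 5 * L := div_le_self (by positivity) hl4
    linarith
  · have h1 : 5 * L / Real.log 4 ≤ ⌈5 * L / Real.log 4⌉₊ := Nat.le_ceil _
    rw [div_le_iff₀ (by linarith)] at h1
    have h2 : Real.log (D ^ 5) ≤ Real.log (4 ^ ⌈5 * L / Real.log 4⌉₊) := by
      rw [Real.log_pow, Real.log_pow, ← hL]
      push_cast
      exact h1
    exact (Real.log_le_log_iff (by positivity) (by positivity)).1 h2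
  · have h2 : ((⌈5 * L / Real.log 4⌉₊ : ℝ) - 1) * Real.log 4 ≤ 5 * L := by
      have : (⌈5 * L / Real.log 4⌉₊ : ℝ) - 1 ≤ 5 * L / Real.log 4 := by linarith
      rw [le_div_iff₀ (by linarith)] at this
      exact this
    have h3 : Real.log (4 ^ ⌈5 * L / Real.log 4⌉₊) ≤ Real.log (4 * D ^ 5) := by
      rw [Real.log_pow, Real.log_mul (by norm_num) (by positivity), Real.log_pow, ← hL]
      push_cast
      linarith
    exact (Real.log_le_log_iff (by positivity) (by positivity)).1 h3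

theorem fin_contr {D T L s0 : ℝ} {N : ℕ} (D0 : 0 < D) (hL : L = Real.log D) (hT0 : 0 < T)
    (hT1 : 1 ≤ T) (L0 : 0 < L) (hsT : s0 = T⁻¹) (hN : 160 * L * T ≤ N) :
    (1 - s0 / 8) ^ N ≤ (D ^ 20)⁻¹ := by
  have hs01 : s0 ≤ 1 := by rw [hsT]; exact inv_le_one_of_one_le₀ hT1
  have hs00 : 0 < s0 := by rw [hsT]; positivity
  have h1 : 1 - s0 / 8 ≤ Real.exp (-(s0 / 8)) := by
    have := Real.add_one_le_exp (-(s0 / 8))
    linarith
  have h2 : (1 - s0 / 8) ^ N ≤ Real.exp (-(s0 / 8)) ^ N :=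
    pow_le_pow_left₀ (by linarith) h1 N
  rw [← Real.exp_nat_mul] at h2
  refine h2.trans ?_
  have e : (D ^ 20)⁻¹ = Real.exp (-(20 * L)) := by
    rw [Real.exp_neg, hL, show (20 : ℝ) = ((20 : ℕ) : ℝ) by norm_num, ← Real.log_pow,
      Real.exp_log (by positivity)]
  rw [e]
  apply Real.exp_le_exp.2
  have h4 : 160 * L * T * (s0 / 8) ≤ N * (s0 / 8) :=
    mul_le_mul_of_nonneg_right hN (by positivity)
  have h5 : 160 * L * T * (s0 / 8) = 20 * L := by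
    rw [hsT]
    field_simp
    norm_num
  linarith

/-- `d ^ κ` queries suffice -/
theorem final0 (H : PassAll) (κ : ℝ) (hκ : 0 < κ) :
    ∀ᶠ d : ℕ in atTop, ∃ q : ℕ, (q : ℝ) ≤ (d : ℝ) ^ κ ∧ Suff d q := by
  obtain ⟨k, hk, hkκ, hk1⟩ : ∃ k : ℝ, 0 < k ∧ k ≤ κ / 4 ∧ k ≤ 1 / 10 :=
    ⟨min (κ / 4) (1 / 10), by positivity, min_le_left _ _, min_le_right _ _⟩
  filter_upwards [H k 20 (κ / 4) hk hk1 (by norm_num) (by positivity),
    fin_params hκ hk hkκ hk1] with d hd hpar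
  obtain ⟨D210, L1, L2, L3, K1⟩ := hpar
  have D0 : 0 < (d : ℝ) := by linarith
  have D1 : 1 ≤ (d : ℝ) := by linarith
  have L0 : 0 < Real.log (d : ℝ) := by linarith
  have hT0 : 0 < (d : ℝ) ^ k := Real.rpow_pos_of_pos D0 _
  have hT1 : 1 ≤ (d : ℝ) ^ k := Real.one_le_rpow D1 hk.le
  have hsT : (d : ℝ) ^ (-k) = ((d : ℝ) ^ k)⁻¹ := Real.rpow_neg D0.le _
  have hs00 : 0 < (d : ℝ) ^ (-k) := Real.rpow_pos_of_pos D0 _
  have hs01 : (d : ℝ) ^ (-k) ≤ 1 := by rw [hsT]; exact inv_le_one_of_one_le₀ hT1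
  have hm20 : (d : ℝ) ^ (-20 : ℝ) = ((d : ℝ) ^ 20)⁻¹ := by
    rw [Real.rpow_neg D0.le]
    norm_cast
  have hm10 : (d : ℝ) ^ (-10 : ℝ) = ((d : ℝ) ^ 10)⁻¹ := by
    rw [Real.rpow_neg D0.le]
    norm_cast
  rw [hm20, hm10] at hd
  have hqle : ((⌊(d : ℝ) ^ (κ / 4)⌋₊ : ℕ) : ℝ) ≤ (d : ℝ) ^ (κ / 4) := Nat.floor_le (by positivity)
  generalize hqd : ⌊(d : ℝ) ^ (κ / 4)⌋₊ = q at hqle
  have hP : ∀ s : ℝ, ((d : ℝ) ^ 10)⁻¹ ≤ s → s ≤ (d : ℝ) ^ (-k) →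
      Pass d q s (s / 4) (1 - s / 8) (((d : ℝ) ^ 20)⁻¹) := by
    intro s h1 h2
    obtain ⟨q', hq', hp⟩ := hd s h1 h2
    refine hp.mono ?_ le_rfl le_rfl
    rw [← hqd]
    exact Nat.le_floor hq'
  obtain ⟨J, hJ1, hJ2, hJ3⟩ := fin_J D210 rfl L1
  obtain ⟨N, hN1, hN2⟩ : ∃ N : ℕ, 160 * Real.log (d : ℝ) * (d : ℝ) ^ k ≤ N ∧
      (N : ℝ) ≤ 160 * Real.log (d : ℝ) * (d : ℝ) ^ k + 1 :=
    ⟨_, Nat.le_ceil _, (Nat.ceil_lt_add_one (by positivity)).le⟩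
  have hlow : ((d : ℝ) ^ 10)⁻¹ ≤ (d : ℝ) ^ (-k) := by
    rw [← hm10]
    exact Real.rpow_le_rpow_of_exponent_le D1 (by linarith)
  generalize (d : ℝ) ^ (-k) = s0 at *
  have c1 : Pass d 0 (s0 / 4) s0 1 0 := by
    have := pass_noise (d := d) (s := s0 / 4) (t := 3 / 4 * s0) (by positivity) (by positivity)
    have e : s0 / 4 + 3 / 4 * s0 = s0 := by ring
    rwa [e] at this
  have c2 := hP s0 hlow le_rfl
  have c3 := (Pass.comp (by linarith) c1 c2).mono (q' := q) (by omega)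
    (ρ' := 1 - s0 / 8) (by simp) (e' := ((d : ℝ) ^ 20)⁻¹) (by simp)
  have c4 := Pass.iter (by linarith) (by linarith) (by positivity) c3 N
  have c6 := c4.mono le_rfl (fin_contr D0 rfl hT0 hT1 L0 hsT hN1) (le_refl _)
  have hj : ∀ j < J, Pass d q (s0 / 4 ^ (j + 1)) (s0 / 4 ^ (j + 1) / 4)
      (1 - s0 / 4 ^ (j + 1) / 8) (((d : ℝ) ^ 20)⁻¹) := by
    intro j hjJ
    refine hP _ (fin_low D210 hT0 K1 hsT hJ3 hjJ) ?_
    exact div_le_self hs00.le (one_le_pow₀ (by norm_num))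
  have c7 := descent (by positivity) hs00 hs01 J c6 (by positivity) hj
  obtain ⟨g1, g2, g3⟩ := fin_level D210 hT0 K1 hsT hs01 hJ2 hJ3
  refine ⟨N * q + J * q, ?_, pass_suff (by positivity) (by linarith) g1 ?_ (by positivity) c7
    (fin_err D210 hT0 K1 hsT (Nat.cast_nonneg J) ?_ g1 g2 g3)⟩
  · push_cast
    exact fin_cost D1 hT1 L1 hκ L2 (Real.rpow_le_rpow_of_exponent_le D1 hkκ) hN2 hJ1
      (Nat.cast_nonneg q) hqle
  · refine g2.trans ?_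
    rw [inv_le_comm₀ (by positivity) (by norm_num)]
    have : (210 : ℝ) ^ 5 ≤ (d : ℝ) ^ 5 := pow_le_pow_left₀ (by norm_num) D210 5
    norm_num at this ⊢
    linarith
  · linarith

end P347Z
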