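import Vale.Agent.P347Z.Fin0

/-!
P347Z / SmallPass: `PassAll` from passes with a small step: `n` passes of ratio `β = 4^{-1/n}`.
-/

open MeasureTheory ProbabilityTheory Function Filter

namespace P347Z

open P347Q P347S

/-- ratio of one of `n` small passes -/
noncomputable def bet (n : ℕ) : ℝ := (1 / 4 : ℝ) ^ ((n : ℝ)⁻¹)

/-- small passes of arbitrary accuracy -/
def SmallPassAll : Prop :=
  ∀ k A κ : ℝ, 0 < k → k ≤ 1 / 10 → 0 < A → 0 < κ → ∀ᶠ d : ℕ in atTop,
    ∃ n : ℕ, 1 ≤ n ∧ (n : ℝ) ≤ (d : ℝ) ^ κ ∧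
    ∀ s : ℝ, (d : ℝ) ^ (-11 : ℝ) ≤ s → s ≤ (d : ℝ) ^ (-k) →
      ∃ q : ℕ, (q : ℝ) ≤ (d : ℝ) ^ κ ∧
        Pass d q s (s * bet n) (1 - s * (1 - bet n)) ((d : ℝ) ^ (-A))

theorem bet_pow {n : ℕ} (hn : 1 ≤ n) : bet n ^ n = 1 / 4 := by
  unfold bet
  rw [← Real.rpow_natCast, ← Real.rpow_mul (by norm_num), inv_mul_cancel₀, Real.rpow_one]
  have : (0 : ℝ) < n := by exact_mod_cast hn
  exact this.ne'

theorem bet_pos (n : ℕ) : 0 < bet n := Real.rpow_pos_of_pos (by norm_num) _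

theorem bet_lt {n : ℕ} (hn : 1 ≤ n) : bet n < 1 := by
  unfold bet
  have : (0 : ℝ) < n := by exact_mod_cast hn
  exact Real.rpow_lt_one (by norm_num) (by norm_num) (by positivity)

/-- composition of `j` small passes -/
theorem small_comp {d q : ℕ} {s β e : ℝ} (he : 0 ≤ e) (hs : 0 < s) (hs1 : s ≤ 1) (hβ : 0 < β)
    (hβ1 : β < 1) (j : ℕ) (hp : ∀ i < j, Pass d q (s * β ^ i) (s * β ^ i * β)
      (1 - s * β ^ i * (1 - β)) e) :
    Pass d (j * q) s (s * β ^ j) (Real.exp (-(s * (1 - β ^ j)))) (j * e) := by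
  induction j with
  | zero =>
    have := pass_id (d := d) s
    refine Pass.mono (s' := s * β ^ 0) (by simpa using this) (by simp) (by simp) (by simp)
  | succ j ih =>
    have h1 := ih (fun i hi => hp i (by omega))
    have h2 := hp j (by omega)
    have hb1 : β ^ j ≤ 1 := pow_le_one₀ hβ.le hβ1.le
    have hb0 : 0 < β ^ j := by positivity
    have hx0 : 0 ≤ s * β ^ j * (1 - β) := by
      have : 0 < 1 - β := by linarith
      positivity
    have hx1 : s * β ^ j * (1 - β) ≤ 1 := by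
      have h3 : s * β ^ j ≤ 1 := by nlinarith
      have h4 : 1 - β ≤ 1 := by linarith
      have h5 : 0 ≤ 1 - β := by linarith
      nlinarith
    have h3 := Pass.comp (by linarith) h1 h2
    have e2 : s * β ^ j * β = s * β ^ (j + 1) := by ring
    rw [e2] at h3
    refine h3.mono (by rw [Nat.succ_mul]) ?_ ?_
    · have h4 : 1 - s * β ^ j * (1 - β) ≤ Real.exp (-(s * β ^ j * (1 - β))) := by
        have := Real.add_one_le_exp (-(s * β ^ j * (1 - β)))
        linarith
      refine (mul_le_mul_of_nonneg_right h4 (Real.exp_pos _).le).trans (le_of_eq ?_)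
      rw [← Real.exp_add]
      congr 1
      ring
    · push_cast
      have : 0 ≤ (j : ℝ) * e := by positivity
      nlinarith

theorem passAll_of_small (H : SmallPassAll) : PassAll := by
  intro k A κ hk hk1 hA hκ
  have h1 : Tendsto (fun d : ℕ => (d : ℝ)) atTop atTop := tendsto_natCast_atTop_atTop
  filter_upwards [H k (A + κ / 2) (κ / 2) hk hk1 (by positivity) (by positivity),
    h1.eventually (eventually_ge_atTop (4 : ℝ))] with d hd D4
  obtain ⟨n, hn1, hn2, hP⟩ := hd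
  intro s hs1 hs2
  have D0 : 0 < (d : ℝ) := by linarith
  have D1 : 1 ≤ (d : ℝ) := by linarith
  have hs0 : 0 < s := lt_of_lt_of_le (Real.rpow_pos_of_pos D0 _) hs1
  have hs3 : s ≤ 1 := hs2.trans (Real.rpow_le_one_of_one_le_of_nonpos D1 (by linarith))
  set q : ℕ := ⌊(d : ℝ) ^ (κ / 2)⌋₊ with hq
  have hqle : (q : ℝ) ≤ (d : ℝ) ^ (κ / 2) := Nat.floor_le (by positivity)
  have hb0 := bet_pos n
  have hb1 := bet_lt hn1
  have hbn := bet_pow hn1
  have hp : ∀ i < n, Pass d q (s * bet n ^ i) (s * bet n ^ i * bet n)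
      (1 - s * bet n ^ i * (1 - bet n)) ((d : ℝ) ^ (-(A + κ / 2))) := by
    intro i hi
    have h2 : bet n ^ i ≤ 1 := pow_le_one₀ hb0.le hb1.le
    have h3 : 1 / 4 ≤ bet n ^ i := by
      rw [← hbn]
      exact pow_le_pow_of_le_one hb0.le hb1.le hi.le
    obtain ⟨q', hq', hpp⟩ := hP (s * bet n ^ i) (by
      have h4 : (d : ℝ) ^ (-11 : ℝ) ≤ (d : ℝ) ^ (-10 : ℝ) * (1 / 4) := by
        have : (d : ℝ) ^ (-11 : ℝ) = (d : ℝ) ^ (-10 : ℝ) * (d : ℝ)⁻¹ := by
          rw [← Real.rpow_neg_one, ← Real.rpow_add D0]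
          norm_num
        rw [this]
        have h5 : (d : ℝ)⁻¹ ≤ 1 / 4 := by
          rw [inv_le_comm₀ D0 (by norm_num)]
          have e : ((1 : ℝ) / 4)⁻¹ = 4 := by norm_num
          rw [e]
          exact D4
        gcongr
      refine h4.trans ?_
      gcongr) (le_trans (mul_le_of_le_one_right hs0.le h2) hs2)
    exact hpp.mono (Nat.le_floor hq') le_rfl le_rfl
  have hc := small_comp (d := d) (by positivity) hs0 hs3 hb0 hb1 n hp
  refine ⟨n * q, ?_, ?_⟩
  · push_cast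
    calc (n : ℝ) * q ≤ (d : ℝ) ^ (κ / 2) * (d : ℝ) ^ (κ / 2) := by gcongr
      _ = (d : ℝ) ^ κ := by
        rw [← Real.rpow_add D0]
        congr 1
        ring
  · rw [hbn] at hc
    have e1 : s * (1 / 4) = s / 4 := by ring
    rw [e1] at hc
    refine hc.mono le_rfl ?_ ?_
    · have e2 : -(s * (1 - 1 / 4)) = -(3 / 4 * s) := by ring
      rw [e2]
      have h5 : 1 + 3 / 4 * s ≤ Real.exp (3 / 4 * s) := by
        have := Real.add_one_le_exp (3 / 4 * s)
        linarith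
      rw [Real.exp_neg, inv_le_comm₀ (Real.exp_pos _) (by linarith)]
      refine le_trans ?_ h5
      rw [inv_le_iff_one_le_mul₀ (by linarith)]
      nlinarith
    · calc (n : ℝ) * (d : ℝ) ^ (-(A + κ / 2)) ≤ (d : ℝ) ^ (κ / 2) * (d : ℝ) ^ (-(A + κ / 2)) := by
            gcongr
        _ = (d : ℝ) ^ (-A) := by
          rw [← Real.rpow_add D0]
          congr 1
          ring

end P347Z
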