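import Vale.Agent.P347Z.SampD
import Vale.Agent.P347Z.SmallPass

/-!
P347Z / SampE: `SmallPassAll` from `OrcAll` (choice of the parameters).
-/

open MeasureTheory ProbabilityTheory Function Filter

namespace P347Z

open P347Q P347S

namespace Samp

theorem _root_.P347Z.Orc.mono49 {d : ℕ} {s c lam del L κ : ℝ} {S S' : ℕ} (h : Orc d s c lam del L κ S)
    (hS : S ≤ S') : Orc d s c lam del L κ S' :=
  Has.mono h le_rfl (fun _ => le_rfl) le_rfl hS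

/-- constants times a negative power become small -/
theorem ev_small {c p : ℝ} (hp : 0 < p) (M : ℝ) (hc : 0 < c) :
    ∀ᶠ d : ℕ in atTop, M * (d : ℝ) ^ (-p) ≤ c := by
  have h1 : Tendsto (fun d : ℕ => (d : ℝ)) atTop atTop := tendsto_natCast_atTop_atTop
  have h2 : Tendsto (fun x : ℝ => M * x ^ (-p)) atTop (nhds (M * 0)) :=
    (tendsto_rpow_neg_atTop hp).const_mul M
  rw [mul_zero] at h2
  exact (h2.comp h1).eventually (Iic_mem_nhds hc)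

theorem bet_upper {n : ℕ} (hn : 1 ≤ n) : 1 - bet n ≤ 1.5 / n := by
  have hn0 : (0 : ℝ) < n := by exact_mod_cast hn
  have e1 : bet n = Real.exp (-(Real.log 4 / n)) := by
    unfold bet
    rw [Real.rpow_def_of_pos (by norm_num)]
    congr 1
    rw [Real.log_div (by norm_num) (by norm_num), Real.log_one]
    field_simp
    ring
  have h1 : 1 - Real.log 4 / n ≤ bet n := by
    rw [e1]
    have := Real.add_one_le_exp (-(Real.log 4 / n))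
    linarith
  have h2 : Real.log 4 ≤ 1.5 := by
    have h3 : Real.log 4 = 2 * Real.log 2 := by
      rw [show (4 : ℝ) = 2 ^ 2 by norm_num, Real.log_pow]
      norm_num
    have := Real.log_two_lt_d9
    rw [h3]
    linarith
  have h3 : Real.log 4 / n ≤ 1.5 / n := by gcongr
  linarith

/-- the number of small passes and the step -/
theorem step_ex {D κ : ℝ} (D1 : 1 ≤ D) (hκ : 0 < κ) (q1 : 2 * D ^ (-(κ / 4)) ≤ 1 / 10)
    (q8 : 2 * D ^ (-(κ / 2)) ≤ 1) : ∃ (n : ℕ) (h : ℝ), 1 ≤ n ∧ (n : ℝ) ≤ D ^ κ ∧ 0 < h ∧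
      h ≤ 1 / 10 ∧ h ≤ 2 * D ^ (-(κ / 4)) ∧ h ^ 2 = 2 * (1 - bet n) := by
  have D0 : 0 < D := by linarith
  have h2 : 1 ≤ D ^ (κ / 2) := Real.one_le_rpow D1 (by positivity)
  obtain ⟨n, hn1, hn2, hn3⟩ : ∃ n : ℕ, 1 ≤ n ∧ D ^ (κ / 2) ≤ n ∧ (n : ℝ) ≤ D ^ κ := by
    refine ⟨⌈D ^ (κ / 2)⌉₊, ?_, Nat.le_ceil _, ?_⟩
    · exact Nat.one_le_iff_ne_zero.2 (Nat.ceil_pos.2 (by linarith)).ne'
    · have h3 : (⌈D ^ (κ / 2)⌉₊ : ℝ) ≤ D ^ (κ / 2) + 1 :=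
        (Nat.ceil_lt_add_one (by positivity)).le
      have h4 : 2 ≤ D ^ (κ / 2) := by
        rw [Real.rpow_neg D0.le] at q8
        rwa [← div_eq_mul_inv, div_le_one (by positivity)] at q8
      calc (⌈D ^ (κ / 2)⌉₊ : ℝ) ≤ D ^ (κ / 2) + D ^ (κ / 2) := by linarith
        _ ≤ D ^ (κ / 2) * D ^ (κ / 2) := by nlinarith
        _ = D ^ κ := by
          rw [← Real.rpow_add D0]
          congr 1
          ring
  have hn0 : (0 : ℝ) < n := by exact_mod_cast hn1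
  have hb1 := bet_lt hn1
  have hb2 := bet_upper hn1
  have hhd : √(2 * (1 - bet n)) ≤ 2 * D ^ (-(κ / 4)) := by
    rw [Real.sqrt_le_left (by positivity)]
    have e1 : (2 * D ^ (-(κ / 4))) ^ 2 = 4 * D ^ (-(κ / 2)) := by
      have e2 : D ^ (-(κ / 2)) = D ^ (-(κ / 4)) * D ^ (-(κ / 4)) := by
        rw [← Real.rpow_add D0]
        congr 1
        ring
      rw [e2]
      ring
    rw [e1]
    have h3 : 1.5 / (n : ℝ) ≤ 1.5 * D ^ (-(κ / 2)) := by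
      rw [Real.rpow_neg D0.le, ← div_eq_mul_inv]
      gcongr
    have h4 : 0 < D ^ (-(κ / 2)) := Real.rpow_pos_of_pos D0 _
    linarith
  exact ⟨n, √(2 * (1 - bet n)), hn1, hn3, Real.sqrt_pos.2 (by linarith), hhd.trans q1, hhd,
    Real.sq_sqrt (by linarith)⟩

/-- number of queries -/
theorem cost_arith {D κ : ℝ} {N S0 K : ℕ} (D1 : 1 ≤ D) (hκ : 0 < κ) (hS1 : 1 ≤ S0)
    (hS2 : (S0 : ℝ) ≤ D ^ (κ / (2 * ((K : ℝ) + 2))))
    (q9 : 10 * (20 * ((N : ℝ) + 1)) ^ (K + 1) * D ^ (-(κ / 2)) ≤ 1) :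
    ((szK N S0 (K + 1) + 6 : ℕ) : ℝ) ≤ D ^ κ := by
  have D0 : 0 < D := by linarith
  have h3 := szK_le (N := N) hS1 (K + 1)
  have h4 : ((szK N S0 (K + 1) : ℕ) : ℝ) ≤ 4 * (20 * (N + 1) * S0) ^ (K + 1) := by
    exact_mod_cast h3
  have hS1' : (1 : ℝ) ≤ S0 := by exact_mod_cast hS1
  have hN0 : (0 : ℝ) ≤ N := Nat.cast_nonneg N
  have h5 : (1 : ℝ) ≤ (20 * (N + 1) * S0) ^ (K + 1) := by
    apply one_le_pow₀
    nlinarith
  have h6 : (S0 : ℝ) ^ (K + 1) ≤ D ^ (κ / 2) := by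
    calc (S0 : ℝ) ^ (K + 1) ≤ (D ^ (κ / (2 * ((K : ℝ) + 2)))) ^ (K + 1) := by gcongr
      _ = D ^ (κ / (2 * ((K : ℝ) + 2)) * ((K + 1 : ℕ) : ℝ)) := by
          rw [← Real.rpow_natCast, ← Real.rpow_mul D0.le]
      _ ≤ D ^ (κ / 2) := by
          apply Real.rpow_le_rpow_of_exponent_le D1
          rw [div_mul_eq_mul_div, div_le_div_iff₀ (by positivity) (by norm_num)]
          push_cast
          nlinarith [Nat.cast_nonneg (α := ℝ) K]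
  push_cast
  calc ((szK N S0 (K + 1) : ℕ) : ℝ) + 6 ≤ 10 * (20 * (N + 1) * S0) ^ (K + 1) := by linarith
    _ = 10 * (20 * (N + 1)) ^ (K + 1) * (S0 : ℝ) ^ (K + 1) := by rw [mul_pow]; ring
    _ ≤ 10 * (20 * (N + 1)) ^ (K + 1) * D ^ (κ / 2) := by gcongr
    _ = (10 * (20 * (N + 1)) ^ (K + 1) * D ^ (-(κ / 2))) * D ^ κ := by
        rw [mul_assoc (10 * (20 * ((N : ℝ) + 1)) ^ (K + 1)), ← Real.rpow_add D0]
        congr 2
        ring
    _ ≤ 1 * D ^ κ := by gcongr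
    _ = _ := one_mul _

/-- error -/
theorem error_arith {D k A κ s h C CA : ℝ} {m K : ℕ} (D1 : 1 ≤ D) (_hA : 0 < A) (hC : 0 < C)
    (hCA : 1 ≤ CA) (hh0 : 0 < h)
    (hm : A + 1 ≤ κ / 4 * m) (hK : A + 1 ≤ k / 2 * ((K : ℝ) + 1)) (hsq : √s ≤ D ^ (-(k / 2)))
    (hhd : h ≤ 2 * D ^ (-(κ / 4))) (q5 : 2 * D ^ (-(1 / 2) : ℝ) ≤ 1 / 3)
    (q6 : 3 * C * 2 ^ m * D ^ (-(1 / 2) : ℝ) ≤ 1 / 3) (q7 : 3 * CA * D ^ (-(1 / 2) : ℝ) ≤ 1 / 3) :
    √D * (2 * √s ^ (K + 1) + 3 * C * h ^ m + 3 * CA * D ^ (-(A + 1))) ≤ D ^ (-A) := by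
  have D0 : 0 < D := by linarith
  have hsd : √D = D ^ (1 / 2 : ℝ) := Real.sqrt_eq_rpow _
  have t0 : D ^ (1 / 2 : ℝ) * D ^ (-(A + 1)) = D ^ (-(1 / 2) : ℝ) * D ^ (-A) := by
    rw [← Real.rpow_add D0, ← Real.rpow_add D0]
    congr 1
    ring
  have t1 : √s ^ (K + 1) ≤ D ^ (-(A + 1)) := by
    calc √s ^ (K + 1) ≤ (D ^ (-(k / 2))) ^ (K + 1) := by gcongr
      _ = D ^ (-(k / 2) * ((K + 1 : ℕ) : ℝ)) := by
          rw [← Real.rpow_natCast, ← Real.rpow_mul D0.le]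
      _ ≤ D ^ (-(A + 1)) := by
          apply Real.rpow_le_rpow_of_exponent_le D1
          push_cast
          linarith
  have t2 : h ^ m ≤ 2 ^ m * D ^ (-(A + 1)) := by
    have t3 : D ^ (-(κ / 4) * (m : ℝ)) ≤ D ^ (-(A + 1)) :=
      Real.rpow_le_rpow_of_exponent_le D1 (by linarith)
    calc h ^ m ≤ (2 * D ^ (-(κ / 4))) ^ m := by gcongr
      _ = 2 ^ m * D ^ (-(κ / 4) * (m : ℝ)) := by
          rw [mul_pow, ← Real.rpow_natCast (D ^ (-(κ / 4))), ← Real.rpow_mul D0.le]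
      _ ≤ 2 ^ m * D ^ (-(A + 1)) := by gcongr
  have hA0 : 0 < D ^ (-A) := Real.rpow_pos_of_pos D0 _
  have hCA0 : 0 < CA := by linarith
  rw [hsd]
  calc D ^ (1 / 2 : ℝ) * (2 * √s ^ (K + 1) + 3 * C * h ^ m + 3 * CA * D ^ (-(A + 1)))
      ≤ D ^ (1 / 2 : ℝ) * (2 * D ^ (-(A + 1)) + 3 * C * (2 ^ m * D ^ (-(A + 1))) +
          3 * CA * D ^ (-(A + 1))) := by gcongr
    _ = (2 + 3 * C * 2 ^ m + 3 * CA) * (D ^ (1 / 2 : ℝ) * D ^ (-(A + 1))) := by ring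
    _ = ((2 * D ^ (-(1 / 2) : ℝ)) + (3 * C * 2 ^ m * D ^ (-(1 / 2) : ℝ)) +
        (3 * CA * D ^ (-(1 / 2) : ℝ))) * D ^ (-A) := by
        rw [t0]
        ring
    _ ≤ (1 / 3 + 1 / 3 + 1 / 3) * D ^ (-A) := by gcongr
    _ = D ^ (-A) := by ring

/-- levels near `s` -/
theorem level_arith {D s t : ℝ} (D9 : 9 ≤ D) (ht0 : 0 ≤ t) (ht1 : t ≤ 1) (hs0 : 0 < s)
    (hs1 : D ^ (-11 : ℝ) ≤ s) : D ^ (-12 : ℝ) ≤ lev s t := by
  have D0 : 0 < D := by linarith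
  have h3 : Real.cosh t ^ 2 ≤ 9 := by
    have := cosh_le_three ht0 ht1
    have := Real.cosh_pos t
    nlinarith
  have h4 : s / 9 ≤ lev s t := by
    unfold lev
    have := Real.cosh_pos t
    gcongr
  refine le_trans ?_ h4
  rw [le_div_iff₀ (by norm_num)]
  refine le_trans ?_ hs1
  have e1 : D ^ (-11 : ℝ) = D ^ (-12 : ℝ) * D := by
    rw [← Real.rpow_add_one D0.ne']
    norm_num
  rw [e1]
  gcongr

theorem nine_le {D : ℝ} (D0 : 0 < D) (q5 : 2 * D ^ (-(1 / 2) : ℝ) ≤ 1 / 3) : 9 ≤ D := by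
  by_contra h6
  push Not at h6
  have h7 : D ^ (1 / 2 : ℝ) < 9 ^ (1 / 2 : ℝ) := Real.rpow_lt_rpow D0.le h6 (by norm_num)
  have h8 : (9 : ℝ) ^ (1 / 2 : ℝ) = 3 := by
    rw [show (9 : ℝ) = 3 ^ (2 : ℝ) by norm_num, ← Real.rpow_mul (by norm_num)]
    norm_num
  rw [h8] at h7
  rw [Real.rpow_neg D0.le, ← div_eq_mul_inv, div_le_iff₀ (by positivity)] at q5
  linarith

/-- ratio conditions -/
theorem ratio_arith {D k a s CA : ℝ} (D1 : 1 ≤ D) (hCA : 1 ≤ CA) (hak : a ≤ k / 2)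
    (hs2 : s ≤ D ^ (-k)) (q3 : 12 * CA * D ^ (-(k / 2)) ≤ 1) : 12 * CA * s ≤ D ^ (-a) := by
  have D0 : 0 < D := by linarith
  have hlam : D ^ (-(k / 2)) ≤ D ^ (-a) := Real.rpow_le_rpow_of_exponent_le D1 (by linarith)
  refine le_trans ?_ hlam
  have e1 : s ≤ D ^ (-(k / 2)) * D ^ (-(k / 2)) := by
    refine hs2.trans (le_of_eq ?_)
    rw [← Real.rpow_add D0]
    congr 1
    ring
  have : 0 < CA := by linarith
  calc 12 * CA * s ≤ 12 * CA * (D ^ (-(k / 2)) * D ^ (-(k / 2))) := by gcongr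
    _ = (12 * CA * D ^ (-(k / 2))) * D ^ (-(k / 2)) := by ring
    _ ≤ 1 * D ^ (-(k / 2)) := by gcongr
    _ = _ := one_mul _

theorem small_all (O : OrcAll) : SmallPassAll := by
  intro k A κ hk hk1 hA hκ
  -- order of the rule
  obtain ⟨m, hm3, hm⟩ : ∃ m : ℕ, 3 ≤ m ∧ A + 1 ≤ κ / 4 * m := by
    obtain ⟨m, hm⟩ := exists_nat_ge ((A + 1) / (κ / 4))
    refine ⟨m + 3, by omega, ?_⟩
    rw [div_le_iff₀ (by positivity)] at hm
    push_cast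
    nlinarith
  obtain ⟨N, ⟨R⟩⟩ := rs_exists m
  obtain ⟨C, CA, hC, hCA, H⟩ := small_pass R hm3
  -- number of iterations
  obtain ⟨K, hK⟩ : ∃ K : ℕ, A + 1 ≤ k / 2 * ((K : ℝ) + 1) := by
    obtain ⟨K, hK⟩ := exists_nat_ge ((A + 1) / (k / 2))
    refine ⟨K, ?_⟩
    rw [div_le_iff₀ (by positivity)] at hK
    nlinarith
  obtain ⟨a, ha0, hak, hO⟩ := O k 12 (A + 1) hk (by linarith)
  have hO' := hO (κ / (2 * (K + 2))) (by positivity)
  have h1 : Tendsto (fun d : ℕ => (d : ℝ)) atTop atTop := tendsto_natCast_atTop_atTop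
  filter_upwards [hO', h1.eventually (eventually_ge_atTop (4 : ℝ)),
    ev_small (c := 1 / 10) (p := κ / 4) (by positivity) 2 (by norm_num),
    ev_small (c := 1 / 4) (p := k) hk 1 (by norm_num),
    ev_small (c := 1) (p := k / 2) (by positivity) (12 * CA) (by norm_num),
    ev_small (c := 1) (p := k / 2) (by positivity) (24 * CA) (by norm_num),
    ev_small (c := 1 / 3) (p := 1 / 2) (by positivity) 2 (by norm_num),
    ev_small (c := 1 / 3) (p := 1 / 2) (by positivity) (3 * C * 2 ^ m) (by norm_num),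
    ev_small (c := 1 / 3) (p := 1 / 2) (by positivity) (3 * CA) (by norm_num),
    ev_small (c := 1) (p := κ / 2) (by positivity) 2 (by norm_num),
    ev_small (c := 1) (p := κ / 2) (by positivity) (10 * (20 * (N + 1)) ^ (K + 1)) (by norm_num)]
    with d hd D4 q1 q2 q3 q4 q5 q6 q7 q8 q9
  have D0 : 0 < (d : ℝ) := by linarith
  have D1 : 1 ≤ (d : ℝ) := by linarith
  obtain ⟨n, h, hn1, hn3, hh0, hh10, hhd, hh2⟩ := step_ex D1 hκ q1 q8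
  refine ⟨n, hn1, hn3, ?_⟩
  intro s hs1 hs2
  have hs0 : 0 < s := lt_of_lt_of_le (Real.rpow_pos_of_pos D0 _) hs1
  have hs4 : s ≤ 1 / 4 := by
    rw [one_mul] at q2
    exact hs2.trans q2
  have hsq : √s ≤ (d : ℝ) ^ (-(k / 2)) := by
    rw [Real.sqrt_le_left (by positivity), ← Real.rpow_natCast, ← Real.rpow_mul D0.le]
    refine hs2.trans (le_of_eq ?_)
    congr 1
    push_cast
    ring
  -- the oracles
  obtain ⟨S0, hS1, hS2, hS3⟩ : ∃ S0 : ℕ, 1 ≤ S0 ∧ (S0 : ℝ) ≤ (d : ℝ) ^ (κ / (2 * ((K : ℝ) + 2))) ∧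
      ∀ S : ℕ, (S : ℝ) ≤ (d : ℝ) ^ (κ / (2 * ((K : ℝ) + 2))) → S ≤ S0 := by
    refine ⟨⌊(d : ℝ) ^ (κ / (2 * ((K : ℝ) + 2)))⌋₊, ?_, Nat.floor_le (by positivity),
      fun S hS => Nat.le_floor hS⟩
    apply Nat.le_floor
    push_cast
    exact Real.one_le_rpow D1 (by positivity)
  have horc : ∀ c, Orc d (lev s (h * R.t c)) (1 / 4) ((d : ℝ) ^ (-a)) ((d : ℝ) ^ (-(A + 1))) 3
      (3 / 4) S0 := by
    intro c
    have hh1 : h ≤ 1 := by linarith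
    obtain ⟨S, hS, ho⟩ := hd (lev s (h * R.t c)) (level_arith (nine_le D0 q5)
      (mul_nonneg hh0.le (R.t_mem c).1) (mul_le_one₀ hh1 (R.t_mem c).1 (R.t_mem c).2) hs0 hs1)
      ((lev_le hs0.le).trans hs2)
    exact ho.mono49 (hS3 S hS)
  have hP := H d s h ((d : ℝ) ^ (-a)) ((d : ℝ) ^ (-(A + 1))) S0 K hs0 hs4 hh0 hh10
    (Real.rpow_pos_of_pos D0 _) (Real.rpow_pos_of_pos D0 _).le (ratio_arith D1 hCA hak hs2 q3)
    (by
      calc 24 * CA * √s ≤ 24 * CA * (d : ℝ) ^ (-(k / 2)) := by gcongr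
        _ ≤ 1 := q4) horc
  have e1 : s * (1 - h ^ 2 / 2) = s * bet n := by rw [hh2]; ring
  have e2 : 1 - s * h ^ 2 / 2 = 1 - s * (1 - bet n) := by rw [hh2]; ring
  rw [e1, e2] at hP
  exact ⟨szK N S0 (K + 1) + 6, cost_arith D1 hκ hS1 hS2 q9, hP.mono le_rfl le_rfl
    (error_arith D1 hA hC hCA hh0 hm hK hsq hhd q5 q6 q7)⟩

/-- everything after the oracles -/
theorem suff_of_orc (O : OrcAll) (κ : ℝ) (hκ : 0 < κ) :
    ∀ᶠ d : ℕ in atTop, ∃ q : ℕ, (q : ℝ) ≤ (d : ℝ) ^ κ ∧ Suff d q :=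
  final0 (passAll_of_small (small_all O)) κ hκ

end Samp

end P347Z
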