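import Vale.Agent.P347Z.PxR
import Vale.Agent.P347Z.SampE
import Vale.Agent.P347Z.LowerQ

/-!
P347Z: for every `κ > 0` and all large `d` there is a sampler with at most `d^κ` queries.
-/

namespace P347Z

open P347Q Filter

theorem final_zero (κ : ℝ) (hκ : 0 < κ) :
    ∀ᶠ d : ℕ in atTop, ∃ q : ℕ, (q : ℝ) ≤ (d : ℝ) ^ κ ∧ Suff d q :=
  Samp.suff_of_orc orc_all κ hκ

end P347Z
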