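import Vale.Agent.P347Z.GFAux

/-!
Module GFIELD.  The field of the G-flow in the coordinates `(w, z)` for a fixed centre `y`:
`w' = -r' f(Y) - a T(Y) z`, `z' = a G_r(w)`, `Y = y + r w`, level `s - r²`, and its invariant density
`exp (-U_{s-r²}(y + r w) - |w|²/2 - |z|²/2)`.
GF1: `gw_smooth gz_smooth rho_smooth`, GF2: `gf_growth`, GF3: `gf_continuity`.
-/

open MeasureTheory ProbabilityTheory Function
open scoped ENNReal BigOperators ContDiff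

namespace P347Z

open P347Q P347S

variable {d : ℕ} {V : E d → ℝ} {s : ℝ} {r a : ℝ → ℝ}

theorem gf_grad_c (hV : Pot d V) (hr : ContDiff ℝ ∞ r) (hlev : ∀ t, r t ^ 2 < s) :
    ContDiff ℝ ∞ (fun p : ℝ × E d × E d × E d =>
      gradient (US V (s - r p.1 ^ 2)) (p.2.1 + r p.1 • p.2.2.1)) := by
  have h := ContDiffOn.comp_contDiff (gf_grad hV) (gf_pt (s := s) hr) (gf_mem hlev)
  exact h

theorem gf_LG_c (hV : Pot d V) (hr : ContDiff ℝ ∞ r) (hlev : ∀ t, r t ^ 2 < s) :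
    ContDiff ℝ ∞ (fun p : ℝ × E d × E d × E d =>
      LG (US V (s - r p.1 ^ 2)) (p.2.1 + r p.1 • p.2.2.1)) := by
  have h := ContDiffOn.comp_contDiff (gf_LG hV) (gf_pt (s := s) hr) (gf_mem hlev)
  exact h

theorem gf_US_c (hV : Pot d V) (hr : ContDiff ℝ ∞ r) (hlev : ∀ t, r t ^ 2 < s) :
    ContDiff ℝ ∞ (fun p : ℝ × E d × E d × E d =>
      US V (s - r p.1 ^ 2) (p.2.1 + r p.1 • p.2.2.1)) := by
  have h := ContDiffOn.comp_contDiff (us_joint hV) (gf_pt (s := s) hr) (gf_mem hlev)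
  exact h

theorem gf_HV_c (hV : Pot d V) (hr : ContDiff ℝ ∞ r) (hlev : ∀ t, r t ^ 2 < s)
    {v : ℝ × E d × E d × E d → E d} (hv : ContDiff ℝ ∞ v) :
    ContDiff ℝ ∞ (fun p : ℝ × E d × E d × E d =>
      HV (US V (s - r p.1 ^ 2)) (p.2.1 + r p.1 • p.2.2.1) (v p)) := by
  have h7 : ContDiff ℝ ∞ (fun p : ℝ × E d × E d × E d => s - r p.1 ^ 2) := by fun_prop
  have h8 : ContDiff ℝ ∞ (fun p : ℝ × E d × E d × E d => p.2.1 + r p.1 • p.2.2.1) := by fun_prop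
  have h := ContDiffOn.comp_contDiff (gf_HVj hV) (h7.prodMk (h8.prodMk hv))
    (fun p => ⟨by simpa using hlev p.1, trivial⟩)
  exact h

/-- GF1 -/
theorem gw_smooth (hV : Pot d V) (hr : ContDiff ℝ ∞ r) (ha : ContDiff ℝ ∞ a)
    (hlev : ∀ t, r t ^ 2 < s) :
    ContDiff ℝ ∞ (fun p : ℝ × E d × E d × E d => gw V s r a p.1 p.2.1 p.2.2.1 p.2.2.2) := by
  have h6 : ContDiff ℝ ∞ (fun p : ℝ × E d × E d × E d => p.2.2.2) := by fun_prop
  have h3 : ContDiff ℝ ∞ (deriv r) := (contDiff_infty_iff_deriv.1 hr).2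
  have h4 : ContDiff ℝ ∞ (fun p : ℝ × E d × E d × E d => deriv r p.1) := h3.comp contDiff_fst
  have h5 : ContDiff ℝ ∞ (fun p : ℝ × E d × E d × E d => a p.1) := ha.comp contDiff_fst
  have h := (h4.smul (gf_grad_c hV hr hlev)).neg.sub (h5.smul (gf_HV_c hV hr hlev h6))
  exact h

/-- GF1 -/
theorem gz_smooth (hV : Pot d V) (hr : ContDiff ℝ ∞ r) (ha : ContDiff ℝ ∞ a)
    (hlev : ∀ t, r t ^ 2 < s) :
    ContDiff ℝ ∞ (fun p : ℝ × E d × E d × E d => gz V s r a p.1 p.2.1 p.2.2.1) := by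
  have h4 : ContDiff ℝ ∞ (fun p : ℝ × E d × E d × E d => r p.1) := hr.comp contDiff_fst
  have h5 : ContDiff ℝ ∞ (fun p : ℝ × E d × E d × E d => a p.1) := ha.comp contDiff_fst
  have h6 : ContDiff ℝ ∞ (fun p : ℝ × E d × E d × E d => p.2.2.1) := by fun_prop
  have h := h5.smul ((gf_HV_c hV hr hlev ((h4.smul (gf_grad_c hV hr hlev)).add h6)).sub
    (h4.smul (gf_LG_c hV hr hlev)))
  exact h

/-- GF1 -/
theorem grho_smooth (hV : Pot d V) (hr : ContDiff ℝ ∞ r) (hlev : ∀ t, r t ^ 2 < s) :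
    ContDiff ℝ ∞ (fun p : ℝ × E d × E d × E d => grho V s r p.1 p.2.1 p.2.2.1 p.2.2.2) := by
  have h2 : ContDiff ℝ ∞ (fun p : ℝ × E d × E d × E d => ‖p.2.2.1‖ ^ 2 / 2) :=
    (ContDiff.norm_sq ℝ (by fun_prop)).div_const 2
  have h3 : ContDiff ℝ ∞ (fun p : ℝ × E d × E d × E d => ‖p.2.2.2‖ ^ 2 / 2) :=
    (ContDiff.norm_sq ℝ (by fun_prop)).div_const 2
  exact Real.contDiff_exp.comp (((gf_US_c hV hr hlev).add h2).add h3).neg

end P347Z
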