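import Vale.Agent.P347Z.GFAux

/-!
Module GFIELD.  The field of the G-flow in the coordinates `(w, z)` for a fixed centre `y`:
`w' = -r' f(Y) - a T(Y) z`, `z' = a G_r(w)`, `Y = y + r w`, level `s - r²`, and its invariant density
`exp (-U_{s-r²}(y + r w) - |w|²/2 - |z|²/2)`.
GF1: `gw_smooth gz_smooth rho_smooth`, GF2: `gf_growth`, GF3: `gf_continuity`.
-/

open MeasureTheory ProbabilityTheory Function
open scoped ENNReal BigOperators ContDiff

namespace P347Z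

open P347Q P347S

variable {d : ℕ} {V : E d → ℝ} {s : ℝ} {r a : ℝ → ℝ}

theorem gf_bd {f : ℝ → ℝ} (hf : Continuous f) (T : ℝ) :
    ∃ C : ℝ, 0 ≤ C ∧ ∀ t ∈ Set.Icc (-T) T, |f t| ≤ C := by
  obtain ⟨C, hC⟩ := (isCompact_Icc (a := -T) (b := T)).exists_bound_of_continuousOn
    hf.continuousOn
  exact ⟨max C 0, le_max_right _ _, fun t ht => (hC t ht).trans (le_max_left _ _)⟩

theorem gf_Y {y w z : E d} {c R : ℝ} (hc : |c| ≤ R) :
    1 + ‖y + c • w‖ ≤ (1 + R) * (1 + ‖y‖ + ‖w‖ + ‖z‖) := by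
  have h1 : ‖y + c • w‖ ≤ ‖y‖ + |c| * ‖w‖ := by
    refine (norm_add_le _ _).trans ?_
    rw [norm_smul, Real.norm_eq_abs]
  have h2 : |c| * ‖w‖ ≤ R * ‖w‖ := mul_le_mul_of_nonneg_right hc (norm_nonneg _)
  have hR : 0 ≤ R := (abs_nonneg c).trans hc
  have hy := norm_nonneg y
  have hw := norm_nonneg w
  have hz := norm_nonneg z
  have h3 : 0 ≤ R * ‖y‖ := mul_nonneg hR hy
  have h4 : 0 ≤ R * ‖z‖ := mul_nonneg hR hz
  nlinarith

/-- GF2: linear growth, locally uniformly in time (`us_grad_growth`, `us_HV`, `us_LG`, continuity of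
`r, r', a` and `s - r²` bounded below on compact time intervals) -/
theorem gf_growth (hV : Pot d V) (hs1 : s ≤ 1 / 4) (hr : ContDiff ℝ ∞ r) (ha : ContDiff ℝ ∞ a)
    (hlev : ∀ t, r t ^ 2 < s) (T : ℝ) :
    ∃ C : ℝ, ∀ t ∈ Set.Icc (-T) T, ∀ y w z : E d,
      ‖gw V s r a t y w z‖ ≤ C * (1 + ‖y‖ + ‖w‖ + ‖z‖) ∧
      ‖gz V s r a t y w‖ ≤ C * (1 + ‖y‖ + ‖w‖ + ‖z‖) := by
  obtain ⟨C1, hC1⟩ := us_grad_growth hV
  obtain ⟨B, hB, hLG⟩ := us_LG
  obtain ⟨R, hR0, hR⟩ := gf_bd hr.continuous T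
  obtain ⟨R1, hR10, hR1⟩ := gf_bd (contDiff_infty_iff_deriv.1 hr).2.continuous T
  obtain ⟨A, hA0, hA⟩ := gf_bd ha.continuous T
  have hcs : Continuous (fun t => (√(s - r t ^ 2))⁻¹) := by
    have h1 : Continuous (fun t => √(s - r t ^ 2)) :=
      (continuous_const.sub (hr.continuous.pow 2)).sqrt
    exact h1.inv₀ fun t => (Real.sqrt_pos.2 (by linarith [hlev t])).ne'
  obtain ⟨M, hM0, hM⟩ := gf_bd hcs T
  set C0 : ℝ := max C1 0 with hC0
  have hC00 : 0 ≤ C0 := le_max_right _ _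
  set D : ℝ := B * √d with hD
  have hD0 : 0 ≤ D := mul_nonneg hB.le (Real.sqrt_nonneg _)
  have hgr : ∀ L : ℝ, 0 < L → L ≤ 1 / 4 → ∀ y : E d, ‖gradient (US V L) y‖ ≤ C0 * (1 + ‖y‖) :=
    fun L hL hL1 y => (hC1 L hL hL1 y).trans
      (mul_le_mul_of_nonneg_right (le_max_left _ _) (by positivity))
  refine ⟨R1 * (C0 * (1 + R)) + 2 * A + A * (2 * (R * (C0 * (1 + R)) + 1) + R * (D * M)),
    fun t ht y w z => ?_⟩
  have hL : 0 < s - r t ^ 2 := by linarith [hlev t]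
  have hL1 : s - r t ^ 2 ≤ 1 / 4 := by nlinarith [sq_nonneg (r t)]
  have hN : 1 ≤ 1 + ‖y‖ + ‖w‖ + ‖z‖ := by
    have := norm_nonneg y
    have := norm_nonneg w
    have := norm_nonneg z
    linarith
  have hNz : ‖z‖ ≤ 1 + ‖y‖ + ‖w‖ + ‖z‖ := by
    have := norm_nonneg y
    have := norm_nonneg w
    linarith
  have hNw : ‖w‖ ≤ 1 + ‖y‖ + ‖w‖ + ‖z‖ := by
    have := norm_nonneg y
    have := norm_nonneg z
    linarith
  have hYY := gf_Y (y := y) (w := w) (z := z) (hR t ht)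
  have hG : ‖gradient (US V (s - r t ^ 2)) (y + r t • w)‖ ≤
      C0 * (1 + R) * (1 + ‖y‖ + ‖w‖ + ‖z‖) := by
    refine (hgr _ hL hL1 _).trans ?_
    rw [mul_assoc]
    exact mul_le_mul_of_nonneg_left hYY hC00
  have hLGb : ‖LG (US V (s - r t ^ 2)) (y + r t • w)‖ ≤ D * M := by
    refine (hLG d V _ hV hL hL1 _).trans ?_
    rw [div_eq_mul_inv]
    exact mul_le_mul_of_nonneg_left ((le_abs_self _).trans (hM t ht)) hD0
  set N : ℝ := 1 + ‖y‖ + ‖w‖ + ‖z‖ with hNdef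
  have hN0 : 0 ≤ N := by linarith
  set Q : ℝ := C0 * (1 + R) with hQ
  have hQ0 : 0 ≤ Q := mul_nonneg hC00 (by linarith)
  have hgw : ‖gw V s r a t y w z‖ ≤ R1 * (Q * N) + A * (2 * N) := by
    unfold gw
    refine (norm_sub_le _ _).trans (add_le_add ?_ ?_)
    · rw [norm_neg, norm_smul, Real.norm_eq_abs]
      exact mul_le_mul (hR1 t ht) hG (norm_nonneg _) hR10
    · rw [norm_smul, Real.norm_eq_abs]
      exact mul_le_mul (hA t ht) ((us_HV hV hL hL1 _ _).trans (by linarith)) (norm_nonneg _) hA0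
  have hgz : ‖gz V s r a t y w‖ ≤ A * (2 * (R * (Q * N) + N) + R * (D * M)) := by
    unfold gz GG
    rw [norm_smul, Real.norm_eq_abs]
    refine mul_le_mul (hA t ht) ?_ (norm_nonneg _) hA0
    refine (norm_sub_le _ _).trans (add_le_add ?_ ?_)
    · refine (us_HV hV hL hL1 _ _).trans (mul_le_mul_of_nonneg_left ?_ (by norm_num))
      refine (norm_add_le _ _).trans (add_le_add ?_ hNw)
      rw [norm_smul, Real.norm_eq_abs]
      exact mul_le_mul (hR t ht) hG (norm_nonneg _) hR0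
    · rw [norm_smul, Real.norm_eq_abs]
      exact mul_le_mul (hR t ht) hLGb (norm_nonneg _) hR0
  have hRDM : 0 ≤ R * (D * M) := mul_nonneg hR0 (mul_nonneg hD0 hM0)
  have e1 : R * (D * M) ≤ R * (D * M) * N := le_mul_of_one_le_right hRDM hN
  have e2 : 0 ≤ R1 * (Q * N) := mul_nonneg hR10 (mul_nonneg hQ0 hN0)
  have e3 : 0 ≤ R * (Q * N) := mul_nonneg hR0 (mul_nonneg hQ0 hN0)
  have e4 : 0 ≤ A * (2 * (R * (Q * N) + N) + R * (D * M) * N) :=
    mul_nonneg hA0 (by have := mul_nonneg hRDM hN0; linarith)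
  have e5 : 0 ≤ A * N := mul_nonneg hA0 hN0
  constructor
  · refine hgw.trans ?_
    have : (R1 * Q + 2 * A + A * (2 * (R * Q + 1) + R * (D * M))) * N =
        R1 * (Q * N) + A * (2 * N) + A * (2 * (R * (Q * N) + N) + R * (D * M) * N) := by ring
    rw [this]
    linarith
  · refine hgz.trans ?_
    have : (R1 * Q + 2 * A + A * (2 * (R * Q + 1) + R * (D * M))) * N =
        R1 * (Q * N) + 2 * (A * N) + A * (2 * (R * (Q * N) + N) + R * (D * M) * N) := by ring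
    rw [this]
    have h9 : A * (2 * (R * (Q * N) + N) + R * (D * M)) ≤
        A * (2 * (R * (Q * N) + N) + R * (D * M) * N) :=
      mul_le_mul_of_nonneg_left (by linarith) hA0
    linarith

end P347Z
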