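import Vale.Agent.P347Z.GFAux

/-!
Module GFIELD.  The field of the G-flow in the coordinates `(w, z)` for a fixed centre `y`:
`w' = -r' f(Y) - a T(Y) z`, `z' = a G_r(w)`, `Y = y + r w`, level `s - r²`, and its invariant density
`exp (-U_{s-r²}(y + r w) - |w|²/2 - |z|²/2)`.
GF1: `gw_smooth gz_smooth rho_smooth`, GF2: `gf_growth`, GF3: `gf_continuity`.
-/

open MeasureTheory ProbabilityTheory Function
open scoped ENNReal BigOperators ContDiff

namespace P347Z

open P347Q P347S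

variable {d : ℕ} {V : E d → ℝ} {s : ℝ} {r a : ℝ → ℝ}

section gf3aux

variable {L : ℝ}

theorem gf3_us_has (hV : Pot d V) (hL : 0 < L) (Y : E d) :
    HasFDerivAt (US V L) (fderiv ℝ (US V L) Y) Y :=
  (gf_slice_has (us_joint hV) (p := (L, Y)) hL).differentiableAt.hasFDerivAt

theorem gf3_grad_has (hV : Pot d V) (hL : 0 < L) (Y : E d) :
    HasFDerivAt (gradient (US V L)) (fderiv ℝ (gradient (US V L)) Y) Y :=
  (gf_slice_has (gf_grad hV) (p := (L, Y)) hL).differentiableAt.hasFDerivAt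

theorem gf3_HV_has (hV : Pot d V) (hL : 0 < L) (Y v : E d) :
    HasFDerivAt (fun y => HV (US V L) y v) (fderiv ℝ (fun y => HV (US V L) y v) Y) Y :=
  (gf_slice_has (gf_HV hV v) (p := (L, Y)) hL).differentiableAt.hasFDerivAt

theorem gf3_lap (hV : Pot d V) (hL : 0 < L) (Y : E d) :
    ∑ i, (HV (US V L) Y (bas d i)) i =
      ∑ i, fderiv ℝ (fun x => fderiv ℝ (US V L) x (bas d i)) Y (bas d i) := by
  refine Finset.sum_congr rfl fun i _ => ?_
  unfold HV
  rw [gf_coord (gf3_grad_has hV hL Y).differentiableAt]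
  congr 2
  funext x
  exact gradient_apply _ _ _

theorem gf3_LG (hV : Pot d V) (hL : 0 < L) (hL1 : L ≤ 1 / 4) (Y z : E d) :
    ∑ i, (fderiv ℝ (fun y => HV (US V L) y z) Y (bas d i)) i = inner ℝ z (LG (US V L) Y) := by
  unfold LG
  rw [inner_sum]
  refine Finset.sum_congr rfl fun i _ => ?_
  rw [gf_coord (gf3_HV_has hV hL Y z).differentiableAt]
  have e1 : (fun y => (HV (US V L) y z) i) = fun y => inner ℝ z (HV (US V L) y (bas d i)) := by
    funext y
    rw [← us_HV_symm hV hL hL1, inner_bas]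
  rw [e1]
  have h2 : HasFDerivAt (fun y => inner ℝ z (HV (US V L) y (bas d i)))
      ((innerSL ℝ z).comp (fderiv ℝ (fun y => HV (US V L) y (bas d i)) Y)) Y :=
    (innerSL ℝ z).hasFDerivAt.comp Y (gf3_HV_has hV hL Y (bas d i))
  rw [h2.fderiv]
  simp

theorem gf3_line (y w : E d) (c : ℝ) :
    HasFDerivAt (fun x : E d => y + c • x) (c • ContinuousLinearMap.id ℝ (E d)) w :=
  ((hasFDerivAt_id w).const_smul c).const_add y

theorem gf3_div (hV : Pot d V) (hL : 0 < L) (hL1 : L ≤ 1 / 4) (y w z : E d) (c b a' : ℝ) :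
    ∑ i, (fderiv ℝ (fun x => -(b • gradient (US V L) (y + c • x)) -
      a' • HV (US V L) (y + c • x) z) w (bas d i)) i =
      -(b * c * ∑ i, fderiv ℝ (fun x => fderiv ℝ (US V L) x (bas d i)) (y + c • w) (bas d i)) -
        a' * c * inner ℝ z (LG (US V L) (y + c • w)) := by
  have h1 : HasFDerivAt (fun x : E d => gradient (US V L) (y + c • x))
      ((fderiv ℝ (gradient (US V L)) (y + c • w)).comp (c • ContinuousLinearMap.id ℝ (E d))) w :=
    HasFDerivAt.comp (g := gradient (US V L)) w (gf3_grad_has hV hL (y + c • w))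
      (gf3_line y w c)
  have h2 : HasFDerivAt (fun x : E d => HV (US V L) (y + c • x) z)
      ((fderiv ℝ (fun y => HV (US V L) y z) (y + c • w)).comp
        (c • ContinuousLinearMap.id ℝ (E d))) w :=
    HasFDerivAt.comp (g := fun y => HV (US V L) y z) w (gf3_HV_has hV hL (y + c • w) z)
      (gf3_line y w c)
  have h3 := (h1.const_smul b).neg.sub (h2.const_smul a')
  rw [← gf3_lap hV hL, ← gf3_LG hV hL hL1, Finset.mul_sum, Finset.mul_sum,
    ← Finset.sum_neg_distrib, ← Finset.sum_sub_distrib]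
  refine Finset.sum_congr rfl fun i _ => ?_
  have h4 := h3.fderiv
  have h5 : (fderiv ℝ (fun x => -(b • gradient (US V L) (y + c • x)) -
      a' • HV (US V L) (y + c • x) z) w (bas d i)) =
      -(b • (c • HV (US V L) (y + c • w) (bas d i))) -
        a' • (c • (fderiv ℝ (fun y => HV (US V L) y z) (y + c • w)) (bas d i)) := by
    refine (congrArg (fun T => T (bas d i)) h4).trans ?_
    simp [HV]
  rw [h5]
  simp only [PiLp.sub_apply, PiLp.neg_apply, PiLp.smul_apply, smul_eq_mul]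
  ring

theorem gf3_rho_w (hV : Pot d V) (hL : 0 < L) (y w z v : E d) (c : ℝ) :
    fderiv ℝ (fun x => Real.exp (-(US V L (y + c • x) + ‖x‖ ^ 2 / 2 + ‖z‖ ^ 2 / 2))) w v =
      -(Real.exp (-(US V L (y + c • w) + ‖w‖ ^ 2 / 2 + ‖z‖ ^ 2 / 2)) *
        (c * inner ℝ (gradient (US V L) (y + c • w)) v + inner ℝ w v)) := by
  have h1 : HasFDerivAt (fun x : E d => US V L (y + c • x))
      ((fderiv ℝ (US V L) (y + c • w)).comp (c • ContinuousLinearMap.id ℝ (E d))) w :=
    (gf3_us_has hV hL (y + c • w)).comp w (gf3_line y w c)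
  have h2 : HasFDerivAt (fun x : E d => ‖x‖ ^ 2 / 2) ((innerSL ℝ w) : E d →L[ℝ] ℝ) w := by
    have h := (hasStrictFDerivAt_norm_sq w).hasFDerivAt.mul_const (2 : ℝ)⁻¹
    have e : (2 : ℝ)⁻¹ • (2 • (innerSL ℝ w : E d →L[ℝ] ℝ)) = innerSL ℝ w := by
      ext x
      simp
    rw [e] at h
    simpa [div_eq_mul_inv] using h
  have h3 : HasFDerivAt
      (fun x => Real.exp (-(US V L (y + c • x) + ‖x‖ ^ 2 / 2 + ‖z‖ ^ 2 / 2)))
      (Real.exp (-(US V L (y + c • w) + ‖w‖ ^ 2 / 2 + ‖z‖ ^ 2 / 2)) •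
        -((fderiv ℝ (US V L) (y + c • w)).comp (c • ContinuousLinearMap.id ℝ (E d)) +
          (innerSL ℝ w : E d →L[ℝ] ℝ))) w :=
    ((h1.add h2).add_const (‖z‖ ^ 2 / 2)).neg.exp
  rw [h3.fderiv]
  have h5 : (fderiv ℝ (US V L) (y + c • w)) v = inner ℝ (gradient (US V L) (y + c • w)) v :=
    (inner_gradient _ _ _).symm
  simp only [smul_apply, neg_apply, add_apply, ContinuousLinearMap.comp_apply,
    ContinuousLinearMap.id_apply, map_smul, smul_eq_mul, innerSL_apply_apply, h5]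
  ring

theorem gf3_rho_z (w z v : E d) (K : ℝ) :
    fderiv ℝ (fun x : E d => Real.exp (-(K + ‖w‖ ^ 2 / 2 + ‖x‖ ^ 2 / 2))) z v =
      -(Real.exp (-(K + ‖w‖ ^ 2 / 2 + ‖z‖ ^ 2 / 2)) * inner ℝ z v) := by
  have h2 : HasFDerivAt (fun x : E d => ‖x‖ ^ 2 / 2) ((innerSL ℝ z) : E d →L[ℝ] ℝ) z := by
    have h := (hasStrictFDerivAt_norm_sq z).hasFDerivAt.mul_const (2 : ℝ)⁻¹
    have e : (2 : ℝ)⁻¹ • (2 • (innerSL ℝ z : E d →L[ℝ] ℝ)) = innerSL ℝ z := by
      ext x
      simp
    rw [e] at h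
    simpa [div_eq_mul_inv] using h
  have h3 := (h2.const_add (K + ‖w‖ ^ 2 / 2)).neg.exp
  have h4 := h3.fderiv
  refine (congrArg (fun T => T v) h4).trans ?_
  simp

theorem gf3_dt (hV : Pot d V) (hr : ContDiff ℝ ∞ r) (hlev : ∀ t, r t ^ 2 < s) (t : ℝ)
    (y w : E d) :
    HasDerivAt (fun τ => US V (s - r τ ^ 2) (y + r τ • w))
      (-(2 * r t * deriv r t) * ((1 / 2) * ∑ i,
        fderiv ℝ (fun x => fderiv ℝ (US V (s - r t ^ 2)) x (bas d i)) (y + r t • w) (bas d i) -
        (1 / 2) * ‖gradient (US V (s - r t ^ 2)) (y + r t • w)‖ ^ 2) +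
        deriv r t * inner ℝ (gradient (US V (s - r t ^ 2)) (y + r t • w)) w) t := by
  have hL : 0 < s - r t ^ 2 := by linarith [hlev t]
  set F : ℝ × E d → ℝ := fun p => US V p.1 p.2 with hF
  have hDF : HasFDerivAt F (fderiv ℝ F (s - r t ^ 2, y + r t • w)) (s - r t ^ 2, y + r t • w) :=
    gf_diff (us_joint hV) hL
  have hr1 : HasDerivAt r (deriv r t) t :=
    ((contDiff_infty_iff_deriv.1 hr).1 t).hasDerivAt
  have hc1 : HasDerivAt (fun τ => s - r τ ^ 2) (-(2 * r t * deriv r t)) t := by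
    have h := (hr1.pow 2).const_sub s
    simpa [mul_assoc] using h
  have hc2 : HasDerivAt (fun τ => y + r τ • w) (deriv r t • w) t :=
    (hr1.smul_const w).const_add y
  have hc : HasDerivAt (fun τ => ((s - r τ ^ 2, y + r τ • w) : ℝ × E d))
      (-(2 * r t * deriv r t), deriv r t • w) t := hc1.prodMk hc2
  have h1 := hDF.comp_hasDerivAt t hc
  have e1 : fderiv ℝ F (s - r t ^ 2, y + r t • w) (1, 0) = (1 / 2) * ∑ i,
        fderiv ℝ (fun x => fderiv ℝ (US V (s - r t ^ 2)) x (bas d i)) (y + r t • w) (bas d i) -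
        (1 / 2) * ‖gradient (US V (s - r t ^ 2)) (y + r t • w)‖ ^ 2 := by
    have h2 : HasDerivAt (fun l : ℝ => ((l, y + r t • w) : ℝ × E d)) (1, 0) (s - r t ^ 2) :=
      (hasDerivAt_id _).prodMk (hasDerivAt_const _ _)
    have h3 := hDF.comp_hasDerivAt (s - r t ^ 2) h2
    exact h3.unique (us_pde hV hL (y + r t • w))
  have e2 : fderiv ℝ F (s - r t ^ 2, y + r t • w) (0, w) =
      inner ℝ (gradient (US V (s - r t ^ 2)) (y + r t • w)) w := by
    have h4 := (gf_slice_has (us_joint hV) (p := (s - r t ^ 2, y + r t • w)) hL).fderiv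
    rw [inner_gradient]
    exact (congrArg (fun T => T w) h4).symm
  have e3 : fderiv ℝ F (s - r t ^ 2, y + r t • w) (-(2 * r t * deriv r t), deriv r t • w) =
      -(2 * r t * deriv r t) * fderiv ℝ F (s - r t ^ 2, y + r t • w) (1, 0) +
        deriv r t * fderiv ℝ F (s - r t ^ 2, y + r t • w) (0, w) := by
    have key : ∀ (T : ℝ × E d →L[ℝ] ℝ) (b c : ℝ), T (b, c • w) = b * T (1, 0) + c * T (0, w) := by
      intro T b c
      have h5 : ((b, c • w) : ℝ × E d) = b • ((1, 0) : ℝ × E d) + c • ((0, w) : ℝ × E d) := by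
        simp
      rw [h5, map_add, map_smul, map_smul, smul_eq_mul, smul_eq_mul]
    exact key _ _ _
  rw [e3, e1, e2] at h1
  exact h1

end gf3aux

/-- GF3: continuity equation.  With `U = US V (s - r²)` at `Y = y + r w`:
`∂_t log ρ = 2 r r' ∂_L U - r' ⟨∇U, w⟩ = r r' (ΔU - |∇U|²) - r' ⟨∇U, w⟩` (`us_pde`),
`D log ρ · b = -⟨r ∇U + w, gw⟩ - ⟨z, gz⟩`, `div_w gw = -r r' ΔU - a r ⟨Δ∇U, z⟩`, `div_z gz = 0`. -/
theorem gf_continuity (hV : Pot d V) (hs1 : s ≤ 1 / 4) (hr : ContDiff ℝ ∞ r) (ha : ContDiff ℝ ∞ a)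
    (hlev : ∀ t, r t ^ 2 < s) (t : ℝ) (y w z : E d) :
    deriv (fun τ => grho V s r τ y w z) t +
      fderiv ℝ (fun x => grho V s r t y x z) w (gw V s r a t y w z) +
      fderiv ℝ (fun x => grho V s r t y w x) z (gz V s r a t y w) +
      grho V s r t y w z * ∑ i, (fderiv ℝ (fun x => gw V s r a t y x z) w (bas d i)) i = 0 := by
  have hL : 0 < s - r t ^ 2 := by linarith [hlev t]
  have hL1 : s - r t ^ 2 ≤ 1 / 4 := by nlinarith [sq_nonneg (r t)]
  have h1 : deriv (fun τ => grho V s r τ y w z) t = -(grho V s r t y w z *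
      (-(2 * r t * deriv r t) * ((1 / 2) * ∑ i,
        fderiv ℝ (fun x => fderiv ℝ (US V (s - r t ^ 2)) x (bas d i)) (y + r t • w) (bas d i) -
        (1 / 2) * ‖gradient (US V (s - r t ^ 2)) (y + r t • w)‖ ^ 2) +
        deriv r t * inner ℝ (gradient (US V (s - r t ^ 2)) (y + r t • w)) w)) := by
    have h := ((((gf3_dt hV hr hlev t y w).add_const (‖w‖ ^ 2 / 2)).add_const
      (‖z‖ ^ 2 / 2)).neg.exp).deriv
    rw [mul_neg] at h
    exact h
  have h2 : fderiv ℝ (fun x => grho V s r t y x z) w (gw V s r a t y w z) =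
      -(grho V s r t y w z * (r t * inner ℝ (gradient (US V (s - r t ^ 2)) (y + r t • w))
        (gw V s r a t y w z) + inner ℝ w (gw V s r a t y w z))) :=
    gf3_rho_w hV hL y w z _ (r t)
  have h3 : fderiv ℝ (fun x => grho V s r t y w x) z (gz V s r a t y w) =
      -(grho V s r t y w z * inner ℝ z (gz V s r a t y w)) :=
    gf3_rho_z w z _ _
  have h4 : ∑ i, (fderiv ℝ (fun x => gw V s r a t y x z) w (bas d i)) i =
      -(deriv r t * r t * ∑ i,
        fderiv ℝ (fun x => fderiv ℝ (US V (s - r t ^ 2)) x (bas d i)) (y + r t • w) (bas d i)) -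
        a t * r t * inner ℝ z (LG (US V (s - r t ^ 2)) (y + r t • w)) :=
    gf3_div hV hL hL1 y w z (r t) (deriv r t) (a t)
  rw [h1, h2, h3, h4]
  set Y : E d := y + r t • w with hY
  set U : E d → ℝ := US V (s - r t ^ 2) with hU
  have h5 : inner ℝ (gradient U Y) (gw V s r a t y w z) =
      -(deriv r t * ‖gradient U Y‖ ^ 2) - a t * inner ℝ (HV U Y (gradient U Y)) z := by
    have e : inner ℝ (HV U Y (gradient U Y)) z = inner ℝ (gradient U Y) (HV U Y z) :=
      us_HV_symm hV hL hL1 _ _ _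
    rw [e]
    change inner ℝ (gradient U Y) (-(deriv r t • gradient U Y) - a t • HV U Y z) = _
    rw [inner_sub_right, inner_neg_right, inner_smul_right, inner_smul_right,
      real_inner_self_eq_norm_sq]
  have h6 : inner ℝ w (gw V s r a t y w z) =
      -(deriv r t * inner ℝ (gradient U Y) w) - a t * inner ℝ (HV U Y w) z := by
    have e : inner ℝ (HV U Y w) z = inner ℝ w (HV U Y z) := us_HV_symm hV hL hL1 _ _ _
    rw [e]
    change inner ℝ w (-(deriv r t • gradient U Y) - a t • HV U Y z) = _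
    rw [inner_sub_right, inner_neg_right, inner_smul_right, inner_smul_right,
      real_inner_comm w]
  have h7 : inner ℝ z (gz V s r a t y w) =
      a t * (r t * inner ℝ (HV U Y (gradient U Y)) z + inner ℝ (HV U Y w) z -
        r t * inner ℝ z (LG U Y)) := by
    change inner ℝ z (a t • (HV U Y (r t • gradient U Y + w) - r t • LG U Y)) = _
    have e : HV U Y (r t • gradient U Y + w) = r t • HV U Y (gradient U Y) + HV U Y w := by
      unfold HV
      rw [map_add, map_smul]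
    rw [e, inner_smul_right, inner_sub_right, inner_add_right, inner_smul_right, inner_smul_right,
      real_inner_comm z, real_inner_comm z]
  rw [h5, h6, h7]
  ring

end P347Z
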