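import Vale.Agent.P347Z.GFDefs

/-!
Auxiliary lemmas for GF1, GF2, GF3: joint smoothness of the derivatives of `US V L y` in `(L, y)`.
-/

open MeasureTheory ProbabilityTheory Function
open scoped ENNReal BigOperators ContDiff

namespace P347Z

open P347Q P347S

variable {d : ℕ} {V : E d → ℝ} {s : ℝ} {r a : ℝ → ℝ}

section gfaux

theorem gf_open : IsOpen (Set.Ioi (0 : ℝ) ×ˢ (Set.univ : Set (E d))) :=
  isOpen_Ioi.prod isOpen_univ

variable {G : Type*} [NormedAddCommGroup G] [NormedSpace ℝ G]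

theorem gf_diff {F : ℝ × E d → G}
    (hF : ContDiffOn ℝ ∞ F (Set.Ioi (0 : ℝ) ×ˢ Set.univ)) {p : ℝ × E d} (hp : 0 < p.1) :
    HasFDerivAt F (fderiv ℝ F p) p := by
  have h1 : ContDiffAt ℝ ∞ F p := hF.contDiffAt (gf_open.mem_nhds ⟨hp, trivial⟩)
  exact (h1.differentiableAt (by simp)).hasFDerivAt

theorem gf_slice_has {F : ℝ × E d → G}
    (hF : ContDiffOn ℝ ∞ F (Set.Ioi (0 : ℝ) ×ˢ Set.univ)) {p : ℝ × E d} (hp : 0 < p.1) :
    HasFDerivAt (fun y => F (p.1, y)) ((fderiv ℝ F p).comp (ContinuousLinearMap.inr ℝ ℝ (E d)))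
      p.2 :=
  (gf_diff hF hp).comp p.2 (hasFDerivAt_prodMk_right p.1 p.2)

theorem gf_slice_cd {F : ℝ × E d → G}
    (hF : ContDiffOn ℝ ∞ F (Set.Ioi (0 : ℝ) ×ˢ Set.univ)) :
    ContDiffOn ℝ ∞ (fun p : ℝ × E d => fderiv ℝ (fun y => F (p.1, y)) p.2)
      (Set.Ioi (0 : ℝ) ×ˢ Set.univ) := by
  have h1 : ContDiffOn ℝ ∞ (fderiv ℝ F) (Set.Ioi (0 : ℝ) ×ˢ Set.univ) :=
    hF.fderiv_of_isOpen gf_open (by simp)
  have h2 : ContDiffOn ℝ ∞ (fun p => (fderiv ℝ F p).comp (ContinuousLinearMap.inr ℝ ℝ (E d)))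
      (Set.Ioi (0 : ℝ) ×ˢ Set.univ) := h1.clm_comp contDiffOn_const
  exact h2.congr fun p hp => (gf_slice_has hF hp.1).fderiv

theorem gf_grad (hV : Pot d V) :
    ContDiffOn ℝ ∞ (fun p : ℝ × E d => gradient (US V p.1) p.2)
      (Set.Ioi (0 : ℝ) ×ˢ Set.univ) := by
  rw [contDiffOn_euclidean]
  intro i
  have h1 := (gf_slice_cd (us_joint hV)).clm_apply
    (contDiffOn_const (c := bas d i) (s := Set.Ioi (0 : ℝ) ×ˢ (Set.univ : Set (E d))))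
  refine h1.congr fun p _ => ?_
  rw [gradient_apply]

theorem gf_hess (hV : Pot d V) :
    ContDiffOn ℝ ∞ (fun p : ℝ × E d => fderiv ℝ (gradient (US V p.1)) p.2)
      (Set.Ioi (0 : ℝ) ×ˢ Set.univ) := gf_slice_cd (gf_grad hV)

theorem gf_HV (hV : Pot d V) (v : E d) :
    ContDiffOn ℝ ∞ (fun p : ℝ × E d => HV (US V p.1) p.2 v)
      (Set.Ioi (0 : ℝ) ×ˢ Set.univ) :=
  (gf_hess hV).clm_apply contDiffOn_const

theorem gf_LG (hV : Pot d V) :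
    ContDiffOn ℝ ∞ (fun p : ℝ × E d => LG (US V p.1) p.2)
      (Set.Ioi (0 : ℝ) ×ˢ Set.univ) := by
  unfold LG
  refine ContDiffOn.sum fun i _ => ?_
  exact (gf_slice_cd (gf_HV hV (bas d i))).clm_apply contDiffOn_const

theorem gf_HVj (hV : Pot d V) :
    ContDiffOn ℝ ∞ (fun p : ℝ × E d × E d => HV (US V p.1) p.2.1 p.2.2)
      (Set.Ioi (0 : ℝ) ×ˢ Set.univ) := by
  have h1 : ContDiffOn ℝ ∞ (fun p : ℝ × E d × E d => ((p.1, p.2.1) : ℝ × E d))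
      (Set.Ioi (0 : ℝ) ×ˢ Set.univ) := by fun_prop
  have h2 := (gf_hess hV).comp h1 (fun p hp => ⟨hp.1, trivial⟩)
  have h3 : ContDiffOn ℝ ∞ (fun p : ℝ × E d × E d => p.2.2)
      (Set.Ioi (0 : ℝ) ×ˢ Set.univ) := by fun_prop
  exact h2.clm_apply h3

theorem gf_pt (hr : ContDiff ℝ ∞ r) : ContDiff ℝ ∞
    (fun p : ℝ × E d × E d × E d => ((s - r p.1 ^ 2, p.2.1 + r p.1 • p.2.2.1) : ℝ × E d)) := by
  fun_prop

theorem gf_mem (hlev : ∀ t, r t ^ 2 < s) (p : ℝ × E d × E d × E d) :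
    ((s - r p.1 ^ 2, p.2.1 + r p.1 • p.2.2.1) : ℝ × E d) ∈
      Set.Ioi (0 : ℝ) ×ˢ (Set.univ : Set (E d)) :=
  ⟨by simpa using hlev p.1, trivial⟩

theorem gf_coord {g : E d → E d} {x : E d} (hg : DifferentiableAt ℝ g x) (v : E d) (i : Fin d) :
    (fderiv ℝ g x v) i = fderiv ℝ (fun y => g y i) x v := by
  have h1 : HasFDerivAt (fun y => g y i)
      ((EuclideanSpace.proj i : E d →L[ℝ] ℝ).comp (fderiv ℝ g x)) x :=
    (EuclideanSpace.proj i : E d →L[ℝ] ℝ).hasFDerivAt.comp x hg.hasFDerivAt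
  rw [h1.fderiv]
  simp

end gfaux

end P347Z
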