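import Vale.Agent.P347Z.ULevel

/-!
Module GFIELD.  The field of the G-flow in the coordinates `(w, z)` for a fixed centre `y`:
`w' = -r' f(Y) - a T(Y) z`, `z' = a G_r(w)`, `Y = y + r w`, level `s - r²`, and its invariant density
`exp (-U_{s-r²}(y + r w) - |w|²/2 - |z|²/2)`.
GF1: `gw_smooth gz_smooth rho_smooth`, GF2: `gf_growth`, GF3: `gf_continuity`.
-/

open MeasureTheory ProbabilityTheory Function
open scoped ENNReal BigOperators ContDiff

namespace P347Z

open P347Q P347S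

variable {d : ℕ} {V : E d → ℝ} {s : ℝ} {r a : ℝ → ℝ}

/-- `w`-component of the field -/
noncomputable def gw (V : E d → ℝ) (s : ℝ) (r a : ℝ → ℝ) (t : ℝ) (y w z : E d) : E d :=
  -(deriv r t • gradient (US V (s - r t ^ 2)) (y + r t • w)) -
    a t • HV (US V (s - r t ^ 2)) (y + r t • w) z

/-- `z`-component of the field -/
noncomputable def gz (V : E d → ℝ) (s : ℝ) (r a : ℝ → ℝ) (t : ℝ) (y w : E d) : E d :=
  a t • GG (US V (s - r t ^ 2)) (r t) (y + r t • w) w

/-- the invariant density -/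
noncomputable def grho (V : E d → ℝ) (s : ℝ) (r : ℝ → ℝ) (t : ℝ) (y w z : E d) : ℝ :=
  Real.exp (-(US V (s - r t ^ 2) (y + r t • w) + ‖w‖ ^ 2 / 2 + ‖z‖ ^ 2 / 2))



end P347Z
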