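import Vale.Agent.P347Z.GField
import Vale.Agent.P347Z.Transport
import Vale.Agent.P347Q.GaussDens

/-!
Module GFLOW: existence and stationarity of the G-flow, from `flow_exists_tr`, `flow_transport`, `GField`.
-/

open MeasureTheory ProbabilityTheory Function
open scoped ENNReal BigOperators ContDiff

namespace P347Z

open P347Q P347S

namespace GFAux

variable {d : ℕ}

/-- basis of `E d` -/
noncomputable def bE (d : ℕ) : Module.Basis (Fin d) ℝ (E d) :=
  (EuclideanSpace.basisFun (Fin d) ℝ).toBasis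

theorem bE_apply (i : Fin d) : bE d i = bas d i := by
  simp [bE, bas]

theorem bE_repr (x : E d) (i : Fin d) : (bE d).repr x i = x i := by
  simp [bE]

/-- the field on `(y, w, z)` -/
noncomputable def bX (V : E d → ℝ) (s : ℝ) (r a : ℝ → ℝ) (t : ℝ) (x : Z3 d) : Z3 d :=
  (0, (gw V s r a t x.1 x.2.1 x.2.2, gz V s r a t x.1 x.2.1))

/-- the field on `(w, z)` for fixed `y` -/
noncomputable def bY (V : E d → ℝ) (s : ℝ) (r a : ℝ → ℝ) (y : E d) (t : ℝ) (x : E d × E d) :
    E d × E d :=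
  (gw V s r a t y x.1 x.2, gz V s r a t y x.1)

noncomputable def rX (V : E d → ℝ) (s : ℝ) (r : ℝ → ℝ) (t : ℝ) (x : Z3 d) : ℝ :=
  grho V s r t x.1 x.2.1 x.2.2

noncomputable def rY (V : E d → ℝ) (s : ℝ) (r : ℝ → ℝ) (y : E d) (t : ℝ) (x : E d × E d) : ℝ :=
  grho V s r t y x.1 x.2

section smooth

variable {V : E d → ℝ} {s : ℝ} {r a : ℝ → ℝ}

theorem bX_smooth (hV : Pot d V) (hr : ContDiff ℝ ∞ r) (ha : ContDiff ℝ ∞ a)
    (hlev : ∀ t, r t ^ 2 < s) :
    ContDiff ℝ ∞ (fun p : ℝ × Z3 d => bX V s r a p.1 p.2) := by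
  unfold bX
  exact contDiff_const.prodMk ((gw_smooth hV hr ha hlev).prodMk (gz_smooth hV hr ha hlev))

theorem rX_smooth (hV : Pot d V) (hr : ContDiff ℝ ∞ r) (hlev : ∀ t, r t ^ 2 < s) :
    ContDiff ℝ ∞ (fun p : ℝ × Z3 d => rX V s r p.1 p.2) := grho_smooth hV hr hlev

theorem bY_smooth (hV : Pot d V) (hr : ContDiff ℝ ∞ r) (ha : ContDiff ℝ ∞ a)
    (hlev : ∀ t, r t ^ 2 < s) (y : E d) :
    ContDiff ℝ ∞ (fun p : ℝ × (E d × E d) => bY V s r a y p.1 p.2) := by
  have h1 : ContDiff ℝ ∞ (fun p : ℝ × (E d × E d) => ((p.1, (y, p.2)) : ℝ × Z3 d)) := by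
    fun_prop
  have h2 := (bX_smooth hV hr ha hlev).comp h1
  exact contDiff_snd.comp h2

theorem rY_smooth (hV : Pot d V) (hr : ContDiff ℝ ∞ r) (hlev : ∀ t, r t ^ 2 < s) (y : E d) :
    ContDiff ℝ ∞ (fun p : ℝ × (E d × E d) => rY V s r y p.1 p.2) := by
  have h1 : ContDiff ℝ ∞ (fun p : ℝ × (E d × E d) => ((p.1, (y, p.2)) : ℝ × Z3 d)) := by
    fun_prop
  have h2 := rX_smooth hV hr hlev
  generalize hF : (fun p : ℝ × Z3 d => rX V s r p.1 p.2) = F at h2
  have h3 : (fun p : ℝ × (E d × E d) => rY V s r y p.1 p.2) =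
      F ∘ (fun p : ℝ × (E d × E d) => ((p.1, (y, p.2)) : ℝ × Z3 d)) := by
    rw [← hF]
    rfl
  rw [h3]
  exact h2.comp h1

theorem slice {X Y : Type*} [NormedAddCommGroup X] [NormedSpace ℝ X] [NormedAddCommGroup Y]
    [NormedSpace ℝ Y] {F : ℝ → X → Y} (h : ContDiff ℝ ∞ (fun p : ℝ × X => F p.1 p.2)) (t : ℝ) :
    ContDiff ℝ ∞ (F t) := by
  have h1 : ContDiff ℝ ∞ (fun x : X => (t, x)) := by fun_prop
  exact h.comp h1

theorem part1 {X Y Z : Type*} [NormedAddCommGroup X] [NormedSpace ℝ X] [NormedAddCommGroup Y]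
    [NormedSpace ℝ Y] [NormedAddCommGroup Z] [NormedSpace ℝ Z] {F : X × Y → Z} {x : X} {y : Y}
    (h : DifferentiableAt ℝ F (x, y)) (v : X) :
    fderiv ℝ (fun x' => F (x', y)) x v = fderiv ℝ F (x, y) (v, 0) := by
  have h1 : HasFDerivAt (fun x' : X => (x', y)) (ContinuousLinearMap.inl ℝ X Y) x :=
    hasFDerivAt_prodMk_left x y
  have h2 := (h.hasFDerivAt.comp x h1).fderiv
  have h3 : (F ∘ fun x' : X => (x', y)) = fun x' => F (x', y) := rfl
  rw [h3] at h2
  rw [h2]
  simp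

theorem part2 {X Y Z : Type*} [NormedAddCommGroup X] [NormedSpace ℝ X] [NormedAddCommGroup Y]
    [NormedSpace ℝ Y] [NormedAddCommGroup Z] [NormedSpace ℝ Z] {F : X × Y → Z} {x : X} {y : Y}
    (h : DifferentiableAt ℝ F (x, y)) (v : Y) :
    fderiv ℝ (fun y' => F (x, y')) y v = fderiv ℝ F (x, y) (0, v) := by
  have h1 : HasFDerivAt (fun y' : Y => (x, y')) (ContinuousLinearMap.inr ℝ X Y) y :=
    hasFDerivAt_prodMk_right x y
  have h2 := (h.hasFDerivAt.comp y h1).fderiv
  have h3 : (F ∘ fun y' : Y => (x, y')) = fun y' => F (x, y') := rfl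
  rw [h3] at h2
  rw [h2]
  simp

theorem fd_fst {X Y Z : Type*} [NormedAddCommGroup X] [NormedSpace ℝ X] [NormedAddCommGroup Y]
    [NormedSpace ℝ Y] [NormedAddCommGroup Z] [NormedSpace ℝ Z] {F : X → Y × Z} {x : X}
    (h : DifferentiableAt ℝ F x) (v : X) :
    (fderiv ℝ F x v).1 = fderiv ℝ (fun x' => (F x').1) x v := by
  have h2 := (hasFDerivAt_fst.comp x h.hasFDerivAt).fderiv
  have h3 : ((Prod.fst : Y × Z → Y) ∘ F) = fun x' => (F x').1 := rfl
  rw [h3] at h2
  rw [h2]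
  simp

theorem fd_snd {X Y Z : Type*} [NormedAddCommGroup X] [NormedSpace ℝ X] [NormedAddCommGroup Y]
    [NormedSpace ℝ Y] [NormedAddCommGroup Z] [NormedSpace ℝ Z] {F : X → Y × Z} {x : X}
    (h : DifferentiableAt ℝ F x) (v : X) :
    (fderiv ℝ F x v).2 = fderiv ℝ (fun x' => (F x').2) x v := by
  have h2 := (hasFDerivAt_snd.comp x h.hasFDerivAt).fderiv
  have h3 : ((Prod.snd : Y × Z → Z) ∘ F) = fun x' => (F x').2 := rfl
  rw [h3] at h2
  rw [h2]
  simp

/-- continuity equation on `(w, z)` -/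
theorem cont_Y (hV : Pot d V) (hs1 : s ≤ 1 / 4) (hr : ContDiff ℝ ∞ r)
    (ha : ContDiff ℝ ∞ a) (hlev : ∀ t, r t ^ 2 < s) (y : E d) (t : ℝ) (x : E d × E d) :
    deriv (fun τ => rY V s r y τ x) t + fderiv ℝ (rY V s r y t) x (bY V s r a y t x) +
      rY V s r y t x * ∑ k, ((bE d).prod (bE d)).repr
        (fderiv ℝ (bY V s r a y t) x (((bE d).prod (bE d)) k)) k = 0 := by
  have hb : DifferentiableAt ℝ (bY V s r a y t) x :=
    ((slice (bY_smooth hV hr ha hlev y) t).differentiable (by simp)).differentiableAt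
  have hρ : DifferentiableAt ℝ (rY V s r y t) x :=
    ((slice (rY_smooth hV hr hlev y) t).differentiable (by simp)).differentiableAt
  obtain ⟨w, z⟩ := x
  have key := gf_continuity hV hs1 hr ha hlev t y w z
  have e1 : fderiv ℝ (rY V s r y t) (w, z) (bY V s r a y t (w, z)) =
      fderiv ℝ (fun x => grho V s r t y x z) w (gw V s r a t y w z) +
      fderiv ℝ (fun x => grho V s r t y w x) z (gz V s r a t y w) := by
    have h1 := part1 hρ (gw V s r a t y w z)
    have h2 := part2 hρ (gz V s r a t y w)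
    have h3 : bY V s r a y t (w, z) = (gw V s r a t y w z, 0) + (0, gz V s r a t y w) := by
      simp [bY]
    rw [h3, map_add, ← h1, ← h2]
    rfl
  have e2 : ∑ k, ((bE d).prod (bE d)).repr
        (fderiv ℝ (bY V s r a y t) (w, z) (((bE d).prod (bE d)) k)) k =
      ∑ i, (fderiv ℝ (fun x => gw V s r a t y x z) w (bas d i)) i := by
    rw [Fintype.sum_sum_type]
    have h1 : ∀ i : Fin d, ((bE d).prod (bE d)).repr
        (fderiv ℝ (bY V s r a y t) (w, z) (((bE d).prod (bE d)) (Sum.inl i))) (Sum.inl i) =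
        (fderiv ℝ (fun x => gw V s r a t y x z) w (bas d i)) i := by
      intro i
      have h3 : ((bE d).prod (bE d)) (Sum.inl i) = (bas d i, 0) := by
        ext1
        · rw [Module.Basis.prod_apply_inl_fst, bE_apply]
        · rw [Module.Basis.prod_apply_inl_snd]
      have h4 : DifferentiableAt ℝ (fun x' : E d => bY V s r a y t (x', z)) w :=
        hb.comp (f := fun x' : E d => (x', z)) w (by fun_prop)
      rw [h3, Module.Basis.prod_repr_inl, bE_repr, ← part1 hb, fd_fst h4]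
      rfl
    have h2 : ∀ i : Fin d, ((bE d).prod (bE d)).repr
        (fderiv ℝ (bY V s r a y t) (w, z) (((bE d).prod (bE d)) (Sum.inr i))) (Sum.inr i) = 0 := by
      intro i
      have h3 : ((bE d).prod (bE d)) (Sum.inr i) = (0, bas d i) := by
        ext1
        · rw [Module.Basis.prod_apply_inr_fst]
        · rw [Module.Basis.prod_apply_inr_snd, bE_apply]
      have h5 : DifferentiableAt ℝ (fun x' : E d => bY V s r a y t (w, x')) z :=
        hb.comp (f := fun x' : E d => (w, x')) z (by fun_prop)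
      rw [h3, Module.Basis.prod_repr_inr, bE_repr, ← part2 hb, fd_snd h5]
      have h4 : (fun x' => (bY V s r a y t (w, x')).2) = fun _ => gz V s r a t y w := rfl
      rw [h4]
      simp
    simp only [h1, h2, Finset.sum_const_zero, add_zero]
  rw [e1, e2]
  have e3 : (fun τ => rY V s r y τ (w, z)) = fun τ => grho V s r τ y w z := rfl
  rw [e3]
  have e4 : rY V s r y t (w, z) = grho V s r t y w z := rfl
  rw [e4]
  linarith

/-- continuity equation on `(y, w, z)` -/
theorem cont_X (hV : Pot d V) (hs1 : s ≤ 1 / 4) (hr : ContDiff ℝ ∞ r)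
    (ha : ContDiff ℝ ∞ a) (hlev : ∀ t, r t ^ 2 < s) (t : ℝ) (x : Z3 d) :
    deriv (fun τ => rX V s r τ x) t + fderiv ℝ (rX V s r t) x (bX V s r a t x) +
      rX V s r t x * ∑ k, ((bE d).prod ((bE d).prod (bE d))).repr
        (fderiv ℝ (bX V s r a t) x (((bE d).prod ((bE d).prod (bE d))) k)) k = 0 := by
  have hb : DifferentiableAt ℝ (bX V s r a t) x :=
    ((slice (bX_smooth hV hr ha hlev) t).differentiable (by simp)).differentiableAt
  have hρ : DifferentiableAt ℝ (rX V s r t) x :=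
    ((slice (rX_smooth hV hr hlev) t).differentiable (by simp)).differentiableAt
  obtain ⟨y, x⟩ := x
  have key := cont_Y hV hs1 hr ha hlev y t x
  have e1 : fderiv ℝ (rX V s r t) (y, x) (bX V s r a t (y, x)) =
      fderiv ℝ (rY V s r y t) x (bY V s r a y t x) := by
    have h2 := part2 hρ (bY V s r a y t x)
    have h3 : bX V s r a t (y, x) = (0, bY V s r a y t x) := rfl
    rw [h3, ← h2]
    rfl
  have e2 : ∑ k, ((bE d).prod ((bE d).prod (bE d))).repr
        (fderiv ℝ (bX V s r a t) (y, x) (((bE d).prod ((bE d).prod (bE d))) k)) k =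
      ∑ k, ((bE d).prod (bE d)).repr
        (fderiv ℝ (bY V s r a y t) x (((bE d).prod (bE d)) k)) k := by
    rw [Fintype.sum_sum_type]
    have h1 : ∀ i : Fin d, ((bE d).prod ((bE d).prod (bE d))).repr
        (fderiv ℝ (bX V s r a t) (y, x) (((bE d).prod ((bE d).prod (bE d))) (Sum.inl i)))
          (Sum.inl i) = 0 := by
      intro i
      rw [Module.Basis.prod_repr_inl, bE_repr, fd_fst hb]
      have h4 : (fun x' => (bX V s r a t x').1) = fun _ => (0 : E d) := rfl
      rw [h4]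
      simp
    have h2 : ∀ k, ((bE d).prod ((bE d).prod (bE d))).repr
        (fderiv ℝ (bX V s r a t) (y, x) (((bE d).prod ((bE d).prod (bE d))) (Sum.inr k)))
          (Sum.inr k) = ((bE d).prod (bE d)).repr
        (fderiv ℝ (bY V s r a y t) x (((bE d).prod (bE d)) k)) k := by
      intro k
      have h3 : ((bE d).prod ((bE d).prod (bE d))) (Sum.inr k) = (0, ((bE d).prod (bE d)) k) := by
        ext1
        · rw [Module.Basis.prod_apply_inr_fst]
        · rw [Module.Basis.prod_apply_inr_snd]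
      have h5 : DifferentiableAt ℝ (fun x' : E d × E d => bX V s r a t (y, x')) x :=
        hb.comp (f := fun x' : E d × E d => (y, x')) x (by fun_prop)
      rw [h3, Module.Basis.prod_repr_inr, ← part2 hb, fd_snd h5]
      rfl
    simp only [h1, h2, Finset.sum_const_zero, zero_add]
  rw [e1, e2]
  exact key

theorem bX_growth (hV : Pot d V) (hs1 : s ≤ 1 / 4) (hr : ContDiff ℝ ∞ r)
    (ha : ContDiff ℝ ∞ a) (hlev : ∀ t, r t ^ 2 < s) (T : ℝ) :
    ∃ C : ℝ, ∀ t ∈ Set.Icc (-T) T, ∀ x, ‖bX V s r a t x‖ ≤ C * (1 + ‖x‖) := by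
  obtain ⟨C, hC⟩ := gf_growth hV hs1 hr ha hlev T
  refine ⟨3 * |C|, fun t ht x => ?_⟩
  obtain ⟨h1, h2⟩ := hC t ht x.1 x.2.1 x.2.2
  have n1 : ‖x.1‖ ≤ ‖x‖ := norm_fst_le x
  have n2 : ‖x.2.1‖ ≤ ‖x‖ := (norm_fst_le x.2).trans (norm_snd_le x)
  have n3 : ‖x.2.2‖ ≤ ‖x‖ := (norm_snd_le x.2).trans (norm_snd_le x)
  have n0 := norm_nonneg x
  have e : C * (1 + ‖x.1‖ + ‖x.2.1‖ + ‖x.2.2‖) ≤ 3 * |C| * (1 + ‖x‖) := by
    have a1 : C ≤ |C| := le_abs_self C
    have a0 := abs_nonneg C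
    have b0 : 0 ≤ 1 + ‖x.1‖ + ‖x.2.1‖ + ‖x.2.2‖ := by positivity
    calc C * (1 + ‖x.1‖ + ‖x.2.1‖ + ‖x.2.2‖) ≤ |C| * (1 + ‖x.1‖ + ‖x.2.1‖ + ‖x.2.2‖) :=
          mul_le_mul_of_nonneg_right a1 b0
      _ ≤ |C| * (3 * (1 + ‖x‖)) := mul_le_mul_of_nonneg_left (by linarith) a0
      _ = 3 * |C| * (1 + ‖x‖) := by ring
  have h3 : 0 ≤ 3 * |C| * (1 + ‖x‖) := by positivity
  unfold bX
  rw [Prod.norm_def, Prod.norm_def]
  simp only [norm_zero]
  exact max_le h3 (max_le (h1.trans e) (h2.trans e))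

theorem bY_growth (hV : Pot d V) (hs1 : s ≤ 1 / 4) (hr : ContDiff ℝ ∞ r)
    (ha : ContDiff ℝ ∞ a) (hlev : ∀ t, r t ^ 2 < s) (y : E d) (T : ℝ) :
    ∃ C : ℝ, ∀ t ∈ Set.Icc (-T) T, ∀ x, ‖bY V s r a y t x‖ ≤ C * (1 + ‖x‖) := by
  obtain ⟨C, hC⟩ := bX_growth hV hs1 hr ha hlev T
  refine ⟨|C| * (1 + ‖y‖), fun t ht x => ?_⟩
  have h1 := hC t ht (y, x)
  have h2 : ‖bY V s r a y t x‖ ≤ ‖bX V s r a t (y, x)‖ := norm_snd_le (bX V s r a t (y, x))
  have h3 : ‖((y, x) : Z3 d)‖ ≤ ‖y‖ + ‖x‖ := by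
    rw [Prod.norm_def]
    have := norm_nonneg y
    have := norm_nonneg x
    exact max_le (by simpa using by linarith) (by simpa using by linarith)
  have n1 := norm_nonneg y
  have n2 := norm_nonneg x
  have n3 := norm_nonneg ((y, x) : Z3 d)
  have a0 := abs_nonneg C
  calc ‖bY V s r a y t x‖ ≤ C * (1 + ‖((y, x) : Z3 d)‖) := h2.trans h1
    _ ≤ |C| * (1 + ‖((y, x) : Z3 d)‖) :=
        mul_le_mul_of_nonneg_right (le_abs_self C) (by linarith)
    _ ≤ |C| * ((1 + ‖y‖) * (1 + ‖x‖)) := mul_le_mul_of_nonneg_left (by nlinarith) a0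
    _ = |C| * (1 + ‖y‖) * (1 + ‖x‖) := by ring

end smooth

/-- density of `mu3` -/
noncomputable def D3 (V : E d → ℝ) (L : ℝ) (p : Z3 d) : ℝ≥0∞ :=
  ENNReal.ofReal (Real.exp (-(US V L p.1 + ‖p.2.1‖ ^ 2 / 2 + ‖p.2.2‖ ^ 2 / 2)))

theorem us_cont {V : E d → ℝ} (hV : Pot d V) {L : ℝ} (hL : 0 < L) : Continuous (US V L) := by
  have h := (us_joint hV).continuousOn
  have h1 : Continuous (fun y : E d => ((L, y) : ℝ × E d)) := by fun_prop
  have h2 := h.comp_continuous h1 (fun y => ⟨hL, Set.mem_univ _⟩)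
  exact h2

theorem D3_meas {V : E d → ℝ} (hV : Pot d V) {L : ℝ} (hL : 0 < L) : Measurable (D3 V L) := by
  have hc := us_cont hV hL
  have : Continuous (fun p : Z3 d => Real.exp (-(US V L p.1 + ‖p.2.1‖ ^ 2 / 2 +
    ‖p.2.2‖ ^ 2 / 2))) := by fun_prop
  exact this.measurable.ennreal_ofReal

theorem gauss_meas : Measurable (fun v : E d => ENNReal.ofReal (Real.exp (-(‖v‖ ^ 2 / 2)))) := by
  have : Continuous (fun v : E d => Real.exp (-(‖v‖ ^ 2 / 2))) := by fun_prop
  exact this.measurable.ennreal_ofReal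

theorem gg_eq : ∃ c : ℝ≥0∞, (stdGaussian (E d)).prod (stdGaussian (E d)) =
    c • (volume : Measure (E d × E d)).withDensity
      (fun p => ENNReal.ofReal (Real.exp (-(‖p.1‖ ^ 2 / 2 + ‖p.2‖ ^ 2 / 2)))) := by
  refine ⟨(∫⁻ v : E d, ENNReal.ofReal (Real.exp (-(‖v‖ ^ 2 / 2))))⁻¹ *
    (∫⁻ v : E d, ENNReal.ofReal (Real.exp (-(‖v‖ ^ 2 / 2))))⁻¹, ?_⟩
  rw [stdGaussian_eq_gibbs, gibbs, Measure.prod_smul_left, Measure.prod_smul_right,
    prod_withDensity gauss_meas gauss_meas, smul_smul, Measure.volume_eq_prod]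
  congr 2
  funext z
  rw [← ENNReal.ofReal_mul (Real.exp_pos _).le, ← Real.exp_add]
  congr 2
  ring

theorem mu3_eq {V : E d → ℝ} (hV : Pot d V) {L : ℝ} (hL : 0 < L) : ∃ c : ℝ≥0∞,
    mu3 V L = c • (volume : Measure (Z3 d)).withDensity (D3 V L) := by
  obtain ⟨c, hc⟩ := gg_eq (d := d)
  have hUc := us_cont hV hL
  have hm1 : Measurable (fun x : E d => ENNReal.ofReal (Real.exp (-US V L x))) := by
    have : Continuous (fun x : E d => Real.exp (-US V L x)) := by fun_prop
    exact this.measurable.ennreal_ofReal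
  have hm2 : Measurable (fun p : E d × E d =>
      ENNReal.ofReal (Real.exp (-(‖p.1‖ ^ 2 / 2 + ‖p.2‖ ^ 2 / 2)))) := by
    have : Continuous (fun p : E d × E d => Real.exp (-(‖p.1‖ ^ 2 / 2 + ‖p.2‖ ^ 2 / 2))) := by
      fun_prop
    exact this.measurable.ennreal_ofReal
  refine ⟨(∫⁻ x : E d, ENNReal.ofReal (Real.exp (-US V L x)))⁻¹ * c, ?_⟩
  rw [mu3, hc, gibbs, Measure.prod_smul_left, Measure.prod_smul_right,
    prod_withDensity hm1 hm2, smul_smul, Measure.volume_eq_prod (E d) (E d × E d)]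
  congr 2
  funext z
  rw [← ENNReal.ofReal_mul (Real.exp_pos _).le, ← Real.exp_add, D3]
  congr 2
  ring

theorem mu3_prob {V : E d → ℝ} (hV : Pot d V) {L : ℝ} (hL : 0 < L) (hL1 : L ≤ 1 / 4) :
    IsProbabilityMeasure (mu3 V L) := by
  have := us_prob hV hL hL1
  unfold mu3
  infer_instance

theorem map_dens {X : Type*} [MeasurableSpace X] {μ : Measure X} {F : X → X}
    (hF : MeasurePreserving F μ μ) {D : X → ℝ≥0∞} (hD : Measurable D) :
    (μ.withDensity (fun x => D (F x))).map F = μ.withDensity D := by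
  ext A hA
  rw [Measure.map_apply hF.measurable hA, withDensity_apply _ (hF.measurable hA),
    withDensity_apply _ hA]
  exact hF.setLIntegral_comp_preimage hA hD

theorem map_norm {X Y : Type*} [MeasurableSpace X] [MeasurableSpace Y] {m μ : Measure X}
    {m' ν : Measure Y} {c c' : ℝ≥0∞}
    (hμ : μ = c • m) (hν : ν = c' • m') [IsProbabilityMeasure μ] [IsProbabilityMeasure ν]
    {F : X → Y} (hF : Measurable F) (h : m.map F = m') : μ.map F = ν := by
  have h1 : m' Set.univ = m Set.univ := by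
    rw [← h, Measure.map_apply hF MeasurableSet.univ, Set.preimage_univ]
  have h2 : c * m Set.univ = 1 := by
    have := measure_univ (μ := μ)
    rwa [hμ, Measure.smul_apply, smul_eq_mul] at this
  have h3 : c' * m Set.univ = 1 := by
    have := measure_univ (μ := ν)
    rwa [hν, Measure.smul_apply, smul_eq_mul, h1] at this
  have h4 : c = c' :=
    (ENNReal.eq_inv_of_mul_eq_one_left h2).trans (ENNReal.eq_inv_of_mul_eq_one_left h3).symm
  rw [hμ, Measure.map_smul, h, h4, ← hν]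

/-- shear -/
noncomputable def shear (c : ℝ) (x : Z3 d) : Z3 d := (x.1 + c • x.2.1, x.2)

theorem shear_cont (c : ℝ) : Continuous (shear (d := d) c) := by
  unfold shear
  fun_prop

theorem shear_mp (c : ℝ) : MeasurePreserving (shear (d := d) c) volume volume := by
  have h1 : MeasurePreserving (fun p : (E d × E d) × E d => (p.1, p.2 + c • p.1.1))
      ((volume : Measure (E d × E d)).prod (volume : Measure (E d)))
      ((volume : Measure (E d × E d)).prod (volume : Measure (E d))) :=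
    (MeasurePreserving.id (volume : Measure (E d × E d))).skew_product
      (g := fun (a : E d × E d) (y : E d) => y + c • a.1) (by fun_prop)
      (ae_of_all _ fun a => (measurePreserving_add_right volume (c • a.1)).map_eq)
  have h2 : MeasurePreserving (Prod.swap : (E d × E d) × E d → E d × (E d × E d))
      ((volume : Measure (E d × E d)).prod (volume : Measure (E d)))
      ((volume : Measure (E d)).prod (volume : Measure (E d × E d))) :=
    Measure.measurePreserving_swap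
  have h3 : MeasurePreserving (Prod.swap : E d × (E d × E d) → (E d × E d) × E d)
      ((volume : Measure (E d)).prod (volume : Measure (E d × E d)))
      ((volume : Measure (E d × E d)).prod (volume : Measure (E d))) :=
    Measure.measurePreserving_swap
  exact h2.comp (h1.comp h3)

section main

variable {V : E d → ℝ} {s : ℝ} {r a : ℝ → ℝ} {Ψ : ℝ → Z3 d → Z3 d}

instance haarY : (volume : Measure (E d × E d)).IsAddHaarMeasure :=
  @Measure.prod.instIsAddHaarMeasure _ _ _ _ _ _ _ _ volume volume _ _ _ _ _ _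

instance haarX : (volume : Measure (E d × (E d × E d))).IsAddHaarMeasure :=
  @Measure.prod.instIsAddHaarMeasure (E d) _ _ _ (E d × E d) _ _ _ volume volume _ _ _ _ _ _

theorem psi_const
    (h1 : ∀ x, ∀ t, 0 ≤ t → HasDerivWithinAt (fun τ => Ψ τ x) (bX V s r a t (Ψ t x)) (Set.Ici 0) t)
    (h0 : ∀ x, Ψ 0 x = x) (x : Z3 d) (t : ℝ) (ht : 0 ≤ t) : (Ψ t x).1 = x.1 := by
  have hd : ∀ τ ∈ Set.Ici (0 : ℝ), HasDerivWithinAt (fun τ => (Ψ τ x).1) 0 (Set.Ici 0) τ := by
    intro τ hτ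
    have := ((ContinuousLinearMap.fst ℝ (E d) (E d × E d)).hasFDerivAt
      (x := Ψ τ x)).comp_hasDerivWithinAt τ (h1 x τ hτ)
    exact this
  have h := Convex.norm_image_sub_le_of_norm_hasDerivWithin_le (C := 0) hd
    (fun r _ => by simp) (convex_Ici 0) (Set.mem_Ici.2 le_rfl) (Set.mem_Ici.2 ht)
  rw [zero_mul, h0] at h
  exact sub_eq_zero.mp (norm_le_zero_iff.mp h)

theorem psi_w
    (h1 : ∀ x, ∀ t, 0 ≤ t → HasDerivWithinAt (fun τ => Ψ τ x) (bX V s r a t (Ψ t x)) (Set.Ici 0) t)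
    (x : Z3 d) (t : ℝ) (ht : 0 ≤ t) : HasDerivWithinAt (fun τ => (Ψ τ x).2)
      (bY V s r a (Ψ t x).1 t (Ψ t x).2) (Set.Ici 0) t := by
  have := ((ContinuousLinearMap.snd ℝ (E d) (E d × E d)).hasFDerivAt
      (x := Ψ t x)).comp_hasDerivWithinAt t (h1 x t ht)
  exact this

/-- transport of `mu3` -/
theorem psi_mp (hV : Pot d V) (hs1 : s ≤ 1 / 4) (hr : ContDiff ℝ ∞ r)
    (ha : ContDiff ℝ ∞ a) (hlev : ∀ t, r t ^ 2 < s)
    (h1 : ∀ x, ∀ t, 0 ≤ t → HasDerivWithinAt (fun τ => Ψ τ x) (bX V s r a t (Ψ t x)) (Set.Ici 0) t)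
    (h0 : ∀ x, Ψ 0 x = x) (t : ℝ) (ht : 0 ≤ t) :
    MeasurePreserving (fun x => shear (r t) (Ψ t (shear (-r 0) x))) (mu3 V (s - r 0 ^ 2))
      (mu3 V (s - r t ^ 2)) := by
  have hpos : ∀ τ, 0 < s - r τ ^ 2 := fun τ => by linarith [hlev τ]
  have hle : ∀ τ, s - r τ ^ 2 ≤ 1 / 4 := fun τ => by nlinarith [sq_nonneg (r τ)]
  have p0 := mu3_prob hV (hpos 0) (hle 0)
  have pt := mu3_prob hV (hpos t) (hle t)
  obtain ⟨c0, e0⟩ := mu3_eq hV (hpos 0)
  obtain ⟨ct, et⟩ := mu3_eq hV (hpos t)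
  obtain ⟨hm, htr⟩ := flow_transport ((bE d).prod ((bE d).prod (bE d))) (bX V s r a) (rX V s r)
    ((bX_smooth hV hr ha hlev).of_le (by simp)) ((rX_smooth hV hr hlev).of_le (by simp))
    (fun τ x => Real.exp_pos _) (bX_growth hV hs1 hr ha hlev) (cont_X hV hs1 hr ha hlev) Ψ h0 h1 t ht
  have hρ : ∀ τ, (fun x => ENNReal.ofReal (rX V s r τ x)) =
      fun x => D3 V (s - r τ ^ 2) (shear (r τ) x) := by
    intro τ
    rfl
  rw [hρ, hρ] at htr
  have hF : Measurable (fun x => shear (r t) (Ψ t (shear (-r 0) x))) :=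
    (shear_cont _).measurable.comp (hm.comp (shear_cont _).measurable)
  refine ⟨hF, map_norm e0 et hF ?_⟩
  -- undo the shear at time `0`
  have hinv : ∀ x, shear (r 0) (shear (-r 0) x) = (x : Z3 d) := by
    intro x
    simp [shear]
  have hinv' : ∀ x, shear (-r 0) (shear (r 0) x) = (x : Z3 d) := by
    intro x
    simp [shear]
  have hm0 : (fun x : Z3 d => D3 V (s - r 0 ^ 2) x) =
      fun x => (fun x' => D3 V (s - r 0 ^ 2) (shear (r 0) x')) (shear (-r 0) x) := by
    funext x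
    show D3 V (s - r 0 ^ 2) x = D3 V (s - r 0 ^ 2) (shear (r 0) (shear (-r 0) x))
    rw [hinv]
  have hDm : Measurable (fun x' : Z3 d => D3 V (s - r 0 ^ 2) (shear (r 0) x')) :=
    (D3_meas hV (hpos 0)).comp (shear_cont _).measurable
  have s1 : ((volume : Measure (Z3 d)).withDensity (D3 V (s - r 0 ^ 2))).map (shear (-r 0)) =
      (volume : Measure (Z3 d)).withDensity (fun x => D3 V (s - r 0 ^ 2) (shear (r 0) x)) := by
    have := map_dens (shear_mp (-r 0)) hDm
    rw [← hm0] at this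
    exact this
  have s2 := map_dens (shear_mp (r t)) (D3_meas hV (hpos t))
  have e3 : (fun x => shear (r t) (Ψ t (shear (-r 0) x))) =
      (shear (r t)) ∘ (Ψ t) ∘ (shear (d := d) (-r 0)) := rfl
  rw [e3, ← Measure.map_map (shear_cont _).measurable (hm.comp (shear_cont _).measurable),
    ← Measure.map_map hm (shear_cont _).measurable, s1, htr, s2]

/-- the law of `z` for a fixed centre -/
theorem psi_z (hV : Pot d V) (hs : 0 < s) (hs1 : s ≤ 1 / 4) (hr : ContDiff ℝ ∞ r)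
    (ha : ContDiff ℝ ∞ a) (hlev : ∀ t, r t ^ 2 < s)
    (h1 : ∀ x, ∀ t, 0 ≤ t → HasDerivWithinAt (fun τ => Ψ τ x) (bX V s r a t (Ψ t x)) (Set.Ici 0) t)
    (h0 : ∀ x, Ψ 0 x = x) (hr0 : r 0 = 0) (y : E d) (t : ℝ) (ht : 0 ≤ t) :
    ((stdGaussian (E d)).prod (stdGaussian (E d))).map
          (fun p : E d × E d => (Ψ t (y, p)).2.2) = stdGaussian (E d) := by
  obtain ⟨hm, htr⟩ := flow_transport ((bE d).prod (bE d)) (bY V s r a y) (rY V s r y)
    ((bY_smooth hV hr ha hlev y).of_le (by simp)) ((rY_smooth hV hr hlev y).of_le (by simp))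
    (fun τ x => Real.exp_pos _) (bY_growth hV hs1 hr ha hlev y) (cont_Y hV hs1 hr ha hlev y)
    (fun τ p => (Ψ τ (y, p)).2) (fun p => by simp [h0])
    (fun p τ hτ => by
      have h2 := psi_w h1 (y, p) τ hτ
      rwa [psi_const h1 h0 (y, p) τ hτ] at h2) t ht
  have hUc := us_cont hV hs
  have hpos : 0 < s - r t ^ 2 := by linarith [hlev t]
  have hUt := us_cont hV hpos
  obtain ⟨c, hc⟩ := gg_eq (d := d)
  -- time zero
  have k0 : ∃ c' : ℝ≥0∞, (stdGaussian (E d)).prod (stdGaussian (E d)) =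
      c' • (volume : Measure (E d × E d)).withDensity
        (fun x => ENNReal.ofReal (rY V s r y 0 x)) := by
    have hm2 : Measurable (fun p : E d × E d =>
        ENNReal.ofReal (Real.exp (-(‖p.1‖ ^ 2 / 2 + ‖p.2‖ ^ 2 / 2)))) := by
      have : Continuous (fun p : E d × E d => Real.exp (-(‖p.1‖ ^ 2 / 2 + ‖p.2‖ ^ 2 / 2))) := by
        fun_prop
      exact this.measurable.ennreal_ofReal
    have e1 : (fun x => ENNReal.ofReal (rY V s r y 0 x)) = fun x : E d × E d =>
        ENNReal.ofReal (Real.exp (-US V s y)) *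
          ENNReal.ofReal (Real.exp (-(‖x.1‖ ^ 2 / 2 + ‖x.2‖ ^ 2 / 2))) := by
      funext x
      rw [← ENNReal.ofReal_mul (Real.exp_pos _).le, ← Real.exp_add]
      simp only [rY, grho, hr0]
      congr 2
      simp only [ne_eq, OfNat.ofNat_ne_zero, not_false_eq_true, zero_pow, sub_zero, zero_smul,
        add_zero]
      ring
    have e2 : (volume : Measure (E d × E d)).withDensity (fun x : E d × E d =>
        ENNReal.ofReal (Real.exp (-US V s y)) *
          ENNReal.ofReal (Real.exp (-(‖x.1‖ ^ 2 / 2 + ‖x.2‖ ^ 2 / 2)))) =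
        ENNReal.ofReal (Real.exp (-US V s y)) • (volume : Measure (E d × E d)).withDensity
          (fun x => ENNReal.ofReal (Real.exp (-(‖x.1‖ ^ 2 / 2 + ‖x.2‖ ^ 2 / 2)))) :=
      withDensity_smul _ hm2
    rw [e1, e2]
    refine ⟨c * (ENNReal.ofReal (Real.exp (-US V s y)))⁻¹, ?_⟩
    rw [smul_smul, mul_assoc, ENNReal.inv_mul_cancel, mul_one]
    · exact hc
    · exact (ENNReal.ofReal_pos.2 (Real.exp_pos _)).ne'
    · exact ENNReal.ofReal_ne_top
  obtain ⟨c', hc'⟩ := k0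
  have hmz : Measurable (fun p : E d × E d => (Ψ t (y, p)).2.2) := measurable_snd.comp hm
  have k1 : ((stdGaussian (E d)).prod (stdGaussian (E d))).map
      (fun p : E d × E d => (Ψ t (y, p)).2.2) =
      (c' * ((volume : Measure (E d)).withDensity (fun w => ENNReal.ofReal
        (Real.exp (-(US V (s - r t ^ 2) (y + r t • w) + ‖w‖ ^ 2 / 2))))) Set.univ) •
        (volume : Measure (E d)).withDensity
          (fun v => ENNReal.ofReal (Real.exp (-(‖v‖ ^ 2 / 2)))) := by
    have e1 : (fun x => ENNReal.ofReal (rY V s r y t x)) = fun x : E d × E d =>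
        ENNReal.ofReal (Real.exp (-(US V (s - r t ^ 2) (y + r t • x.1) + ‖x.1‖ ^ 2 / 2))) *
          ENNReal.ofReal (Real.exp (-(‖x.2‖ ^ 2 / 2))) := by
      funext x
      rw [← ENNReal.ofReal_mul (Real.exp_pos _).le, ← Real.exp_add]
      simp only [rY, grho]
      congr 2
      ring
    have hm1 : Measurable (fun w : E d => ENNReal.ofReal
        (Real.exp (-(US V (s - r t ^ 2) (y + r t • w) + ‖w‖ ^ 2 / 2)))) := by
      have : Continuous (fun w : E d =>
        Real.exp (-(US V (s - r t ^ 2) (y + r t • w) + ‖w‖ ^ 2 / 2))) := by fun_prop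
      exact this.measurable.ennreal_ofReal
    have e2 := prod_withDensity (μ := (volume : Measure (E d))) (ν := (volume : Measure (E d)))
      hm1 (gauss_meas (d := d))
    have e3 : (fun p : E d × E d => (Ψ t (y, p)).2.2) =
        Prod.snd ∘ (fun p : E d × E d => (Ψ t (y, p)).2) := rfl
    rw [e3, ← Measure.map_map measurable_snd hm]
    nth_rewrite 1 [hc']
    rw [Measure.map_smul, htr, e1, Measure.volume_eq_prod, ← e2, Measure.map_smul,
      Measure.map_snd_prod, smul_smul]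
  have p1 : IsProbabilityMeasure (((stdGaussian (E d)).prod (stdGaussian (E d))).map
      (fun p : E d × E d => (Ψ t (y, p)).2.2)) :=
    Measure.isProbabilityMeasure_map hmz.aemeasurable
  have k2 := stdGaussian_eq_gibbs d
  rw [gibbs] at k2
  have k3 := map_norm k1 k2 measurable_id (Measure.map_id)
  rwa [Measure.map_id] at k3

end main

end GFAux

open GFAux

variable {d : ℕ} {V : E d → ℝ} {s : ℝ} {r a : ℝ → ℝ}

theorem gflow_exists (hV : Pot d V) (hs : 0 < s) (hs1 : s ≤ 1 / 4) (hr : ContDiff ℝ ∞ r)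
    (ha : ContDiff ℝ ∞ a) (hlev : ∀ t, r t ^ 2 < s) {T : ℝ} (hT : 0 ≤ T) :
    ∃ Φ : ℝ → Z3 d → Z3 d, IsG V s r a T Φ ∧
      (r 0 = 0 → ∀ y : E d, ∀ t ∈ Set.Icc (0 : ℝ) T,
        ((stdGaussian (E d)).prod (stdGaussian (E d))).map
          (fun p : E d × E d => (Φ t (y, p.1, p.2)).2.2) = stdGaussian (E d)) := by
  obtain ⟨Ψ, h0, h1, hc⟩ := flow_exists_tr (bX V s r a)
    ((bX_smooth hV hr ha hlev).of_le (by simp)) (fun T => by
      obtain ⟨C, hC⟩ := bX_growth hV hs1 hr ha hlev T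
      refine ⟨C, fun t ht x => ?_⟩
      have ht' : 0 ≤ T := ht.1.trans ht.2
      exact hC t ⟨by linarith [ht.1], ht.2⟩ x)
  have hrd : ∀ t, HasDerivAt r (deriv r t) t := fun t =>
    (hr.differentiable (by simp)).differentiableAt.hasDerivAt
  have hsub : Set.Icc (0 : ℝ) T ⊆ Set.Ici (0 : ℝ) := fun x hx => hx.1
  have hW : ∀ x t, 0 ≤ t → HasDerivWithinAt (fun τ => (Ψ τ x).2.1)
      (gw V s r a t (Ψ t x).1 (Ψ t x).2.1 (Ψ t x).2.2) (Set.Ici 0) t := by
    intro x t ht
    have := ((ContinuousLinearMap.fst ℝ (E d) (E d)).hasFDerivAt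
      (x := (Ψ t x).2)).comp_hasDerivWithinAt t (psi_w h1 x t ht)
    exact this
  have hZ : ∀ x t, 0 ≤ t → HasDerivWithinAt (fun τ => (Ψ τ x).2.2)
      (gz V s r a t (Ψ t x).1 (Ψ t x).2.1) (Set.Ici 0) t := by
    intro x t ht
    have := ((ContinuousLinearMap.snd ℝ (E d) (E d)).hasFDerivAt
      (x := (Ψ t x).2)).comp_hasDerivWithinAt t (psi_w h1 x t ht)
    exact this
  have hY : ∀ x t, 0 ≤ t → HasDerivWithinAt (fun τ => (Ψ τ x).1) 0 (Set.Ici 0) t := by
    intro x t ht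
    have := ((ContinuousLinearMap.fst ℝ (E d) (E d × E d)).hasFDerivAt
      (x := Ψ t x)).comp_hasDerivWithinAt t (h1 x t ht)
    exact this
  refine ⟨fun t x => shear (r t) (Ψ t (shear (-r 0) x)), ?_, ?_⟩
  · constructor
    · intro x
      simp [h0, shear]
    · intro x t ht
      have hc1 := psi_const h1 h0 (shear (-r 0) x) t ht.1
      simp only [shear] at hc1 ⊢
      rw [add_sub_cancel_right, hc1]
      simp [sub_eq_add_neg]
    · intro x t ht
      have d1 := (hY (shear (-r 0) x) t ht.1).mono hsub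
      have d2 := (hW (shear (-r 0) x) t ht.1).mono hsub
      have d3 := d1.add (((hrd t).hasDerivWithinAt (s := Set.Icc (0 : ℝ) T)).smul d2)
      refine d3.congr_deriv ?_
      simp only [gw, shear]
      module
    · intro x t ht
      have d2 := (hW (shear (-r 0) x) t ht.1).mono hsub
      exact d2
    · intro x t ht
      have d2 := (hZ (shear (-r 0) x) t ht.1).mono hsub
      exact d2
    · have c1 : ContinuousOn (fun p : ℝ × Z3 d => Ψ p.1 (shear (-r 0) p.2))
          (Set.Icc (0 : ℝ) T ×ˢ Set.univ) := by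
        have c0 : Continuous (fun p : ℝ × Z3 d => (p.1, shear (-r 0) p.2)) := by
          have := shear_cont (d := d) (-r 0)
          fun_prop
        exact hc.comp c0.continuousOn (fun p hp => ⟨hp.1.1, Set.mem_univ _⟩)
      have c2 : Continuous (fun p : ℝ × Z3 d => shear (r p.1) p.2) := by
        have := hr.continuous
        unfold shear
        fun_prop
      have c3 : ContinuousOn (fun p : ℝ × Z3 d => (p.1, Ψ p.1 (shear (-r 0) p.2)))
          (Set.Icc (0 : ℝ) T ×ˢ Set.univ) := continuousOn_fst.prodMk c1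
      exact c2.comp_continuousOn c3
    · intro t ht
      exact psi_mp hV hs1 hr ha hlev h1 h0 t ht.1
  · intro hr0 y t ht
    have key := psi_z hV hs hs1 hr ha hlev h1 h0 hr0 y t ht.1
    have e : (fun p : E d × E d => (shear (r t) (Ψ t (shear (-r 0) (y, p.1, p.2)))).2.2) =
        fun p : E d × E d => (Ψ t (y, p)).2.2 := by
      funext p
      simp [shear, hr0]
    rw [e]
    exact key

end P347Z
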