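import Vale.Agent.P347Z.CodeCtx

/-!
P347Z / OrcDefs: the statement of the final program theorem.
-/

open MeasureTheory ProbabilityTheory Function
open scoped ENNReal

namespace P347Z

open P347Q P347S

/-- the final program theorem: oracles of arbitrary accuracy with `d^{o(1)}` operations -/
def OrcAll : Prop :=
  ∀ k B A : ℝ, 0 < k → 0 < A → ∃ a : ℝ, 0 < a ∧ a ≤ k / 2 ∧ ∀ κ : ℝ, 0 < κ →
    ∀ᶠ d : ℕ in Filter.atTop, ∀ s : ℝ, (d : ℝ) ^ (-B) ≤ s → s ≤ (d : ℝ) ^ (-k) →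
      ∃ S : ℕ, (S : ℝ) ≤ (d : ℝ) ^ κ ∧
        Orc d s (1 / 4) ((d : ℝ) ^ (-a)) ((d : ℝ) ^ (-A)) 3 (3 / 4) S

end P347Z
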