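import Vale.Agent.P347S.Poinc
import Vale.Agent.P347Q.GaussDens
import Vale.Agent.P347Z.CodeDefs

/-!
Module PB1 (helper62): Gaussian noise absorbs a centred Lipschitz perturbation, in the Wasserstein
distance: `W1 (law (τ z + F g)) (N (E F) τ²) ≤ L² √d / (2 τ)`.

Proof. For smooth `φ` put `H θ g = E' F (cos θ g + sin θ g')` and `J θ = E φ (τ z + H θ g)`.
`J 0` and `J (π/2)` are the two sides. By rotation invariance
`J' θ = E_w E_z E_v Dφ (τ z + H θ (cos θ w - sin θ v)) (DF w v)`; two integrations by parts (in `z`,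
then in `v`) bound it by `L cos θ · L sin θ · √d / τ`.
-/

open MeasureTheory ProbabilityTheory Function Set
open scoped ENNReal NNReal BigOperators ContDiff Topology Convolution

namespace P347Z

open P347Q P347S

namespace PB1

variable {d : ℕ}

theorem lpot_sq (d : ℕ) : LPot 1 (fun v : E d => ‖v‖ ^ 2 / 2) := by
  constructor
  · exact (contDiff_norm_sq ℝ).div_const 2
  · intro x w
    rw [fderiv_fderiv_sq]
    rw [real_inner_self_eq_norm_sq, one_mul]

/-- Gaussian integration by parts for `C¹` functions -/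
theorem gibp {f : E d → ℝ} (hf : ContDiff ℝ 1 f) (h0 : Pgr f) (h1 : Pgr (fderiv ℝ f)) (w : E d) :
    ∫ x, fderiv ℝ f x w ∂(stdGaussian (E d)) = ∫ x, f x * inner ℝ x w ∂(stdGaussian (E d)) := by
  rw [stdGaussian_eq_gibbs]
  have hp : Pgr (fderiv ℝ (fun v : E d => ‖v‖ ^ 2 / 2)) := by
    rw [fderiv_sq]
    refine ⟨1, 1, fun x => ?_⟩
    rw [innerSL_apply_norm]
    linarith [norm_nonneg x]
  have h := (lpot_sq d).ibp one_pos hp hf h0 h1 w
  rw [h, fderiv_sq]
  rfl

theorem lip_pgr {f : E d → ℝ} {L : ℝ} (hL : 0 ≤ L) (hf : ∀ x y, |f x - f y| ≤ L * ‖x - y‖) : Pgr f := by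
  refine ⟨1, |f 0| + L, fun x => ?_⟩
  have h := hf x 0
  rw [sub_zero] at h
  have h2 : |f x| ≤ |f 0| + L * ‖x‖ := by
    have := abs_sub_abs_le_abs_sub (f x) (f 0)
    linarith
  rw [Real.norm_eq_abs, pow_one]
  have h3 := norm_nonneg x
  have h4 := abs_nonneg (f 0)
  nlinarith

theorem fderiv_le {F : Type*} [NormedAddCommGroup F] [NormedSpace ℝ F] {f : E d → F} {L : ℝ}
    (hL : 0 ≤ L) (hf : ∀ x y, ‖f x - f y‖ ≤ L * ‖x - y‖) (x : E d) : ‖fderiv ℝ f x‖ ≤ L := by
  have h : LipschitzWith (Real.toNNReal L) f := by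
    apply LipschitzWith.of_dist_le_mul
    intro x y
    rw [dist_eq_norm, dist_eq_norm, Real.coe_toNNReal _ hL]
    exact hf x y
  have := norm_fderiv_le_of_lipschitz ℝ h (x₀ := x)
  rwa [Real.coe_toNNReal _ hL] at this

/-- Stein bound for Lipschitz functions -/
theorem stein_lip {G : E d → ℝ} (hG : ContDiff ℝ 1 G) {L : ℝ} (hL : 0 ≤ L)
    (hGL : ∀ x y, |G x - G y| ≤ L * ‖x - y‖) (u : E d) :
    |∫ v, G v * inner ℝ v u ∂(stdGaussian (E d))| ≤ L * ‖u‖ := by
  have hd : ∀ x, ‖fderiv ℝ G x‖ ≤ L := fderiv_le hL hGL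
  rw [← gibp hG (lip_pgr hL hGL) ⟨0, L, fun x => by simpa using hd x⟩ u, ← Real.norm_eq_abs]
  have := norm_integral_le_of_norm_le_const (μ := stdGaussian (E d))
    (f := fun x => fderiv ℝ G x u) (C := L * ‖u‖)
    (Filter.Eventually.of_forall fun x => (ContinuousLinearMap.le_opNorm _ _).trans
      (mul_le_mul_of_nonneg_right (hd x) (norm_nonneg u)))
  simpa using this

theorem int_norm (d : ℕ) : Integrable (fun z : E d => ‖z‖) (stdGaussian (E d)) := by
  simpa using gauss_int_pow d 1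

/-- the double integration by parts -/
theorem dibp {φ : E d → ℝ} (hφ : ContDiff ℝ 1 φ) (hφL : ∀ x y, |φ x - φ y| ≤ 1 * ‖x - y‖) {Cφ : ℝ}
    (hφb : ∀ x, |φ x| ≤ Cφ) {a : E d → E d} (ha : ContDiff ℝ 1 a) {La : ℝ} (hLa : 0 ≤ La)
    (haL : ∀ x y, ‖a x - a y‖ ≤ La * ‖x - y‖) (B : E d →L[ℝ] E d) {Lb : ℝ}
    (hB : ‖B‖ ≤ Lb) {τ : ℝ} (hτ : 0 < τ) :
    |∫ z, ∫ v, fderiv ℝ φ (τ • z + a v) (B v) ∂(stdGaussian (E d)) ∂(stdGaussian (E d))| ≤
      La * Lb * √d / τ := by
  set γ := stdGaussian (E d) with hγ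
  have hLb : 0 ≤ Lb := (norm_nonneg _).trans hB
  have hφd : Differentiable ℝ φ := hφ.differentiable (by norm_num)
  have hDφ : Continuous (fderiv ℝ φ) := hφ.continuous_fderiv (by norm_num)
  have hDb : ∀ x, ‖fderiv ℝ φ x‖ ≤ 1 := fderiv_le zero_le_one hφL
  have hac := ha.continuous
  have hφc := hφ.continuous
  -- integrability
  have i1 : Integrable (fun p : E d × E d => fderiv ℝ φ (τ • p.1 + a p.2) (B p.2)) (γ.prod γ) := by
    have h1 : Integrable (fun p : E d × E d => Lb * ‖p.2‖) (γ.prod γ) :=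
      ((int_norm d).comp_snd γ).const_mul Lb
    refine h1.mono' ?_ (Filter.Eventually.of_forall fun p => ?_)
    · apply Continuous.aestronglyMeasurable
      exact (hDφ.comp (by fun_prop)).clm_apply (B.continuous.comp continuous_snd)
    · calc ‖fderiv ℝ φ (τ • p.1 + a p.2) (B p.2)‖ ≤ ‖fderiv ℝ φ (τ • p.1 + a p.2)‖ * ‖B p.2‖ :=
            ContinuousLinearMap.le_opNorm _ _
        _ ≤ 1 * (Lb * ‖p.2‖) := by
            apply mul_le_mul (hDb _) _ (norm_nonneg _) zero_le_one
            exact (B.le_opNorm _).trans (mul_le_mul_of_nonneg_right hB (norm_nonneg _))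
        _ = Lb * ‖p.2‖ := one_mul _
  have i2 : Integrable (fun p : E d × E d => φ (τ • p.1 + a p.2) * inner ℝ p.1 (B p.2))
      (γ.prod γ) := by
    have h1 : Integrable (fun p : E d × E d => ‖p.1‖ * ‖p.2‖) (γ.prod γ) :=
      (int_norm d).mul_prod (int_norm d)
    refine (h1.const_mul (Cφ * Lb)).mono' ?_ (Filter.Eventually.of_forall fun p => ?_)
    · apply Continuous.aestronglyMeasurable
      exact (hφc.comp (by fun_prop)).mul (continuous_fst.inner (B.continuous.comp continuous_snd))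
    · rw [norm_mul, Real.norm_eq_abs, Real.norm_eq_abs]
      have h2 : |inner ℝ p.1 (B p.2)| ≤ ‖p.1‖ * (Lb * ‖p.2‖) :=
        (abs_real_inner_le_norm _ _).trans (mul_le_mul_of_nonneg_left
          ((B.le_opNorm _).trans (mul_le_mul_of_nonneg_right hB (norm_nonneg _))) (norm_nonneg _))
      calc |φ (τ • p.1 + a p.2)| * |inner ℝ p.1 (B p.2)| ≤ Cφ * (‖p.1‖ * (Lb * ‖p.2‖)) :=
            mul_le_mul (hφb _) h2 (abs_nonneg _) ((abs_nonneg _).trans (hφb 0))
        _ = Cφ * Lb * (‖p.1‖ * ‖p.2‖) := by ring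
  -- integration by parts in z
  have e1 : ∀ v : E d, ∫ z, fderiv ℝ φ (τ • z + a v) (B v) ∂γ =
      τ⁻¹ * ∫ z, φ (τ • z + a v) * inner ℝ z (B v) ∂γ := by
    intro v
    have hf : ContDiff ℝ 1 (fun z : E d => φ (τ • z + a v)) :=
      hφ.comp ((contDiff_const_smul τ).add contDiff_const)
    have hfL : ∀ x y : E d, |φ (τ • x + a v) - φ (τ • y + a v)| ≤ τ * ‖x - y‖ := by
      intro x y
      refine (hφL _ _).trans (le_of_eq ?_)
      rw [one_mul, add_sub_add_right_eq_sub, ← smul_sub, norm_smul, Real.norm_of_nonneg hτ.le]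
    have hfd : ∀ z w : E d, fderiv ℝ (fun z : E d => φ (τ • z + a v)) z w =
        τ * fderiv ℝ φ (τ • z + a v) w := by
      intro z w
      have h1 : HasFDerivAt (fun z : E d => τ • z + a v) (τ • ContinuousLinearMap.id ℝ (E d)) z :=
        ((hasFDerivAt_id z).const_smul τ).add_const (a v)
      have h2 := ((hφd (τ • z + a v)).hasFDerivAt.comp z h1).fderiv
      have h3 : fderiv ℝ (fun z : E d => φ (τ • z + a v)) z =
        (fderiv ℝ φ (τ • z + a v)).comp (τ • ContinuousLinearMap.id ℝ (E d)) := h2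
      rw [h3]
      simp
    have h := gibp hf (lip_pgr hτ.le hfL) ⟨0, τ, fun x => by
      simpa using fderiv_le hτ.le hfL x⟩ (B v)
    simp only [hfd] at h
    rw [integral_const_mul] at h
    rw [← h, ← mul_assoc, inv_mul_cancel₀ hτ.ne', one_mul]
  have e2 : ∫ z, ∫ v, fderiv ℝ φ (τ • z + a v) (B v) ∂γ ∂γ =
      τ⁻¹ * ∫ z, ∫ v, φ (τ • z + a v) * inner ℝ z (B v) ∂γ ∂γ := by
    rw [integral_integral_swap i1]
    simp only [e1]
    rw [integral_const_mul]
    congr 1
    exact (integral_integral_swap (f := fun z v => φ (τ • z + a v) * inner ℝ z (B v)) i2).symm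
  rw [e2]
  -- integration by parts in v
  have e3 : ∀ z : E d, |∫ v, φ (τ • z + a v) * inner ℝ z (B v) ∂γ| ≤ La * Lb * ‖z‖ := by
    intro z
    have hG : ContDiff ℝ 1 (fun v : E d => φ (τ • z + a v)) :=
      hφ.comp (contDiff_const.add ha)
    have hGL : ∀ x y : E d, |φ (τ • z + a x) - φ (τ • z + a y)| ≤ La * ‖x - y‖ := by
      intro x y
      refine (hφL _ _).trans ?_
      rw [one_mul, add_sub_add_left_eq_sub]
      exact haL x y
    have h := stein_lip hG hLa hGL ((ContinuousLinearMap.adjoint B) z)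
    have e : ∀ v : E d, inner ℝ v ((ContinuousLinearMap.adjoint B) z) = inner ℝ z (B v) := by
      intro v
      rw [real_inner_comm, ContinuousLinearMap.adjoint_inner_left]
    simp only [e] at h
    refine h.trans ?_
    rw [mul_assoc]
    apply mul_le_mul_of_nonneg_left _ hLa
    refine (ContinuousLinearMap.le_opNorm _ _).trans ?_
    apply mul_le_mul_of_nonneg_right _ (norm_nonneg _)
    rw [LinearIsometryEquiv.norm_map]
    exact hB
  have e4 : |∫ z, ∫ v, φ (τ • z + a v) * inner ℝ z (B v) ∂γ ∂γ| ≤ La * Lb * √d := by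
    rw [← Real.norm_eq_abs]
    refine (norm_integral_le_of_norm_le ((int_norm d).const_mul (La * Lb))
      (Filter.Eventually.of_forall e3)).trans ?_
    rw [integral_const_mul]
    exact mul_le_mul_of_nonneg_left (gauss_norm d) (mul_nonneg hLa hLb)
  rw [abs_mul, abs_of_pos (inv_pos.2 hτ)]
  calc τ⁻¹ * |∫ z, ∫ v, φ (τ • z + a v) * inner ℝ z (B v) ∂γ ∂γ| ≤ τ⁻¹ * (La * Lb * √d) :=
        mul_le_mul_of_nonneg_left e4 (inv_pos.2 hτ).le
    _ = La * Lb * √d / τ := by
        rw [div_eq_mul_inv, mul_comm]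

/-! ### the interpolation -/

/-- partial average -/
noncomputable def HH (F : E d → E d) (θ : ℝ) (g : E d) : E d :=
  ∫ g', F (Real.cos θ • g + Real.sin θ • g') ∂(stdGaussian (E d))

/-- its derivative in `θ` -/
noncomputable def HD (F : E d → E d) (θ : ℝ) (g : E d) : E d :=
  ∫ g', fderiv ℝ F (Real.cos θ • g + Real.sin θ • g')
    (-Real.sin θ • g + Real.cos θ • g') ∂(stdGaussian (E d))

theorem F_int {F : E d → E d} (hF : ContDiff ℝ 1 F) {L : ℝ} (hL : 0 ≤ L)
    (hFL : ∀ x y, ‖F x - F y‖ ≤ L * ‖x - y‖) (b : E d) (s : ℝ) :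
    Integrable (fun g' => F (b + s • g')) (stdGaussian (E d)) := by
  refine gauss_int_poly _ (hF.continuous.comp (by fun_prop)).aestronglyMeasurable 1
    (‖F 0‖ + L * ‖b‖ + L * |s|) (fun z => ?_)
  have h1 := hFL (b + s • z) 0
  rw [sub_zero] at h1
  have h2 : ‖b + s • z‖ ≤ ‖b‖ + |s| * ‖z‖ := by
    refine (norm_add_le _ _).trans ?_
    rw [norm_smul, Real.norm_eq_abs]
  have h3 : ‖F (b + s • z)‖ ≤ ‖F 0‖ + L * (‖b‖ + |s| * ‖z‖) := by
    have h4 : ‖F (b + s • z)‖ ≤ ‖F 0‖ + ‖F (b + s • z) - F 0‖ := by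
      have := norm_add_le (F 0) (F (b + s • z) - F 0)
      simpa using this
    have h5 := mul_le_mul_of_nonneg_left h2 hL
    linarith
  rw [pow_one]
  have k1 := norm_nonneg z
  have k2 := norm_nonneg (F 0)
  have k3 := mul_nonneg hL (norm_nonneg b)
  have k4 := mul_nonneg hL (abs_nonneg s)
  nlinarith

theorem HH_lip {F : E d → E d} (hF : ContDiff ℝ 1 F) {L : ℝ} (hL : 0 ≤ L)
    (hFL : ∀ x y, ‖F x - F y‖ ≤ L * ‖x - y‖) (θ : ℝ) (g h : E d) :
    ‖HH F θ g - HH F θ h‖ ≤ L * |Real.cos θ| * ‖g - h‖ := by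
  unfold HH
  rw [← integral_sub (F_int hF hL hFL _ _) (F_int hF hL hFL _ _)]
  have := norm_integral_le_of_norm_le_const (μ := stdGaussian (E d))
    (f := fun g' => F (Real.cos θ • g + Real.sin θ • g') - F (Real.cos θ • h + Real.sin θ • g'))
    (C := L * |Real.cos θ| * ‖g - h‖)
    (Filter.Eventually.of_forall fun x => by
      refine (hFL _ _).trans (le_of_eq ?_)
      rw [add_sub_add_right_eq_sub, ← smul_sub, norm_smul, Real.norm_eq_abs, mul_assoc])
  simpa using this

theorem HH_contDiff {F : E d → E d} (hF : ContDiff ℝ 1 F) {L : ℝ} (hL : 0 ≤ L)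
    (hFL : ∀ x y, ‖F x - F y‖ ≤ L * ‖x - y‖) (θ : ℝ) : ContDiff ℝ 1 (HH F θ) := by
  have hFd : Differentiable ℝ F := hF.differentiable (by norm_num)
  have hDF : Continuous (fderiv ℝ F) := hF.continuous_fderiv (by norm_num)
  have hDb : ∀ x, ‖fderiv ℝ F x‖ ≤ L := fderiv_le hL hFL
  set DH : E d → E d →L[ℝ] E d := fun g => ∫ g', Real.cos θ •
    fderiv ℝ F (Real.cos θ • g + Real.sin θ • g') ∂(stdGaussian (E d)) with hDH
  have hb : ∀ g g' : E d, ‖Real.cos θ • fderiv ℝ F (Real.cos θ • g + Real.sin θ • g')‖ ≤ L := by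
    intro g g'
    rw [norm_smul, Real.norm_eq_abs]
    calc |Real.cos θ| * ‖fderiv ℝ F (Real.cos θ • g + Real.sin θ • g')‖ ≤ 1 * L :=
          mul_le_mul (Real.abs_cos_le_one θ) (hDb _) (norm_nonneg _) zero_le_one
      _ = L := one_mul L
  have hder : ∀ g, HasFDerivAt (HH F θ) (DH g) g := by
    intro g
    refine hasFDerivAt_integral_of_dominated_of_fderiv_le (μ := stdGaussian (E d))
      (F := fun g g' => F (Real.cos θ • g + Real.sin θ • g'))
      (F' := fun g g' => Real.cos θ • fderiv ℝ F (Real.cos θ • g + Real.sin θ • g'))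
      (bound := fun _ => L) (s := univ) Filter.univ_mem ?_ ?_ ?_ ?_ ?_ ?_
    · filter_upwards with x
      exact (F_int hF hL hFL _ _).aestronglyMeasurable
    · exact F_int hF hL hFL _ _
    · apply Continuous.aestronglyMeasurable
      have hc : Continuous (fun g' : E d => Real.cos θ • g + Real.sin θ • g') := by fun_prop
      have hc2 : Continuous (fun g' : E d => fderiv ℝ F (Real.cos θ • g + Real.sin θ • g')) :=
        hDF.comp hc
      exact hc2.const_smul (Real.cos θ)
    · filter_upwards with g' x _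
      exact hb x g'
    · exact integrable_const _
    · filter_upwards with g' x _
      have h1 : HasFDerivAt (fun g : E d => Real.cos θ • g + Real.sin θ • g')
          (Real.cos θ • ContinuousLinearMap.id ℝ (E d)) x :=
        ((hasFDerivAt_id x).const_smul (Real.cos θ)).add_const (Real.sin θ • g')
      have h2 := (hFd (Real.cos θ • x + Real.sin θ • g')).hasFDerivAt.comp x h1
      rw [ContinuousLinearMap.comp_smul, ContinuousLinearMap.comp_id] at h2
      exact h2
  rw [contDiff_one_iff_fderiv]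
  refine ⟨fun g => (hder g).differentiableAt, ?_⟩
  have e : fderiv ℝ (HH F θ) = DH := by
    funext g
    exact (hder g).fderiv
  rw [e, hDH]
  refine continuous_of_dominated (bound := fun _ => L) ?_ ?_ (integrable_const _) ?_
  · intro g
    apply Continuous.aestronglyMeasurable
    have hc : Continuous (fun g' : E d => Real.cos θ • g + Real.sin θ • g') := by fun_prop
    have hc2 : Continuous (fun g' : E d => fderiv ℝ F (Real.cos θ • g + Real.sin θ • g')) :=
      hDF.comp hc
    exact hc2.const_smul (Real.cos θ)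
  · intro g
    filter_upwards with g'
    exact hb g g'
  · filter_upwards with g'
    have hc : Continuous (fun g : E d => Real.cos θ • g + Real.sin θ • g') := by fun_prop
    have hc2 : Continuous (fun g : E d => fderiv ℝ F (Real.cos θ • g + Real.sin θ • g')) :=
      hDF.comp hc
    exact hc2.const_smul (Real.cos θ)

theorem HD_le {F : E d → E d} {L : ℝ} (hL : 0 ≤ L)
    (hFL : ∀ x y, ‖F x - F y‖ ≤ L * ‖x - y‖) (θ : ℝ) (g g' : E d) :
    ‖fderiv ℝ F (Real.cos θ • g + Real.sin θ • g')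
      (-Real.sin θ • g + Real.cos θ • g')‖ ≤ L * (‖g‖ + ‖g'‖) := by
  refine (ContinuousLinearMap.le_opNorm _ _).trans ?_
  apply mul_le_mul (fderiv_le hL hFL _) _ (norm_nonneg _) hL
  refine (norm_add_le _ _).trans ?_
  rw [norm_smul, norm_smul, norm_neg, Real.norm_eq_abs, Real.norm_eq_abs]
  have h1 := mul_le_mul_of_nonneg_right (Real.abs_sin_le_one θ) (norm_nonneg g)
  have h2 := mul_le_mul_of_nonneg_right (Real.abs_cos_le_one θ) (norm_nonneg g')
  linarith

theorem HH_deriv {F : E d → E d} (hF : ContDiff ℝ 1 F) {L : ℝ} (hL : 0 ≤ L)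
    (hFL : ∀ x y, ‖F x - F y‖ ≤ L * ‖x - y‖) (g : E d) (θ : ℝ) :
    HasDerivAt (fun θ => HH F θ g) (HD F θ g) θ := by
  have hFd : Differentiable ℝ F := hF.differentiable (by norm_num)
  have hDF : Continuous (fderiv ℝ F) := hF.continuous_fderiv (by norm_num)
  refine (hasDerivAt_integral_of_dominated_loc_of_deriv_le (μ := stdGaussian (E d))
    (F := fun θ g' => F (Real.cos θ • g + Real.sin θ • g'))
    (F' := fun θ g' => fderiv ℝ F (Real.cos θ • g + Real.sin θ • g')
      (-Real.sin θ • g + Real.cos θ • g'))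
    (bound := fun g' => L * (‖g‖ + ‖g'‖)) (s := univ) Filter.univ_mem ?_ ?_ ?_ ?_ ?_ ?_).2
  · filter_upwards with x
    exact (F_int hF hL hFL _ _).aestronglyMeasurable
  · exact F_int hF hL hFL _ _
  · apply Continuous.aestronglyMeasurable
    exact (hDF.comp (by fun_prop)).clm_apply (by fun_prop)
  · filter_upwards with g' x _
    exact HD_le hL hFL x g g'
  · exact ((integrable_const _).add (int_norm d)).const_mul L
  · filter_upwards with g' x _
    have h1 : HasDerivAt (fun θ : ℝ => Real.cos θ • g + Real.sin θ • g')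
        (-Real.sin x • g + Real.cos x • g') x :=
      ((Real.hasDerivAt_cos x).smul_const g).add ((Real.hasDerivAt_sin x).smul_const g')
    exact (hFd _).hasFDerivAt.comp_hasDerivAt x h1

theorem HD_norm {F : E d → E d} (hF : ContDiff ℝ 1 F) {L : ℝ} (hL : 0 ≤ L)
    (hFL : ∀ x y, ‖F x - F y‖ ≤ L * ‖x - y‖) (θ : ℝ) (g : E d) :
    ‖HD F θ g‖ ≤ L * (‖g‖ + √d) := by
  unfold HD
  refine (norm_integral_le_of_norm_le (((integrable_const (‖g‖)).add (int_norm d)).const_mul L)
    (Filter.Eventually.of_forall fun g' => HD_le hL hFL θ g g')).trans ?_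
  simp only [Pi.add_apply]
  rw [integral_const_mul, integral_add (integrable_const _) (int_norm d)]
  apply mul_le_mul_of_nonneg_left _ hL
  have := gauss_norm d
  simp only [integral_const, probReal_univ, smul_eq_mul, one_mul]
  linarith

theorem HD_cont {F : E d → E d} (hF : ContDiff ℝ 1 F) {L : ℝ} (hL : 0 ≤ L)
    (hFL : ∀ x y, ‖F x - F y‖ ≤ L * ‖x - y‖) (θ : ℝ) :
    AEStronglyMeasurable (HD F θ) (stdGaussian (E d)) := by
  have hDF : Continuous (fderiv ℝ F) := hF.continuous_fderiv (by norm_num)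
  unfold HD
  have h : AEStronglyMeasurable (fun p : E d × E d =>
      fderiv ℝ F (Real.cos θ • p.1 + Real.sin θ • p.2) (-Real.sin θ • p.1 + Real.cos θ • p.2))
      ((stdGaussian (E d)).prod (stdGaussian (E d))) := by
    apply Continuous.aestronglyMeasurable
    exact (hDF.comp (by fun_prop)).clm_apply (by fun_prop)
  exact h.integral_prod_right'

/-- the interpolated expectation -/
noncomputable def JJ (φ : E d → ℝ) (F : E d → E d) (τ θ : ℝ) : ℝ :=
  ∫ p : E d × E d, φ (τ • p.1 + HH F θ p.2) ∂((stdGaussian (E d)).prod (stdGaussian (E d)))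

noncomputable def JD (φ : E d → ℝ) (F : E d → E d) (τ θ : ℝ) : ℝ :=
  ∫ p : E d × E d, fderiv ℝ φ (τ • p.1 + HH F θ p.2) (HD F θ p.2)
    ∂((stdGaussian (E d)).prod (stdGaussian (E d)))

theorem JJ_deriv {φ : E d → ℝ} (hφ : ContDiff ℝ 1 φ) (hφL : ∀ x y, |φ x - φ y| ≤ 1 * ‖x - y‖)
    {Cφ : ℝ} (hφb : ∀ x, |φ x| ≤ Cφ) {F : E d → E d} (hF : ContDiff ℝ 1 F) {L : ℝ} (hL : 0 ≤ L)
    (hFL : ∀ x y, ‖F x - F y‖ ≤ L * ‖x - y‖) (τ θ : ℝ) :
    HasDerivAt (fun θ => JJ φ F τ θ) (JD φ F τ θ) θ := by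
  set γ := stdGaussian (E d) with hγ
  have hφd : Differentiable ℝ φ := hφ.differentiable (by norm_num)
  have hDφ : Continuous (fderiv ℝ φ) := hφ.continuous_fderiv (by norm_num)
  have hDb : ∀ x, ‖fderiv ℝ φ x‖ ≤ 1 := fderiv_le zero_le_one hφL
  have hHc : ∀ θ, Continuous (HH F θ) := fun θ => (HH_contDiff hF hL hFL θ).continuous
  have hm : ∀ θ, AEStronglyMeasurable (fun p : E d × E d => φ (τ • p.1 + HH F θ p.2))
      (γ.prod γ) := fun θ => by
    apply Continuous.aestronglyMeasurable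
    have := hHc θ
    exact hφ.continuous.comp (by fun_prop)
  refine (hasDerivAt_integral_of_dominated_loc_of_deriv_le (μ := γ.prod γ)
    (F := fun θ p => φ (τ • p.1 + HH F θ p.2))
    (F' := fun θ p => fderiv ℝ φ (τ • p.1 + HH F θ p.2) (HD F θ p.2))
    (bound := fun p => L * (‖p.2‖ + √d)) (s := univ) Filter.univ_mem ?_ ?_ ?_ ?_ ?_ ?_).2
  · filter_upwards with x
    exact hm x
  · exact (integrable_const Cφ).mono' (hm θ) (Filter.Eventually.of_forall fun p => hφb _)
  · have h1 : AEStronglyMeasurable (fun p : E d × E d => HD F θ p.2) (γ.prod γ) :=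
      (HD_cont hF hL hFL θ).comp_snd
    have h2 : AEStronglyMeasurable (fun p : E d × E d => fderiv ℝ φ (τ • p.1 + HH F θ p.2))
        (γ.prod γ) := by
      apply Continuous.aestronglyMeasurable
      have := hHc θ
      exact hDφ.comp (by fun_prop)
    exact isBoundedBilinearMap_apply.continuous.comp_aestronglyMeasurable (h2.prodMk h1)
  · filter_upwards with p x _
    refine (ContinuousLinearMap.le_opNorm _ _).trans ?_
    calc ‖fderiv ℝ φ (τ • p.1 + HH F x p.2)‖ * ‖HD F x p.2‖ ≤ 1 * (L * (‖p.2‖ + √d)) :=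
          mul_le_mul (hDb _) (HD_norm hF hL hFL x p.2) (norm_nonneg _) zero_le_one
      _ = L * (‖p.2‖ + √d) := one_mul _
  · exact (((int_norm d).comp_snd γ).add (integrable_const _)).const_mul L
  · filter_upwards with p x _
    have h1 := (HH_deriv hF hL hFL p.2 x).const_add (τ • p.1)
    exact (hφd _).hasFDerivAt.comp_hasDerivAt x h1

theorem rot_mp (θ : ℝ) : MeasurePreserving (ContinuousLinearMap.rotation (E := E d) θ)
    ((stdGaussian (E d)).prod (stdGaussian (E d))) ((stdGaussian (E d)).prod (stdGaussian (E d))) :=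
  ⟨(ContinuousLinearMap.rotation (E := E d) θ).continuous.measurable,
    IsGaussian.map_rotation_eq_self_of_forall_strongDual_eq_zero
      (fun L => integral_strongDual_stdGaussian L) θ⟩

theorem JD_le {φ : E d → ℝ} (hφ : ContDiff ℝ 1 φ) (hφL : ∀ x y, |φ x - φ y| ≤ 1 * ‖x - y‖)
    {Cφ : ℝ} (hφb : ∀ x, |φ x| ≤ Cφ) {F : E d → E d} (hF : ContDiff ℝ 1 F) {L : ℝ} (hL : 0 ≤ L)
    (hFL : ∀ x y, ‖F x - F y‖ ≤ L * ‖x - y‖) {τ : ℝ} (hτ : 0 < τ) (θ : ℝ) :
    |JD φ F τ θ| ≤ L * |Real.cos θ| * |Real.sin θ| * L * √d / τ := by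
  set γ := stdGaussian (E d) with hγ
  have hDF : Continuous (fderiv ℝ F) := hF.continuous_fderiv (by norm_num)
  have hDφ : Continuous (fderiv ℝ φ) := hφ.continuous_fderiv (by norm_num)
  have hDb : ∀ x, ‖fderiv ℝ φ x‖ ≤ 1 := fderiv_le zero_le_one hφL
  have hDFb : ∀ x, ‖fderiv ℝ F x‖ ≤ L := fderiv_le hL hFL
  have hHc : Continuous (HH F θ) := (HH_contDiff hF hL hFL θ).continuous
  set K : E d → E d × E d → ℝ := fun z q =>
    fderiv ℝ φ (τ • z + HH F θ q.1) (fderiv ℝ F (Real.cos θ • q.1 + Real.sin θ • q.2)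
      (-Real.sin θ • q.1 + Real.cos θ • q.2)) with hK
  -- step 1: expand HD
  have s1 : JD φ F τ θ = ∫ z, ∫ q : E d × E d, K z q ∂(γ.prod γ) ∂γ := by
    unfold JD
    have i0 : Integrable (fun p : E d × E d => fderiv ℝ φ (τ • p.1 + HH F θ p.2) (HD F θ p.2))
        (γ.prod γ) := by
      refine ((((int_norm d).comp_snd γ).add (integrable_const (√d))).const_mul L).mono' ?_
        (Filter.Eventually.of_forall fun p => ?_)
      · have h1 : AEStronglyMeasurable (fun p : E d × E d => HD F θ p.2) (γ.prod γ) :=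
          (HD_cont hF hL hFL θ).comp_snd
        have h2 : AEStronglyMeasurable (fun p : E d × E d => fderiv ℝ φ (τ • p.1 + HH F θ p.2))
            (γ.prod γ) := by
          apply Continuous.aestronglyMeasurable
          exact hDφ.comp (by fun_prop)
        exact isBoundedBilinearMap_apply.continuous.comp_aestronglyMeasurable (h2.prodMk h1)
      · refine (ContinuousLinearMap.le_opNorm _ _).trans ?_
        calc ‖fderiv ℝ φ (τ • p.1 + HH F θ p.2)‖ * ‖HD F θ p.2‖ ≤ 1 * (L * (‖p.2‖ + √d)) :=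
              mul_le_mul (hDb _) (HD_norm hF hL hFL θ p.2) (norm_nonneg _) zero_le_one
          _ = L * (‖p.2‖ + √d) := one_mul _
    rw [integral_prod _ i0]
    congr 1
    funext z
    have iz : Integrable (K z) (γ.prod γ) := by
      refine ((((int_norm d).comp_fst γ).add ((int_norm d).comp_snd γ)).const_mul L).mono' ?_
        (Filter.Eventually.of_forall fun q => ?_)
      · apply Continuous.aestronglyMeasurable
        exact (hDφ.comp (by fun_prop)).clm_apply ((hDF.comp (by fun_prop)).clm_apply (by fun_prop))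
      · refine (ContinuousLinearMap.le_opNorm _ _).trans ?_
        calc ‖fderiv ℝ φ (τ • z + HH F θ q.1)‖ * _ ≤ 1 * (L * (‖q.1‖ + ‖q.2‖)) :=
              mul_le_mul (hDb _) (HD_le hL hFL θ q.1 q.2) (norm_nonneg _) zero_le_one
          _ = L * (‖q.1‖ + ‖q.2‖) := one_mul _
    rw [integral_prod _ iz]
    congr 1
    funext g
    simp only [hK]
    unfold HD
    have ig : Integrable (fun g' => fderiv ℝ F (Real.cos θ • g + Real.sin θ • g')
        (-Real.sin θ • g + Real.cos θ • g')) γ := by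
      refine (((integrable_const (‖g‖)).add (int_norm d)).const_mul L).mono' ?_
        (Filter.Eventually.of_forall fun g' => HD_le hL hFL θ g g')
      apply Continuous.aestronglyMeasurable
      exact (hDF.comp (by fun_prop)).clm_apply (by fun_prop)
    exact ((fderiv ℝ φ (τ • z + HH F θ g)).integral_comp_comm ig).symm
  -- step 2: rotate
  have s2 : ∀ z, ∫ q : E d × E d, K z q ∂(γ.prod γ) =
      ∫ w, ∫ v, fderiv ℝ φ (τ • z + HH F θ (Real.cos θ • w - Real.sin θ • v))
        (fderiv ℝ F w v) ∂γ ∂γ := by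
    intro z
    have hKc : Continuous (K z) :=
      (hDφ.comp (by fun_prop)).clm_apply ((hDF.comp (by fun_prop)).clm_apply (by fun_prop))
    have hmp := rot_mp (d := d) (-θ)
    have hrot : ∀ w v : E d, ContinuousLinearMap.rotation (E := E d) (-θ) (w, v) =
        (Real.cos θ • w - Real.sin θ • v, Real.sin θ • w + Real.cos θ • v) := by
      intro w v
      rw [ContinuousLinearMap.rotation_apply, Real.cos_neg, Real.sin_neg]
      simp only [neg_smul, neg_neg]
      rw [sub_eq_add_neg]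
    have h1 : ∫ q : E d × E d, K z q ∂(γ.prod γ) =
        ∫ q : E d × E d, K z (ContinuousLinearMap.rotation (E := E d) (-θ) q) ∂(γ.prod γ) := by
      conv_lhs => rw [← hmp.map_eq]
      rw [integral_map hmp.measurable.aemeasurable hKc.aestronglyMeasurable]
    rw [h1]
    have hval : ∀ w v : E d, K z (ContinuousLinearMap.rotation (E := E d) (-θ) (w, v)) =
        fderiv ℝ φ (τ • z + HH F θ (Real.cos θ • w - Real.sin θ • v)) (fderiv ℝ F w v) := by
      intro w v
      have hcs := Real.cos_sq_add_sin_sq θ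
      have e1 : Real.cos θ • (Real.cos θ • w - Real.sin θ • v) +
          Real.sin θ • (Real.sin θ • w + Real.cos θ • v) = w := by
        have : Real.cos θ • (Real.cos θ • w - Real.sin θ • v) +
          Real.sin θ • (Real.sin θ • w + Real.cos θ • v) =
          (Real.cos θ ^ 2 + Real.sin θ ^ 2) • w := by module
        rw [this, hcs, one_smul]
      have e2 : -Real.sin θ • (Real.cos θ • w - Real.sin θ • v) +
          Real.cos θ • (Real.sin θ • w + Real.cos θ • v) = v := by
        have : -Real.sin θ • (Real.cos θ • w - Real.sin θ • v) +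
          Real.cos θ • (Real.sin θ • w + Real.cos θ • v) =
          (Real.cos θ ^ 2 + Real.sin θ ^ 2) • v := by module
        rw [this, hcs, one_smul]
      rw [hrot]
      simp only [hK]
      rw [e1, e2]
    have iK : Integrable (fun q : E d × E d =>
        K z (ContinuousLinearMap.rotation (E := E d) (-θ) q)) (γ.prod γ) := by
      refine (((int_norm d).comp_snd γ).const_mul L).mono' ?_
        (Filter.Eventually.of_forall fun q => ?_)
      · exact (hKc.comp (ContinuousLinearMap.rotation (E := E d) (-θ)).continuous).aestronglyMeasurable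
      · obtain ⟨w, v⟩ := q
        rw [hval]
        refine (ContinuousLinearMap.le_opNorm _ _).trans ?_
        calc ‖fderiv ℝ φ (τ • z + HH F θ (Real.cos θ • w - Real.sin θ • v))‖ * ‖fderiv ℝ F w v‖
            ≤ 1 * (L * ‖v‖) := mul_le_mul (hDb _) ((ContinuousLinearMap.le_opNorm _ _).trans
              (mul_le_mul_of_nonneg_right (hDFb _) (norm_nonneg _))) (norm_nonneg _) zero_le_one
          _ = L * ‖v‖ := one_mul _
    rw [integral_prod _ iK]
    congr 1
    funext w
    congr 1
    funext v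
    exact hval w v
  -- step 3: swap
  have s3 : JD φ F τ θ = ∫ w, ∫ z, ∫ v, fderiv ℝ φ (τ • z + HH F θ (Real.cos θ • w - Real.sin θ • v))
        (fderiv ℝ F w v) ∂γ ∂γ ∂γ := by
    rw [s1]
    simp only [s2]
    have i3 : Integrable (fun p : (E d × E d) × E d =>
        fderiv ℝ φ (τ • p.1.1 + HH F θ (Real.cos θ • p.1.2 - Real.sin θ • p.2))
          (fderiv ℝ F p.1.2 p.2)) ((γ.prod γ).prod γ) := by
      refine (((int_norm d).comp_snd (γ.prod γ)).const_mul L).mono' ?_
        (Filter.Eventually.of_forall fun p => ?_)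
      · apply Continuous.aestronglyMeasurable
        exact (hDφ.comp (by fun_prop)).clm_apply ((hDF.comp (by fun_prop)).clm_apply (by fun_prop))
      · refine (ContinuousLinearMap.le_opNorm _ _).trans ?_
        calc ‖fderiv ℝ φ (τ • p.1.1 + HH F θ (Real.cos θ • p.1.2 - Real.sin θ • p.2))‖ *
            ‖fderiv ℝ F p.1.2 p.2‖
            ≤ 1 * (L * ‖p.2‖) := mul_le_mul (hDb _) ((ContinuousLinearMap.le_opNorm _ _).trans
              (mul_le_mul_of_nonneg_right (hDFb _) (norm_nonneg _))) (norm_nonneg _) zero_le_one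
          _ = L * ‖p.2‖ := one_mul _
    exact integral_integral_swap i3.integral_prod_left
  rw [s3, ← Real.norm_eq_abs]
  have hfin := norm_integral_le_of_norm_le_const (μ := γ)
    (f := fun w => ∫ z, ∫ v, fderiv ℝ φ (τ • z + HH F θ (Real.cos θ • w - Real.sin θ • v))
        (fderiv ℝ F w v) ∂γ ∂γ) (C := L * |Real.cos θ| * |Real.sin θ| * L * √d / τ)
    (Filter.Eventually.of_forall fun w => by
      have := dibp hφ hφL hφb (a := fun v => HH F θ (Real.cos θ • w - Real.sin θ • v))
        ((HH_contDiff hF hL hFL θ).comp (contDiff_const.sub (contDiff_const_smul _)))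
        (La := L * |Real.cos θ| * |Real.sin θ|) (by positivity)
        (fun x y => by
          refine (HH_lip hF hL hFL θ _ _).trans (le_of_eq ?_)
          rw [sub_sub_sub_cancel_left, ← smul_sub, norm_smul, Real.norm_eq_abs,
            norm_sub_rev]
          ring)
        (fderiv ℝ F w) (hDFb w) hτ
      rw [Real.norm_eq_abs]
      exact this)
  simpa using hfin

/-- the estimate for smooth test functions -/
theorem absorb_smooth {φ : E d → ℝ} (hφ : ContDiff ℝ 1 φ)
    (hφL : ∀ x y, |φ x - φ y| ≤ 1 * ‖x - y‖)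
    {Cφ : ℝ} (hφb : ∀ x, |φ x| ≤ Cφ) {F : E d → E d} (hF : ContDiff ℝ 1 F) {L : ℝ} (hL : 0 ≤ L)
    (hFL : ∀ x y, ‖F x - F y‖ ≤ L * ‖x - y‖) {τ : ℝ} (hτ : 0 < τ) :
    |(∫ p : E d × E d, φ (τ • p.1 + F p.2) ∂((stdGaussian (E d)).prod (stdGaussian (E d)))) -
      ∫ z, φ ((∫ g, F g ∂(stdGaussian (E d))) + τ • z) ∂(stdGaussian (E d))| ≤
      L ^ 2 * √d / (2 * τ) := by
  have h0 : JJ φ F τ 0 = ∫ p : E d × E d, φ (τ • p.1 + F p.2)
      ∂((stdGaussian (E d)).prod (stdGaussian (E d))) := by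
    unfold JJ HH
    simp
  have h1 : JJ φ F τ (Real.pi / 2) =
      ∫ z, φ ((∫ g, F g ∂(stdGaussian (E d))) + τ • z) ∂(stdGaussian (E d)) := by
    unfold JJ HH
    simp only [Real.cos_pi_div_two, Real.sin_pi_div_two, zero_smul, one_smul, zero_add]
    have hFi : AEStronglyMeasurable (fun z : E d => φ (τ • z + ∫ g, F g ∂(stdGaussian (E d))))
        (stdGaussian (E d)) := by
      apply Continuous.aestronglyMeasurable
      exact hφ.continuous.comp (by fun_prop)
    have hi : Integrable (fun p : E d × E d => φ (τ • p.1 + ∫ g, F g ∂(stdGaussian (E d))))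
        ((stdGaussian (E d)).prod (stdGaussian (E d))) :=
      (integrable_const Cφ).mono' (hφ.continuous.comp (by fun_prop)).aestronglyMeasurable
        (Filter.Eventually.of_forall fun p => hφb _)
    rw [integral_prod _ hi]
    simp only [integral_const, probReal_univ, one_smul]
    congr 1
    funext z
    rw [add_comm]
  have hb := image_norm_le_of_norm_deriv_right_le_deriv_boundary'
    (f := fun θ => JJ φ F τ θ - JJ φ F τ 0) (f' := fun θ => JD φ F τ θ) (a := 0) (b := Real.pi / 2)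
    (B := fun θ => L ^ 2 * √d / (2 * τ) * Real.sin θ ^ 2)
    (B' := fun θ => L ^ 2 * √d / (2 * τ) * (2 * Real.sin θ * Real.cos θ))
    (by
      intro θ _
      exact ((JJ_deriv hφ hφL hφb hF hL hFL τ θ).sub_const _).continuousAt.continuousWithinAt)
    (fun θ _ => ((JJ_deriv hφ hφL hφb hF hL hFL τ θ).sub_const _).hasDerivWithinAt)
    (by simp)
    (by fun_prop)
    (fun θ _ => by
      have := ((Real.hasDerivAt_sin θ).pow 2).const_mul (L ^ 2 * √d / (2 * τ))
      simpa using this.hasDerivWithinAt)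
    (fun θ hθ => by
      have hs : 0 ≤ Real.sin θ := Real.sin_nonneg_of_nonneg_of_le_pi hθ.1 (by
        have := hθ.2
        have := Real.pi_pos
        linarith)
      have hc : 0 ≤ Real.cos θ := Real.cos_nonneg_of_mem_Icc ⟨by
        have := hθ.1
        have := Real.pi_pos
        linarith, hθ.2.le⟩
      rw [Real.norm_eq_abs]
      refine (JD_le hφ hφL hφb hF hL hFL hτ θ).trans (le_of_eq ?_)
      rw [abs_of_nonneg hs, abs_of_nonneg hc]
      field_simp)
  have h2 := hb (x := Real.pi / 2) ⟨by positivity, le_rfl⟩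
  rw [Real.sin_pi_div_two, one_pow, mul_one, h0, h1, Real.norm_eq_abs, abs_sub_comm] at h2
  exact h2

/-- smooth approximation of Lipschitz functions -/
theorem approx_lip {φ : E d → ℝ} (hφ : LipschitzWith 1 φ) {C : ℝ} (hC : ∀ x, |φ x| ≤ C) {ε : ℝ}
    (hε : 0 < ε) : ∃ g : E d → ℝ, ContDiff ℝ 1 g ∧ (∀ x y, |g x - g y| ≤ 1 * ‖x - y‖) ∧
      (∀ x, |g x| ≤ C + ε) ∧ ∀ x, |g x - φ x| ≤ ε := by
  set ψ : ContDiffBump (0:E d) := ⟨ε / 2, ε, by linarith, by linarith⟩ with hψ
  have hψout : ψ.rOut = ε := rfl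
  set g : E d → ℝ := (ψ.normed volume ⋆[ContinuousLinearMap.lsmul ℝ ℝ, volume] φ) with hg
  have hgdef : ∀ x, g x = ∫ t, ψ.normed volume t * φ (x - t) := fun x => rfl
  have hψc : Continuous (ψ.normed volume) := ψ.continuous_normed
  have hint : ∀ x, Integrable (fun t => ψ.normed volume t * φ (x - t)) := by
    intro x
    apply Continuous.integrable_of_hasCompactSupport
    · exact hψc.mul (hφ.continuous.comp (continuous_const.sub continuous_id))
    · exact ψ.hasCompactSupport_normed.mul_right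
  have hgφ : ∀ x, |g x - φ x| ≤ ε := by
    intro x
    have := ψ.dist_normed_convolution_le (μ := volume) (x₀ := x) (g := φ) (ε := ε)
      hφ.continuous.aestronglyMeasurable (fun y hy => by
        have h1 := hφ.dist_le_mul y x
        rw [NNReal.coe_one, one_mul] at h1
        exact h1.trans (le_of_lt hy))
    rw [Real.dist_eq] at this
    exact this
  refine ⟨g, ?_, ?_, ?_, hgφ⟩
  · exact ψ.hasCompactSupport_normed.contDiff_convolution_left _ (ψ.contDiff_normed (n := 1))
      hφ.continuous.locallyIntegrable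
  · intro x y
    rw [hgdef, hgdef, ← integral_sub (hint x) (hint y)]
    calc |∫ t, (ψ.normed volume t * φ (x - t) - ψ.normed volume t * φ (y - t))|
        ≤ ∫ t, ψ.normed volume t * (1 * ‖x - y‖) := by
          rw [← Real.norm_eq_abs]
          apply norm_integral_le_of_norm_le
          · exact ψ.integrable_normed.mul_const _
          · filter_upwards with t
            rw [← mul_sub, norm_mul, Real.norm_of_nonneg (ψ.nonneg_normed _)]
            apply mul_le_mul_of_nonneg_left _ (ψ.nonneg_normed _)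
            have := hφ.dist_le_mul (x - t) (y - t)
            rwa [dist_sub_right, Real.dist_eq, dist_eq_norm] at this
      _ = 1 * ‖x - y‖ := by
          rw [integral_mul_const, ψ.integral_normed, one_mul]
  · intro x
    have h1 := hgφ x
    have h2 := hC x
    have h3 := abs_sub_abs_le_abs_sub (g x) (φ x)
    linarith

end PB1

open PB1 in
/-- Gaussian noise absorbs a centred Lipschitz perturbation -/
theorem w1_absorb62 {d : ℕ} {F : E d → E d} (hF : ContDiff ℝ 1 F) {L : ℝ} (hL : 0 ≤ L)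
    (hFL : ∀ x y, ‖F x - F y‖ ≤ L * ‖x - y‖) {τ : ℝ} (hτ : 0 < τ) :
    W1le (((stdGaussian (E d)).prod (stdGaussian (E d))).map (fun p => τ • p.1 + F p.2))
      (gau (∫ g, F g ∂(stdGaussian (E d))) τ) (ENNReal.ofReal (L ^ 2 * √d / (2 * τ))) := by
  intro φ hφ hCφ
  obtain ⟨C, hC⟩ := hCφ
  set γ := stdGaussian (E d) with hγ
  have hFc := hF.continuous
  have e1 : ∫ x, φ x ∂((γ.prod γ).map (fun p => τ • p.1 + F p.2)) =
      ∫ p : E d × E d, φ (τ • p.1 + F p.2) ∂(γ.prod γ) := by
    rw [integral_map (by fun_prop) hφ.continuous.aestronglyMeasurable]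
  have e2 : ∫ x, φ x ∂(gau (∫ g, F g ∂γ) τ) = ∫ z, φ ((∫ g, F g ∂γ) + τ • z) ∂γ := by
    unfold gau
    rw [integral_map (by fun_prop) hφ.continuous.aestronglyMeasurable]
  rw [e1, e2]
  apply ENNReal.ofReal_le_ofReal
  apply le_of_forall_pos_le_add
  intro ε hε
  obtain ⟨g, hg1, hgL, hgb, hgφ⟩ := approx_lip hφ hC (ε := ε / 2) (by positivity)
  have hmain := absorb_smooth hg1 hgL hgb hF hL hFL hτ
  have d1 : |(∫ p : E d × E d, φ (τ • p.1 + F p.2) ∂(γ.prod γ)) -
      ∫ p : E d × E d, g (τ • p.1 + F p.2) ∂(γ.prod γ)| ≤ ε / 2 := by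
    have j1 : Integrable (fun p : E d × E d => φ (τ • p.1 + F p.2)) (γ.prod γ) :=
      (integrable_const C).mono' (hφ.continuous.comp (by fun_prop)).aestronglyMeasurable
        (Filter.Eventually.of_forall fun p => hC _)
    have j2 : Integrable (fun p : E d × E d => g (τ • p.1 + F p.2)) (γ.prod γ) :=
      (integrable_const (C + ε / 2)).mono' (hg1.continuous.comp (by fun_prop)).aestronglyMeasurable
        (Filter.Eventually.of_forall fun p => hgb _)
    rw [← integral_sub j1 j2, ← Real.norm_eq_abs]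
    have := norm_integral_le_of_norm_le_const (μ := γ.prod γ)
      (f := fun p : E d × E d => φ (τ • p.1 + F p.2) - g (τ • p.1 + F p.2)) (C := ε / 2)
      (Filter.Eventually.of_forall fun p => by
        rw [Real.norm_eq_abs, abs_sub_comm]
        exact hgφ _)
    simpa using this
  have d2 : |(∫ z, φ ((∫ g, F g ∂γ) + τ • z) ∂γ) - ∫ z, g ((∫ g, F g ∂γ) + τ • z) ∂γ| ≤ ε / 2 := by
    have j1 : Integrable (fun z : E d => φ ((∫ g, F g ∂γ) + τ • z)) γ :=
      (integrable_const C).mono' (hφ.continuous.comp (by fun_prop)).aestronglyMeasurable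
        (Filter.Eventually.of_forall fun p => hC _)
    have j2 : Integrable (fun z : E d => g ((∫ g, F g ∂γ) + τ • z)) γ :=
      (integrable_const (C + ε / 2)).mono' (hg1.continuous.comp (by fun_prop)).aestronglyMeasurable
        (Filter.Eventually.of_forall fun p => hgb _)
    rw [← integral_sub j1 j2, ← Real.norm_eq_abs]
    have := norm_integral_le_of_norm_le_const (μ := γ)
      (f := fun z : E d => φ ((∫ g, F g ∂γ) + τ • z) - g ((∫ g, F g ∂γ) + τ • z)) (C := ε / 2)
      (Filter.Eventually.of_forall fun p => by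
        rw [Real.norm_eq_abs, abs_sub_comm]
        exact hgφ _)
    simpa using this
  set A1 := ∫ p : E d × E d, φ (τ • p.1 + F p.2) ∂(γ.prod γ)
  set A2 := ∫ p : E d × E d, g (τ • p.1 + F p.2) ∂(γ.prod γ)
  set B1 := ∫ z, φ ((∫ g, F g ∂γ) + τ • z) ∂γ
  set B2 := ∫ z, g ((∫ g, F g ∂γ) + τ • z) ∂γ
  have e : A1 - B1 = (A2 - B2) + (A1 - A2) - (B1 - B2) := by ring
  rw [e]
  have t1 := abs_sub ((A2 - B2) + (A1 - A2)) (B1 - B2)
  have t2 := abs_add_le (A2 - B2) (A1 - A2)
  linarith

end P347Z
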