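import Vale.Agent.P347Z.CodeCtx
import Vale.Agent.P347Z.PRec

/-!
P347Z / PRC: the exponent recursion for the oracles.
-/

open MeasureTheory ProbabilityTheory Function Filter
open scoped ENNReal BigOperators

namespace P347Z

open P347Q P347S

theorem orc_mono0 {d : ℕ} {L c lam del del' Lp Lp' kap kap' : ℝ} {S S' : ℕ}
    (h : Orc d L c lam del Lp kap S) (h1 : del ≤ del') (h2 : Lp ≤ Lp') (h3 : kap ≤ kap')
    (h4 : S ≤ S') : Orc d L c lam del' Lp' kap' S' := by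
  unfold Orc at h ⊢
  refine Has.mono h ?_ (fun _ => h2) h3 h4
  exact mul_le_mul_of_nonneg_right h1 (by positivity)

/-- oracles with few queries at all levels in `[d^{-B}, d^{-k}]` -/
def OQ (k η : ℝ) (j : ℕ) (a A : ℝ) : Prop :=
  ∀ B κ : ℝ, 0 < κ → ∀ᶠ d : ℕ in atTop, ∀ s : ℝ, (d : ℝ) ^ (-B) ≤ s → s ≤ (d : ℝ) ^ (-k) →
    ∃ S : ℕ, (S : ℝ) ≤ (d : ℝ) ^ κ ∧
      Orc d s (1 - j * η) ((d : ℝ) ^ (-a)) ((d : ℝ) ^ (-A)) (2 + j * η) (1 / 2 + j * η) S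

/-- powers of `d` are eventually large -/
theorem ev_pow {κ : ℝ} (hκ : 0 < κ) (M : ℝ) : ∀ᶠ d : ℕ in atTop, M ≤ (d : ℝ) ^ κ := by
  have h := (tendsto_rpow_atTop hκ).comp (tendsto_natCast_atTop_atTop (R := ℝ))
  exact h.eventually_ge_atTop M

theorem oq_base {C : ℝ} (hB : ∀ (d : ℕ) (L c lam : ℝ), 0 < L → L ≤ 1 / 4 → 0 ≤ c → c ≤ 1 →
    0 < lam → lam ≤ 1 → Orc d L c lam (C * (lam + √L)) 2 (1 / 2) 9) (hC : 0 < C)
    {k η as : ℝ} (hη : 0 ≤ η) (has : 0 < as) (hask : as ≤ k) {j : ℕ} (hj : j * η ≤ 1) {a A : ℝ}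
    (ha : as / 2 ≤ a) (hA : A ≤ as / 4) : OQ k η j a A := by
  intro B κ hκ
  filter_upwards [ev_pow hκ 9, ev_pow (show 0 < as / 4 by positivity) (2 * C),
    ev_pow (show 0 < k by linarith) 4, eventually_ge_atTop 1] with d h1 h2 h3 h4 s hs1 hs2
  have d1 : (1 : ℝ) ≤ d := by exact_mod_cast h4
  have d0 : (0 : ℝ) < d := by linarith
  refine ⟨9, by exact_mod_cast h1, ?_⟩
  have s0 : 0 < s := lt_of_lt_of_le (Real.rpow_pos_of_pos d0 _) hs1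
  have e1 : (d : ℝ) ^ (-k) ≤ 1 / 4 := by
    rw [Real.rpow_neg d0.le, one_div]
    exact inv_anti₀ (by norm_num) h3
  have e2 : (d : ℝ) ^ (-a) ≤ 1 := Real.rpow_le_one_of_one_le_of_nonpos d1 (by linarith)
  have key := hB d s (1 - j * η) ((d : ℝ) ^ (-a)) s0 (by linarith) (by linarith)
    (by have : 0 ≤ (j : ℝ) * η := by positivity
        linarith) (Real.rpow_pos_of_pos d0 _) e2
  have hjη : 0 ≤ (j : ℝ) * η := by positivity
  refine orc_mono0 key ?_ (by linarith) (by linarith) le_rfl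
  have e3 : (d : ℝ) ^ (-a) ≤ (d : ℝ) ^ (-(as / 2)) :=
    Real.rpow_le_rpow_of_exponent_le d1 (by linarith)
  have e4 : √s ≤ (d : ℝ) ^ (-(as / 2)) := by
    rw [Real.sqrt_le_left (by positivity), ← Real.rpow_natCast, ← Real.rpow_mul d0.le]
    refine hs2.trans (Real.rpow_le_rpow_of_exponent_le d1 ?_)
    push_cast
    linarith
  have e5 : (d : ℝ) ^ (-(as / 4)) ≤ (d : ℝ) ^ (-A) :=
    Real.rpow_le_rpow_of_exponent_le d1 (by linarith)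
  have e6 : (d : ℝ) ^ (-(as / 2)) = (d : ℝ) ^ (-(as / 4)) * (d : ℝ) ^ (-(as / 4)) := by
    rw [← Real.rpow_add d0]
    congr 1
    ring
  have e7 : (d : ℝ) ^ (as / 4) * (d : ℝ) ^ (-(as / 4)) = 1 := by
    rw [← Real.rpow_add d0, add_neg_cancel, Real.rpow_zero]
  have p4 : 0 < (d : ℝ) ^ (-(as / 4)) := Real.rpow_pos_of_pos d0 _
  calc C * ((d : ℝ) ^ (-a) + √s) ≤ C * ((d : ℝ) ^ (-(as / 2)) + (d : ℝ) ^ (-(as / 2))) := by
        gcongr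
    _ = (2 * C * (d : ℝ) ^ (-(as / 4))) * (d : ℝ) ^ (-(as / 4)) := by rw [e6]; ring
    _ ≤ ((d : ℝ) ^ (as / 4) * (d : ℝ) ^ (-(as / 4))) * (d : ℝ) ^ (-(as / 4)) := by gcongr
    _ = (d : ℝ) ^ (-(as / 4)) := by rw [e7, one_mul]
    _ ≤ (d : ℝ) ^ (-A) := e5

end P347Z
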