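import Vale.Agent.P347Z.PxDefs

/-!
P347Z, program half, helper file for PKC (helper30): measurability of the observables, mean bounds, and the rule
one input plus a small linear combination of codes.
-/

open MeasureTheory ProbabilityTheory Function
open scoped ENNReal BigOperators ContDiff

namespace P347Z

open P347Q P347S

section obs

variable {d : ℕ} {V : E d → ℝ} {L s t : ℝ}

theorem pk_grad (hV : Pot d V) (hL : 0 < L) : ContDiff ℝ ∞ (gradient (US V L)) := by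
  have h := (ssa_fo_smooth hV).comp_contDiff (f := fun y : E d => ((L, y) : ℝ × E d))
    (contDiff_const.prodMk contDiff_id) (fun y => ⟨hL, trivial⟩)
  exact h

theorem pk_HV (hV : Pot d V) (hL : 0 < L) :
    ContDiff ℝ ∞ (fun p : E d × E d => HV (US V L) p.1 p.2) := by
  have h1 : ContDiff ℝ ∞ (fderiv ℝ (gradient (US V L))) := (pk_grad hV hL).fderiv_right (by simp)
  exact (h1.comp contDiff_fst).clm_apply contDiff_snd

theorem pk_LG (hV : Pot d V) (hL : 0 < L) : Continuous (LG (US V L)) := by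
  unfold LG
  refine continuous_finsetSum _ fun i _ => ?_
  have h1 : ContDiff ℝ ∞ (fun y => HV (US V L) y (bas d i)) :=
    (pk_HV hV hL).comp (contDiff_id.prodMk contDiff_const)
  exact (h1.continuous_fderiv (by simp)).clm_apply continuous_const

theorem pk_fo_cont (hV : Pot d V) (hL : 0 < L) : Continuous (fun p : Z3 d => fo V L p.1) :=
  (pk_grad hV hL).continuous.comp continuous_fst

theorem pk_GG_cont (hV : Pot d V) (hL : 0 < L) (r : ℝ) :
    Continuous (fun p : Z3 d => GG (US V L) r p.1 p.2.1) := by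
  unfold GG
  have h1 := (pk_HV hV hL).continuous
  have h2 := (pk_grad hV hL).continuous
  have h3 := pk_LG hV hL
  have h4 : Continuous (fun p : Z3 d => (p.1, r • gradient (US V L) p.1 + p.2.1)) :=
    continuous_fst.prodMk (((h2.comp continuous_fst).const_smul r).add
      (continuous_fst.comp continuous_snd))
  exact (h1.comp h4).sub ((h3.comp continuous_fst).const_smul r)

theorem pk_oA_cont (hV : Pot d V) (hs : 0 < s) (t : ℝ) : Continuous (oA V s t) := by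
  unfold oA
  have h1 := (pk_HV hV (ssa_lev_pos hs t)).continuous
  have h4 : Continuous (fun p : Z3 d => (p.1, p.2.2)) := by fun_prop
  exact h1.comp h4

theorem pk_oG_cont (hV : Pot d V) (hs : 0 < s) (t : ℝ) : Continuous (oG V s t) := by
  have h := (pk_GG_cont hV (ssa_lev_pos hs t) (rr s t)).const_smul (rr' s t)
  exact h

theorem pk_oK_cont (hV : Pot d V) (hs : 0 < s) (t : ℝ) : Continuous (oK V s t) := by
  have h1 := (pk_HV hV (ssa_lev_pos hs t)).continuous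
  have h4 : Continuous (fun p : Z3 d => (p.1, HV (US V (lev s t)) p.1 p.2.2)) :=
    continuous_fst.prodMk (h1.comp (by fun_prop : Continuous (fun p : Z3 d => (p.1, p.2.2))))
  have h5 := (h1.comp h4).const_smul (qq t * Real.tanh t)
  exact h5

end obs

section mean

variable {d : ℕ} {α β : Type*} [MeasurableSpace α] [MeasurableSpace β]

/-- mean of the norm at most `B` -/
def NB (μ : Measure α) (f : α → E d) (B : ℝ) : Prop :=
  Integrable f μ ∧ ∫ x, ‖f x‖ ∂μ ≤ B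

theorem NB.nonneg {μ : Measure α} {f : α → E d} {B : ℝ} (h : NB μ f B) : 0 ≤ B :=
  le_trans (integral_nonneg fun _ => norm_nonneg _) h.2

theorem NB.mono {μ : Measure α} {f : α → E d} {B B' : ℝ} (h : NB μ f B) (hB : B ≤ B') :
    NB μ f B' := ⟨h.1, h.2.trans hB⟩

theorem NB.congr {μ : Measure α} {f g : α → E d} {B : ℝ} (h : NB μ f B) (hg : ∀ x, f x = g x) :
    NB μ g B := by
  have : f = g := funext hg
  rwa [← this]

theorem NB.add {μ : Measure α} {f g : α → E d} {A B : ℝ} (h : NB μ f A) (h' : NB μ g B) :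
    NB μ (fun x => f x + g x) (A + B) := by
  refine ⟨h.1.add h'.1, ?_⟩
  have h1 : ∫ x, ‖f x + g x‖ ∂μ ≤ ∫ x, (‖f x‖ + ‖g x‖) ∂μ :=
    integral_mono (h.1.add h'.1).norm (h.1.norm.add h'.1.norm) fun x => norm_add_le _ _
  rw [integral_add h.1.norm h'.1.norm] at h1
  linarith [h.2, h'.2]

theorem NB.smul {μ : Measure α} {f : α → E d} {A : ℝ} (h : NB μ f A) (c : ℝ) :
    NB μ (fun x => c • f x) (|c| * A) := by
  refine ⟨h.1.smul c, ?_⟩
  simp only [norm_smul, Real.norm_eq_abs]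
  rw [integral_const_mul]
  exact mul_le_mul_of_nonneg_left h.2 (abs_nonneg c)

theorem NB.neg {μ : Measure α} {f : α → E d} {A : ℝ} (h : NB μ f A) :
    NB μ (fun x => - f x) A := by
  refine ⟨h.1.neg, ?_⟩
  simp only [norm_neg]
  exact h.2

theorem NB.zero (μ : Measure α) : NB μ (fun _ => (0 : E d)) 0 := by
  refine ⟨integrable_zero _ _ _, ?_⟩
  simp

theorem NB.sum {μ : Measure α} {ι : Type*} (s : Finset ι) {f : ι → α → E d} {A : ι → ℝ}
    (h : ∀ i ∈ s, NB μ (f i) (A i)) : NB μ (fun x => ∑ i ∈ s, f i x) (∑ i ∈ s, A i) := by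
  classical
  induction s using Finset.induction_on with
  | empty => simpa using NB.zero μ
  | insert i s hi ih =>
    simp only [Finset.sum_insert hi]
    exact (h i (Finset.mem_insert_self i s)).add
      (ih fun j hj => h j (Finset.mem_insert_of_mem hj))

theorem NB.comp {μ : Measure α} {ν : Measure β} {φ : α → β} (hφ : MeasurePreserving φ μ ν)
    {f : β → E d} {A : ℝ} (h : NB ν f A) : NB μ (fun x => f (φ x)) A := by
  refine ⟨hφ.integrable_comp_of_integrable h.1, ?_⟩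
  have h1 := integral_map (μ := μ) hφ.measurable.aemeasurable (f := fun y => ‖f y‖)
    (by rw [hφ.map_eq]; exact h.1.norm.aestronglyMeasurable)
  rw [hφ.map_eq] at h1
  rw [← h1]
  exact h.2

theorem NB.of_norm {μ : Measure α} {f : α → E d} {A : ℝ} (hm : Measurable f)
    (h : Integrable (fun x => ‖f x‖) μ ∧ ∫ x, ‖f x‖ ∂μ ≤ A) : NB μ f A :=
  ⟨(integrable_norm_iff hm.aestronglyMeasurable).1 h.1, h.2⟩

theorem NB.of_sq {μ : Measure α} [IsProbabilityMeasure μ] {f : α → E d} {A : ℝ}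
    (hm : Measurable f) (h : Integrable (fun x => ‖f x‖ ^ 2) μ) (h2 : ∫ x, ‖f x‖ ^ 2 ∂μ ≤ A) :
    NB μ f √A := by
  have hi : Integrable (fun x => ‖f x‖) μ := by
    refine (h.add (integrable_const (1 : ℝ))).mono' hm.norm.aestronglyMeasurable
      (Filter.Eventually.of_forall fun x => ?_)
    rw [Real.norm_eq_abs, abs_of_nonneg (norm_nonneg _)]
    simp only [Pi.add_apply]
    nlinarith [sq_nonneg (‖f x‖ - 1), norm_nonneg (f x)]
  refine NB.of_norm hm ⟨hi, ?_⟩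
  set m := ∫ x, ‖f x‖ ∂μ with hmd
  have h0 : 0 ≤ ∫ x, (‖f x‖ - m) ^ 2 ∂μ := integral_nonneg fun x => sq_nonneg _
  have h1 : ∫ x, (‖f x‖ - m) ^ 2 ∂μ = ∫ x, ‖f x‖ ^ 2 ∂μ - m ^ 2 := by
    have e1 : ∀ x, (‖f x‖ - m) ^ 2 = ‖f x‖ ^ 2 - (2 * m) * ‖f x‖ + m ^ 2 := fun x => by ring
    have e2 : Integrable (fun x => ‖f x‖ ^ 2 - (2 * m) * ‖f x‖) μ := h.sub (hi.const_mul _)
    simp_rw [e1]
    rw [integral_add e2 (integrable_const _),
      integral_sub h (hi.const_mul _), integral_const_mul, ← hmd]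
    simp
    ring
  have h3 : m ^ 2 ≤ A := by linarith
  exact (le_abs_self m).trans (Real.abs_le_sqrt h3)

/-- form used in `Has.approx` -/
theorem NB.lint {μ : Measure α} {f : α → E d} {A : ℝ} (h : NB μ f A) :
    ∫⁻ x, ‖f x‖ₑ ∂μ ≤ ENNReal.ofReal A := by
  have h1 := ofReal_integral_eq_lintegral_ofReal h.1.norm
    (Filter.Eventually.of_forall fun x => norm_nonneg _)
  have h2 : ∫⁻ x, ‖f x‖ₑ ∂μ = ∫⁻ x, ENNReal.ofReal ‖f x‖ ∂μ := by
    refine lintegral_congr fun x => ?_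
    rw [ofReal_norm]
  rw [h2, ← h1]
  exact ENNReal.ofReal_le_ofReal h.2

end mean

section rules

variable {d : ℕ} {Θ X P : Type} [MeasurableSpace X]

/-- replacing the target, mean form -/
theorem Has.approxN {C : Inp d Θ X P} {q q' : Θ → X → E d} {τ ε ε' a κ : ℝ} {L : P → ℝ} {S : ℕ}
    (h : Has C q τ ε L a κ S) (hm : ∀ θ, Measurable (fun x => q θ x - q' θ x)) (hε : 0 ≤ ε)
    (hε' : 0 ≤ ε') (hq : ∀ θ, NB (C.ρ θ) (fun x => q θ x - q' θ x) ε') :
    Has C q' τ (ε + ε') L a κ S :=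
  h.approx hm hε hε' fun θ => (hq θ).lint

/-- one code plus a small linear combination of codes -/
theorem Has.plus {C : Inp d Θ X P} {ι : Type} (u : Finset ι) (b : ι → ℝ) {q₀ : Θ → X → E d}
    {q : ι → Θ → X → E d} {q' : Θ → X → E d} {τ₀ ε₀ a₀ κ₀ τ τ' ε ε' κ B B2 : ℝ}
    {L₀ L : P → ℝ} {S₀ S : ℕ}
    (h₀ : Has C q₀ τ₀ ε₀ L₀ a₀ κ₀ S₀) (h : ∀ j ∈ u, Has C (q j) τ ε L 0 κ S) (hε₀ : 0 ≤ ε₀)
    (hε : 0 ≤ ε) (hκ : 0 ≤ κ) (hL : ∀ p, 0 ≤ L p) (hB : ∑ j ∈ u, |b j| ≤ B)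
    (hB2 : ∑ j ∈ u, b j ^ 2 ≤ B2) (hτ : τ₀ ^ 2 + B2 * τ ^ 2 ≤ τ' ^ 2) (hε' : 0 ≤ ε')
    (hm : ∀ θ, Measurable (fun x => q₀ θ x + ∑ j ∈ u, b j • q j θ x - q' θ x))
    (hq : ∀ θ, NB (C.ρ θ) (fun x => q₀ θ x + ∑ j ∈ u, b j • q j θ x - q' θ x) ε') :
    Has C q' τ' (ε₀ + B * ε + ε') (fun p => L₀ p + B * L p) a₀ (κ₀ + B * κ)
      (S₀ + u.card * (S + 2) + 5) := by
  have hB0 : 0 ≤ ∑ j ∈ u, |b j| := Finset.sum_nonneg fun j _ => abs_nonneg _
  have h1 := Has.lin u b h (fun _ _ => hε)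
  have h2 := Has.add h₀ h1 hε₀ (Finset.sum_nonneg fun j _ => mul_nonneg (abs_nonneg _) hε)
  have e1 : ∑ j ∈ u, (b j * τ) ^ 2 = (∑ j ∈ u, b j ^ 2) * τ ^ 2 := by
    rw [Finset.sum_mul]
    exact Finset.sum_congr rfl fun j _ => by ring
  have e2 : 0 ≤ ∑ j ∈ u, (b j * τ) ^ 2 := Finset.sum_nonneg fun j _ => sq_nonneg _
  have h3 := Has.noise (τ' := τ') h2 (by
    rw [Real.sq_sqrt (by positivity), Real.sq_sqrt e2, e1]
    nlinarith [mul_le_mul_of_nonneg_right hB2 (sq_nonneg τ)]) (by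
      rw [← Finset.sum_mul]
      positivity)
  have h4 := h3.approxN hm (by
      rw [← Finset.sum_mul]
      positivity) hε' hq
  refine h4.cast (fun _ _ => rfl) rfl ?_ (fun p => ?_) ?_ ?_ ?_
  · rw [← Finset.sum_mul]
    gcongr
  · rw [← Finset.sum_mul]
    have := mul_le_mul_of_nonneg_right hB (hL p)
    linarith
  · simp
  · rw [← Finset.sum_mul]
    gcongr
  · omega

/-- a linear combination of codes, topped up and compared with a target -/
theorem Has.linN {C : Inp d Θ X P} {ι : Type} (u : Finset ι) (b : ι → ℝ)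
    {q : ι → Θ → X → E d} {q' : Θ → X → E d} {τ τ' ε ε' κ B B2 : ℝ}
    {L : P → ℝ} {S : ℕ} (h : ∀ j ∈ u, Has C (q j) τ ε L 0 κ S)
    (hε : 0 ≤ ε) (hκ : 0 ≤ κ) (hL : ∀ p, 0 ≤ L p) (hB : ∑ j ∈ u, |b j| ≤ B)
    (hB2 : ∑ j ∈ u, b j ^ 2 ≤ B2) (hτ : B2 * τ ^ 2 ≤ τ' ^ 2) (hε' : 0 ≤ ε')
    (hm : ∀ θ, Measurable (fun x => ∑ j ∈ u, b j • q j θ x - q' θ x))
    (hq : ∀ θ, NB (C.ρ θ) (fun x => ∑ j ∈ u, b j • q j θ x - q' θ x) ε') :
    Has C q' τ' (B * ε + ε') (fun p => B * L p) 0 (B * κ) (u.card * (S + 2) + 4) := by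
  have hB0 : 0 ≤ ∑ j ∈ u, |b j| := Finset.sum_nonneg fun j _ => abs_nonneg _
  have h1 := Has.lin u b h (fun _ _ => hε)
  have e1 : ∑ j ∈ u, (b j * τ) ^ 2 = (∑ j ∈ u, b j ^ 2) * τ ^ 2 := by
    rw [Finset.sum_mul]
    exact Finset.sum_congr rfl fun j _ => by ring
  have e2 : 0 ≤ ∑ j ∈ u, (b j * τ) ^ 2 := Finset.sum_nonneg fun j _ => sq_nonneg _
  have h3 := Has.noise (τ' := τ') h1 (by
    rw [Real.sq_sqrt e2, e1]
    nlinarith [mul_le_mul_of_nonneg_right hB2 (sq_nonneg τ)]) (by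
      rw [← Finset.sum_mul]
      positivity)
  have h4 := h3.approxN hm (by
      rw [← Finset.sum_mul]
      positivity) hε' hq
  refine h4.cast (fun _ _ => rfl) rfl ?_ (fun p => ?_) ?_ ?_ ?_
  · rw [← Finset.sum_mul]
    gcongr
  · rw [← Finset.sum_mul]
    exact mul_le_mul_of_nonneg_right hB (hL p)
  · simp
  · rw [← Finset.sum_mul]
    gcongr
  · omega

end rules

end P347Z
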