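import Vale.Agent.P347Z.PkAux

/-!
Helper file for module PKC (helper30): one round of the Picard iteration on codes along the kick flow (see
`PxK.lean`).
-/

open MeasureTheory ProbabilityTheory Function
open scoped ENNReal BigOperators

namespace P347Z

open P347Q P347S

/-- conclusion of `s2_exists` -/
structure S2P {m N : ℕ} (R : RS m N) (C : ℝ) {d : ℕ} (V : E d → ℝ) (s t H : ℝ)
    (X : Fin (N + 1) → Z3 d → Z3 d) : Prop where
  mp : ∀ j, MeasurePreserving (X j) (mu3 V (lev s t)) (mu3 V (lev s t))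
  cen : ∀ j p, (X j p).1 - rr s t • (X j p).2.1 = p.1 - rr s t • p.2.1
  w : ∀ i, NB (mu3 V (lev s t)) (fun p => (X i p).2.1 - p.2.1 + ∑ j, (H * R.A i j * qq t) •
    oA V s t (X j p)) (C * H ^ m * √d)
  z : ∀ i, NB (mu3 V (lev s t)) (fun p => (X i p).2.2 - p.2.2 - ∑ j, (H * R.A i j * qq t) •
    GG (US V (lev s t)) (rr s t) (X j p).1 (X j p).2.1) (C * H ^ m * √d)
  k : NB (mu3 V (lev s t)) (fun p => H⁻¹ • ∑ j, R.D j • fo V (lev s t) (X j p).1 +
    √s • oK V s t p) (C * H ^ (m - 2) * √d)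

theorem pk_s2 {m N : ℕ} (R : RS m N) (hm : 3 ≤ m) : ∃ C : ℝ, 0 < C ∧
    ∀ (d : ℕ) (V : E d → ℝ) (s t H : ℝ), Pot d V → 0 < s → s ≤ 1 / 4 → 0 < H → H ≤ 1 →
    ∃ X : Fin (N + 1) → Z3 d → Z3 d, S2P R C V s t H X := by
  obtain ⟨C, hC, h⟩ := s2_exists R hm
  refine ⟨C, hC, fun d V s t H hV hs hs1 hH hH1 => ?_⟩
  obtain ⟨X, h1, h2, h3, h4, h5⟩ := h d V s t H hV hs hs1 hH hH1
  have mA : ∀ j, Measurable (fun p => oA V s t (X j p)) := fun j =>
    (pk_oA_cont hV hs t).measurable.comp (h1 j).measurable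
  have mG : ∀ j, Measurable (fun p => GG (US V (lev s t)) (rr s t) (X j p).1 (X j p).2.1) :=
    fun j => (pk_GG_cont hV (ssa_lev_pos hs t) (rr s t)).measurable.comp (h1 j).measurable
  have mF : ∀ j, Measurable (fun p => fo V (lev s t) (X j p).1) :=
    fun j => (pk_fo_cont hV (ssa_lev_pos hs t)).measurable.comp (h1 j).measurable
  have mK : Measurable (fun p => oK V s t p) := (pk_oK_cont hV hs t).measurable
  refine ⟨X, h1, h2, fun i => NB.of_norm ?_ (h3 i), fun i => NB.of_norm ?_ (h4 i),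
    NB.of_norm ?_ h5⟩
  · refine (((h1 i).measurable.snd.fst).sub measurable_snd.fst).add
      (Finset.measurable_fun_sum _ fun j _ => (mA j).fun_const_smul _)
  · refine (((h1 i).measurable.snd.snd).sub measurable_snd.snd).sub
      (Finset.measurable_fun_sum _ fun j _ => (mG j).fun_const_smul _)
  · exact ((Finset.measurable_fun_sum _ fun j _ => (mF j).fun_const_smul _).fun_const_smul _).add
      (mK.fun_const_smul _)

/-- state of the Picard iteration on codes -/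
def PKS (d : ℕ) (s t c c' ϑ e : ℝ) {N : ℕ} (X : PotT d → Fin (N + 1) → Z3 d → Z3 d)
    (S : ℕ) : Prop :=
  ∀ i, Has (zctx d s t c) (fun V p => (X V i p).1) (c' * √(lev s t)) (√(lev s t) * e)
      ![1 + ϑ, √(lev s t) * ϑ, √(lev s t) * ϑ] 1 ϑ S ∧
    Has (zctx d s t c) (fun V p => (X V i p).2.1) c' e
      ![ϑ / √(lev s t), 1 + ϑ, ϑ] 0 (ϑ / √(lev s t)) S ∧
    Has (zctx d s t c) (fun V p => (X V i p).2.2) c' e
      ![ϑ / √(lev s t), ϑ, 1 + ϑ] 0 (ϑ / √(lev s t)) S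

/-! ### the clock functions -/

theorem pk_l {s : ℝ} (t : ℝ) : √(lev s t) = √s * qq t := by
  unfold lev qq
  rw [Real.sqrt_div' _ (by positivity), Real.sqrt_sq (Real.cosh_pos t).le]
  ring

theorem pk_qq_pos (t : ℝ) : 0 < qq t := by
  unfold qq
  have := Real.cosh_pos t
  positivity

theorem pk_qq_le (t : ℝ) : qq t ≤ 1 := by
  unfold qq
  have h1 := Real.one_le_cosh t
  rw [div_le_one (by linarith)]
  exact h1

theorem pk_rr_qq {s : ℝ} (t : ℝ) : |rr s t * qq t| ≤ √(lev s t) := by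
  rw [pk_l]
  unfold rr
  have h1 : |Real.tanh t| ≤ 1 := (Real.abs_tanh_lt_one t).le
  have h2 := pk_qq_pos t
  rw [abs_mul, abs_mul, abs_of_nonneg (Real.sqrt_nonneg s), abs_of_pos h2]
  have h3 := Real.sqrt_nonneg s
  have h4 : √s * |Real.tanh t| ≤ √s := by nlinarith
  exact mul_le_mul_of_nonneg_right h4 h2.le

theorem pk_oG {d : ℕ} {V : E d → ℝ} {s : ℝ} (hs : 0 < s) (t : ℝ) (p : Z3 d) :
    qq t • GG (US V (lev s t)) (rr s t) p.1 p.2.1 = (√(lev s t))⁻¹ • oG V s t p := by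
  unfold oG
  rw [smul_smul]
  congr 1
  rw [pk_l]
  unfold rr' qq
  have h1 := Real.cosh_pos t
  have h2 := Real.sqrt_pos.2 hs
  field_simp

theorem pk_l_le {s : ℝ} (hs : 0 < s) (hs1 : s ≤ 1 / 4) (t : ℝ) : √(lev s t) ≤ 1 := by
  have := ssa_lev_le hs t
  exact Real.sqrt_le_one.2 (by linarith)

/-! ### absolute weights -/

/-- bound on the coefficients of the rule -/
noncomputable def RS.a0 {m N : ℕ} (R : RS m N) : ℝ := ∑ i, ∑ j, |R.A i j| + 1

noncomputable def RS.d0 {m N : ℕ} (R : RS m N) : ℝ := ∑ j, |R.D j| + 1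

theorem RS.a0_ge {m N : ℕ} (R : RS m N) (i : Fin (N + 1)) : ∑ j, |R.A i j| ≤ R.a0 := by
  have h1 : ∑ j, |R.A i j| ≤ ∑ i, ∑ j, |R.A i j| :=
    Finset.single_le_sum (f := fun i => ∑ j, |R.A i j|)
      (fun i _ => Finset.sum_nonneg fun j _ => abs_nonneg _) (Finset.mem_univ i)
  unfold RS.a0
  linarith

theorem RS.a0_one {m N : ℕ} (R : RS m N) : 1 ≤ R.a0 := by
  have : 0 ≤ ∑ i, ∑ j, |R.A i j| :=
    Finset.sum_nonneg fun i _ => Finset.sum_nonneg fun j _ => abs_nonneg _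
  unfold RS.a0
  linarith

theorem RS.d0_one {m N : ℕ} (R : RS m N) : 1 ≤ R.d0 := by
  have : 0 ≤ ∑ j, |R.D j| := Finset.sum_nonneg fun j _ => abs_nonneg _
  unfold RS.d0
  linarith

theorem pk_sq_sum {ι : Type*} (u : Finset ι) (b : ι → ℝ) {B : ℝ} (h : ∑ j ∈ u, |b j| ≤ B) :
    ∑ j ∈ u, b j ^ 2 ≤ B ^ 2 := by
  have h0 : 0 ≤ ∑ j ∈ u, |b j| := Finset.sum_nonneg fun j _ => abs_nonneg _
  calc ∑ j ∈ u, b j ^ 2 = ∑ j ∈ u, |b j| ^ 2 := Finset.sum_congr rfl fun j _ => (sq_abs _).symm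
    _ ≤ (∑ j ∈ u, |b j|) ^ 2 := Finset.sum_sq_le_sq_sum_of_nonneg fun j _ => abs_nonneg _
    _ ≤ B ^ 2 := by gcongr

/-- weights `a * A i j` with `|a| ≤ r` -/
theorem RS.a0_sum {m N : ℕ} (R : RS m N) (i : Fin (N + 1)) {a r : ℝ} (ha : |a| ≤ r) :
    ∑ j, |a * R.A i j| ≤ r * R.a0 := by
  simp_rw [abs_mul]
  rw [← Finset.mul_sum]
  have h1 := R.a0_ge i
  have h2 : 0 ≤ ∑ j, |R.A i j| := Finset.sum_nonneg fun j _ => abs_nonneg _
  exact mul_le_mul ha h1 h2 ((abs_nonneg a).trans ha)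

/-! ### one round -/

section round

variable {m N : ℕ} {R : RS m N} {C₂ : ℝ} {d : ℕ} {s t H c c' τ ε Λ : ℝ}
  {X : PotT d → Fin (N + 1) → Z3 d → Z3 d}

theorem pk_callA (hX : ∀ V : PotT d, S2P R C₂ V.1 s t H (X V)) (hs : 0 < s) (hε : 0 ≤ ε)
    (hΛ : 1 ≤ Λ) {S Sk : ℕ} (hSk : 1 ≤ Sk) {ϑ e : ℝ} (h : ACode d s t c' τ ε (Λ / √(lev s t)) Λ S)
    (hp : PKS d s t c c' ϑ e X Sk) (hϑ : 0 ≤ ϑ) (hϑ1 : ϑ ≤ 1) (he : 0 ≤ e)
    (j : Fin (N + 1)) :
    Has (zctx d s t c) (fun V p => oA V.1 s t (X V j p)) τ (ε + 2 * Λ * e)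
      ![3 * Λ / √(lev s t), 3 * Λ, 3 * Λ] 0 (3 * Λ / √(lev s t)) (S * Sk) := by
  have hl : 0 < √(lev s t) := Real.sqrt_pos.2 (ssa_lev_pos hs t)
  set l := √(lev s t) with hld
  obtain ⟨h1, h2, h3⟩ := hp j
  have h4 := zcall (C := zctx d s t c) (fun _ => rfl) h (φ := fun V p => X V j p)
    (fun V => (hX V).mp j) h1 h2 h3 hε (by positivity) he he hϑ (by positivity) (by positivity)
    (by intro p; fin_cases p <;> simp <;> positivity)
    (by intro p; fin_cases p <;> simp <;> positivity)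
    (by intro p; fin_cases p <;> simp <;> positivity) hSk
  refine h4.cast (fun _ _ => rfl) rfl ?_ ?_ rfl ?_ le_rfl
  · rw [← hld]
    have : Λ / l * (l * e) = Λ * e := by field_simp
    rw [this]
    linarith
  · have e1 : Λ / l * ϑ ≤ Λ / l := mul_le_of_le_one_right (by positivity) hϑ1
    have e2 : Λ * (ϑ / l) ≤ Λ / l := by
      have : Λ * (ϑ / l) = Λ / l * ϑ := by ring
      rw [this]
      exact e1
    have e3 : Λ / l * (l * ϑ) = Λ * ϑ := by field_simp
    have e4 : Λ * ϑ ≤ Λ := mul_le_of_le_one_right (by positivity) hϑ1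
    intro p
    fin_cases p
    · change Λ / l * (1 + ϑ) + 0 * (ϑ / l) + Λ * (ϑ / l) ≤ 3 * Λ / l
      have : 3 * Λ / l = 3 * (Λ / l) := by ring
      rw [this]
      linarith
    · change Λ / l * (l * ϑ) + 0 * (1 + ϑ) + Λ * ϑ ≤ 3 * Λ
      rw [e3]
      linarith
    · change Λ / l * (l * ϑ) + 0 * ϑ + Λ * (1 + ϑ) ≤ 3 * Λ
      rw [e3]
      linarith
  · have e1 : Λ / l * ϑ ≤ Λ / l := mul_le_of_le_one_right (by positivity) hϑ1
    have e2 : Λ * (ϑ / l) ≤ Λ / l := by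
      have : Λ * (ϑ / l) = Λ / l * ϑ := by ring
      rw [this]
      exact e1
    have : 3 * Λ / l = 3 * (Λ / l) := by ring
    rw [this]
    linarith

theorem pk_callG (hX : ∀ V : PotT d, S2P R C₂ V.1 s t H (X V)) (hs : 0 < s) (hε : 0 ≤ ε)
    (hΛ : 1 ≤ Λ) {S Sk : ℕ} (hSk : 1 ≤ Sk) {ϑ e : ℝ}
    (h : GCode d s t c' (τ * √(lev s t)) (ε * √(lev s t)) Λ (Λ * √(lev s t)) S)
    (hp : PKS d s t c c' ϑ e X Sk) (hϑ : 0 ≤ ϑ) (hϑ1 : ϑ ≤ 1) (he : 0 ≤ e)
    (j : Fin (N + 1)) :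
    Has (zctx d s t c) (fun V p => oG V.1 s t (X V j p)) (τ * √(lev s t))
      ((ε + 2 * Λ * e) * √(lev s t))
      ![3 * Λ, 3 * Λ * √(lev s t), 3 * Λ * √(lev s t)] 0 (3 * Λ) (S * Sk) := by
  have hl : 0 < √(lev s t) := Real.sqrt_pos.2 (ssa_lev_pos hs t)
  set l := √(lev s t) with hld
  obtain ⟨h1, h2, h3⟩ := hp j
  have h4 := zcall (C := zctx d s t c) (fun _ => rfl) h (φ := fun V p => X V j p)
    (fun V => (hX V).mp j) h1 h2 h3 (by positivity) (by positivity) he he hϑ (by positivity)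
    (by positivity)
    (by intro p; fin_cases p <;> simp <;> positivity)
    (by intro p; fin_cases p <;> simp <;> positivity)
    (by intro p; fin_cases p <;> simp <;> positivity) hSk
  have e1 : Λ * ϑ ≤ Λ := mul_le_of_le_one_right (by positivity) hϑ1
  have e2 : Λ * l * (ϑ / l) = Λ * ϑ := by field_simp
  have e3 : Λ * (l * ϑ) ≤ Λ * l := by
    have : Λ * (l * ϑ) = Λ * l * ϑ := by ring
    rw [this]
    exact mul_le_of_le_one_right (by positivity) hϑ1
  have e4 : Λ * l * ϑ ≤ Λ * l := mul_le_of_le_one_right (by positivity) hϑ1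
  refine h4.cast (fun _ _ => rfl) rfl ?_ ?_ rfl ?_ le_rfl
  · rw [← hld]
    nlinarith
  · intro p
    fin_cases p
    · change Λ * (1 + ϑ) + Λ * l * (ϑ / l) + 0 * (ϑ / l) ≤ 3 * Λ
      rw [e2]
      linarith
    · change Λ * (l * ϑ) + Λ * l * (1 + ϑ) + 0 * ϑ ≤ 3 * Λ * l
      linarith
    · change Λ * (l * ϑ) + Λ * l * ϑ + 0 * (1 + ϑ) ≤ 3 * Λ * l
      nlinarith [mul_pos (lt_of_lt_of_le one_pos hΛ) hl]
  · change Λ + (Λ * ϑ + Λ * l * (ϑ / l) + 0 * (ϑ / l)) ≤ 3 * Λ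
    rw [e2]
    linarith

/-- residual of `w` -/
theorem pk_resw (hX : ∀ V : PotT d, S2P R C₂ V.1 s t H (X V)) (i : Fin (N + 1)) (V : PotT d) :
    NB (mu3 V.1 (lev s t)) (fun p => p.2.1 + ∑ j, (-(H * qq t) * R.A i j) •
      oA V.1 s t (X V j p) - (X V i p).2.1) (C₂ * H ^ m * √d) := by
  refine ((hX V).w i).neg.congr fun p => ?_
  have : ∑ j, (-(H * qq t) * R.A i j) • oA V.1 s t (X V j p) =
      - ∑ j, (H * R.A i j * qq t) • oA V.1 s t (X V j p) := by
    rw [← Finset.sum_neg_distrib]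
    refine Finset.sum_congr rfl fun j _ => ?_
    rw [← neg_smul]
    congr 1
    ring
  rw [this]
  abel

/-- residual of `Y` -/
theorem pk_resY (hX : ∀ V : PotT d, S2P R C₂ V.1 s t H (X V)) (hs : 0 < s) (hs1 : s ≤ 1 / 4)
    (i : Fin (N + 1)) (V : PotT d) :
    NB (mu3 V.1 (lev s t)) (fun p => p.1 + ∑ j, (-(H * (rr s t * qq t)) * R.A i j) •
      oA V.1 s t (X V j p) - (X V i p).1) (C₂ * H ^ m * √d) := by
  have h0 := (hX V).w i
  refine ((h0.smul (-rr s t)).mono ?_).congr fun p => ?_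
  · rw [abs_neg]
    exact mul_le_of_le_one_left h0.nonneg (ssa_abs_rr_le hs hs1 t)
  · have h1 : (X V i p).1 = p.1 + rr s t • ((X V i p).2.1 - p.2.1) := by
      have := (hX V).cen i p
      rw [sub_eq_iff_eq_add] at this
      rw [this, smul_sub]
      abel
    have : ∑ j, (-(H * (rr s t * qq t)) * R.A i j) • oA V.1 s t (X V j p) =
        (-rr s t) • ∑ j, (H * R.A i j * qq t) • oA V.1 s t (X V j p) := by
      rw [Finset.smul_sum]
      refine Finset.sum_congr rfl fun j _ => ?_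
      rw [smul_smul]
      congr 1
      ring
    rw [this, h1, smul_add, neg_smul, neg_smul]
    abel

/-- residual of `z` -/
theorem pk_resz (hX : ∀ V : PotT d, S2P R C₂ V.1 s t H (X V)) (hs : 0 < s) (i : Fin (N + 1))
    (V : PotT d) :
    NB (mu3 V.1 (lev s t)) (fun p => p.2.2 + ∑ j, (H / √(lev s t) * R.A i j) •
      oG V.1 s t (X V j p) - (X V i p).2.2) (C₂ * H ^ m * √d) := by
  refine ((hX V).z i).neg.congr fun p => ?_
  have : ∑ j, (H / √(lev s t) * R.A i j) • oG V.1 s t (X V j p) =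
      ∑ j, (H * R.A i j * qq t) • GG (US V.1 (lev s t)) (rr s t) (X V j p).1 (X V j p).2.1 := by
    refine Finset.sum_congr rfl fun j _ => ?_
    rw [mul_smul (H * R.A i j), pk_oG hs, smul_smul]
    congr 1
    ring
  rw [this]
  abel

theorem pk_mA (hX : ∀ V : PotT d, S2P R C₂ V.1 s t H (X V)) (hs : 0 < s) (b : Fin (N + 1) → ℝ)
    (V : PotT d) : Measurable (fun p => ∑ j, b j • oA V.1 s t (X V j p)) :=
  Finset.measurable_fun_sum _ fun j _ => Measurable.fun_const_smul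
    ((pk_oA_cont V.2 hs t).measurable.comp ((hX V).mp j).measurable) _

theorem pk_mG (hX : ∀ V : PotT d, S2P R C₂ V.1 s t H (X V)) (hs : 0 < s) (b : Fin (N + 1) → ℝ)
    (V : PotT d) : Measurable (fun p => ∑ j, b j • oG V.1 s t (X V j p)) :=
  Finset.measurable_fun_sum _ fun j _ => Measurable.fun_const_smul
    ((pk_oG_cont V.2 hs t).measurable.comp ((hX V).mp j).measurable) _

theorem pk_step (hX : ∀ V : PotT d, S2P R C₂ V.1 s t H (X V)) (hs : 0 < s) (hs1 : s ≤ 1 / 4)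
    (hC₂ : 0 < C₂) (hH : 0 < H) (hε : 0 ≤ ε) (hΛ : 1 ≤ Λ) {S Sk : ℕ} (hSk : 1 ≤ Sk)
    (hag : AG d s t c' τ ε Λ S) {ϑ e : ℝ} (hϑ : ϑ = 4 * R.a0 * H * Λ) (hϑ1 : ϑ ≤ 1) (he : 0 ≤ e)
    (hc : c ^ 2 + (R.a0 * (H * τ)) ^ 2 ≤ c' ^ 2)
    (hp : PKS d s t c c' ϑ e X Sk) :
    PKS d s t c c' ϑ ((C₂ * H ^ m * √d) / √(lev s t) + R.a0 * H * ε + ϑ / 2 * e) X
      (1 + (N + 1) * (S * Sk + 2) + 5) := by
  classical
  have ha0 := R.a0_one
  have hϑ0 : 0 ≤ ϑ := by
    rw [hϑ]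
    have := lt_of_lt_of_le one_pos hΛ
    positivity
  have hl : 0 < √(lev s t) := Real.sqrt_pos.2 (ssa_lev_pos hs t)
  have hl1 := pk_l_le hs hs1 t
  have hA := pk_callA hX hs hε hΛ hSk hag.1 hp hϑ0 hϑ1 he
  have hG := pk_callG hX hs hε hΛ hSk hag.2 hp hϑ0 hϑ1 he
  have hrq := pk_rr_qq (s := s) t
  have hq0 := pk_qq_pos t
  have hq1 := pk_qq_le t
  set l := √(lev s t) with hld
  have hΛ0 := lt_of_lt_of_le one_pos hΛ
  have hres : 0 ≤ C₂ * H ^ m * √d := by positivity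
  have hcard : (Finset.univ : Finset (Fin (N + 1))).card = N + 1 := by simp
  have hL0 : ∀ p, 0 ≤ (![3 * Λ / l, 3 * Λ, 3 * Λ] : Fin 3 → ℝ) p := by
    intro p; fin_cases p <;> simp <;> positivity
  have hL1 : ∀ p, 0 ≤ (![3 * Λ, 3 * Λ * l, 3 * Λ * l] : Fin 3 → ℝ) p := by
    intro p; fin_cases p <;> simp <;> positivity
  have hk1 : R.a0 * H * (3 * Λ) ≤ ϑ := by
    rw [hϑ]
    nlinarith [mul_pos (mul_pos (lt_of_lt_of_le one_pos ha0) hH) hΛ0]
  intro i
  refine ⟨?_, ?_, ?_⟩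
  · have hb : ∑ j, |(-(H * (rr s t * qq t)) * R.A i j)| ≤ (H * l) * R.a0 :=
      R.a0_sum i (by
        rw [abs_neg, abs_mul, abs_of_pos hH]
        gcongr)
    have h1 := Has.plus Finset.univ (fun j => -(H * (rr s t * qq t)) * R.A i j)
      (τ' := c' * l) (Has.slot (zctx d s t c) 0) (fun j _ => hA j)
      le_rfl (by positivity) (by positivity) hL0 hb (pk_sq_sum _ _ hb) (by
        change (c * l) ^ 2 + _ ≤ _
        nlinarith [mul_le_mul_of_nonneg_right hc (sq_nonneg l)]) hres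
      (fun V => (measurable_fst.add (pk_mA hX hs _ V)).sub ((hX V).mp i).measurable.fst)
      (fun V => pk_resY hX hs hs1 i V)
    refine h1.cast (fun _ _ => rfl) rfl ?_ ?_ rfl ?_ ?_
    · have e1 : l * (C₂ * H ^ m * √↑d / l + R.a0 * H * ε + ϑ / 2 * e) =
          C₂ * H ^ m * √↑d + l * (R.a0 * H * ε + ϑ / 2 * e) := by
        field_simp
        ring
      rw [e1, hϑ]
      nlinarith
    · have e2 : H * l * R.a0 * (3 * Λ / l) = R.a0 * H * (3 * Λ) := by field_simp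
      have e3 : H * l * R.a0 * (3 * Λ) = l * (R.a0 * H * (3 * Λ)) := by ring
      have e4 := mul_le_mul_of_nonneg_left hk1 hl.le
      intro p
      fin_cases p
      · simp [e2]
        linarith
      · simp [e3]
        linarith
      · simp [e3]
        linarith
    · have e2 : H * l * R.a0 * (3 * Λ / l) = R.a0 * H * (3 * Λ) := by field_simp
      rw [e2]
      linarith
    · rw [hcard]
  · have hb : ∑ j, |(-(H * qq t) * R.A i j)| ≤ H * R.a0 :=
      R.a0_sum i (by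
        rw [abs_neg, abs_mul, abs_of_pos hH, abs_of_pos hq0]
        nlinarith)
    have h1 := Has.plus Finset.univ (fun j => -(H * qq t) * R.A i j)
      (τ' := c') (Has.slot (zctx d s t c) 1) (fun j _ => hA j)
      le_rfl (by positivity) (by positivity) hL0 hb (pk_sq_sum _ _ hb) (by
        change (c) ^ 2 + _ ≤ _
        nlinarith) hres
      (fun V => (measurable_snd.fst.add (pk_mA hX hs _ V)).sub ((hX V).mp i).measurable.snd.fst)
      (fun V => pk_resw hX i V)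
    refine h1.cast (fun _ _ => rfl) rfl ?_ ?_ rfl ?_ ?_
    · have e1 : C₂ * H ^ m * √↑d ≤ C₂ * H ^ m * √↑d / l := by
        rw [le_div_iff₀ hl]
        nlinarith
      rw [hϑ]
      nlinarith
    · have e2 : H * R.a0 * (3 * Λ / l) = R.a0 * H * (3 * Λ) / l := by ring
      have e3 : H * R.a0 * (3 * Λ) = (R.a0 * H * (3 * Λ)) := by ring
      have e4 := div_le_div_of_nonneg_right hk1 hl.le
      intro p
      fin_cases p
      · simp [e2]
        linarith
      · simp [e3]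
        linarith
      · simp [e3]
        linarith
    · have e2 : H * R.a0 * (3 * Λ / l) = R.a0 * H * (3 * Λ) / l := by ring
      have e4 := div_le_div_of_nonneg_right hk1 hl.le
      rw [e2]
      linarith
    · rw [hcard]
  · have hb : ∑ j, |(H / l * R.A i j)| ≤ (H / l) * R.a0 :=
      R.a0_sum i (by
        rw [abs_of_nonneg (by positivity)])
    have h1 := Has.plus Finset.univ (fun j => H / l * R.A i j)
      (τ' := c') (Has.slot (zctx d s t c) 2) (fun j _ => hG j)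
      le_rfl (by positivity) (by positivity) hL1 hb (pk_sq_sum _ _ hb) (by
        change (c) ^ 2 + _ ≤ _
        have : (H / l * R.a0) ^ 2 * (τ * l) ^ 2 = (R.a0 * (H * τ)) ^ 2 := by
          field_simp
        rw [this]
        exact hc) hres
      (fun V => (measurable_snd.snd.add (pk_mG hX hs _ V)).sub ((hX V).mp i).measurable.snd.snd)
      (fun V => pk_resz hX hs i V)
    refine h1.cast (fun _ _ => rfl) rfl ?_ ?_ rfl ?_ ?_
    · have e1 : C₂ * H ^ m * √↑d ≤ C₂ * H ^ m * √↑d / l := by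
        rw [le_div_iff₀ hl]
        nlinarith
      have e2 : H / l * R.a0 * ((ε + 2 * Λ * e) * l) = H * R.a0 * (ε + 2 * Λ * e) := by field_simp
      rw [hϑ, e2]
      nlinarith
    · have e2 : H / l * R.a0 * (3 * Λ) = R.a0 * H * (3 * Λ) / l := by ring
      have e3 : H / l * R.a0 * (3 * Λ * l) = (R.a0 * H * (3 * Λ)) := by field_simp
      have e4 := div_le_div_of_nonneg_right hk1 hl.le
      intro p
      fin_cases p
      · simp [e2]
        linarith
      · simp [e3]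
        linarith
      · simp [e3]
        linarith
    · have e2 : H / l * R.a0 * (3 * Λ) = R.a0 * H * (3 * Λ) / l := by ring
      have e4 := div_le_div_of_nonneg_right hk1 hl.le
      rw [e2]
      linarith
    · rw [hcard]

/-- static bounds in mean -/
theorem pk_static : ∃ C : ℝ, 0 < C ∧ ∀ (d : ℕ) (V : E d → ℝ) (s t : ℝ), Pot d V → 0 < s →
    s ≤ 1 / 4 → NB (mu3 V (lev s t)) (fun p => oA V s t p) (C * √d) ∧
      NB (mu3 V (lev s t)) (fun p => oG V s t p) (C * √d) ∧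
      NB (mu3 V (lev s t)) (fun p => fo V (lev s t) p.1) (C * √d) := by
  obtain ⟨C, hC, h⟩ := static_bound
  refine ⟨√C, Real.sqrt_pos.2 hC, fun d V s t hV hs hs1 => ?_⟩
  obtain ⟨⟨f1, f2⟩, ⟨a1, a2⟩, ⟨g1, g2⟩, -⟩ := h d V s t hV hs hs1
  have := ssa_mu3_prob hV (ssa_lev_pos hs t) (le_trans (ssa_lev_le hs t) hs1)
  rw [← Real.sqrt_mul hC.le]
  exact ⟨NB.of_sq (pk_oA_cont hV hs t).measurable a1 a2,
    NB.of_sq (pk_oG_cont hV hs t).measurable g1 g2,
    NB.of_sq (pk_fo_cont hV (ssa_lev_pos hs t)).measurable f1 f2⟩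

theorem pk_init (hX : ∀ V : PotT d, S2P R C₂ V.1 s t H (X V)) (hs : 0 < s) (hs1 : s ≤ 1 / 4)
    (hC₂ : 0 < C₂) (hm : 3 ≤ m) (hH : 0 < H) (hH1 : H ≤ 1) {ϑ Cs : ℝ} (hCs : 0 < Cs)
    (hst : ∀ V : PotT d, NB (mu3 V.1 (lev s t)) (fun p => oA V.1 s t p) (Cs * √d) ∧
      NB (mu3 V.1 (lev s t)) (fun p => oG V.1 s t p) (Cs * √d))
    (hϑ0 : 0 ≤ ϑ) (hc0 : 0 ≤ c) (hc : c ≤ c') :
    PKS d s t c c' ϑ ((C₂ + R.a0 * Cs) * H * √d / √(lev s t)) X 4 := by
  classical
  have ha0 := R.a0_one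
  have hl : 0 < √(lev s t) := Real.sqrt_pos.2 (ssa_lev_pos hs t)
  have hl1 := pk_l_le hs hs1 t
  have hrq := pk_rr_qq (s := s) t
  have hq0 := pk_qq_pos t
  have hq1 := pk_qq_le t
  set l := √(lev s t) with hld
  have hres : 0 ≤ C₂ * H ^ m * √d := by positivity
  have hHm : H ^ m ≤ H := by
    have := pow_le_pow_of_le_one hH.le hH1 (show 1 ≤ m by omega)
    simpa using this
  have hres1 : C₂ * H ^ m * √d ≤ C₂ * H * √d := by gcongr
  have e0 : 0 ≤ (C₂ + R.a0 * Cs) * H * √d / l := by positivity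
  have cA : ∀ (V : PotT d) j, NB (mu3 V.1 (lev s t)) (fun p => oA V.1 s t (X V j p)) (Cs * √d) :=
    fun V j => (hst V).1.comp ((hX V).mp j)
  have cG : ∀ (V : PotT d) j, NB (mu3 V.1 (lev s t)) (fun p => oG V.1 s t (X V j p)) (Cs * √d) :=
    fun V j => (hst V).2.comp ((hX V).mp j)
  have key : ∀ (V : PotT d) (b : Fin (N + 1) → ℝ) (B : ℝ) (q : Fin (N + 1) → Z3 d → E d),
      (∀ j, NB (mu3 V.1 (lev s t)) (q j) (Cs * √d)) → ∑ j, |b j| ≤ B →
      NB (mu3 V.1 (lev s t)) (fun p => ∑ j, b j • q j p) (B * (Cs * √d)) := by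
    intro V b B q hq hb
    refine (NB.sum Finset.univ fun j _ => (hq j).smul (b j)).mono ?_
    rw [← Finset.sum_mul]
    gcongr
  intro i
  refine ⟨?_, ?_, ?_⟩
  · have h1 := Has.slot (zctx d s t c) 0
    have h2 := Has.noise (τ' := c' * l) h1 (by
      change (c * l) ^ 2 ≤ (c' * l) ^ 2
      gcongr) le_rfl
    have hb : ∑ j, |(-(H * (rr s t * qq t)) * R.A i j)| ≤ (H * l) * R.a0 :=
      R.a0_sum i (by
        rw [abs_neg, abs_mul, abs_of_pos hH]
        gcongr)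
    have h3 := h2.approxN (q' := fun V p => (X V i p).1) (ε' := l * ((C₂ + R.a0 * Cs) * H * √d / l))
      (fun V => measurable_fst.sub ((hX V).mp i).measurable.fst) le_rfl (by positivity)
      (fun V => (((pk_resY hX hs hs1 i V).add (key V _ _ _ (cA V) hb).neg).mono (by
        have e1 : l * ((C₂ + R.a0 * Cs) * H * √d / l) = (C₂ + R.a0 * Cs) * H * √d := by
          field_simp
        rw [e1]
        have e2 : H * l * R.a0 * (Cs * √d) ≤ H * 1 * R.a0 * (Cs * √d) := by gcongr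
        nlinarith)).congr fun p => by
          change _ = p.1 - (X V i p).1
          abel)
    refine h3.cast (fun _ _ => rfl) rfl (by rw [zero_add]) ?_ rfl hϑ0 le_rfl
    intro p
    fin_cases p <;> simp <;> positivity
  · have h1 := Has.slot (zctx d s t c) 1
    have h2 := Has.noise (τ' := c') h1 (by
      change c ^ 2 ≤ c' ^ 2
      gcongr) le_rfl
    have hb : ∑ j, |(-(H * qq t) * R.A i j)| ≤ H * R.a0 :=
      R.a0_sum i (by
        rw [abs_neg, abs_mul, abs_of_pos hH, abs_of_pos hq0]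
        nlinarith)
    have h3 := h2.approxN (q' := fun V p => (X V i p).2.1) (ε' := (C₂ + R.a0 * Cs) * H * √d / l)
      (fun V => measurable_snd.fst.sub ((hX V).mp i).measurable.snd.fst) le_rfl (by positivity)
      (fun V => (((pk_resw hX i V).add (key V _ _ _ (cA V) hb).neg).mono (by
        have e1 : (C₂ + R.a0 * Cs) * H * √d ≤ (C₂ + R.a0 * Cs) * H * √d / l := by
          rw [le_div_iff₀ hl]
          exact mul_le_of_le_one_right (by positivity) hl1
        nlinarith)).congr fun p => by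
          change _ = p.2.1 - (X V i p).2.1
          abel)
    refine h3.cast (fun _ _ => rfl) rfl (by simp) ?_ rfl (by positivity) le_rfl
    intro p
    fin_cases p <;> simp <;> positivity
  · have h1 := Has.slot (zctx d s t c) 2
    have h2 := Has.noise (τ' := c') h1 (by
      change c ^ 2 ≤ c' ^ 2
      gcongr) le_rfl
    have hb : ∑ j, |(H / l * R.A i j)| ≤ (H / l) * R.a0 :=
      R.a0_sum i (by
        rw [abs_of_nonneg (by positivity)])
    have h3 := h2.approxN (q' := fun V p => (X V i p).2.2) (ε' := (C₂ + R.a0 * Cs) * H * √d / l)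
      (fun V => measurable_snd.snd.sub ((hX V).mp i).measurable.snd.snd) le_rfl (by positivity)
      (fun V => (((pk_resz hX hs i V).add (key V _ _ _ (cG V) hb).neg).mono (by
        have e1 : C₂ * H * √d ≤ C₂ * H * √d / l := by
          rw [le_div_iff₀ hl]
          exact mul_le_of_le_one_right (by positivity) hl1
        have e2 : H / l * R.a0 * (Cs * √d) + C₂ * H * √d / l = (C₂ + R.a0 * Cs) * H * √d / l := by
          ring
        linarith)).congr fun p => by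
          change _ = p.2.2 - (X V i p).2.2
          abel)
    refine h3.cast (fun _ _ => rfl) rfl (by simp) ?_ rfl (by positivity) le_rfl
    intro p
    fin_cases p <;> simp <;> positivity

end round

end P347Z
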