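import Vale.Agent.P347Z.PxG

/-!
Module PAC: codes for `oA` (`T z`) and `oG`.  `oA V s t (Y, w, z) = (√s')⁻¹ • oG V s' 0 (Y, z, w)` with
`s' = lev s t` (`lev s' 0 = s'`, `rr s' 0 = 0`, `rr' s' 0 = √s'`): apply `g_code` at `(s', 0)` and `Has.app` along
the swap `(Y, w, z) ↦ (Y, z, w)` (kinds `0 ↦ 0`, `1 ↦ 2`, `2 ↦ 1`), then `Has.smul`.
The levels of the oracles: `lev s (t + h) ≤ lev (lev s t) h` (`cosh t cosh h ≤ cosh (t + h)`).
-/

open MeasureTheory ProbabilityTheory Function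
open scoped ENNReal BigOperators

namespace P347Z

open P347Q P347S

private theorem pac_lev_zero (s : ℝ) : lev s 0 = s := by simp [lev]

private theorem pac_lev_pos {s t : ℝ} (hs : 0 < s) : 0 < lev s t := by
  unfold lev
  have := Real.cosh_pos t
  positivity

private theorem pac_lev_le {s t : ℝ} (hs : 0 < s) : lev s t ≤ s := by
  unfold lev
  have h1 := Real.one_le_cosh t
  rw [div_le_iff₀ (by positivity)]
  have : (1 : ℝ) ≤ Real.cosh t ^ 2 := one_le_pow₀ h1
  nlinarith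

private theorem pac_lev_lev {s t h : ℝ} (hs : 0 < s) (ht : 0 ≤ t) (hh : 0 ≤ h) :
    lev s (t + h) ≤ lev (lev s t) h := by
  unfold lev
  rw [div_div, ← mul_pow, Real.cosh_add]
  have h1 := Real.cosh_pos t
  have h2 := Real.cosh_pos h
  have h3 := Real.sinh_nonneg_iff.2 ht
  have h4 := Real.sinh_nonneg_iff.2 hh
  have h5 : 0 ≤ Real.sinh t * Real.sinh h := mul_nonneg h3 h4
  have h6 : 0 < Real.cosh t * Real.cosh h := mul_pos h1 h2
  exact div_le_div_of_nonneg_left hs.le (by positivity)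
    (pow_le_pow_left₀ h6.le (by linarith) 2)

private theorem pac_oA {d : ℕ} (V : E d → ℝ) (s t : ℝ) (hs : 0 < s) (p : Z3 d) :
    (√(lev s t))⁻¹ • oG V (lev s t) 0 (p.1, p.2.2, p.2.1) = oA V s t p := by
  have h1 : 0 < √(lev s t) := Real.sqrt_pos.2 (pac_lev_pos hs)
  unfold oG oA GG
  rw [pac_lev_zero]
  have h2 : rr (lev s t) 0 = 0 := by simp [rr]
  have h3 : rr' (lev s t) 0 = √(lev s t) := by simp [rr']
  rw [h2, h3, zero_smul, zero_smul, zero_add, sub_zero, smul_smul, inv_mul_cancel₀ h1.ne', one_smul]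

private theorem pac_mp {d : ℕ} {L : ℝ} (V : E d → ℝ) (hp : IsProbabilityMeasure (gibbs (US V L))) :
    MeasurePreserving (fun p : Z3 d => (p.1, p.2.2, p.2.1)) (mu3 V L) (mu3 V L) := by
  have h := (MeasurePreserving.id (gibbs (US V L))).prod
    (⟨measurable_swap, Measure.prod_swap (μ := stdGaussian (E d)) (ν := stdGaussian (E d))⟩ :
      MeasurePreserving (Prod.swap) ((stdGaussian (E d)).prod (stdGaussian (E d)))
        ((stdGaussian (E d)).prod (stdGaussian (E d))))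
  exact h

private theorem pac_single {ι : Type} [DecidableEq ι] (i r : ι) :
    (0 : ℝ) ≤ (Pi.single i 1 : ι → ℝ) r := by
  by_cases h : r = i
  · subst h
    rw [Pi.single_eq_same]
    exact zero_le_one
  · rw [Pi.single_eq_of_ne h]

private theorem pac_swap {d : ℕ} {s t c τ ε LY Lw : ℝ} {S : ℕ} (hs : 0 < s) (hs1 : s ≤ 1 / 4)
    (hε : 0 ≤ ε) (hg : GCode d (lev s t) 0 c τ ε LY Lw S) :
    ACode d s t c ((√(lev s t))⁻¹ * τ) ((√(lev s t))⁻¹ * ε) ((√(lev s t))⁻¹ * LY)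
      ((√(lev s t))⁻¹ * Lw) (S + 1) := by
  classical
  have hl0 : 0 < lev s t := pac_lev_pos hs
  have hl1 : lev s t ≤ 1 / 4 := (pac_lev_le hs).trans hs1
  have hr : 0 ≤ (√(lev s t))⁻¹ := by positivity
  unfold GCode at hg
  have hk : ∀ p : Fin 3, Has (zctx d s t c)
      (fun V x => (zctx d (lev s t) 0 c).cen p V (x.1, x.2.2, x.2.1))
      ((zctx d (lev s t) 0 c).sig p) 0
      ((![Pi.single 0 1, Pi.single 2 1, Pi.single 1 1] : Fin 3 → Fin 3 → ℝ) p)
      ((zctx d (lev s t) 0 c).sh p) 0 1 := by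
    intro p
    fin_cases p
    · refine (Has.slot (zctx d s t c) 0).congr (fun V x => rfl) ?_
      change c * √(lev s t) = c * √(lev (lev s t) 0)
      rw [pac_lev_zero]
    · exact Has.slot (zctx d s t c) 2
    · exact Has.slot (zctx d s t c) 1
  have h1 := Has.app (C := zctx d s t c) (C' := zctx d (lev s t) 0 c)
    (φ := fun _ x => (x.1, x.2.2, x.2.1)) (fun V => rfl) (fun V => by
      have hp := us_prob V.2 hl0 hl1
      have h2 := pac_mp V.1 hp
      change MeasurePreserving _ (mu3 V.1 (lev s t)) (mu3 V.1 (lev (lev s t) 0))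
      rw [pac_lev_zero]
      exact h2) hg
    (ε := fun _ => 0) (κ := fun _ => 0) hk hε (fun _ => le_rfl) (fun _ => le_rfl)
    (fun p r => by
      fin_cases p
      · exact pac_single 0 r
      · exact pac_single 2 r
      · exact pac_single 1 r) le_rfl
  have h3 := h1.smul (√(lev s t))⁻¹
  unfold ACode
  refine h3.cast (fun V x => pac_oA V.1 s t hs x) rfl ?_ (fun r => ?_) (by simp) ?_ (by simp)
  · rw [abs_of_nonneg hr]
    simp
  · rw [abs_of_nonneg hr, Fin.sum_univ_three]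
    fin_cases r
    · simp
    · simp
    · simp
  · rw [abs_of_nonneg hr]
    simp

theorem ag_code {m N : ℕ} (R : RS m N) (hm : 3 ≤ m) : ∃ (C : ℝ) (M : ℕ), 1 ≤ C ∧
    ∀ (K d : ℕ) (s t h c c' lam1 lamf del1 delf Lp kap : ℝ) (S : ℕ),
    0 < s → s ≤ 1 / 4 → 0 ≤ t → 0 < h → h ≤ 1 → 0 < c → 0 < c' → c' ≤ 1 →
    c ^ 2 + C * h ≤ c' ^ 2 → 0 < lam1 → s ≤ lamf → C * s ≤ 1 → 0 ≤ del1 → 0 ≤ delf →
    0 ≤ Lp → Lp ≤ 3 → 0 ≤ kap → kap ≤ 1 → 1 ≤ S →
    (∀ L, lev s (t + h) ≤ L → L ≤ lev s t → Orc d L c' lam1 del1 Lp kap S) →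
    (∀ L, lev s (t + h) ≤ L → L ≤ lev s t → Orc d L c' lamf delf Lp kap S) →
    AG d s t c (C / (h * lam1))
      (C / h * (del1 + s * delf + (h ^ (m - 1) + (C * s) ^ (K + 1)) / √(lev s t)) * √d)
      (C / h) ((M * S) ^ (K + 2)) := by
  obtain ⟨C, M, hC, H⟩ := g_code R hm
  refine ⟨C, M + 1, hC, ?_⟩
  intro K d s t h c c' lam1 lamf del1 delf Lp kap S hs hs1 ht hh hh1 hc hc' hc1 hcc hlam1 hlamf hCs
    hd1 hdf hL0 hL3 hk0 hk1 hS ho1 hof
  have hC0 : 0 < C := by linarith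
  have hl0 : 0 < lev s t := pac_lev_pos hs
  have hls : lev s t ≤ s := pac_lev_le hs
  have hsq : 0 < √(lev s t) := Real.sqrt_pos.2 hl0
  have hsize : (M * S) ^ (K + 2) + 1 ≤ ((M + 1) * S) ^ (K + 2) := by
    have h1 : (M * S) ^ (K + 2) < (M * S + 1) ^ (K + 2) :=
      Nat.pow_lt_pow_left (Nat.lt_succ_self _) (by omega)
    refine (Nat.succ_le_of_lt h1).trans (Nat.pow_le_pow_left ?_ _)
    rw [add_mul, one_mul]
    omega
  constructor
  · have hg := H K d (lev s t) 0 h c c' lam1 lamf del1 delf Lp kap S hl0 (hls.trans hs1) le_rfl hh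
      hh1 hc hc' hc1 hcc hlam1 (hls.trans hlamf) ((mul_le_mul_of_nonneg_left hls hC0.le).trans hCs)
      hd1 hdf hL0 hL3 hk0 hk1 hS
      (fun L h1 h2 => ho1 L ((pac_lev_lev hs ht hh.le).trans (by rwa [zero_add] at h1))
        (by rwa [pac_lev_zero] at h2))
      (fun L h1 h2 => hof L ((pac_lev_lev hs ht hh.le).trans (by rwa [zero_add] at h1))
        (by rwa [pac_lev_zero] at h2))
    rw [pac_lev_zero] at hg
    have ha := pac_swap hs hs1 (by positivity) hg
    unfold ACode at ha ⊢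
    have hdec : C / h * (del1 + lev s t * delf + (h ^ (m - 1) + (C * lev s t) ^ (K + 1)) /
        √(lev s t)) * √d ≤
        C / h * (del1 + s * delf + (h ^ (m - 1) + (C * s) ^ (K + 1)) / √(lev s t)) * √d := by
      gcongr
    refine ha.cast (fun _ _ => rfl) ?_ ?_ (fun r => ?_) rfl ?_ hsize
    · congr 1
      field_simp
    · refine le_trans (le_of_eq ?_) hdec
      field_simp
    · fin_cases r
      · change (√(lev s t))⁻¹ * (C / h) ≤ C / h / √(lev s t)
        apply le_of_eq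
        field_simp
      · exact le_rfl
      · change (√(lev s t))⁻¹ * (C / h * √(lev s t)) ≤ C / h
        apply le_of_eq
        field_simp
    · apply le_of_eq
      field_simp
  · have hg := H K d s t h c c' lam1 lamf del1 delf Lp kap S hs hs1 ht hh
      hh1 hc hc' hc1 hcc hlam1 hlamf hCs hd1 hdf hL0 hL3 hk0 hk1 hS ho1 hof
    unfold GCode at hg ⊢
    exact hg.mono le_rfl (fun _ => le_rfl) le_rfl (by omega)

end P347Z
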