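import Vale.Agent.P347Z.PxDefs

/-!
P347Z, program half: clock inequalities, measurability and first moments of the observables.
-/

open MeasureTheory ProbabilityTheory Function
open scoped ENNReal BigOperators ContDiff

namespace P347Z

open P347Q P347S

variable {d : ℕ} {V : E d → ℝ} {s t τ L : ℝ}

/-! ### clock -/

theorem px_cosh_pos (t : ℝ) : 0 < Real.cosh t := Real.cosh_pos t

theorem px_lev_pos (hs : 0 < s) (t : ℝ) : 0 < lev s t := ssa_lev_pos hs t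

theorem px_lev_le (hs : 0 < s) (t : ℝ) : lev s t ≤ s := ssa_lev_le hs t

theorem px_cosh_mono (ht : 0 ≤ t) (hτ : 0 ≤ τ) : Real.cosh t ≤ Real.cosh (t + τ) := by
  rw [Real.cosh_le_cosh, abs_of_nonneg ht, abs_of_nonneg (by linarith)]
  linarith

theorem px_lev_anti (hs : 0 < s) (ht : 0 ≤ t) (hτ : 0 ≤ τ) : lev s (t + τ) ≤ lev s t := by
  unfold lev
  have h1 := px_cosh_mono ht hτ
  have h2 := px_cosh_pos t
  gcongr

/-- `cosh (t + τ) ≤ e^τ cosh t` -/
theorem px_cosh_add (ht : 0 ≤ t) (hτ : 0 ≤ τ) :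
    Real.cosh (t + τ) ≤ Real.exp τ * Real.cosh t := by
  rw [Real.cosh_add]
  have h1 : Real.sinh t ≤ Real.cosh t := (Real.sinh_lt_cosh t).le
  have h2 : 0 ≤ Real.sinh τ := Real.sinh_nonneg_iff.2 hτ
  have h3 : Real.exp τ = Real.cosh τ + Real.sinh τ := (Real.cosh_add_sinh τ).symm
  rw [h3]
  nlinarith

theorem px_lev_lower (hs : 0 < s) (ht : 0 ≤ t) (hτ : 0 ≤ τ) :
    (1 - 2 * τ) * lev s t ≤ lev s (t + τ) := by
  unfold lev
  have h1 := px_cosh_add ht hτ
  have h2 := px_cosh_pos t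
  have h3 := px_cosh_pos (t + τ)
  have h4 : Real.cosh (t + τ) ^ 2 ≤ Real.exp (2 * τ) * Real.cosh t ^ 2 := by
    calc Real.cosh (t + τ) ^ 2 ≤ (Real.exp τ * Real.cosh t) ^ 2 := by gcongr
      _ = _ := by rw [mul_pow, ← Real.exp_nat_mul]; norm_num
  have h5 : 1 - 2 * τ ≤ Real.exp (-(2 * τ)) := by
    have := Real.add_one_le_exp (-(2 * τ))
    linarith
  calc (1 - 2 * τ) * (s / Real.cosh t ^ 2)
      ≤ Real.exp (-(2 * τ)) * (s / Real.cosh t ^ 2) := by gcongr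
    _ = s / (Real.exp (2 * τ) * Real.cosh t ^ 2) := by
        rw [Real.exp_neg]
        field_simp
    _ ≤ s / Real.cosh (t + τ) ^ 2 := by gcongr

/-- square root of the level -/
theorem px_sqrt_lev (s t : ℝ) : √(lev s t) = √s / Real.cosh t := by
  unfold lev
  rw [Real.sqrt_div' _ (sq_nonneg _), Real.sqrt_sq (px_cosh_pos t).le]

theorem px_rr_nonneg (s : ℝ) (ht : 0 ≤ t) : 0 ≤ rr s t := by
  unfold rr
  have : 0 ≤ Real.tanh t := by
    rw [Real.tanh_eq_sinh_div_cosh]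
    exact div_nonneg (Real.sinh_nonneg_iff.2 ht) (px_cosh_pos t).le
  positivity

theorem px_rr_le (s t : ℝ) : rr s t ≤ √s := by
  unfold rr
  have : Real.tanh t ≤ 1 := by
    rw [Real.tanh_eq_sinh_div_cosh, div_le_one (px_cosh_pos t)]
    exact (Real.sinh_lt_cosh t).le
  calc √s * Real.tanh t ≤ √s * 1 := by gcongr
    _ = _ := mul_one _

theorem px_rr'_nonneg (s t : ℝ) : 0 ≤ rr' s t := by
  unfold rr'
  positivity

theorem px_one_le_cosh_sq (t : ℝ) : 1 ≤ Real.cosh t ^ 2 := by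
  have := Real.one_le_cosh t
  nlinarith

theorem px_rr'_le (s t : ℝ) : rr' s t ≤ √s := by
  unfold rr'
  exact div_le_self (Real.sqrt_nonneg s) (px_one_le_cosh_sq t)

theorem px_rr'_le_lev (s t : ℝ) : rr' s t ≤ √(lev s t) := by
  rw [px_sqrt_lev]
  unfold rr'
  have h1 := Real.one_le_cosh t
  have h2 := px_cosh_pos t
  gcongr
  nlinarith

theorem px_rr'_anti (s : ℝ) (ht : 0 ≤ t) (hτ : 0 ≤ τ) : rr' s (t + τ) ≤ rr' s t := by
  unfold rr'
  have h1 := px_cosh_mono ht hτ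
  have h2 := px_cosh_pos t
  gcongr

theorem px_tanh_sub (t τ : ℝ) :
    Real.tanh (t + τ) - Real.tanh t = Real.sinh τ / (Real.cosh t * Real.cosh (t + τ)) := by
  have h2 := px_cosh_pos t
  have h3 := px_cosh_pos (t + τ)
  rw [Real.tanh_eq_sinh_div_cosh, Real.tanh_eq_sinh_div_cosh]
  rw [div_sub_div _ _ h3.ne' h2.ne', div_eq_div_iff (by positivity) (by positivity)]
  have h4 : Real.sinh (t + τ) * Real.cosh t - Real.cosh (t + τ) * Real.sinh t = Real.sinh τ := by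
    rw [Real.sinh_add, Real.cosh_add]
    have := Real.cosh_sq t
    linear_combination Real.sinh τ * this
  rw [h4]
  ring

/-- `sinh τ ≤ τ cosh τ` -/
theorem px_sinh_le (hτ : 0 ≤ τ) : Real.sinh τ ≤ τ * Real.cosh τ := by
  have h1 : Monotone fun x : ℝ => x * Real.cosh x - Real.sinh x := by
    have hd : ∀ x : ℝ, HasDerivAt (fun x : ℝ => x * Real.cosh x - Real.sinh x)
        (x * Real.sinh x) x := by
      intro x
      have h2 := ((hasDerivAt_id x).mul (Real.hasDerivAt_cosh x)).sub (Real.hasDerivAt_sinh x)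
      refine h2.congr_deriv ?_
      simp
    refine monotone_of_deriv_nonneg (fun x => (hd x).differentiableAt) fun x => ?_
    rw [(hd x).deriv]
    rcases le_total 0 x with h | h
    · exact mul_nonneg h (Real.sinh_nonneg_iff.2 h)
    · exact mul_nonneg_of_nonpos_of_nonpos h (Real.sinh_nonpos_iff.2 h)
  have h2 := h1 hτ
  simp only [zero_mul, Real.sinh_zero, sub_zero] at h2
  linarith

theorem px_rr_sub (hs : 0 ≤ s) (ht : 0 ≤ t) (hτ : 0 ≤ τ) :
    0 ≤ rr s (t + τ) - rr s t ∧ rr s (t + τ) - rr s t ≤ τ * rr' s t := by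
  have h0 : rr s (t + τ) - rr s t = √s * (Real.sinh τ / (Real.cosh t * Real.cosh (t + τ))) := by
    unfold rr
    rw [← mul_sub, px_tanh_sub]
  have h1 := px_cosh_pos t
  have h2 := px_cosh_pos (t + τ)
  have h3 : 0 ≤ Real.sinh τ := Real.sinh_nonneg_iff.2 hτ
  rw [h0]
  refine ⟨by positivity, ?_⟩
  unfold rr'
  have h4 : Real.cosh t * Real.cosh τ ≤ Real.cosh (t + τ) := by
    rw [Real.cosh_add]
    have := Real.sinh_nonneg_iff.2 ht
    nlinarith
  have h5 := px_sinh_le hτ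
  have h6 := px_cosh_pos τ
  calc √s * (Real.sinh τ / (Real.cosh t * Real.cosh (t + τ)))
      ≤ √s * (τ * Real.cosh τ / (Real.cosh t * (Real.cosh t * Real.cosh τ))) := by gcongr
    _ = τ * (√s / Real.cosh t ^ 2) := by field_simp

/-! ### measurability -/

theorem px_fo_cont (hV : Pot d V) (hL : 0 < L) : Continuous (fo V L) := by
  have h1 : ContinuousOn (fun p : ℝ × E d => fo V p.1 p.2) (Set.Ioi (0 : ℝ) ×ˢ Set.univ) :=
    (ssa_fo_smooth hV).continuousOn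
  have h2 : Continuous (fun y : E d => ((L, y) : ℝ × E d)) := by fun_prop
  have h3 := ContinuousOn.comp_continuous h1 h2
    (fun y => (⟨hL, trivial⟩ : ((L, y) : ℝ × E d) ∈ Set.Ioi (0 : ℝ) ×ˢ Set.univ))
  exact h3

theorem px_HV_cont (hV : Pot d V) (hL : 0 < L) :
    Continuous (fun p : E d × E d => HV (US V L) p.1 p.2) := by
  have h1 : ContinuousOn (fun p : ℝ × E d × E d => HV (US V p.1) p.2.1 p.2.2)
      (Set.Ioi (0 : ℝ) ×ˢ Set.univ) := (gf_HVj hV).continuousOn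
  have h2 : Continuous (fun p : E d × E d => ((L, p.1, p.2) : ℝ × E d × E d)) := by fun_prop
  have h3 := ContinuousOn.comp_continuous h1 h2
    (fun y => (⟨hL, trivial⟩ : ((L, y.1, y.2) : ℝ × E d × E d) ∈ Set.Ioi (0 : ℝ) ×ˢ Set.univ))
  exact h3

theorem px_LG_cont (hV : Pot d V) (hL : 0 < L) : Continuous (LG (US V L)) := by
  have h1 : ContinuousOn (fun p : ℝ × E d => LG (US V p.1) p.2)
      (Set.Ioi (0 : ℝ) ×ˢ Set.univ) := (gf_LG hV).continuousOn
  have h2 : Continuous (fun y : E d => ((L, y) : ℝ × E d)) := by fun_prop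
  have h3 := ContinuousOn.comp_continuous h1 h2
    (fun y => (⟨hL, trivial⟩ : ((L, y) : ℝ × E d) ∈ Set.Ioi (0 : ℝ) ×ˢ Set.univ))
  exact h3

theorem px_GG_cont (hV : Pot d V) (hL : 0 < L) (r : ℝ) :
    Continuous (fun p : E d × E d => GG (US V L) r p.1 p.2) := by
  have h1 := px_HV_cont hV hL
  have h2 := px_LG_cont hV hL
  have h3 : Continuous (gradient (US V L)) := px_fo_cont hV hL
  unfold GG
  have h4 : Continuous (fun p : E d × E d => (p.1, r • gradient (US V L) p.1 + p.2)) := by fun_prop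
  exact (h1.comp h4).sub ((h2.comp continuous_fst).const_smul r)

theorem px_oA_cont (hV : Pot d V) (hs : 0 < s) (t : ℝ) : Continuous (oA V s t) := by
  have h4 : Continuous (fun x : Z3 d => (x.1, x.2.2)) := by fun_prop
  have h5 : Continuous (fun x : Z3 d => HV (US V (lev s t)) x.1 x.2.2) :=
    (px_HV_cont hV (px_lev_pos hs t)).comp h4
  exact h5

theorem px_oG_cont (hV : Pot d V) (hs : 0 < s) (t : ℝ) : Continuous (oG V s t) := by
  have h4 : Continuous (fun x : Z3 d => (x.1, x.2.1)) := by fun_prop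
  have h5 : Continuous (fun x : Z3 d => GG (US V (lev s t)) (rr s t) x.1 x.2.1) :=
    (px_GG_cont hV (px_lev_pos hs t) (rr s t)).comp h4
  have h6 : Continuous (fun x : Z3 d => rr' s t • GG (US V (lev s t)) (rr s t) x.1 x.2.1) := by
    fun_prop
  exact h6

theorem px_oK_cont (hV : Pot d V) (hs : 0 < s) (t : ℝ) : Continuous (oK V s t) := by
  have h1 := px_HV_cont hV (px_lev_pos hs t)
  have h4 : Continuous (fun x : Z3 d => (x.1, x.2.2)) := by fun_prop
  have h5 : Continuous (fun x : Z3 d => (x.1, HV (US V (lev s t)) x.1 x.2.2)) :=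
    continuous_fst.prodMk (h1.comp h4)
  have h6 : Continuous (fun x : Z3 d =>
      HV (US V (lev s t)) x.1 (HV (US V (lev s t)) x.1 x.2.2)) := h1.comp h5
  have h7 : Continuous (fun x : Z3 d => (qq t * Real.tanh t) •
      HV (US V (lev s t)) x.1 (HV (US V (lev s t)) x.1 x.2.2)) := by fun_prop
  exact h7

/-! ### first moments -/

theorem px_mu3_prob (hV : Pot d V) (hL : 0 < L) (hL1 : L ≤ 1 / 4) :
    IsProbabilityMeasure (mu3 V L) := ssa_mu3_prob hV hL hL1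

/-- `L¹` from `L²` -/
theorem px_l1 {X : Type*} [MeasurableSpace X] {μ : Measure X} [IsProbabilityMeasure μ]
    {g : X → E d} (hm : AEStronglyMeasurable g μ) (h : Integrable (fun x => ‖g x‖ ^ 2) μ) {C : ℝ}
    (h2 : ∫ x, ‖g x‖ ^ 2 ∂μ ≤ C) :
    Integrable (fun x => ‖g x‖) μ ∧ ∫ x, ‖g x‖ ∂μ ≤ √C := by
  have h3 : MemLp g 2 μ := (memLp_two_iff_integrable_sq_norm hm).2 h
  have h4 : Integrable g μ := h3.integrable (by norm_num)
  refine ⟨h4.norm, ?_⟩
  apply Real.le_sqrt_of_sq_le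
  refine le_trans ?_ h2
  have h5 : ∀ x, 2 * (∫ x, ‖g x‖ ∂μ) * ‖g x‖ - (∫ x, ‖g x‖ ∂μ) ^ 2 ≤ ‖g x‖ ^ 2 := by
    intro x
    nlinarith [sq_nonneg (‖g x‖ - ∫ x, ‖g x‖ ∂μ)]
  have h6 : ∫ x, (2 * (∫ x, ‖g x‖ ∂μ) * ‖g x‖ - (∫ x, ‖g x‖ ∂μ) ^ 2) ∂μ ≤
      ∫ x, ‖g x‖ ^ 2 ∂μ := integral_mono ((h4.norm.const_mul (2 * (∫ x, ‖g x‖ ∂μ))).sub
    (integrable_const ((∫ x, ‖g x‖ ∂μ) ^ 2))) h h5
  rw [integral_sub (h4.norm.const_mul _) (integrable_const _), integral_const_mul] at h6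
  simp only [integral_const, probReal_univ, smul_eq_mul, one_mul] at h6
  nlinarith

/-- first moments of `f, oA, oG, oK` at stationarity -/
theorem px_static : ∃ C : ℝ, 1 ≤ C ∧ ∀ (d : ℕ) (V : E d → ℝ) (s t : ℝ), Pot d V → 0 < s →
    s ≤ 1 / 4 →
    (Integrable (fun x => ‖fo V (lev s t) x.1‖) (mu3 V (lev s t)) ∧
      ∫ x, ‖fo V (lev s t) x.1‖ ∂(mu3 V (lev s t)) ≤ C * √d) ∧
    (Integrable (fun x => ‖oA V s t x‖) (mu3 V (lev s t)) ∧
      ∫ x, ‖oA V s t x‖ ∂(mu3 V (lev s t)) ≤ C * √d) ∧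
    (Integrable (fun x => ‖oG V s t x‖) (mu3 V (lev s t)) ∧
      ∫ x, ‖oG V s t x‖ ∂(mu3 V (lev s t)) ≤ C * √d) ∧
    (Integrable (fun x => ‖oK V s t x‖) (mu3 V (lev s t)) ∧
      ∫ x, ‖oK V s t x‖ ∂(mu3 V (lev s t)) ≤ C * √d) := by
  obtain ⟨C, hC, h⟩ := static_bound
  refine ⟨max 1 √C, le_max_left _ _, fun d V s t hV hs hs1 => ?_⟩
  obtain ⟨⟨a1, a2⟩, ⟨b1, b2⟩, ⟨c1, c2⟩, ⟨e1, e2⟩⟩ := h d V s t hV hs hs1
  have hp := px_mu3_prob hV (px_lev_pos hs t) ((px_lev_le hs t).trans hs1)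
  have hfm : Continuous (fun x : Z3 d => fo V (lev s t) x.1) :=
    (px_fo_cont hV (px_lev_pos hs t)).comp continuous_fst
  have key : ∀ g : Z3 d → E d, Continuous g → Integrable (fun x => ‖g x‖ ^ 2) (mu3 V (lev s t)) →
      ∫ x, ‖g x‖ ^ 2 ∂(mu3 V (lev s t)) ≤ C * d → Integrable (fun x => ‖g x‖) (mu3 V (lev s t)) ∧
      ∫ x, ‖g x‖ ∂(mu3 V (lev s t)) ≤ max 1 √C * √d := by
    intro g hg h1 h2
    obtain ⟨j1, j2⟩ := px_l1 hg.aestronglyMeasurable h1 h2
    refine ⟨j1, j2.trans ?_⟩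
    rw [Real.sqrt_mul hC.le]
    gcongr
    exact le_max_right _ _
  exact ⟨key _ hfm a1 a2, key _ (px_oA_cont hV hs t) b1 b2, key _ (px_oG_cont hV hs t) c1 c2,
    key _ (px_oK_cont hV hs t) e1 e2⟩

/-- first moment of the force at stationarity -/
theorem px_fo_l1 : ∃ C : ℝ, 1 ≤ C ∧ ∀ (d : ℕ) (V : E d → ℝ) (L : ℝ), Pot d V → 0 < L →
    L ≤ 1 / 4 → Integrable (fun y => ‖fo V L y‖) (gibbs (US V L)) ∧
      ∫ y, ‖fo V L y‖ ∂(gibbs (US V L)) ≤ C * √d := by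
  obtain ⟨C, hC, h⟩ := px_static
  refine ⟨C, hC, fun d V L hV hL hL1 => ?_⟩
  obtain ⟨⟨a1, a2⟩, -⟩ := h d V L 0 hV hL hL1
  have e0 : lev L 0 = L := by simp [lev]
  rw [e0] at a1 a2
  have hp := us_prob hV hL hL1
  have e1 : gibbs (US V L) = (mu3 V L).map Prod.fst := (ssa_mu3_fst hV hL hL1).symm
  have hc : Continuous (fun y => ‖fo V L y‖) := (px_fo_cont hV hL).norm
  rw [e1]
  constructor
  · rw [integrable_map_measure hc.aestronglyMeasurable measurable_fst.aemeasurable]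
    exact a1
  · rw [integral_map measurable_fst.aemeasurable hc.aestronglyMeasurable]
    exact a2

end P347Z
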