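import Vale.Agent.P347Z.CodeW1
import Vale.Agent.P347Z.PB1

/-!
Module PB1: a smooth function of a Gaussian is absorbed by an independent Gaussian, in the Wasserstein distance.

With `F̃ = F - ∫ F`, `ψ u = ∫ φ (∫ F + u + τ z) γ(dz)`: `‖D²ψ‖_HS ≤ 1/τ` (for a 1-Lipschitz `φ`: Gaussian integration
by parts and Bessel), and `E ψ(F̃) - ψ 0 = (1/2) ∫_0^1 E tr (D²ψ(M_t) σ_t σ_tᵀ) dt` with `M_t(x) = E F̃ (x + √(1-t) z)`
at `x = √t g`, `σ_t = D M_t`, `‖σ_t σ_tᵀ‖_HS ≤ L² √d`.  (Or any other proof, for example the covariance identity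
`E⟨G, F̃⟩ = ∫_0^1 E tr (DG(g)ᵀ DF(g_u)) du` along the rotations of the Gaussian, with `G = ∇ψ(u F̃)`.)
It is enough to treat smooth `φ` (convolve `φ` with a small Gaussian).
-/

open MeasureTheory ProbabilityTheory Function
open scoped ENNReal BigOperators

namespace P347Z

open P347Q

theorem w1_absorb {d : ℕ} {F : E d → E d} (hF : ContDiff ℝ 1 F) {L τ : ℝ} (hL : 0 ≤ L)
    (hFL : ∀ x y, ‖F x - F y‖ ≤ L * ‖x - y‖) (hτ : 0 < τ) :
    W1le (((stdGaussian (E d)).prod (stdGaussian (E d))).map (fun p => τ • p.1 + F p.2))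
      (gau (∫ g, F g ∂(stdGaussian (E d))) τ) (ENNReal.ofReal (L ^ 2 * √d / τ)) := by
  intro φ hφ hC
  refine (w1_absorb62 hF hL hFL hτ φ hφ hC).trans (ENNReal.ofReal_le_ofReal ?_)
  have h : 0 ≤ L ^ 2 * √d / τ := by positivity
  have e : L ^ 2 * √d / (2 * τ) = (L ^ 2 * √d / τ) / 2 := by
    field_simp
  rw [e]
  linarith

end P347Z
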