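import Vale.Agent.P347Z.Defs
import Vale.Agent.P347Z.ULevel
import Vale.Agent.P347Z.BaseB

/-!
Module PB2: bias of the base oracle: `E_z ∇V(y + √s z)` against `f_s(y) = E_z[∇V(y+√s z) e^{-V(y+√s z)}] / E_z[...]`.
The posterior `ν_y ∝ e^{-V(y+√s z)} γ(dz)` is 1-strongly log-concave, `W2(γ, ν_y) ≤ √s ‖∇V(y + √s z)‖_{L²(γ)}`
(any coupling / covariance argument works: for example `d/du E_{ν_u} ∇V(y+√s z)` for `ν_u ∝ e^{-u V(y+√s z)} γ` is
minus a covariance under `ν_u`, bounded by Poincare: `|Cov_ν(G, V)| ≤ √s ‖DG‖_op ‖∇V‖_{L²(ν)} √s`-type bounds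
applied to `G = ⟨∇V(y+√s z), e⟩`, `e` a unit vector; see also `P347S/Bias.lean`, `P347S/LogConv.lean` (`grad_cmp`),
and the scaling remark in `ULevel`).  Then `E_{y ∼ π_s} ∫ ‖∇V(y+√s z)‖² ≤ C d`.
-/

open MeasureTheory ProbabilityTheory Function
open scoped ENNReal BigOperators

namespace P347Z

open P347Q P347S

theorem base_bias : ∃ C : ℝ, 0 < C ∧ ∀ (d : ℕ) (V : E d → ℝ) (s : ℝ), Pot d V → 0 < s →
    s ≤ 1 / 4 →
    Integrable (fun y => ‖(∫ z, gradient V (y + √s • z) ∂(stdGaussian (E d))) - fo V s y‖)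
      (gibbs (US V s)) ∧
    ∫ y, ‖(∫ z, gradient V (y + √s • z) ∂(stdGaussian (E d))) - fo V s y‖ ∂(gibbs (US V s)) ≤
      C * s * √d := by
  obtain ⟨C, hC, hmom⟩ := us_moment
  refine ⟨9 + 10 * √(2 * C), by positivity, ?_⟩
  intro d V s hV hs hs1
  have hp := us_prob hV hs hs1
  set m : E d → E d := fun y => ∫ z, gradient V (y + √s • z) ∂(stdGaussian (E d)) with hm
  have hmc : Continuous m := by
    have : LipschitzWith 2 m := LipschitzWith.of_dist_le_mul fun x y => by
      rw [dist_eq_norm, dist_eq_norm, hm]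
      simp only
      rw [← integral_sub (bb_int hV _ _) (bb_int hV _ _)]
      refine (norm_integral_le_of_norm_le_const (C := 2 * ‖x - y‖)
        (Filter.Eventually.of_forall fun z => ?_)).trans (by simp)
      refine (bb_lip hV _ _).trans (le_of_eq ?_)
      rw [add_sub_add_right_eq_sub]
    exact this.continuous
  have hfc : Continuous (fo V s) := by
    have : LipschitzWith 2 (fo V s) := LipschitzWith.of_dist_le_mul fun x y => by
      rw [dist_eq_norm, dist_eq_norm]
      exact us_grad_lip hV hs hs1 x y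
    exact this.continuous
  have hcont : Continuous (fun y => ‖m y - fo V s y‖) := (hmc.sub hfc).norm
  have hb : ∀ y, ‖m y - fo V s y‖ ≤ 9 * s * √s * √d + 10 * s * ‖y‖ := by
    intro y
    refine (bb_bias hV hs hs1 y).trans ?_
    have := bb_grad hV y
    nlinarith [norm_nonneg y]
  have hn2 : Integrable (fun y : E d => ‖y‖ ^ 2) (gibbs (US V s)) := by
    have hl := ul_lpot hV hs hs1
    refine hl.integrable (by norm_num) (by fun_prop) ⟨2, 1, fun x => ?_⟩
    rw [norm_pow, norm_norm, one_mul]
    exact pow_le_pow_left₀ (norm_nonneg _) (by linarith [norm_nonneg x]) 2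
  have hn : Integrable (fun y : E d => ‖y‖) (gibbs (US V s)) := by
    refine (hn2.add (integrable_const (1 : ℝ))).mono' (by fun_prop)
      (Filter.Eventually.of_forall fun y => ?_)
    simp only [Pi.add_apply, norm_norm]
    nlinarith [sq_nonneg (‖y‖ - 1), norm_nonneg y]
  have hi : Integrable (fun y => ‖m y - fo V s y‖) (gibbs (US V s)) := by
    refine ((integrable_const (9 * s * √s * √d)).add (hn.const_mul (10 * s))).mono'
      hcont.aestronglyMeasurable (Filter.Eventually.of_forall fun y => ?_)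
    rw [norm_norm]
    exact hb y
  refine ⟨hi, ?_⟩
  rcases Nat.eq_zero_or_pos d with hd | hd
  · subst hd
    have : ∀ y : E 0, ‖m y - fo V s y‖ = 0 := fun y => by
      rw [Subsingleton.elim (m y - fo V s y) 0, norm_zero]
    refine le_of_eq ?_
    rw [integral_congr_ae (Filter.Eventually.of_forall this)]
    simp
  · have h1 : ∫ y, ‖m y - fo V s y‖ ∂(gibbs (US V s)) ≤
        9 * s * √s * √d + 10 * s * ∫ y, ‖y‖ ∂(gibbs (US V s)) := by
      calc ∫ y, ‖m y - fo V s y‖ ∂(gibbs (US V s))
          ≤ ∫ y, (9 * s * √s * √d + 10 * s * ‖y‖) ∂(gibbs (US V s)) :=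
            integral_mono hi ((integrable_const _).add (hn.const_mul _)) hb
        _ = _ := by
            rw [integral_add (integrable_const _) (hn.const_mul _),
              integral_const_mul (10 * s) (fun y : E d => ‖y‖)]
            simp only [integral_const, probReal_univ, one_smul]
    have h2 : ∫ y, ‖y‖ ∂(gibbs (US V s)) ≤ √(2 * C) * √d := by
      have hd1 : (1 : ℝ) ≤ d := by exact_mod_cast hd
      have h3 := hmom d V s hV hs hs1
      have h4 : ∫ y, ‖y‖ ^ 2 ∂(gibbs (US V s)) ≤ 2 * C * d := by nlinarith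
      set M := √(2 * C) * √d with hM
      have hM0 : 0 < M := by positivity
      have hM2 : M ^ 2 = 2 * C * d := by
        rw [hM, mul_pow, Real.sq_sqrt (by positivity), Real.sq_sqrt (by positivity)]
      have h5 : ∫ y, ‖y‖ ∂(gibbs (US V s)) ≤ ∫ y, ((1 / (2 * M)) * ‖y‖ ^ 2 + M / 2) ∂(gibbs (US V s)) := by
        refine integral_mono hn ((hn2.const_mul _).add (integrable_const _)) fun y => ?_
        have h6 : 0 ≤ (‖y‖ - M) ^ 2 / (2 * M) := by positivity
        have h7 : (‖y‖ - M) ^ 2 / (2 * M) = (1 / (2 * M)) * ‖y‖ ^ 2 + M / 2 - ‖y‖ := by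
          field_simp
          ring
        simp only
        linarith
      rw [integral_add (hn2.const_mul _) (integrable_const _), integral_const_mul] at h5
      simp only [integral_const, probReal_univ, one_smul] at h5
      refine h5.trans ?_
      have h8 : (1 / (2 * M)) * ∫ y, ‖y‖ ^ 2 ∂(gibbs (US V s)) ≤ (1 / (2 * M)) * M ^ 2 :=
        mul_le_mul_of_nonneg_left (by rw [hM2]; exact h4) (by positivity)
      have h9 : (1 / (2 * M)) * M ^ 2 = M / 2 := by
        field_simp
      linarith
    refine h1.trans ?_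
    have h3 : √s ≤ 1 := by
      rw [Real.sqrt_le_one]
      linarith
    have h4 : 9 * s * √s * √d ≤ 9 * s * √d := by
      have : 0 ≤ s * √d := by positivity
      nlinarith
    have h5 : 10 * s * ∫ y, ‖y‖ ∂(gibbs (US V s)) ≤ 10 * s * (√(2 * C) * √d) :=
      mul_le_mul_of_nonneg_left h2 (by positivity)
    linarith

end P347Z
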