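import Vale.Agent.P347Z.PxDefs
import Vale.Agent.P347Z.PxB1
import Vale.Agent.P347Z.PxB2
import Vale.Agent.P347Z.BaseC

/-!
Module PB3: the base oracle (`Has.base`, `w1_absorb` with `F g = ∇V (y + √s g)`, `L = 2 √s`, `base_bias`).
-/

open MeasureTheory ProbabilityTheory Function
open scoped ENNReal BigOperators

namespace P347Z

open P347Q P347S

section b3

variable {d : ℕ} {V : E d → ℝ} {s : ℝ}

theorem b3_abs (hV : Pot d V) (x v w : E d) :
    |fderiv ℝ (fderiv ℝ V) x v w - 3 / 2 * inner ℝ v w| ≤ 1 / 2 * ‖v‖ * ‖w‖ := by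
  by_cases hv : v = 0
  · simp [hv]
  by_cases hw : w = 0
  · simp [hw]
  have hv' : 0 < ‖v‖ := norm_pos_iff.2 hv
  have hw' : 0 < ‖w‖ := norm_pos_iff.2 hw
  set B := fderiv ℝ (fderiv ℝ V) x with hB
  set a := ‖w‖ • v + ‖v‖ • w with ha
  set b := ‖w‖ • v - ‖v‖ • w with hb
  have hsB : B w v = B v w := hess_symm hV.smooth x w v
  have hpol : 4 * (‖v‖ * ‖w‖ * B v w) = B a a - B b b := by
    rw [ha, hb]
    simp only [map_add, map_sub, map_smul, add_apply, sub_apply, smul_apply, smul_eq_mul, hsB]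
    ring
  have hn1 : ‖a‖ ^ 2 = 2 * (‖v‖ * ‖w‖) ^ 2 + 2 * (‖v‖ * ‖w‖) * inner ℝ v w := by
    rw [ha, norm_add_sq_real, norm_smul, norm_smul, norm_norm, norm_norm, inner_smul_left,
      inner_smul_right]
    simp only [conj_trivial]
    ring
  have hn2 : ‖b‖ ^ 2 = 2 * (‖v‖ * ‖w‖) ^ 2 - 2 * (‖v‖ * ‖w‖) * inner ℝ v w := by
    rw [hb, norm_sub_sq_real, norm_smul, norm_smul, norm_norm, norm_norm, inner_smul_left,
      inner_smul_right]
    simp only [conj_trivial]
    ring
  have u1 := hV.upper x a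
  have u2 := hV.upper x b
  have l1 := hV.lower x a
  have l2 := hV.lower x b
  rw [← hB] at u1 u2 l1 l2
  have hr : 0 < ‖v‖ * ‖w‖ := by positivity
  set I := inner ℝ v w
  set t := ‖v‖ * ‖w‖ with ht
  have h1 : t * (B v w - 3 / 2 * I) ≤ t * (1 / 2 * t) := by nlinarith
  have h2 : t * (-(1 / 2 * t)) ≤ t * (B v w - 3 / 2 * I) := by nlinarith
  have h3 := le_of_mul_le_mul_left h1 hr
  have h4 := le_of_mul_le_mul_left h2 hr
  have h5 : 1 / 2 * ‖v‖ * ‖w‖ = 1 / 2 * t := by rw [ht]; ring
  rw [h5, abs_le]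
  exact ⟨h4, h3⟩

/-- the inner product as a bilinear form -/
noncomputable def b3I (d : ℕ) : E d →L[ℝ] E d →L[ℝ] ℝ := innerSL ℝ

theorem b3I_apply (v w : E d) : b3I d v w = inner ℝ v w := rfl

theorem b3_norm (hV : Pot d V) (x : E d) :
    ‖fderiv ℝ (fderiv ℝ V) x - (3 / 2 : ℝ) • b3I d‖ ≤ 1 / 2 := by
  refine ContinuousLinearMap.opNorm_le_bound _ (by norm_num) fun v => ?_
  refine ContinuousLinearMap.opNorm_le_bound _ (by positivity) fun w => ?_
  rw [Real.norm_eq_abs]
  exact b3_abs hV x v w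

theorem b3_shift (hV : Pot d V) (x e : E d) :
    ‖gradient V (x + e) - gradient V x - (3 / 2 : ℝ) • e‖ ≤ 1 / 2 * ‖e‖ := by
  have hd : Differentiable ℝ (fderiv ℝ V) :=
    (hV.smooth.fderiv_right (m := 1) (by norm_num)).differentiable (by norm_num)
  have h1 : ∀ z, HasFDerivAt (fun y => fderiv ℝ V y - (3 / 2 : ℝ) • b3I d y)
      (fderiv ℝ (fderiv ℝ V) z - (3 / 2 : ℝ) • b3I d) z := fun z =>
    (hd z).hasFDerivAt.sub ((b3I d).hasFDerivAt.const_smul (3 / 2 : ℝ))
  have h2 := Convex.norm_image_sub_le_of_norm_hasFDerivWithin_le (𝕜 := ℝ) (s := Set.univ)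
    (f := fun y => fderiv ℝ V y - (3 / 2 : ℝ) • b3I d y) (x := x) (y := x + e)
    (fun z _ => (h1 z).hasFDerivWithinAt) (fun z _ => b3_norm hV z) convex_univ
    (Set.mem_univ _) (Set.mem_univ _)
  rw [add_sub_cancel_left] at h2
  refine le_trans (le_of_eq ?_) h2
  have h3 : fderiv ℝ V (x + e) - (3 / 2 : ℝ) • b3I d (x + e) -
      (fderiv ℝ V x - (3 / 2 : ℝ) • b3I d x) =
      InnerProductSpace.toDual ℝ (E d) (gradient V (x + e) - gradient V x - (3 / 2 : ℝ) • e) := by
    ext w
    rw [InnerProductSpace.toDual_apply_apply, inner_sub_left, inner_sub_left, inner_gradient,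
      inner_gradient, inner_smul_left]
    simp only [sub_apply, smul_apply, b3I_apply, inner_add_left, smul_eq_mul,
      conj_trivial]
    ring
  rw [h3, LinearIsometryEquiv.norm_map]

end b3

theorem orc_base : ∃ C : ℝ, 1 ≤ C ∧ ∀ (d : ℕ) (s lam : ℝ), 0 < s → s ≤ 1 / 4 → 0 < lam →
    lam ≤ 1 → Orc d s 1 lam (C * (lam + √s)) 2 (1 / 2) 5 := by
  obtain ⟨C, hC, hb⟩ := base_bias
  refine ⟨4 + C, by linarith, fun d s lam hs hs1 hl hl1 => ?_⟩
  have hsq : 0 < √s := Real.sqrt_pos.2 hs
  have hss : √s * √s = s := Real.mul_self_sqrt hs.le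
  have hd : 0 ≤ √(d : ℝ) := Real.sqrt_nonneg _
  have hcont : ∀ W : PotT d, Continuous (gradient W.1) := fun W => by
    have : LipschitzWith 2 (gradient W.1) := LipschitzWith.of_dist_le_mul fun a b => by
      rw [dist_eq_norm, dist_eq_norm]
      exact bb_lip W.2 a b
    exact this.continuous
  have hm : ∀ W : PotT d, Continuous (fun y =>
      (∫ z, gradient W.1 (y + √s • z) ∂(stdGaussian (E d))) - fo W.1 s y) := by
    intro W
    have h1 : LipschitzWith 2 (fun y => ∫ z, gradient W.1 (y + √s • z) ∂(stdGaussian (E d))) :=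
      LipschitzWith.of_dist_le_mul fun a b => by
        rw [dist_eq_norm, dist_eq_norm, ← integral_sub (bb_int W.2 _ _) (bb_int W.2 _ _)]
        have h : ∀ z : E d, ‖gradient W.1 (a + √s • z) - gradient W.1 (b + √s • z)‖ ≤
            2 * ‖a - b‖ := by
          intro z
          refine (bb_lip W.2 _ _).trans (le_of_eq ?_)
          rw [add_sub_add_right_eq_sub]
        have h2 := norm_integral_le_of_norm_le_const (μ := stdGaussian (E d))
          (Filter.Eventually.of_forall h)
        simpa using h2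
    have h2 : LipschitzWith 2 (fo W.1 s) := LipschitzWith.of_dist_le_mul fun a b => by
      rw [dist_eq_norm, dist_eq_norm]
      exact ul_grad_lip W.2 hs hs1 a b
    exact h1.continuous.sub h2.continuous
  refine Has.base (octx d s 1) (√s / lam) (q := fun V y => fo V.1 s y)
    (err := fun V y => ENNReal.ofReal ((2 * √s) ^ 2 * √d / (√s / lam)) +
      ‖(∫ z, gradient V.1 (y + √s • z) ∂(stdGaussian (E d))) - fo V.1 s y‖ₑ)
    (fun W x y => bb_lip W.2 x y) (fun W x e => b3_shift W.2 x e) rfl ?_ ?_ ?_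
  · intro W
    exact measurable_const.add (hm W).measurable.enorm
  · intro W
    have hp := ul_prob W.2 hs hs1
    obtain ⟨hi, hle⟩ := hb d W.1 s W.2 hs hs1
    change ∫⁻ y, (ENNReal.ofReal ((2 * √s) ^ 2 * √d / (√s / lam)) +
      ‖(∫ z, gradient W.1 (y + √s • z) ∂(stdGaussian (E d))) - fo W.1 s y‖ₑ)
        ∂(gibbs (US W.1 s)) ≤ _
    rw [lintegral_add_left measurable_const, lintegral_const, measure_univ, mul_one]
    have h1 := ofReal_integral_eq_lintegral_ofReal hi
      (Filter.Eventually.of_forall fun x => norm_nonneg _)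
    have h2 : ∫⁻ y, ‖(∫ z, gradient W.1 (y + √s • z) ∂(stdGaussian (E d))) - fo W.1 s y‖ₑ
        ∂(gibbs (US W.1 s)) =
        ∫⁻ y, ENNReal.ofReal ‖(∫ z, gradient W.1 (y + √s • z) ∂(stdGaussian (E d))) -
          fo W.1 s y‖ ∂(gibbs (US W.1 s)) := by
      refine lintegral_congr fun x => ?_
      rw [ofReal_norm]
    rw [h2, ← h1, ← ENNReal.ofReal_add (by positivity)
      (integral_nonneg fun _ => norm_nonneg _)]
    refine ENNReal.ofReal_le_ofReal ?_
    have e1 : (2 * √s) ^ 2 * √d / (√s / lam) = 4 * lam * (√s * √d) := by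
      field_simp
      ring
    rw [e1]
    calc 4 * lam * (√s * √d) + ∫ y, ‖(∫ z, gradient W.1 (y + √s • z) ∂(stdGaussian (E d))) -
          fo W.1 s y‖ ∂(gibbs (US W.1 s)) ≤ 4 * lam * (√s * √d) + C * s * √d := by linarith
      _ = (4 * lam + C * √s) * (√s * √d) := by
          have : C * √s * (√s * √d) = C * s * √d := by
            rw [show C * √s * (√s * √d) = C * (√s * √s) * √d by ring, hss]
          linarith
      _ ≤ ((4 + C) * (lam + √s)) * (√s * √d) := by
          refine mul_le_mul_of_nonneg_right ?_ (by positivity)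
          nlinarith
  · intro W y
    have h1 := w1_absorb' (F := fun g => gradient W.1 (y + √s • g))
      ((hcont W).comp (by fun_prop)) (L := 2 * √s) (τ := √s / lam) (by positivity)
      (fun a b => by
        refine (bb_lip W.2 _ _).trans (le_of_eq ?_)
        rw [add_sub_add_left_eq_sub, ← smul_sub, norm_smul, Real.norm_of_nonneg hsq.le, mul_assoc])
      (by positivity)
    refine W1le.trans ?_ (W1le.gau (∫ g, gradient W.1 (y + √s • g) ∂(stdGaussian (E d)))
      (fo W.1 s y) (√s / lam))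
    have e : (fun p : E d × E d => (√s / lam) • p.1 + (octx d s 1).g W
        ((octx d s 1).cen () W y + (octx d s 1).sig () • p.2)) =
        fun p => (√s / lam) • p.1 + gradient W.1 (y + √s • p.2) := by
      funext p
      simp only [octx, one_mul]
    rw [e]
    exact h1

end P347Z
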