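import Vale.Agent.P347Z.CodeCtx

/-!
P347Z, program half: auxiliary rules and the conclusion of `s3_exists` as a definition (`S3P`).
-/

open MeasureTheory ProbabilityTheory Function
open scoped ENNReal BigOperators

namespace P347Z

open P347Q P347S

variable {d : ℕ} {Θ X P : Type} [MeasurableSpace X]

/-- replacing the target, with Bochner integrals -/
theorem Has.approxI {C : Inp d Θ X P} {q q' : Θ → X → E d} {τ ε ε' a κ : ℝ} {L : P → ℝ} {S : ℕ}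
    (h : Has C q τ ε L a κ S) (hm : ∀ θ, Measurable (fun x => q θ x - q' θ x)) (hε : 0 ≤ ε)
    (hi : ∀ θ, Integrable (fun x => ‖q θ x - q' θ x‖) (C.ρ θ))
    (hq : ∀ θ, ∫ x, ‖q θ x - q' θ x‖ ∂(C.ρ θ) ≤ ε') (hε' : 0 ≤ ε') :
    Has C q' τ (ε + ε') L a κ S := by
  refine h.approx hm hε hε' fun θ => ?_
  have h1 := ofReal_integral_eq_lintegral_ofReal (hi θ)
    (Filter.Eventually.of_forall fun x => norm_nonneg _)
  have h2 : ∫⁻ x, ‖q θ x - q' θ x‖ₑ ∂(C.ρ θ) =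
      ∫⁻ x, ENNReal.ofReal ‖q θ x - q' θ x‖ ∂(C.ρ θ) := by
    refine lintegral_congr fun x => ?_
    rw [ofReal_norm]
  rw [h2, ← h1]
  exact ENNReal.ofReal_le_ofReal (hq θ)

/-- weakening of an oracle -/
theorem Orc.mono {L c lam del del' Lp Lp' kap kap' : ℝ} {S S' : ℕ}
    (h : Orc d L c lam del Lp kap S) (hd : del ≤ del') (hL : Lp ≤ Lp') (hk : kap ≤ kap')
    (hS : S ≤ S') : Orc d L c lam del' Lp' kap' S' :=
  Has.mono h (mul_le_mul_of_nonneg_right hd (by positivity)) (fun _ => hL) hk hS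

/-- increasing the output noise of an oracle: a smaller ratio -/
theorem Orc.ratio {L c lam lam' del Lp kap : ℝ} {S : ℕ} (h : Orc d L c lam del Lp kap S)
    (h0 : 0 < lam') (h1 : lam' ≤ lam) (hd : 0 ≤ del) : Orc d L c lam' del Lp kap (S + 3) := by
  refine Has.noise h ?_ (by positivity)
  have h2 : 0 < lam := h0.trans_le h1
  rw [div_pow, div_pow]
  gcongr

/-- smaller slot noise -/
theorem Orc.width {L c c' lam del Lp kap : ℝ} {S : ℕ} (h : Orc d L c' lam del Lp kap S)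
    (hV : ∀ V : PotT d, IsProbabilityMeasure (gibbs (US V.1 L)))
    (hc : 0 ≤ c) (hc' : c ≤ c') (hd : 0 ≤ del) :
    Orc d L c lam del Lp kap (S * 4) := by
  classical
  have h1 := Has.slot (octx d L c) ()
  have h2 : Has (octx d L c) (fun _ y => y) (c' * √L) 0 (fun _ => 1) 1 0 4 := by
    have h3 := Has.noise (τ' := c' * √L) h1 (by
      change (c * √L) ^ 2 ≤ (c' * √L) ^ 2
      gcongr) le_rfl
    refine h3.cast (fun _ _ => rfl) rfl le_rfl (fun p => ?_) rfl le_rfl le_rfl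
    simp
  have h4 := Orc.call (C := octx d L c) (fun _ => rfl) h (φ := fun _ y => y)
    (fun V => MeasurePreserving.id _) h2 hd le_rfl le_rfl (fun _ => zero_le_one) (by norm_num)
  refine Has.cast h4 (fun _ _ => rfl) rfl (by simp) (fun _ => by simp) rfl (by simp) le_rfl

/-- the conclusion of `s3_exists` (with the constant `C`) -/
def S3P {m N : ℕ} (R : RS m N) (C : ℝ) {d : ℕ} (V : E d → ℝ) (s lam h : ℝ) (J : ℕ)
    (X : Fin J × Fin (N + 1) → Z3 d → Z3 d) (Xe : Z3 d → Z3 d) : Prop :=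
  (∀ b, MeasurePreserving (X b) (mu3 V s) (mu3 V (lev s (nt R h b)))) ∧
  MeasurePreserving Xe (mu3 V s) (mu3 V (lev s (J * h))) ∧
  (∀ b p, (X b p).1 - rr s (nt R h b) • (X b p).2.1 = p.1) ∧
  (∀ p, (Xe p).1 - rr s (J * h) • (Xe p).2.1 = p.1) ∧
  (∀ b, Integrable (fun p => ‖(X b p).2.1 - p.2.1 + ∑ c, (Wt R h b c * rr' s (nt R h c)) •
        fo V (lev s (nt R h c)) (X c p).1 + ∑ c, (Wt R h b c * (lam * qq (nt R h c) ^ 2)) •
        oA V s (nt R h c) (X c p)‖) (mu3 V s) ∧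
    ∫ p, ‖(X b p).2.1 - p.2.1 + ∑ c, (Wt R h b c * rr' s (nt R h c)) •
        fo V (lev s (nt R h c)) (X c p).1 + ∑ c, (Wt R h b c * (lam * qq (nt R h c) ^ 2)) •
        oA V s (nt R h c) (X c p)‖ ∂(mu3 V s) ≤ C * J * h ^ m * √d) ∧
  (∀ b, Integrable (fun p => ‖(X b p).2.2 - p.2.2 - ∑ c, (Wt R h b c * (lam * qq (nt R h c) ^ 2)) •
        GG (US V (lev s (nt R h c))) (rr s (nt R h c)) (X c p).1 (X c p).2.1‖) (mu3 V s) ∧
    ∫ p, ‖(X b p).2.2 - p.2.2 - ∑ c, (Wt R h b c * (lam * qq (nt R h c) ^ 2)) •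
        GG (US V (lev s (nt R h c))) (rr s (nt R h c)) (X c p).1 (X c p).2.1‖ ∂(mu3 V s) ≤
          C * J * h ^ m * √d) ∧
  (Integrable (fun p => ‖(Xe p).2.1 - p.2.1 + ∑ c, (h * R.w c.2 * rr' s (nt R h c)) •
        fo V (lev s (nt R h c)) (X c p).1 + ∑ c, (h * R.w c.2 * (lam * qq (nt R h c) ^ 2)) •
        oA V s (nt R h c) (X c p)‖) (mu3 V s) ∧
    ∫ p, ‖(Xe p).2.1 - p.2.1 + ∑ c, (h * R.w c.2 * rr' s (nt R h c)) •
        fo V (lev s (nt R h c)) (X c p).1 + ∑ c, (h * R.w c.2 * (lam * qq (nt R h c) ^ 2)) •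
        oA V s (nt R h c) (X c p)‖ ∂(mu3 V s) ≤ C * J * h ^ m * √d) ∧
  (Integrable (fun p => ‖√s • (Xe p).2.2 + lam • fo V s p.1 - √s • p.2.2 -
        lam • fo V (lev s (J * h)) (Xe p).1 -
        (lam * √s) • ∑ c, (h * R.w c.2 * (lam * qq (nt R h c))) •
        oK V s (nt R h c) (X c p)‖) (mu3 V s) ∧
    ∫ p, ‖√s • (Xe p).2.2 + lam • fo V s p.1 - √s • p.2.2 -
        lam • fo V (lev s (J * h)) (Xe p).1 -
        (lam * √s) • ∑ c, (h * R.w c.2 * (lam * qq (nt R h c))) •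
        oK V s (nt R h c) (X c p)‖ ∂(mu3 V s) ≤ C * J * h ^ m * √d) ∧
  (∀ y : E d, ((stdGaussian (E d)).prod (stdGaussian (E d))).map
      (fun p : E d × E d => (Xe (y, p.1, p.2)).2.2) = stdGaussian (E d))

theorem s3P {m N : ℕ} (R : RS m N) (hm : 3 ≤ m) : ∃ C : ℝ, 0 < C ∧
    ∀ (d : ℕ) (V : E d → ℝ) (s lam h : ℝ) (J : ℕ), Pot d V → 0 < s → s ≤ 1 / 4 → 0 ≤ lam → lam ≤ 1 →
    0 < h → h ≤ 1 →
    ∃ (X : Fin J × Fin (N + 1) → Z3 d → Z3 d) (Xe : Z3 d → Z3 d), S3P R C V s lam h J X Xe :=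
  s3_exists R hm

end P347Z
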