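import Vale.Agent.P347Z.PxDefs

/-!
Module PMF: the final code of the main path: with `τ₀ = √s / lam` the target `τ₀ z_e + f_s(y)` is, up to
`C₃ J h^m √d / lam`,
  `τ₀ z₀ + f(Y_e) + ∑ c, (h w_c lam q_c) • (√s oK (X_c))`
(last but one item of `S3P` divided by `lam`).  Slot of `z₀` (kind `1`, exactly known), `Orc.call` at the level
`lev s (J h)` on the code of `Y_e`, `zcall` of `KCode` on the codes of the nodes, `Has.lin`, `Has.shift0` for the
sum, `Has.add`, `Has.noise`, `Has.approxI`.  Noise: `lev s (J h) / lam2² ≤ s / (2 lam²)` and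
`∑ (h w_c lam q_c κ l_c)² ≤ C (J h) h lam² κ² s ≤ s / (2 lam²)`.
-/

open MeasureTheory ProbabilityTheory Function
open scoped ENNReal BigOperators ContDiff

namespace P347Z

open P347Q P347S

/-! ### auxiliary facts (module PMF) -/

section pmfaux

variable {m N : ℕ}

theorem pmf_w_sum (R : RS m N) (hm : 3 ≤ m) : ∑ j, R.w j = 1 := by
  have h := R.w_exact 0 (by omega)
  simpa using h

theorem pmf_w_le (R : RS m N) (hm : 3 ≤ m) (j : Fin (N + 1)) : R.w j ≤ 1 := by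
  rw [← pmf_w_sum R hm]
  exact Finset.single_le_sum (fun i _ => R.w_nonneg i) (Finset.mem_univ j)

theorem pmf_qq_pos (t : ℝ) : 0 < qq t := by
  unfold qq
  have := Real.cosh_pos t
  positivity

theorem pmf_qq_le (t : ℝ) : qq t ≤ 1 := by
  unfold qq
  rw [div_le_one (Real.cosh_pos t)]
  exact Real.one_le_cosh t

theorem pmf_rr_nonneg {s t : ℝ} (ht : 0 ≤ t) : 0 ≤ rr s t := by
  unfold rr
  rw [Real.tanh_eq_sinh_div_cosh]
  have h1 := Real.sinh_nonneg_iff.2 ht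
  have h2 := Real.cosh_pos t
  positivity

theorem pmf_rr_pos {s t : ℝ} (hs : 0 < s) (ht : 0 < t) : 0 < rr s t := by
  unfold rr
  rw [Real.tanh_eq_sinh_div_cosh]
  have h1 := Real.sinh_pos_iff.2 ht
  have h2 := Real.cosh_pos t
  positivity

theorem pmf_lev_anti {s t T : ℝ} (hs : 0 < s) (ht : 0 ≤ t) (h : t ≤ T) : lev s T ≤ lev s t := by
  unfold lev
  have h1 : Real.cosh t ≤ Real.cosh T := by
    rw [Real.cosh_le_cosh, abs_of_nonneg ht, abs_of_nonneg (ht.trans h)]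
    exact h
  have h2 := Real.cosh_pos t
  gcongr

theorem pmf_rr_mono {s t T : ℝ} (hs : 0 < s) (ht : 0 ≤ t) (h : t ≤ T) : rr s t ≤ rr s T := by
  have h1 := lev_rr hs t
  have h2 := lev_rr hs T
  have h3 := pmf_lev_anti hs ht h
  have h4 : rr s t ^ 2 ≤ rr s T ^ 2 := by linarith
  have h5 := pmf_rr_nonneg (s := s) ht
  have h6 := pmf_rr_nonneg (s := s) (ht.trans h)
  exact (pow_le_pow_iff_left₀ h5 h6 (by norm_num)).1 h4

theorem pmf_sqrt_lev {s t : ℝ} (hs : 0 < s) : √(lev s t) = √s / Real.cosh t := by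
  unfold lev
  rw [Real.sqrt_div hs.le, Real.sqrt_sq (Real.cosh_pos t).le]

theorem pmf_sqrt_lev_le {s t : ℝ} (hs : 0 < s) : √(lev s t) ≤ √s :=
  Real.sqrt_le_sqrt (ssa_lev_le hs t)

theorem pmf_noise1 {s T lam lam2 : ℝ} (hs : 0 < s) (hlam : 0 < lam)
    (hcosh : 2 * lam ≤ lam2 * Real.cosh T) : (√(lev s T) / lam2) ^ 2 ≤ s / lam ^ 2 / 4 := by
  have hch := Real.cosh_pos T
  rw [pmf_sqrt_lev hs, div_div, div_pow, Real.sq_sqrt hs.le, div_div]
  have h2 : lam ^ 2 * 4 ≤ (Real.cosh T * lam2) ^ 2 := by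
    have h3 : 2 * lam ≤ Real.cosh T * lam2 := by rw [mul_comm (Real.cosh T)]; exact hcosh
    have h4 : (2 * lam) ^ 2 ≤ (Real.cosh T * lam2) ^ 2 :=
      pow_le_pow_left₀ (by positivity) h3 2
    nlinarith
  gcongr

theorem pmf_noise2 {ι : Type} [Fintype ι] {bc lc : ι → ℝ} {s lam κ : ℝ} (hs : 0 < s)
    (hlam : 0 < lam) (hκ : 0 ≤ κ) (hl0 : ∀ c, 0 ≤ lc c) (hl1 : ∀ c, lc c ≤ √s)
    (hbsq : ∑ c, bc c ^ 2 ≤ lam ^ 2) (h9 : 2 * (lam ^ 2 * κ) ≤ 1) :
    ∑ c, (bc c * (κ * lc c)) ^ 2 ≤ s / lam ^ 2 / 4 := by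
  calc ∑ c, (bc c * (κ * lc c)) ^ 2 ≤ ∑ c, κ ^ 2 * s * bc c ^ 2 := by
        refine Finset.sum_le_sum fun c _ => ?_
        have h6 : lc c ^ 2 ≤ s := by
          have := pow_le_pow_left₀ (hl0 c) (hl1 c) 2
          rwa [Real.sq_sqrt hs.le] at this
        have h7 : (bc c * (κ * lc c)) ^ 2 = κ ^ 2 * bc c ^ 2 * lc c ^ 2 := by ring
        have h7' : κ ^ 2 * s * bc c ^ 2 = κ ^ 2 * bc c ^ 2 * s := by ring
        rw [h7, h7']
        exact mul_le_mul_of_nonneg_left h6 (by positivity)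
    _ = κ ^ 2 * s * ∑ c, bc c ^ 2 := by rw [Finset.mul_sum]
    _ ≤ κ ^ 2 * s * lam ^ 2 := by gcongr
    _ ≤ s / lam ^ 2 / 4 := by
        rw [div_div, le_div_iff₀ (by positivity)]
        have h10 : 0 ≤ lam ^ 2 * κ := by positivity
        have h11 : (lam ^ 2 * κ) ^ 2 * 4 ≤ 1 := by nlinarith
        calc κ ^ 2 * s * lam ^ 2 * (lam ^ 2 * 4) = s * ((lam ^ 2 * κ) ^ 2 * 4) := by ring
          _ ≤ s * 1 := by gcongr
          _ = s := mul_one s

theorem pmf_gen {ΛY Λw C₃ C₄ ϑ l q x : ℝ} (hΛY : 0 ≤ ΛY) (hΛw : 0 ≤ Λw) (hC₃ : 0 < C₃)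
    (hC₄ : 0 < C₄) (hϑ : 0 ≤ ϑ) (hϑ1 : ϑ ≤ 1) (hl : l / q ≤ 1) (hx : x ≤ 2) :
    ΛY * x + Λw * l * (C₄ / q) + Λw * l * (ϑ / q) ≤ (2 * C₃ + C₄ + 3) * (ΛY + Λw) := by
  have h1 : Λw * l * (C₄ / q) = Λw * C₄ * (l / q) := by ring
  have h2 : Λw * l * (ϑ / q) = Λw * ϑ * (l / q) := by ring
  have h3 : Λw * C₄ * (l / q) ≤ Λw * C₄ * 1 := mul_le_mul_of_nonneg_left hl (by positivity)
  have h4 : Λw * ϑ * (l / q) ≤ Λw * ϑ * 1 := mul_le_mul_of_nonneg_left hl (by positivity)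
  have h5 : Λw * ϑ ≤ Λw * 1 := mul_le_mul_of_nonneg_left hϑ1 hΛw
  have h6 : ΛY * x ≤ ΛY * 2 := mul_le_mul_of_nonneg_left hx hΛY
  rw [h1, h2]
  have h7 : 0 ≤ C₃ * (ΛY + Λw) := by positivity
  have h8 : 0 ≤ C₄ * ΛY := by positivity
  linarith

theorem pmf_gen2 {ΛY Λw C₃ C₄ ϑ l q : ℝ} (hΛY : 0 ≤ ΛY) (hΛw : 0 ≤ Λw) (hC₃ : 0 < C₃)
    (hC₄ : 0 < C₄) (hϑ : 0 ≤ ϑ) (hϑ1 : ϑ ≤ 1) (hl : l / q ≤ 1) :
    ΛY + (ΛY * ϑ + Λw * l * (ϑ / q) + Λw * l * (ϑ / q)) ≤ (2 * C₃ + C₄ + 3) * (ΛY + Λw) := by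
  have h2 : Λw * l * (ϑ / q) = Λw * ϑ * (l / q) := by ring
  have h4 : Λw * ϑ * (l / q) ≤ Λw * ϑ * 1 := mul_le_mul_of_nonneg_left hl (by positivity)
  have h5 : Λw * ϑ ≤ Λw * 1 := mul_le_mul_of_nonneg_left hϑ1 hΛw
  have h6 : ΛY * ϑ ≤ ΛY * 1 := mul_le_mul_of_nonneg_left hϑ1 hΛY
  rw [h2]
  have h7 : 0 ≤ C₃ * (ΛY + Λw) := by positivity
  have h8 : 0 ≤ C₄ * (ΛY + Λw) := by positivity
  linarith

theorem pmf_gen3 {ΛY Λw l q e ε : ℝ} (hΛY : 0 ≤ ΛY) (hΛw : 0 ≤ Λw) (he : 0 ≤ e) (hl : l ≤ q)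
    (hq : 0 ≤ q) :
    ε + (ΛY * (q * e) + Λw * l * e + Λw * l * e) ≤ ε + 2 * ((ΛY + Λw) * (q * e)) := by
  have h2 : Λw * l * e ≤ Λw * q * e := by gcongr
  have h3 : 0 ≤ ΛY * (q * e) := by positivity
  linarith

theorem pmf_err {C₃ C₄ a b c x y z : ℝ} (hC₃ : 0 < C₃) (hC₄ : 0 < C₄) (pa : 0 ≤ a) (pb : 0 ≤ b)
    (pc : 0 ≤ c) (px : 0 ≤ x) (py : 0 ≤ y) (hz : z ≤ x + 2 * y) :
    0 + (b + 3 * c) + z + C₃ * a ≤ (2 * C₃ + C₄ + 3) * (a + b + c + (x + y)) := by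
  have g1 : C₃ * a ≤ (2 * C₃ + C₄ + 3) * a := mul_le_mul_of_nonneg_right (by linarith) pa
  have g2 : 1 * b ≤ (2 * C₃ + C₄ + 3) * b := mul_le_mul_of_nonneg_right (by linarith) pb
  have g3 : 3 * c ≤ (2 * C₃ + C₄ + 3) * c := mul_le_mul_of_nonneg_right (by linarith) pc
  have g4 : 1 * x ≤ (2 * C₃ + C₄ + 3) * x := mul_le_mul_of_nonneg_right (by linarith) px
  have g5 : 2 * y ≤ (2 * C₃ + C₄ + 3) * y := mul_le_mul_of_nonneg_right (by linarith) py
  linarith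

variable {d : ℕ} {V : E d → ℝ} {s : ℝ}

theorem pmf_grad_smooth {U : E d → ℝ} (hU : ContDiff ℝ ∞ U) : ContDiff ℝ ∞ (gradient U) := by
  have h1 : gradient U = fun x => (InnerProductSpace.toDual ℝ (E d)).symm (fderiv ℝ U x) := rfl
  rw [h1]
  exact ((InnerProductSpace.toDual ℝ (E d)).symm.toContinuousLinearEquiv.contDiff).comp
    (hU.fderiv_right (by simp))

theorem pmf_HV_cont {U : E d → ℝ} (hU : ContDiff ℝ ∞ U) :
    Continuous (fun p : E d × E d => HV U p.1 p.2) := by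
  have h1 : Continuous (fderiv ℝ (gradient U)) :=
    (pmf_grad_smooth hU).continuous_fderiv (by simp)
  exact (h1.comp continuous_fst).clm_apply continuous_snd

theorem pmf_fo_meas (hV : Pot d V) {L : ℝ} (hL : 0 < L) : Measurable (fo V L) :=
  (pmf_grad_smooth (us_contDiff hV hL)).continuous.measurable

theorem pmf_oK_meas (hV : Pot d V) (hs : 0 < s) (t : ℝ) : Measurable (oK V s t) := by
  have h := pmf_HV_cont (us_contDiff hV (ssa_lev_pos hs t))
  have h1 : Continuous (fun x : Z3 d => HV (US V (lev s t)) x.1 x.2.2) :=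
    h.comp (continuous_fst.prodMk (continuous_snd.comp continuous_snd))
  have h2 : Continuous (fun x : Z3 d => HV (US V (lev s t)) x.1 (HV (US V (lev s t)) x.1 x.2.2)) :=
    h.comp (continuous_fst.prodMk h1)
  exact (h2.const_smul (qq t * Real.tanh t)).measurable

end pmfaux

set_option maxHeartbeats 1600000 in
theorem main_final {m N : ℕ} (R : RS m N) (hm : 3 ≤ m) {C₃ C₄ : ℝ} (hC₃ : 0 < C₃)
    (hC₄ : 0 < C₄) : ∃ (C : ℝ) (M : ℕ), 1 ≤ C ∧
    ∀ (J d : ℕ) (s lam h c₀ c₁ lam2 del2 κ εK ΛY Λw Lp kap ϑ Δ e : ℝ) (S S' : ℕ)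
      (X : PotT d → Fin J × Fin (N + 1) → Z3 d → Z3 d) (Xe : PotT d → Z3 d → Z3 d),
    (∀ V : PotT d, S3P R C₃ V.1 s lam h J (X V) (Xe V)) →
    0 < s → s ≤ 1 / 4 → 0 < lam → lam ≤ 1 → 0 < h → h ≤ 1 → 1 ≤ J → (J * h) * h ≤ 1 →
    0 < c₀ → 0 < c₁ → c₁ ≤ 1 → 0 < lam2 → 0 ≤ del2 → 0 ≤ κ → 0 ≤ εK → 0 ≤ ΛY → 0 ≤ Λw →
    2 * lam ≤ lam2 * Real.cosh (J * h) → C * lam ^ 2 * κ ≤ 1 → 0 ≤ ϑ → ϑ ≤ 1 → 0 ≤ e →
    0 ≤ Lp → Lp ≤ 3 → 0 ≤ kap → kap ≤ 1 → 1 ≤ S → 1 ≤ S' →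
    (∀ b : Fin J × Fin (N + 1), KCode d s (nt R h b) c₁ (κ * √(lev s (nt R h b))) εK ΛY
      (Λw * √(lev s (nt R h b))) (Λw * √(lev s (nt R h b))) S) →
    Orc d (lev s (J * h)) c₁ lam2 del2 Lp kap S →
    (∀ b : Fin J × Fin (N + 1),
      Has (mctx d s (rr s (J * h)) c₀) (fun V p => (X V b p).1)
        (c₁ * √(lev s (nt R h b))) (√s * e)
        ![rr s (nt R h b) / rr s (J * h) + ϑ, √s * ϑ,
          1 - rr s (nt R h b) / rr s (J * h) + ϑ] 1 ϑ S' ∧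
      Has (mctx d s (rr s (J * h)) c₀) (fun V p => (X V b p).2.1) c₁ e
        ![C₄ / √s, ϑ, C₄ / √s] 0 (ϑ / √s) S' ∧
      Has (mctx d s (rr s (J * h)) c₀) (fun V p => (X V b p).2.2) c₁ e
        ![ϑ / √s, 2, ϑ / √s] 0 (ϑ / √s) S') →
    Has (mctx d s (rr s (J * h)) c₀) (fun V p => (Xe V p).1)
      (c₁ * √(lev s (J * h))) (√s * e) ![1 + ϑ, √s * ϑ, ϑ] 1 ϑ S' →
    Δ = 3 * ϑ + C * lam * (J * h) * (ΛY + Λw) →
    ∃ L₁ : ℝ, Has (mctx d s (rr s (J * h)) c₀)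
      (fun V p => (√s / lam) • (Xe V p).2.2 + fo V.1 s p.1) (√s / lam)
      (C * (J * h ^ m * √d / lam + √s / Real.cosh (J * h) * del2 * √d + √s * e +
        lam * (J * h) * (εK + (ΛY + Λw) * (√s * e))))
      ![Lp + Δ, L₁, Δ] (3 / 2) (kap + Δ) (M * J * (S * S')) := by
  refine ⟨2 * C₃ + C₄ + 3, 3 * N + 12, by linarith, ?_⟩
  intro J d s lam h c₀ c₁ lam2 del2 κ εK ΛY Λw Lp kap ϑ Δ e S S' X Xe hS3 hs hs1 hlam hlam1 hh
    hh1 hJ hJh hc₀ hc₁ hc₁1 hlam2 hdel2 hκ hεK hΛY hΛw hcosh hCκ hϑ hϑ1 he hLp hLp3 hkap hkap1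
    hS hS' hK hO hX hXe hΔ
  set T : ℝ := J * h with hT
  have hJ' : (1 : ℝ) ≤ J := by exact_mod_cast hJ
  have hJp : (0 : ℝ) < J := by linarith
  have hTp : 0 < T := mul_pos hJp hh
  have hsq : 0 < √s := Real.sqrt_pos.2 hs
  have hch := Real.cosh_pos T
  set σ := rr s T with hσ
  have hσp : 0 < σ := pmf_rr_pos hs hTp
  set C := mctx d s σ c₀ with hC
  have hg : ∀ V : PotT d, C.g V = gradient V.1 := fun _ => rfl
  have hnt : ∀ b : Fin J × Fin (N + 1), 0 ≤ nt R h b ∧ nt R h b ≤ T := fun b =>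
    s3_nt_mem R hh b
  have hρ : ∀ b : Fin J × Fin (N + 1), 0 ≤ rr s (nt R h b) / σ ∧ rr s (nt R h b) / σ ≤ 1 := by
    intro b
    refine ⟨div_nonneg (pmf_rr_nonneg (hnt b).1) hσp.le, ?_⟩
    rw [div_le_one hσp]
    exact pmf_rr_mono hs (hnt b).1 (hnt b).2
  have hpow : 0 ≤ h ^ m := by positivity
  have hsd : 0 ≤ √(d : ℝ) := Real.sqrt_nonneg _
  -- the weights
  set bc : Fin J × Fin (N + 1) → ℝ := fun c => h * R.w c.2 * (lam * qq (nt R h c)) with hbc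
  have hb0 : ∀ c, 0 ≤ bc c := fun c => by
    have := R.w_nonneg c.2
    have := (pmf_qq_pos (nt R h c)).le
    positivity
  have hb1 : ∀ c, bc c ≤ h * lam * R.w c.2 := fun c => by
    have h1 := R.w_nonneg c.2
    have h2 := pmf_qq_le (nt R h c)
    have h3 : 0 ≤ h * R.w c.2 * lam := by positivity
    show h * R.w c.2 * (lam * qq (nt R h c)) ≤ _
    nlinarith
  have hbsum : ∑ c, bc c ≤ lam * T := by
    calc ∑ c, bc c ≤ ∑ c : Fin J × Fin (N + 1), h * lam * R.w c.2 :=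
          Finset.sum_le_sum fun c _ => hb1 c
      _ = lam * T := by
          rw [Fintype.sum_prod_type]
          simp only [← Finset.mul_sum, pmf_w_sum R hm, Finset.sum_const, Finset.card_univ,
            Fintype.card_fin, nsmul_eq_mul]
          rw [hT]
          ring
  have hbsq : ∑ c, bc c ^ 2 ≤ lam ^ 2 := by
    calc ∑ c, bc c ^ 2 ≤ ∑ c, h * lam * bc c := by
          refine Finset.sum_le_sum fun c _ => ?_
          have h1 : bc c ≤ h * lam := (hb1 c).trans (by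
            have := pmf_w_le R hm c.2
            have h3 : 0 ≤ h * lam := by positivity
            nlinarith)
          rw [sq]
          exact mul_le_mul_of_nonneg_right h1 (hb0 c)
      _ = h * lam * ∑ c, bc c := by rw [Finset.mul_sum]
      _ ≤ h * lam * (lam * T) := by gcongr
      _ = lam ^ 2 * (T * h) := by ring
      _ ≤ lam ^ 2 * 1 := by gcongr
      _ = lam ^ 2 := mul_one _
  -- the slot of `z₀`
  have hz0 := (Has.slot C (1 : Fin 3)).smul (√s / lam)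
  -- the force at `Y_e`
  have hmpe : ∀ V : PotT d, MeasurePreserving (fun p => (Xe V p).1) (C.ρ V)
      (gibbs (US V.1 (lev s T))) := by
    intro V
    have h1 := (hS3 V).2.1
    have h2 : MeasurePreserving (Prod.fst : Z3 d → E d) (mu3 V.1 (lev s T))
        (gibbs (US V.1 (lev s T))) :=
      ⟨measurable_fst, ssa_mu3_fst V.2 (ssa_lev_pos hs T) ((ssa_lev_le hs T).trans hs1)⟩
    exact h2.comp h1
  have hfo := Orc.call (C := C) hg hO (φ := fun V p => (Xe V p).1) hmpe hXe hdel2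
    (by positivity) hϑ (by
      intro p
      fin_cases p
      · show (0 : ℝ) ≤ 1 + ϑ
        linarith
      · show (0 : ℝ) ≤ √s * ϑ
        positivity
      · exact hϑ) hS'
  -- the codes of the sum
  set lc : Fin J × Fin (N + 1) → ℝ := fun c => √(lev s (nt R h c)) with hlc
  have hl0 : ∀ c, 0 ≤ lc c := fun c => Real.sqrt_nonneg _
  have hl1 : ∀ c, lc c ≤ √s := fun c => pmf_sqrt_lev_le hs
  have hcall : ∀ c ∈ (Finset.univ : Finset (Fin J × Fin (N + 1))),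
      Has C (fun V p => √s • oK V.1 s (nt R h c) (X V c p)) (κ * lc c)
        (εK + (ΛY * (√s * e) + Λw * lc c * e + Λw * lc c * e))
        (fun p => ΛY * ![rr s (nt R h c) / σ + ϑ, √s * ϑ, 1 - rr s (nt R h c) / σ + ϑ] p +
          Λw * lc c * ![C₄ / √s, ϑ, C₄ / √s] p + Λw * lc c * ![ϑ / √s, 2, ϑ / √s] p) 0
        (ΛY + (ΛY * ϑ + Λw * lc c * (ϑ / √s) + Λw * lc c * (ϑ / √s))) (S * S') := by
    intro c _
    have h1 := hρ c
    refine zcall (C := C) hg (hK c) (φ := fun V => X V c) (fun V => (hS3 V).1 c)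
      (hX c).1 (hX c).2.1 (hX c).2.2 hεK (by positivity) he he hϑ (by positivity)
      (by positivity) ?_ ?_ ?_ hS'
    · intro p
      fin_cases p
      · show (0 : ℝ) ≤ rr s (nt R h c) / σ + ϑ
        linarith
      · show (0 : ℝ) ≤ √s * ϑ
        positivity
      · show (0 : ℝ) ≤ 1 - rr s (nt R h c) / σ + ϑ
        linarith
    · intro p
      fin_cases p
      · show (0 : ℝ) ≤ C₄ / √s
        positivity
      · exact hϑ
      · show (0 : ℝ) ≤ C₄ / √s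
        positivity
    · intro p
      fin_cases p
      · show (0 : ℝ) ≤ ϑ / √s
        positivity
      · show (0 : ℝ) ≤ 2
        norm_num
      · show (0 : ℝ) ≤ ϑ / √s
        positivity
  have hlin := Has.lin (C := C) Finset.univ bc hcall (fun c _ => by
    have := hl0 c
    positivity)
  have hA := (hz0.add hfo (by simp) (by positivity)).add hlin (by
      have : (0 : ℝ) ≤ |√s / lam| * 0 := by simp
      positivity)
    (Finset.sum_nonneg fun c _ => by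
      have := hl0 c
      have := hb0 c
      positivity)
  have h2C : 2 * (lam ^ 2 * κ) ≤ 1 := by
    have h1 : 0 ≤ lam ^ 2 * κ := by positivity
    have h2 : 2 * (lam ^ 2 * κ) ≤ (2 * C₃ + C₄ + 3) * (lam ^ 2 * κ) :=
      mul_le_mul_of_nonneg_right (by linarith) h1
    linarith [hCκ]
  -- the noise
  have hnoise : √(√((√s / lam * C.sig 1) ^ 2 + (√(lev s T) / lam2) ^ 2) ^ 2 +
      √(∑ c, (bc c * (κ * lc c)) ^ 2) ^ 2) ^ 2 ≤ (√s / lam) ^ 2 := by
    have e0 : C.sig 1 = 0 := rfl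
    have hA0 : 0 ≤ ∑ c, (bc c * (κ * lc c)) ^ 2 := Finset.sum_nonneg fun c _ => sq_nonneg _
    rw [Real.sq_sqrt (by positivity), Real.sq_sqrt (by positivity), Real.sq_sqrt hA0, e0,
      mul_zero, zero_pow two_ne_zero, zero_add]
    have h1 := pmf_noise1 hs hlam hcosh
    have h5 := pmf_noise2 (bc := bc) (lc := lc) hs hlam hκ hl0 hl1 hbsq h2C
    have h12 : (√s / lam) ^ 2 = s / lam ^ 2 := by rw [div_pow, Real.sq_sqrt hs.le]
    rw [h12]
    have h13 : 0 ≤ s / lam ^ 2 := by positivity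
    linarith
  have hN := hA.noise hnoise (by
    have h1 : (0 : ℝ) ≤ |√s / lam| * 0 := by simp
    have h2 : 0 ≤ ∑ c, |bc c| * (εK + (ΛY * (√s * e) + Λw * lc c * e + Λw * lc c * e)) :=
      Finset.sum_nonneg fun c _ => by
        have := hl0 c
        positivity
    positivity)
  -- the target
  set Tg : PotT d → Z3 d → E d := fun V p => (√s / lam) • (Xe V p).2.2 + fo V.1 s p.1 with hTg
  set Ag : PotT d → Z3 d → E d := fun V p => (√s / lam) • C.cen 1 V p +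
    fo V.1 (lev s T) (Xe V p).1 + ∑ c, bc c • (√s • oK V.1 s (nt R h c) (X V c p)) with hAg
  have hdiff : ∀ V p, Ag V p - Tg V p = -(lam⁻¹ • (√s • (Xe V p).2.2 + lam • fo V.1 s p.1 -
      √s • p.2.2 - lam • fo V.1 (lev s T) (Xe V p).1 -
      (lam * √s) • ∑ c, bc c • oK V.1 s (nt R h c) (X V c p))) := by
    intro V p
    have h1 : ∑ c, bc c • (√s • oK V.1 s (nt R h c) (X V c p)) =
        √s • ∑ c, bc c • oK V.1 s (nt R h c) (X V c p) := by
      rw [Finset.smul_sum]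
      exact Finset.sum_congr rfl fun c _ => smul_comm _ _ _
    have h2 : C.cen 1 V p = p.2.2 := rfl
    show (√s / lam) • C.cen 1 V p + fo V.1 (lev s T) (Xe V p).1 +
      ∑ c, bc c • (√s • oK V.1 s (nt R h c) (X V c p)) -
        ((√s / lam) • (Xe V p).2.2 + fo V.1 s p.1) = _
    rw [h1, h2]
    match_scalars <;> field_simp
  have hnorm : ∀ V p, ‖Ag V p - Tg V p‖ = lam⁻¹ * ‖√s • (Xe V p).2.2 + lam • fo V.1 s p.1 -
      √s • p.2.2 - lam • fo V.1 (lev s T) (Xe V p).1 -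
      (lam * √s) • ∑ c, bc c • oK V.1 s (nt R h c) (X V c p)‖ := by
    intro V p
    rw [hdiff, norm_neg, norm_smul, Real.norm_of_nonneg (by positivity)]
  have hmeas : ∀ V, Measurable (fun p => Ag V p - Tg V p) := by
    intro V
    have m1 := (hS3 V).2.1.measurable
    have m2 : ∀ c, Measurable (X V c) := fun c => ((hS3 V).1 c).measurable
    have m3 := pmf_fo_meas V.2 (ssa_lev_pos hs T)
    have m4 := pmf_fo_meas V.2 hs
    have m5 : ∀ c, Measurable (fun p => bc c • (√s • oK V.1 s (nt R h c) (X V c p))) := fun c =>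
      (((pmf_oK_meas V.2 hs (nt R h c)).comp (m2 c)).const_smul (√s)).const_smul (bc c)
    have m6 : Measurable (fun p : Z3 d => C.cen 1 V p) := measurable_snd.comp measurable_snd
    have m7 : Measurable (fun p : Z3 d => (√s / lam) • C.cen 1 V p) := m6.const_smul (√s / lam)
    have m8 : Measurable (fun p : Z3 d => fo V.1 (lev s T) (Xe V p).1) :=
      m3.comp (measurable_fst.comp m1)
    have m9 : Measurable (fun p : Z3 d => (√s / lam) • (Xe V p).2.2) :=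
      (measurable_snd.comp (measurable_snd.comp m1)).const_smul (√s / lam)
    have m10 : Measurable (fun p : Z3 d => fo V.1 s p.1) := m4.comp measurable_fst
    exact ((m7.add m8).add (Finset.measurable_sum _ fun c _ => m5 c)).sub (m9.add m10)
  have hint := fun V : PotT d => (hS3 V).2.2.2.2.2.2.2.1
  have hF := hN.approxI (q' := Tg) (ε' := C₃ * J * h ^ m * √d / lam) hmeas (by
      have h1 : (0 : ℝ) ≤ |√s / lam| * 0 := by simp
      have h2 : 0 ≤ ∑ c, |bc c| * (εK + (ΛY * (√s * e) + Λw * lc c * e + Λw * lc c * e)) :=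
        Finset.sum_nonneg fun c _ => by
          have := hl0 c
          positivity
      positivity)
    (fun V => by
      refine (((hint V).1).const_mul lam⁻¹).congr (Filter.Eventually.of_forall fun p => ?_)
      exact (hnorm V p).symm)
    (fun V => by
      have h1 : ∫ p, ‖Ag V p - Tg V p‖ ∂(C.ρ V) = lam⁻¹ * ∫ p, ‖√s • (Xe V p).2.2 +
          lam • fo V.1 s p.1 - √s • p.2.2 - lam • fo V.1 (lev s T) (Xe V p).1 -
          (lam * √s) • ∑ c, bc c • oK V.1 s (nt R h c) (X V c p)‖ ∂(mu3 V.1 s) := by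
        rw [← integral_const_mul]
        exact integral_congr_ae (Filter.Eventually.of_forall fun p => hnorm V p)
      rw [h1, div_eq_inv_mul]
      exact mul_le_mul_of_nonneg_left (hint V).2 (by positivity)) (by positivity)
  -- the sums
  have hbb : ∀ c, |bc c| = bc c := fun c => abs_of_nonneg (hb0 c)
  have hDel : 0 ≤ lam * T * (ΛY + Λw) := by positivity
  have hsum : ∀ (F : Fin J × Fin (N + 1) → ℝ) (B : ℝ), (∀ c, F c ≤ B) → 0 ≤ B →
      ∑ c, |bc c| * F c ≤ lam * T * B := by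
    intro F B hF hB
    calc ∑ c, |bc c| * F c ≤ ∑ c, bc c * B := by
          refine Finset.sum_le_sum fun c _ => ?_
          rw [hbb c]
          exact mul_le_mul_of_nonneg_left (hF c) (hb0 c)
      _ = (∑ c, bc c) * B := by rw [Finset.sum_mul]
      _ ≤ lam * T * B := by gcongr
  have hls : ∀ c, lc c / √s ≤ 1 := fun c => by
    rw [div_le_one hsq]
    exact hl1 c
  refine ⟨_, hF.cast (fun _ _ => rfl) rfl ?_ (L' := ![Lp + Δ, |√s / lam| *
    (Pi.single (1 : Fin 3) (1 : ℝ) : Fin 3 → ℝ) 1 + Lp * ![1 + ϑ, √s * ϑ, ϑ] 1 +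
      ∑ c, |bc c| * (ΛY * ![rr s (nt R h c) / σ + ϑ, √s * ϑ, 1 - rr s (nt R h c) / σ + ϑ] 1 +
          Λw * lc c * ![C₄ / √s, ϑ, C₄ / √s] 1 + Λw * lc c * ![ϑ / √s, 2, ϑ / √s] 1), Δ]) ?_ ?_ ?_ ?_⟩
  · -- error
    have h1 : ∑ c, |bc c| * (εK + (ΛY * (√s * e) + Λw * lc c * e + Λw * lc c * e)) ≤
        lam * T * (εK + 2 * ((ΛY + Λw) * (√s * e))) :=
      hsum _ _ (fun c => pmf_gen3 hΛY hΛw he (hl1 c) hsq.le) (by positivity)
    have h5 : Lp * (√s * e) ≤ 3 * (√s * e) := by gcongr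
    have h6 : C₃ * J * h ^ m * √d / lam = C₃ * (J * h ^ m * √d / lam) := by ring
    have h7 : del2 * (√(lev s T) * √d) = √s / Real.cosh T * del2 * √d := by
      rw [pmf_sqrt_lev hs]
      ring
    have h9 : lam * T * (εK + 2 * ((ΛY + Λw) * (√s * e))) =
        lam * T * εK + 2 * (lam * T * ((ΛY + Λw) * (√s * e))) := by ring
    rw [h9] at h1
    have h10 : lam * T * (εK + (ΛY + Λw) * (√s * e)) =
        lam * T * εK + lam * T * ((ΛY + Λw) * (√s * e)) := by ring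
    have h11 := pmf_err (z := ∑ c, |bc c| * (εK + (ΛY * (√s * e) + Λw * lc c * e +
        Λw * lc c * e))) (a := J * h ^ m * √d / lam) (b := √s / Real.cosh T * del2 * √d)
        (c := √s * e) (x := lam * T * εK) (y := lam * T * ((ΛY + Λw) * (√s * e))) hC₃ hC₄
        (by positivity) (by positivity) (by positivity) (by positivity) (by positivity) h1
    rw [h10, h6, h7, mul_zero]
    refine le_trans ?_ h11
    exact add_le_add (add_le_add (add_le_add le_rfl (add_le_add le_rfl h5)) le_rfl) le_rfl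
  · -- Lipschitz constants
    intro p
    fin_cases p
    · show |√s / lam| * (Pi.single (1 : Fin 3) (1 : ℝ) : Fin 3 → ℝ) 0 + Lp * (1 + ϑ) +
        ∑ c, |bc c| * (ΛY * (rr s (nt R h c) / σ + ϑ) + Λw * lc c * (C₄ / √s) +
          Λw * lc c * (ϑ / √s)) ≤ Lp + Δ
      have h1 : (Pi.single (1 : Fin 3) (1 : ℝ) : Fin 3 → ℝ) 0 = 0 := by simp
      have h2 := hsum (fun c => ΛY * (rr s (nt R h c) / σ + ϑ) + Λw * lc c * (C₄ / √s) +
          Λw * lc c * (ϑ / √s)) ((2 * C₃ + C₄ + 3) * (ΛY + Λw)) (fun c =>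
            pmf_gen hΛY hΛw hC₃ hC₄ hϑ hϑ1 (hls c) (by linarith [(hρ c).2])) (by positivity)
      rw [h1, mul_zero, zero_add, hΔ]
      have h3 : Lp * ϑ ≤ 3 * ϑ := by gcongr
      have h4 : lam * T * ((2 * C₃ + C₄ + 3) * (ΛY + Λw)) =
          (2 * C₃ + C₄ + 3) * lam * T * (ΛY + Λw) := by ring
      rw [h4] at h2
      linarith
    · exact le_rfl
    · show |√s / lam| * (Pi.single (1 : Fin 3) (1 : ℝ) : Fin 3 → ℝ) 2 + Lp * ϑ +
        ∑ c, |bc c| * (ΛY * (1 - rr s (nt R h c) / σ + ϑ) + Λw * lc c * (C₄ / √s) +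
          Λw * lc c * (ϑ / √s)) ≤ Δ
      have h1 : (Pi.single (1 : Fin 3) (1 : ℝ) : Fin 3 → ℝ) 2 = 0 := by simp
      have h2 := hsum (fun c => ΛY * (1 - rr s (nt R h c) / σ + ϑ) + Λw * lc c * (C₄ / √s) +
          Λw * lc c * (ϑ / √s)) ((2 * C₃ + C₄ + 3) * (ΛY + Λw)) (fun c =>
            pmf_gen hΛY hΛw hC₃ hC₄ hϑ hϑ1 (hls c) (by linarith [(hρ c).1])) (by positivity)
      rw [h1, mul_zero, zero_add, hΔ]
      have h3 : Lp * ϑ ≤ 3 * ϑ := by gcongr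
      have h4 : lam * T * ((2 * C₃ + C₄ + 3) * (ΛY + Λw)) =
          (2 * C₃ + C₄ + 3) * lam * T * (ΛY + Λw) := by ring
      rw [h4] at h2
      linarith
  · -- shift
    have e0 : C.sh 1 = 0 := rfl
    simp [e0]
  · -- shift error
    have h1 : ∑ c, |bc c| * (ΛY + (ΛY * ϑ + Λw * lc c * (ϑ / √s) + Λw * lc c * (ϑ / √s))) ≤
        lam * T * ((2 * C₃ + C₄ + 3) * (ΛY + Λw)) := by
      exact hsum _ _ (fun c => pmf_gen2 hΛY hΛw hC₃ hC₄ hϑ hϑ1 (hls c)) (by positivity)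
    have h3 : Lp * ϑ ≤ 3 * ϑ := by gcongr
    have h4 : lam * T * ((2 * C₃ + C₄ + 3) * (ΛY + Λw)) =
        (2 * C₃ + C₄ + 3) * lam * T * (ΛY + Λw) := by ring
    rw [h4] at h1
    rw [hΔ, mul_zero]
    linarith
  · -- size
    have h1 : 1 ≤ S * S' := Nat.one_le_iff_ne_zero.2 (by positivity)
    have h2 : (Finset.univ : Finset (Fin J × Fin (N + 1))).card = J * (N + 1) := by
      simp
    rw [h2]
    have h3 : S * S' ≤ J * (S * S') := Nat.le_mul_of_pos_left _ (by omega)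
    have h4 : J * (N + 1) * (S * S' + 2) ≤ (3 * N + 3) * (J * (S * S')) := by
      have : S * S' + 2 ≤ 3 * (S * S') := by omega
      calc J * (N + 1) * (S * S' + 2) ≤ J * (N + 1) * (3 * (S * S')) := by gcongr
        _ = (3 * N + 3) * (J * (S * S')) := by ring
    have h5 : (3 * N + 12) * J * (S * S') = (3 * N + 3) * (J * (S * S')) + 9 * (J * (S * S')) := by
      ring
    rw [h5]
    have h6 : 1 ≤ J * (S * S') := h1.trans h3
    omega

end P347Z
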