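import Vale.Agent.P347Z.PxAux

/-!
Module PGC: codes for `oG` at the clock time `t` (`s1_exists`), by Picard iteration on codes.

Fix `x V i : Z3 d → E d` from `s1_exists` (position of the free path at the time `t + h t_i`).  Round 0: the code
for `x i` is the linear combination `Y + (rr s (t + h t_i) - rr s t) w` of a `Y` slot and a `w` slot, topped up
(`Has.noise`) to the noise `c' √(lev s (t + h t_i))`; target replaced by `x i` (`Has.approxI`), error
`≤ C (h^m + s) √d` (`us_grad_sq` and stationarity).  Round `k+1`: the same combination plus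
`∑ j, (-(rr s (t + h t_i) * h * A i j * rr' s (t + h t_j))) • (oracle lamf at x j)` (`Orc.call`, `Has.lin`, and
`Has.shift0` for this small part, so that the shift coefficient of the code of `x i` is exactly `1`).
Errors `e_{k+1} ≤ C h^m √d + C s h (√(lev s t) delf √d + 3 e_k)`.  Noise: `(rr s (t+h t_i) - rr s t)² ≤ h² lev s t`,
`lev s (t + h) ≥ (1 - 2 h) lev s t`, `rr s · rr' s ≤ s`.  Output: `h⁻¹ ∑ j, D j • (oracle lam1 at x j)`, then
`Has.shift0`.
-/

open MeasureTheory ProbabilityTheory Function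
open scoped ENNReal BigOperators

namespace P347Z

open P347Q P347S

section pgc

variable {m N : ℕ} (R : RS m N) {d : ℕ} {s t h c c' : ℝ}

/-- the known part of the position at the node `i`: `Y + (r_i - r_0) w` -/
noncomputable def gcB (s t h : ℝ) (R : RS m N) (i : Fin (N + 1)) (p : Z3 d) : E d :=
  p.1 + (rr s (t + h * R.t i) - rr s t) • p.2.1

/-- weights of the forces -/
noncomputable def gcW (s t h : ℝ) (R : RS m N) (i j : Fin (N + 1)) : ℝ :=
  -(rr s (t + h * R.t i) * (h * R.A i j * rr' s (t + h * R.t j)))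

theorem gc_node (hh : 0 < h) (i : Fin (N + 1)) : 0 ≤ h * R.t i :=
  mul_nonneg hh.le (R.t_mem i).1

theorem gc_node_le (hh : 0 < h) (i : Fin (N + 1)) : h * R.t i ≤ h :=
  mul_le_of_le_one_right hh.le (R.t_mem i).2

theorem gc_W_abs (hs : 0 < s) (ht : 0 ≤ t) (hh : 0 < h) (i j : Fin (N + 1)) :
    |gcW s t h R i j| ≤ s * h * |R.A i j| := by
  unfold gcW
  have h1 := px_rr_nonneg s (add_nonneg ht (gc_node R hh i))
  have h2 := px_rr_le s (t + h * R.t i)
  have h3 := px_rr'_nonneg s (t + h * R.t j)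
  have h4 := px_rr'_le s (t + h * R.t j)
  rw [abs_neg, abs_mul, abs_mul, abs_mul, abs_of_nonneg h1, abs_of_nonneg h3, abs_of_pos hh]
  calc rr s (t + h * R.t i) * (h * |R.A i j| * rr' s (t + h * R.t j))
      ≤ √s * (h * |R.A i j| * √s) := by gcongr
    _ = (√s * √s) * h * |R.A i j| := by ring
    _ = s * h * |R.A i j| := by rw [Real.mul_self_sqrt hs.le]

/-- code of the known part (before topping up): noise, size `4` -/
theorem gc_base (hs : 0 < s) (ht : 0 ≤ t) (hh : 0 < h) (hh1 : h ≤ 1) (hc : 0 < c) (hc1 : c ≤ 1)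
    (i : Fin (N + 1)) :
    Has (zctx d s t c) (fun _ p => gcB s t h R i p) √((1 + h ^ 2) * (c ^ 2 * lev s t)) 0
      ![1, h * √(lev s t), 0] 1 0 7 := by
  classical
  have h1 := Has.slot (zctx d s t c) 0
  have h2 := (Has.slot (zctx d s t c) 1).smul (rr s (t + h * R.t i) - rr s t)
  have h3 := Has.add h1 h2 le_rfl (by simp)
  obtain ⟨g1, g2⟩ := px_rr_sub hs.le ht (gc_node R hh i)
  have g3 : rr s (t + h * R.t i) - rr s t ≤ h * √(lev s t) := by
    refine g2.trans ?_
    have := px_rr'_le_lev s t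
    have := gc_node_le R hh i
    have := px_rr'_nonneg s t
    gcongr
  have hl := px_lev_pos hs t
  have h4 := h3.noise (τ' := √((1 + h ^ 2) * (c ^ 2 * lev s t))) (by
    rw [Real.sq_sqrt (by positivity), Real.sq_sqrt (by positivity)]
    have e1 : (zctx d s t c).sig 0 = c * √(lev s t) := rfl
    have e2 : (zctx d s t c).sig 1 = c := rfl
    rw [e1, e2, mul_pow, Real.sq_sqrt hl.le, mul_pow]
    have e3 : (rr s (t + h * R.t i) - rr s t) ^ 2 ≤ h ^ 2 * lev s t := by
      calc (rr s (t + h * R.t i) - rr s t) ^ 2 ≤ (h * √(lev s t)) ^ 2 := by gcongr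
        _ = _ := by rw [mul_pow, Real.sq_sqrt hl.le]
    nlinarith [mul_le_mul_of_nonneg_right e3 (sq_nonneg c)]) (by simp)
  refine h4.cast (fun V p => rfl) rfl (by simp) (fun p => ?_) ?_ (by simp) le_rfl
  · rw [abs_of_nonneg g1]
    fin_cases p
    · simp
    · simpa using g3
    · simp
  · have e1 : (zctx d s t c).sh 0 = 1 := rfl
    have e2 : (zctx d s t c).sh 1 = 0 := rfl
    rw [e1, e2]
    ring

theorem gc_sum_le {ι : Type*} [Fintype ι] (b f : ι → ℝ) {B M : ℝ} (hb : ∑ j, |b j| ≤ B)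
    (hf : ∀ j, f j ≤ M) (hM : 0 ≤ M) : ∑ j, |b j| * f j ≤ B * M := by
  calc ∑ j, |b j| * f j ≤ ∑ j, |b j| * M := Finset.sum_le_sum fun j _ =>
        mul_le_mul_of_nonneg_left (hf j) (abs_nonneg _)
    _ = (∑ j, |b j|) * M := by rw [Finset.sum_mul]
    _ ≤ B * M := by gcongr

theorem gc_sq_le {ι : Type*} [Fintype ι] (b f : ι → ℝ) {B M : ℝ} (hb : ∑ j, |b j| ≤ B)
    (hf0 : ∀ j, 0 ≤ f j) (hf : ∀ j, f j ≤ M) (hM : 0 ≤ M) :
    ∑ j, (b j * f j) ^ 2 ≤ (B * M) ^ 2 := by
  have h1 : ∀ j, 0 ≤ |b j| * f j := fun j => mul_nonneg (abs_nonneg _) (hf0 j)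
  have h2 : ∑ j, (b j * f j) ^ 2 ≤ (∑ j, |b j| * f j) ^ 2 := by
    rw [sq (∑ j, |b j| * f j), Finset.sum_mul]
    refine Finset.sum_le_sum fun i hi => ?_
    have e1 : (b i * f i) ^ 2 = (|b i| * f i) * (|b i| * f i) := by
      rw [← sq, mul_pow, mul_pow, sq_abs]
    rw [e1]
    exact mul_le_mul_of_nonneg_left (Finset.single_le_sum (fun j _ => h1 j) hi) (h1 i)
  refine h2.trans (pow_le_pow_left₀ (Finset.sum_nonneg fun j _ => h1 j) (gc_sum_le b f hb hf hM) 2)

/-- linear combination of the forces at the nodes -/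
theorem gc_comb (b : Fin (N + 1) → ℝ) {B : ℝ} (hb : ∑ j, |b j| ≤ B) (hs : 0 < s) (ht : 0 ≤ t)
    (hh : 0 < h) {lam del Lp kap : ℝ} {S : ℕ} (hlam : 0 < lam) (hdel : 0 ≤ del)
    (hLp : 0 ≤ Lp) (hLp3 : Lp ≤ 3)
    (horc : ∀ L, lev s (t + h) ≤ L → L ≤ lev s t → Orc d L c' lam del Lp kap S)
    {x : Fin (N + 1) → PotT d → Z3 d → E d}
    (hx : ∀ j (V : PotT d), MeasurePreserving (x j V) (mu3 V.1 (lev s t))
      (gibbs (US V.1 (lev s (t + h * R.t j)))))
    {e : ℝ} {Sz : ℕ} (he : 0 ≤ e) (hSz : 1 ≤ Sz)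
    (hH : ∀ j, Has (zctx d s t c) (x j) (c' * √(lev s (t + h * R.t j))) e
      ![2, 2 * (h * √(lev s t)), 0] 1 1 Sz) :
    Has (zctx d s t c) (fun V p => ∑ j, b j • fo V.1 (lev s (t + h * R.t j)) (x j V p))
      (B * (√(lev s t) / lam)) (B * (del * (√(lev s t) * √d) + 3 * e))
      ![6 * B, 6 * B * (h * √(lev s t)), 0] 0 (6 * B) ((N + 1) * (S * Sz + 2) + 4) := by
  classical
  have hB : 0 ≤ B := (Finset.sum_nonneg fun j _ => abs_nonneg _).trans hb
  have hlev : ∀ j, lev s (t + h * R.t j) ≤ lev s t := fun j =>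
    px_lev_anti hs ht (gc_node R hh j)
  have hlev' : ∀ j, lev s (t + h) ≤ lev s (t + h * R.t j) := fun j => by
    have h1 := px_lev_anti (t := t + h * R.t j) (τ := h - h * R.t j) hs
      (add_nonneg ht (gc_node R hh j)) (by linarith [gc_node_le R hh j])
    have e1 : t + h * R.t j + (h - h * R.t j) = t + h := by ring
    rwa [e1] at h1
  have hsq : ∀ j, √(lev s (t + h * R.t j)) ≤ √(lev s t) := fun j => Real.sqrt_le_sqrt (hlev j)
  have hL0 : ∀ p : Fin 3, 0 ≤ (![2, 2 * (h * √(lev s t)), 0] : Fin 3 → ℝ) p := by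
    intro p
    fin_cases p
    · simp
    · simp only [Fin.mk_one, Matrix.cons_val_one, Matrix.cons_val_zero]
      positivity
    · simp
  have n1 := fun j => Orc.call (C := zctx d s t c) (fun _ => rfl) (horc _ (hlev' j) (hlev j))
    (φ := x j) (hx j) (hH j) hdel he zero_le_one hL0 hSz
  have n2 := fun j => (n1 j).mono (ε' := del * (√(lev s t) * √d) + 3 * e)
    (L' := fun p => 3 * (![2, 2 * (h * √(lev s t)), 0] : Fin 3 → ℝ) p) (κ' := kap + Lp * 1)
    (S' := S * Sz) (by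
      have := hsq j
      gcongr) (fun p => mul_le_mul_of_nonneg_right hLp3 (hL0 p)) le_rfl le_rfl
  have n3 := Has.lin Finset.univ b (fun j _ => n2 j) (fun j _ => by positivity)
  have n4 := (n3.mono (ε' := B * (del * (√(lev s t) * √d) + 3 * e))
    (L' := ![6 * B, 6 * B * (h * √(lev s t)), 0]) (κ' := ∑ j, |b j| * (kap + Lp * 1))
    (S' := (N + 1) * (S * Sz + 2) + 1) (gc_sum_le b _ hb (fun _ => le_rfl) (by positivity))
    (fun p => by
      refine (gc_sum_le b _ hb (fun _ => le_rfl) (mul_nonneg (by norm_num) (hL0 p))).trans ?_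
      fin_cases p
      · simp only [Fin.zero_eta, Matrix.cons_val_zero]
        linarith
      · simp only [Fin.mk_one, Matrix.cons_val_one, Matrix.cons_val_zero]
        linarith
      · simp) le_rfl (by simp)).shift0
  have n5 := n4.noise (τ' := B * (√(lev s t) / lam)) (by
    rw [Real.sq_sqrt (Finset.sum_nonneg fun j _ => sq_nonneg _)]
    refine gc_sq_le b _ hb (fun j => by positivity) (fun j => ?_) (by positivity)
    have := hsq j
    gcongr) (by positivity)
  refine n5.cast (fun V p => rfl) rfl le_rfl (fun p => le_rfl) rfl ?_ le_rfl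
  have e0 : (zctx d s t c).sh 0 = 1 := rfl
  have e1 : (zctx d s t c).sh 1 = 0 := rfl
  have e2 : (zctx d s t c).sh 2 = 0 := rfl
  rw [Fin.sum_univ_three, e0, e1, e2]
  simp

theorem gc_noise {a : ℝ} (hs : 0 < s) (ht : 0 ≤ t) (hh : 0 < h) (hh1 : h ≤ 1)
    (hc'1 : c' ≤ 1) (hc'0 : 0 < c') (hcc : c ^ 2 + (3 + a ^ 2) * h ≤ c' ^ 2) (i : Fin (N + 1)) :
    (1 + h ^ 2) * (c ^ 2 * lev s t) + (h * a) ^ 2 * lev s t ≤
      (c' * √(lev s (t + h * R.t i))) ^ 2 := by
  have hl := px_lev_pos hs t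
  have hl' := px_lev_pos hs (t + h * R.t i)
  rw [mul_pow c', Real.sq_sqrt hl'.le]
  have h1 := px_lev_lower hs ht (gc_node R hh i)
  have h2 := gc_node_le R hh i
  have h3 := gc_node R hh i
  have h4 : c' ^ 2 ≤ 1 := by nlinarith
  have h5 : c ^ 2 ≤ 1 := by nlinarith [sq_nonneg a]
  have h6 : h ^ 2 ≤ h := by nlinarith
  have h7 : (c' ^ 2 - 2 * h) * lev s t ≤ c' ^ 2 * lev s (t + h * R.t i) := by
    calc (c' ^ 2 - 2 * h) * lev s t ≤ (c' ^ 2 * (1 - 2 * (h * R.t i))) * lev s t := by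
          refine mul_le_mul_of_nonneg_right ?_ hl.le
          nlinarith [mul_nonneg (sub_nonneg.2 h4) h3]
      _ = c' ^ 2 * ((1 - 2 * (h * R.t i)) * lev s t) := by ring
      _ ≤ _ := by gcongr
  refine le_trans ?_ h7
  have h8 : (1 + h ^ 2) * (c ^ 2 * lev s t) + (h * a) ^ 2 * lev s t =
      ((1 + h ^ 2) * c ^ 2 + (h * a) ^ 2) * lev s t := by ring
  rw [h8]
  refine mul_le_mul_of_nonneg_right ?_ hl.le
  nlinarith [mul_nonneg (sub_nonneg.2 h6) (sq_nonneg a), mul_nonneg (sub_nonneg.2 h5) (sq_nonneg h)]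

/-- the equation of the nodes -/
theorem gc_meas (hs : 0 < s) (V : PotT d) {x : Fin (N + 1) → Z3 d → E d}
    (hx : ∀ i, Measurable (x i)) (b : Fin (N + 1) → ℝ) :
    Measurable (fun p => ∑ j, b j • fo V.1 (lev s (t + h * R.t j)) (x j p)) :=
  Finset.measurable_sum _ fun j _ =>
    ((px_fo_cont V.2 (px_lev_pos hs (t + h * R.t j))).measurable.comp (hx j)).const_smul (b j)

theorem gc_B_meas (i : Fin (N + 1)) : Measurable (gcB (d := d) s t h R i) := by
  unfold gcB
  fun_prop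

/-- one Picard round -/
theorem gc_step {C1 a : ℝ} (hC1 : 0 ≤ C1) (ha : 1 ≤ a) (hA : ∀ i, ∑ j, |R.A i j| ≤ a)
    (hs : 0 < s) (ht : 0 ≤ t) (hh : 0 < h) (hh1 : h ≤ 1) (hc : 0 < c) (hc'0 : 0 < c')
    (hc'1 : c' ≤ 1) (hcc : c ^ 2 + (3 + a ^ 2) * h ≤ c' ^ 2)
    {lamf delf Lp kap : ℝ} {S : ℕ} (hlam : s ≤ lamf) (hdel : 0 ≤ delf) (hLp : 0 ≤ Lp)
    (hLp3 : Lp ≤ 3) (has : 6 * a * s ≤ 1)
    (horc : ∀ L, lev s (t + h) ≤ L → L ≤ lev s t → Orc d L c' lamf delf Lp kap S)
    {x : Fin (N + 1) → PotT d → Z3 d → E d}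
    (hx : ∀ j (V : PotT d), MeasurePreserving (x j V) (mu3 V.1 (lev s t))
      (gibbs (US V.1 (lev s (t + h * R.t j)))))
    (hxe : ∀ i (V : PotT d), Integrable (fun p => ‖(gcB s t h R i p +
        ∑ j, gcW s t h R i j • fo V.1 (lev s (t + h * R.t j)) (x j V p)) - x i V p‖)
          (mu3 V.1 (lev s t)) ∧ ∫ p, ‖(gcB s t h R i p +
        ∑ j, gcW s t h R i j • fo V.1 (lev s (t + h * R.t j)) (x j V p)) - x i V p‖
          ∂(mu3 V.1 (lev s t)) ≤ C1 * h ^ m * √d)
    {e : ℝ} {Sz : ℕ} (he : 0 ≤ e) (hSz : 1 ≤ Sz)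
    (hH : ∀ j, Has (zctx d s t c) (x j) (c' * √(lev s (t + h * R.t j))) e
      ![2, 2 * (h * √(lev s t)), 0] 1 1 Sz) (i : Fin (N + 1)) :
    Has (zctx d s t c) (x i) (c' * √(lev s (t + h * R.t i)))
      (s * h * a * (delf * (√(lev s t) * √d) + 3 * e) + C1 * h ^ m * √d)
      ![2, 2 * (h * √(lev s t)), 0] 1 1 ((N + 1) * (S * Sz + 2) + 15) := by
  have ha0 : 0 ≤ a := by linarith
  have hlam0 : 0 < lamf := hs.trans_le hlam
  have hc1 : c ≤ 1 := by
    have h4 : c' ^ 2 ≤ 1 := by nlinarith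
    have h5 : 0 ≤ (3 + a ^ 2) * h := by positivity
    nlinarith
  have hW : ∑ j, |gcW s t h R i j| ≤ s * h * a := by
    calc ∑ j, |gcW s t h R i j| ≤ ∑ j, s * h * |R.A i j| := Finset.sum_le_sum fun j _ =>
          gc_W_abs R hs ht hh i j
      _ = s * h * ∑ j, |R.A i j| := by rw [Finset.mul_sum]
      _ ≤ _ := by
        have := hA i
        gcongr
  have hB1 : s * h * a * 6 ≤ 1 := by
    have : s * h * a * 6 ≤ 6 * a * s := by
      have h1 : s * h * a * 6 = (6 * a * s) * h := by ring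
      rw [h1]
      exact mul_le_of_le_one_right (by positivity) hh1
    linarith
  have n1 := gc_comb R (gcW s t h R i) hW hs ht hh hlam0 hdel hLp hLp3 horc hx he hSz hH
  have n2 := gc_base (d := d) R hs ht hh hh1 hc hc1 i
  have n3 := Has.add n2 n1 le_rfl (by positivity)
  have n4 := n3.noise (τ' := c' * √(lev s (t + h * R.t i))) (by
    rw [Real.sq_sqrt (by positivity), Real.sq_sqrt (by
      have := px_lev_pos hs t
      positivity)]
    refine le_trans ?_ (gc_noise R hs ht hh hh1 hc'1 hc'0 hcc i)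
    gcongr
    rw [mul_pow (s * h * a), div_pow, Real.sq_sqrt (px_lev_pos hs t).le]
    have e1 : (s * h * a) ^ 2 * (lev s t / lamf ^ 2) = ((h * a) ^ 2 * lev s t) * (s / lamf) ^ 2 := by
      rw [div_pow]
      ring
    rw [e1]
    have e2 : (s / lamf) ^ 2 ≤ 1 := by
      rw [div_pow, div_le_one (by positivity)]
      gcongr
    have := px_lev_pos hs t
    exact mul_le_of_le_one_right (by positivity) e2) (by positivity)
  have n5 := n4.approxI (q' := x i) (ε' := C1 * h ^ m * √d) (fun V => by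
      exact ((gc_B_meas R i).add (gc_meas R hs V (fun j => (hx j V).measurable) _)).sub
        (hx i V).measurable) (by positivity) (fun V => (hxe i V).1) (fun V => (hxe i V).2)
    (by positivity)
  refine n5.cast (fun V p => rfl) rfl (le_of_eq (by ring)) (fun p => ?_) (by ring) ?_ (by omega)
  · have := Real.sqrt_nonneg (lev s t)
    fin_cases p
    · simp only [Fin.zero_eta, Matrix.cons_val_zero]
      linarith
    · simp only [Fin.mk_one, Matrix.cons_val_one, Matrix.cons_val_zero]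
      have h1 : 6 * (s * h * a) * (h * √(lev s t)) ≤ 1 * (h * √(lev s t)) := by
        gcongr
        linarith
      linarith
    · simp
  · linarith

/-- Picard iteration -/
theorem gc_picard {C1 a B0 : ℝ} (hC1 : 0 ≤ C1) (ha : 1 ≤ a) (hB0 : 0 ≤ B0)
    (hA : ∀ i, ∑ j, |R.A i j| ≤ a)
    (hs : 0 < s) (ht : 0 ≤ t) (hh : 0 < h) (hh1 : h ≤ 1) (hc : 0 < c) (hc'0 : 0 < c')
    (hc'1 : c' ≤ 1) (hcc : c ^ 2 + (3 + a ^ 2) * h ≤ c' ^ 2)
    {lamf delf Lp kap : ℝ} {S : ℕ} (hlam : s ≤ lamf) (hdel : 0 ≤ delf) (hLp : 0 ≤ Lp)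
    (hLp3 : Lp ≤ 3) (hS : 1 ≤ S) (has : 6 * a * s ≤ 1)
    (horc : ∀ L, lev s (t + h) ≤ L → L ≤ lev s t → Orc d L c' lamf delf Lp kap S)
    {x : Fin (N + 1) → PotT d → Z3 d → E d}
    (hx : ∀ j (V : PotT d), MeasurePreserving (x j V) (mu3 V.1 (lev s t))
      (gibbs (US V.1 (lev s (t + h * R.t j)))))
    (hxe : ∀ i (V : PotT d), Integrable (fun p => ‖(gcB s t h R i p +
        ∑ j, gcW s t h R i j • fo V.1 (lev s (t + h * R.t j)) (x j V p)) - x i V p‖)
          (mu3 V.1 (lev s t)) ∧ ∫ p, ‖(gcB s t h R i p +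
        ∑ j, gcW s t h R i j • fo V.1 (lev s (t + h * R.t j)) (x j V p)) - x i V p‖
          ∂(mu3 V.1 (lev s t)) ≤ C1 * h ^ m * √d)
    (hx0 : ∀ i (V : PotT d), Integrable (fun p => ‖gcB s t h R i p - x i V p‖)
          (mu3 V.1 (lev s t)) ∧ ∫ p, ‖gcB s t h R i p - x i V p‖ ∂(mu3 V.1 (lev s t)) ≤ B0)
    (k : ℕ) : ∀ i : Fin (N + 1), Has (zctx d s t c) (x i) (c' * √(lev s (t + h * R.t i)))
      (2 * (s * h * a * (delf * (√(lev s t) * √d)) + C1 * h ^ m * √d) + (3 * a * s) ^ k * B0)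
      ![2, 2 * (h * √(lev s t)), 0] 1 1 (((3 * N + 18) * S) ^ (k + 1)) := by
  have ha0 : 0 ≤ a := by linarith
  have hc1 : c ≤ 1 := by
    have h4 : c' ^ 2 ≤ 1 := by nlinarith
    have h5 : 0 ≤ (3 + a ^ 2) * h := by positivity
    nlinarith
  induction k with
  | zero =>
    intro i
    have n2 := gc_base (d := d) R hs ht hh hh1 hc hc1 i
    have n4 := n2.noise (τ' := c' * √(lev s (t + h * R.t i))) (by
      rw [Real.sq_sqrt (by
        have := px_lev_pos hs t
        positivity)]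
      refine le_trans ?_ (gc_noise R hs ht hh hh1 hc'1 hc'0 hcc i)
      have := px_lev_pos hs t
      have : 0 ≤ (h * a) ^ 2 * lev s t := by positivity
      linarith) le_rfl
    have n5 := n4.approxI (q' := x i) (ε' := B0) (fun V => by
        exact (gc_B_meas R i).sub (hx i V).measurable) le_rfl (fun V => (hx0 i V).1)
      (fun V => (hx0 i V).2) hB0
    refine n5.cast (fun V p => rfl) rfl ?_ (fun p => ?_) rfl zero_le_one ?_
    · rw [pow_zero, one_mul, zero_add]
      have : 0 ≤ 2 * (s * h * a * (delf * (√(lev s t) * √d)) + C1 * h ^ m * √d) := by positivity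
      linarith
    · have := Real.sqrt_nonneg (lev s t)
      fin_cases p
      · simp only [Fin.zero_eta, Matrix.cons_val_zero]
        norm_num
      · simp only [Fin.mk_one, Matrix.cons_val_one, Matrix.cons_val_zero]
        have : 0 ≤ h * √(lev s t) := by positivity
        linarith
      · simp
    · rw [zero_add, pow_one]
      nlinarith
  | succ k ih =>
    intro i
    have h1 : 1 ≤ ((3 * N + 18) * S) ^ (k + 1) := Nat.one_le_pow _ _ (by positivity)
    have n1 := gc_step R hC1 ha hA hs ht hh hh1 hc hc'0 hc'1 hcc hlam hdel hLp hLp3 has horc hx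
      hxe (by positivity) h1 ih i
    refine n1.cast (fun V p => rfl) rfl ?_ (fun p => le_rfl) rfl le_rfl ?_
    · set A := s * h * a * (delf * (√(lev s t) * √d)) with hAdef
      have hA0 : 0 ≤ A := by positivity
      have hD0 : 0 ≤ C1 * h ^ m * √d := by positivity
      have e1 : s * h * a * (delf * (√(lev s t) * √d) + 3 * (2 * (A + C1 * h ^ m * √d) +
          (3 * a * s) ^ k * B0)) + C1 * h ^ m * √d = (A + C1 * h ^ m * √d) +
          (6 * a * s) * h * (A + C1 * h ^ m * √d) + h * ((3 * a * s) ^ (k + 1) * B0) := by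
        rw [hAdef]
        ring
      rw [e1]
      have e2 : (6 * a * s) * h * (A + C1 * h ^ m * √d) ≤ 1 * (A + C1 * h ^ m * √d) := by
        have : (6 * a * s) * h ≤ 1 := by
          calc (6 * a * s) * h ≤ 1 * 1 := by gcongr
            _ = 1 := by norm_num
        gcongr
      have e3 : h * ((3 * a * s) ^ (k + 1) * B0) ≤ (3 * a * s) ^ (k + 1) * B0 :=
        mul_le_of_le_one_left (by positivity) hh1
      linarith
    · have e4 : ((3 * N + 18) * S) ^ (k + 1 + 1) = (3 * N + 18) * (S * ((3 * N + 18) * S) ^ (k + 1)) := by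
        ring
      rw [e4]
      have h2 : 1 ≤ S * ((3 * N + 18) * S) ^ (k + 1) := Nat.one_le_iff_ne_zero.2 (by positivity)
      nlinarith

end pgc

theorem g_code {m N : ℕ} (R : RS m N) (hm : 3 ≤ m) : ∃ (C : ℝ) (M : ℕ), 1 ≤ C ∧
    ∀ (K d : ℕ) (s t h c c' lam1 lamf del1 delf Lp kap : ℝ) (S : ℕ),
    0 < s → s ≤ 1 / 4 → 0 ≤ t → 0 < h → h ≤ 1 → 0 < c → 0 < c' → c' ≤ 1 →
    c ^ 2 + C * h ≤ c' ^ 2 → 0 < lam1 → s ≤ lamf → C * s ≤ 1 → 0 ≤ del1 → 0 ≤ delf →
    0 ≤ Lp → Lp ≤ 3 → 0 ≤ kap → kap ≤ 1 → 1 ≤ S →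
    (∀ L, lev s (t + h) ≤ L → L ≤ lev s t → Orc d L c' lam1 del1 Lp kap S) →
    (∀ L, lev s (t + h) ≤ L → L ≤ lev s t → Orc d L c' lamf delf Lp kap S) →
    GCode d s t c (C / (h * lam1) * √(lev s t))
      (C / h * (del1 + s * delf + (h ^ (m - 1) + (C * s) ^ (K + 1)) / √(lev s t)) * √d *
        √(lev s t)) (C / h) (C / h * √(lev s t)) ((M * S) ^ (K + 2)) := by
  obtain ⟨C1', hC1', hs1⟩ := s1_exists R hm
  obtain ⟨C0, hC0, hfo⟩ := px_fo_l1
  obtain ⟨a, ha, hA, hD⟩ : ∃ a : ℝ, 1 ≤ a ∧ (∀ i, ∑ j, |R.A i j| ≤ a) ∧ ∑ j, |R.D j| ≤ a := by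
    refine ⟨1 + (∑ i, ∑ j, |R.A i j|) + ∑ j, |R.D j|, ?_, fun i => ?_, ?_⟩
    · have h1 : 0 ≤ ∑ i, ∑ j, |R.A i j| := by positivity
      have h2 : 0 ≤ ∑ j, |R.D j| := by positivity
      linarith
    · have h1 : ∑ j, |R.A i j| ≤ ∑ i, ∑ j, |R.A i j| :=
        Finset.single_le_sum (f := fun i => ∑ j, |R.A i j|) (fun i _ => by positivity)
          (Finset.mem_univ i)
      have h2 : 0 ≤ ∑ j, |R.D j| := by positivity
      linarith
    · have h1 : 0 ≤ ∑ i, ∑ j, |R.A i j| := by positivity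
      linarith
  set C1 := max C1' 1 with hC1
  have hC11 : 1 ≤ C1 := le_max_right _ _
  have hC1le : C1' ≤ C1 := le_max_left _ _
  have ha0 : 0 < a := by linarith
  have hP : 1 ≤ a ^ 2 * C0 * C1 := by
    have h1 : 1 ≤ a ^ 2 := by nlinarith
    have h2 : 1 ≤ a ^ 2 * C0 := one_le_mul_of_one_le_of_one_le h1 hC0
    exact one_le_mul_of_one_le_of_one_le h2 hC11
  refine ⟨3 + 20 * (a ^ 2 * C0 * C1), 3 * N + 18, by linarith, ?_⟩
  set C := 3 + 20 * (a ^ 2 * C0 * C1) with hC
  intro K d s t h c c' lam1 lamf del1 delf Lp kap S hs hs4 ht hh hh1 hc hc'0 hc'1 hcc hlam1 hlamf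
    hCs hdel1 hdelf hLp hLp3 hkap hkap1 hS horc1 horcf
  have hl : 0 < lev s t := px_lev_pos hs t
  have hsl : 0 < √(lev s t) := Real.sqrt_pos.2 hl
  choose x hxm hxd hxe hxg using fun V : PotT d => hs1 d V.1 s t h V.2 hs hs4 hh hh1
  -- constants
  have hPa2 : a ^ 2 ≤ a ^ 2 * C0 * C1 := by
    have h1 : a ^ 2 * C0 * C1 = a ^ 2 * (C0 * C1) := by ring
    rw [h1]
    exact le_mul_of_one_le_right (by positivity) (one_le_mul_of_one_le_of_one_le hC0 hC11)
  have haa : a ≤ a ^ 2 := by nlinarith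
  have hPaC1 : a * C1 ≤ a ^ 2 * C0 * C1 := by
    calc a * C1 ≤ a ^ 2 * C1 := by gcongr
      _ ≤ a ^ 2 * C0 * C1 := by
        have : a ^ 2 ≤ a ^ 2 * C0 := le_mul_of_one_le_right (by positivity) hC0
        gcongr
  have hC1aC1 : C1 ≤ a * C1 := le_mul_of_one_le_left (by linarith) ha
  have hPC0 : a ^ 2 * C0 ≤ a ^ 2 * C0 * C1 := le_mul_of_one_le_right (by positivity) hC11
  have hC0' : 0 < C := by
    rw [hC]
    linarith
  have h6a : 6 * a * s ≤ 1 := by
    refine le_trans ?_ hCs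
    have : 6 * a ≤ C := by
      rw [hC]
      linarith
    gcongr
  have hcc' : c ^ 2 + (3 + a ^ 2) * h ≤ c' ^ 2 := by
    refine le_trans ?_ hcc
    have : 3 + a ^ 2 ≤ C := by
      rw [hC]
      linarith
    gcongr
  have hx : ∀ j (V : PotT d), MeasurePreserving (x V j) (mu3 V.1 (lev s t))
      (gibbs (US V.1 (lev s (t + h * R.t j)))) := fun j V => ⟨hxm V j, hxd V j⟩
  -- the equation of the nodes
  have hid : ∀ (V : PotT d) i p, ‖(gcB s t h R i p +
      ∑ j, gcW s t h R i j • fo V.1 (lev s (t + h * R.t j)) (x V j p)) - x V i p‖ =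
      ‖x V i p - (p.1 + (rr s (t + h * R.t i) - rr s t) • p.2.1) +
          rr s (t + h * R.t i) • ∑ j, (h * R.A i j * rr' s (t + h * R.t j)) •
            fo V.1 (lev s (t + h * R.t j)) (x V j p)‖ := by
    intro V i p
    have e1 : ∑ j, gcW s t h R i j • fo V.1 (lev s (t + h * R.t j)) (x V j p) =
        -(rr s (t + h * R.t i) • ∑ j, (h * R.A i j * rr' s (t + h * R.t j)) •
            fo V.1 (lev s (t + h * R.t j)) (x V j p)) := by
      rw [Finset.smul_sum, ← Finset.sum_neg_distrib]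
      refine Finset.sum_congr rfl fun j _ => ?_
      unfold gcW
      rw [neg_smul, mul_smul]
    rw [e1, ← norm_neg]
    congr 1
    unfold gcB
    abel
  have hxe' : ∀ i (V : PotT d), Integrable (fun p => ‖(gcB s t h R i p +
        ∑ j, gcW s t h R i j • fo V.1 (lev s (t + h * R.t j)) (x V j p)) - x V i p‖)
          (mu3 V.1 (lev s t)) ∧ ∫ p, ‖(gcB s t h R i p +
        ∑ j, gcW s t h R i j • fo V.1 (lev s (t + h * R.t j)) (x V j p)) - x V i p‖
          ∂(mu3 V.1 (lev s t)) ≤ C1 * h ^ m * √d := by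
    intro i V
    simp only [hid]
    refine ⟨(hxe V i).1, (hxe V i).2.trans ?_⟩
    gcongr
  have hfx : ∀ j (V : PotT d), Integrable (fun p => ‖fo V.1 (lev s (t + h * R.t j)) (x V j p)‖)
      (mu3 V.1 (lev s t)) ∧
      ∫ p, ‖fo V.1 (lev s (t + h * R.t j)) (x V j p)‖ ∂(mu3 V.1 (lev s t)) ≤ C0 * √d := by
    intro j V
    obtain ⟨g1, g2⟩ := hfo d V.1 (lev s (t + h * R.t j)) V.2 (px_lev_pos hs _)
      ((px_lev_le hs _).trans hs4)
    have hcont := (px_fo_cont V.2 (px_lev_pos hs (t + h * R.t j))).norm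
    have hmp := hx j V
    rw [← hmp.map_eq] at g1 g2
    rw [integrable_map_measure hcont.aestronglyMeasurable hmp.measurable.aemeasurable] at g1
    rw [integral_map hmp.measurable.aemeasurable hcont.aestronglyMeasurable] at g2
    exact ⟨g1, g2⟩
  have hx0 : ∀ i (V : PotT d), Integrable (fun p => ‖gcB s t h R i p - x V i p‖)
      (mu3 V.1 (lev s t)) ∧ ∫ p, ‖gcB s t h R i p - x V i p‖ ∂(mu3 V.1 (lev s t)) ≤
        (C1 * h ^ m + a * C0 * s * h) * √d := by
    intro i V
    have i2 : Integrable (fun p => ∑ j, |gcW s t h R i j| *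
        ‖fo V.1 (lev s (t + h * R.t j)) (x V j p)‖) (mu3 V.1 (lev s t)) :=
      integrable_finsetSum _ fun j _ => ((hfx j V).1).const_mul _
    have i3 := (hxe' i V).1.add i2
    have hle : ∀ p, ‖gcB s t h R i p - x V i p‖ ≤ ‖(gcB s t h R i p +
        ∑ j, gcW s t h R i j • fo V.1 (lev s (t + h * R.t j)) (x V j p)) - x V i p‖ +
        ∑ j, |gcW s t h R i j| * ‖fo V.1 (lev s (t + h * R.t j)) (x V j p)‖ := by
      intro p
      have e1 : gcB s t h R i p - x V i p = ((gcB s t h R i p +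
        ∑ j, gcW s t h R i j • fo V.1 (lev s (t + h * R.t j)) (x V j p)) - x V i p) -
        ∑ j, gcW s t h R i j • fo V.1 (lev s (t + h * R.t j)) (x V j p) := by abel
      calc ‖gcB s t h R i p - x V i p‖ = _ := congrArg norm e1
        _ ≤ _ := norm_sub_le _ _
        _ ≤ _ := by
          refine add_le_add le_rfl ((norm_sum_le _ _).trans (le_of_eq ?_))
          refine Finset.sum_congr rfl fun j _ => ?_
          rw [norm_smul, Real.norm_eq_abs]
    have hm1 : AEStronglyMeasurable (fun p => ‖gcB s t h R i p - x V i p‖)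
        (mu3 V.1 (lev s t)) := ((gc_B_meas R i).sub (hxm V i)).norm.aestronglyMeasurable
    have i1 : Integrable (fun p => ‖gcB s t h R i p - x V i p‖) (mu3 V.1 (lev s t)) := by
      refine i3.mono' hm1 (Filter.Eventually.of_forall fun p => ?_)
      rw [norm_norm]
      exact hle p
    refine ⟨i1, (integral_mono i1 i3 hle).trans ?_⟩
    have e2 := integral_add (hxe' i V).1 i2
    have e3 : ∫ p, (∑ j, |gcW s t h R i j| * ‖fo V.1 (lev s (t + h * R.t j)) (x V j p)‖)
        ∂(mu3 V.1 (lev s t)) ≤ (s * h * a) * (C0 * √d) := by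
      rw [integral_finsetSum _ (fun j _ => ((hfx j V).1).const_mul _)]
      simp only [integral_const_mul]
      refine gc_sum_le _ _ ?_ (fun j => (hfx j V).2) (by positivity)
      calc ∑ j, |gcW s t h R i j| ≤ ∑ j, s * h * |R.A i j| := Finset.sum_le_sum fun j _ =>
            gc_W_abs R hs ht hh i j
        _ = s * h * ∑ j, |R.A i j| := by rw [Finset.mul_sum]
        _ ≤ _ := by
          have := hA i
          gcongr
    refine (le_of_eq e2).trans ((add_le_add (hxe' i V).2 e3).trans (le_of_eq ?_))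
    ring
  -- the codes of the nodes
  have hpic := gc_picard R (x := fun i V => x V i) (by linarith : 0 ≤ C1) ha (by positivity) hA hs
    ht hh hh1 hc hc'0 hc'1 hcc' hlamf hdelf hLp hLp3 hS h6a horcf hx hxe' hx0 K
  have hSz : 1 ≤ ((3 * N + 18) * S) ^ (K + 1) := Nat.one_le_pow _ _ (by positivity)
  have hb : ∑ j, |h⁻¹ * R.D j| ≤ h⁻¹ * a := by
    simp only [abs_mul, abs_of_pos (inv_pos.2 hh)]
    rw [← Finset.mul_sum]
    gcongr
  have n1 := gc_comb R (fun j => h⁻¹ * R.D j) hb hs ht hh hlam1 hdel1 hLp hLp3 horc1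
    (x := fun i V => x V i) hx (by positivity) hSz hpic
  have hsum : ∀ (V : PotT d) p, ∑ j, (h⁻¹ * R.D j) • fo V.1 (lev s (t + h * R.t j)) (x V j p) =
      h⁻¹ • ∑ j, R.D j • fo V.1 (lev s (t + h * R.t j)) (x V j p) := by
    intro V p
    rw [Finset.smul_sum]
    exact Finset.sum_congr rfl fun j _ => mul_smul _ _ _
  have n2 := n1.approxI (q' := fun V p => oG V.1 s t p) (ε' := C1 * h ^ (m - 2) * √d)
    (fun V => (gc_meas R hs V (fun j => hxm V j) (fun j => h⁻¹ * R.D j)).sub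
      (px_oG_cont V.2 hs t).measurable) (by positivity)
    (fun V => by
      simp only [hsum]
      exact (hxg V).1)
    (fun V => by
      simp only [hsum]
      refine (hxg V).2.trans ?_
      gcongr) (by positivity)
  have n3 := n2.noise (τ' := C / (h * lam1) * √(lev s t)) (by
    refine pow_le_pow_left₀ (by positivity) ?_ 2
    have e1 : h⁻¹ * a * (√(lev s t) / lam1) = a / (h * lam1) * √(lev s t) := by
      field_simp
    rw [e1]
    have : a ≤ C := by
      rw [hC]
      linarith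
    gcongr) (by positivity)
  refine n3.cast (fun V p => rfl) rfl ?_ (fun p => ?_) rfl ?_ ?_
  · have hm1 : h ^ m = h * h ^ (m - 1) := by
      rw [← pow_succ']
      congr 1
      omega
    have hm2 : C1 * h ^ (m - 2) * √d = h⁻¹ * (C1 * h ^ (m - 1) * √d) := by
      have : h ^ (m - 1) = h * h ^ (m - 2) := by
        rw [← pow_succ']
        congr 1
        omega
      rw [this]
      field_simp
    rw [hm2, hm1]
    set H := h ^ (m - 1) with hH
    have hH0 : 0 ≤ H := by positivity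
    set l := √(lev s t) with hldef
    set D := √(d : ℝ) with hDdef
    have hD0 : 0 ≤ D := Real.sqrt_nonneg _
    set Th := (3 * a * s) ^ K with hTh
    have hTh0 : 0 ≤ Th := by positivity
    have hTh1 : Th ≤ 1 := pow_le_one₀ (by positivity) (by linarith)
    have hThs : Th * s ≤ (C * s) ^ (K + 1) := by
      rw [pow_succ]
      have h1 : Th ≤ (C * s) ^ K := by
        have : 3 * a ≤ C := by
          rw [hC]
          linarith
        rw [hTh]
        gcongr
      have h2 : s ≤ C * s := le_mul_of_one_le_left hs.le (by rw [hC]; linarith)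
      gcongr
    set G := (C * s) ^ (K + 1) with hG
    have hG0 : 0 ≤ G := by positivity
    have eL : h⁻¹ * a * (del1 * (l * D) + 3 * (2 * (s * h * a * (delf * (l * D)) +
        C1 * (h * H) * D) + Th * ((C1 * (h * H) + a * C0 * s * h) * D))) +
        h⁻¹ * (C1 * H * D) = h⁻¹ * (a * (del1 * (l * D)) + 6 * a ^ 2 * h * (s * delf * (l * D)) +
          (6 * (a * C1) * h + 3 * (a * C1) * h * Th + C1) * (H * D) +
            3 * (a ^ 2 * C0) * h * ((Th * s) * D)) := by
      ring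
    have eR : C / h * (del1 + s * delf + (H + G) / l) * D * l =
        h⁻¹ * (C * (del1 * (l * D)) + C * (s * delf * (l * D)) + C * (H * D) + C * (G * D)) := by
      field_simp
      ring
    rw [eL, eR]
    refine mul_le_mul_of_nonneg_left ?_ (inv_pos.2 hh).le
    have b1 : a * (del1 * (l * D)) ≤ C * (del1 * (l * D)) := by
      have : a ≤ C := by
        rw [hC]
        linarith
      gcongr
    have b2 : 6 * a ^ 2 * h * (s * delf * (l * D)) ≤ C * (s * delf * (l * D)) := by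
      have : 6 * a ^ 2 * h ≤ C := by
        have h1 : 6 * a ^ 2 * h ≤ 6 * a ^ 2 := mul_le_of_le_one_right (by positivity) hh1
        rw [hC]
        linarith
      gcongr
    have b3 : (6 * (a * C1) * h + 3 * (a * C1) * h * Th + C1) * (H * D) ≤ C * (H * D) := by
      have h0 : 0 ≤ a * C1 := by positivity
      have h1 : 6 * (a * C1) * h ≤ 6 * (a * C1) := mul_le_of_le_one_right (by positivity) hh1
      have h2 : 3 * (a * C1) * h * Th ≤ 3 * (a * C1) := by
        calc 3 * (a * C1) * h * Th ≤ 3 * (a * C1) * 1 * 1 := by gcongr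
          _ = _ := by ring
      have : 6 * (a * C1) * h + 3 * (a * C1) * h * Th + C1 ≤ C := by
        rw [hC]
        linarith
      gcongr
    have b4 : 3 * (a ^ 2 * C0) * h * ((Th * s) * D) ≤ C * (G * D) := by
      have h1 : 3 * (a ^ 2 * C0) * h ≤ C := by
        have h1 : 3 * (a ^ 2 * C0) * h ≤ 3 * (a ^ 2 * C0) :=
          mul_le_of_le_one_right (by positivity) hh1
        rw [hC]
        linarith
      gcongr
    linarith
  · have h6 : 6 * (h⁻¹ * a) ≤ C / h := by
      have : 6 * (h⁻¹ * a) = (6 * a) / h := by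
        field_simp
      rw [this]
      have : 6 * a ≤ C := by
        rw [hC]
        linarith
      gcongr
    fin_cases p
    · simpa using h6
    · simp only [Fin.mk_one, Matrix.cons_val_one, Matrix.cons_val_zero]
      have h7 : h * √(lev s t) ≤ √(lev s t) := mul_le_of_le_one_left hsl.le hh1
      gcongr
    · simp
  · have : 6 * (h⁻¹ * a) = (6 * a) / h := by
      field_simp
    rw [this]
    have : 6 * a ≤ C := by
      rw [hC]
      linarith
    gcongr
  · have e4 : ((3 * N + 18) * S) ^ (K + 2) = (3 * N + 18) * (S * ((3 * N + 18) * S) ^ (K + 1)) := by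
      ring
    rw [e4]
    have h2 : 1 ≤ S * ((3 * N + 18) * S) ^ (K + 1) := Nat.one_le_iff_ne_zero.2 (by positivity)
    nlinarith

end P347Z
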