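import Vale.Agent.P347Z.PkStep

/-!
Module PKC: codes for `√s oK` at the clock time `t` (`s2_exists`, kick flow of length `H`), by Picard iteration on
codes.  Write `l = √(lev s t)`, `q = qq t` (`l = √s q`, `rr s t ≤ √s`, `q • GG = l⁻¹ • oG`), `X i p` from
`s2_exists`.  Round 0: `X i ≈ p` (slots, topped up to the noises `c' l`, `c'`, `c'`).  Round `k+1`:
  `w_i = w - ∑ (H A_ij q) oA (X j)`,  `Y_i = Y - rr s t ∑ (H A_ij q) oA (X j)`,  `z_i = z + ∑ (H A_ij / l) oG (X j)`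
with `AG` called by `zcall` on the codes of round `k` (use `Has.shift0` for the small parts).
Errors in the units `(l, 1, 1)`: `e_0 ≤ C H √d / l`, `e_{k+1} ≤ C H^m √d / l + C H ε + (1/4)(C H Λ) e_k`;
`static_bound` gives `e_0`.  Noises: `c² + C (H τ)² ≤ c'²`.
Lipschitz constants in the units `(l, 1, 1)`: identity plus `C H Λ`.
Output: `√s oK ≈ -H⁻¹ ∑ D_j f(Y_j)` (`Orc.call` at the level `lev s t`), then `Has.shift0`.
-/

open MeasureTheory ProbabilityTheory Function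
open scoped ENNReal BigOperators

namespace P347Z

open P347Q P347S

section round

variable {m N : ℕ} {R : RS m N} {C₂ : ℝ} {d : ℕ} {s t H c c' τ ε Λ : ℝ}
  {X : PotT d → Fin (N + 1) → Z3 d → Z3 d}

theorem PKS.mono {ϑ e e' : ℝ} {S S' : ℕ} (h : PKS d s t c c' ϑ e X S) (he : e ≤ e')
    (hS : S ≤ S') : PKS d s t c c' ϑ e' X S' := by
  intro i
  obtain ⟨h1, h2, h3⟩ := h i
  exact ⟨h1.mono (mul_le_mul_of_nonneg_left he (Real.sqrt_nonneg _)) (fun _ => le_rfl) le_rfl hS,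
    h2.mono he (fun _ => le_rfl) le_rfl hS, h3.mono he (fun _ => le_rfl) le_rfl hS⟩

theorem pk_iter (hX : ∀ V : PotT d, S2P R C₂ V.1 s t H (X V)) (hs : 0 < s) (hs1 : s ≤ 1 / 4)
    (hC₂ : 0 < C₂) (hm : 3 ≤ m) (hH : 0 < H) (hH1 : H ≤ 1) (hε : 0 ≤ ε) (hΛ : 1 ≤ Λ) {S : ℕ}
    (hS : 1 ≤ S) (hag : AG d s t c' τ ε Λ S) {ϑ Cs : ℝ} (hϑ : ϑ = 4 * R.a0 * H * Λ)
    (hϑ1 : ϑ ≤ 1) (hc0 : 0 ≤ c) (hc0' : 0 ≤ c') (hc : c ^ 2 + (R.a0 * (H * τ)) ^ 2 ≤ c' ^ 2)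
    (hCs : 0 < Cs)
    (hst : ∀ V : PotT d, NB (mu3 V.1 (lev s t)) (fun p => oA V.1 s t p) (Cs * √d) ∧
      NB (mu3 V.1 (lev s t)) (fun p => oG V.1 s t p) (Cs * √d)) (k : ℕ) :
    PKS d s t c c' ϑ (2 * ((C₂ * H ^ m * √d) / √(lev s t) + R.a0 * H * ε) +
      ϑ ^ k * ((C₂ + R.a0 * Cs) * H * √d / √(lev s t))) X (((3 * N + 10) * S) ^ (k + 1)) := by
  have ha0 := R.a0_one
  have hϑ0 : 0 ≤ ϑ := by
    rw [hϑ]
    have := lt_of_lt_of_le one_pos hΛ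
    positivity
  have hl : 0 < √(lev s t) := Real.sqrt_pos.2 (ssa_lev_pos hs t)
  set b := (C₂ * H ^ m * √d) / √(lev s t) + R.a0 * H * ε with hb
  have hb0 : 0 ≤ b := by positivity
  set e0 := (C₂ + R.a0 * Cs) * H * √d / √(lev s t) with he0
  have he00 : 0 ≤ e0 := by positivity
  induction k with
  | zero =>
    have h1 := pk_init (c := c) (c' := c') hX hs hs1 hC₂ hm hH hH1 hCs hst hϑ0 hc0 (by
      refine abs_le_of_sq_le_sq' ?_ hc0' |>.2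
      nlinarith [sq_nonneg (R.a0 * (H * τ))])
    refine h1.mono ?_ ?_
    · rw [pow_zero, one_mul]
      linarith
    · rw [zero_add, pow_one]
      nlinarith
  | succ k ih =>
    set Sk := ((3 * N + 10) * S) ^ (k + 1) with hSk
    have hSk1 : 1 ≤ Sk := Nat.one_le_pow _ _ (by positivity)
    have h1 := pk_step hX hs hs1 hC₂ hH hε hΛ hSk1 hag hϑ hϑ1 (by positivity) hc ih
    refine h1.mono ?_ ?_
    · rw [← hb]
      have h2 : ϑ / 2 * (2 * b + ϑ ^ k * e0) = ϑ * b + ϑ ^ (k + 1) * e0 / 2 := by ring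
      rw [h2]
      have h3 : 0 ≤ ϑ ^ (k + 1) * e0 := by positivity
      nlinarith
    · have h2 : ((3 * N + 10) * S) ^ (k + 1 + 1) = (3 * N + 10) * (S * Sk) := by
        rw [pow_succ, ← hSk]
        ring
      rw [h2]
      have h3 : 1 ≤ S * Sk := Nat.mul_pos hS hSk1
      nlinarith

theorem pk_out (hX : ∀ V : PotT d, S2P R C₂ V.1 s t H (X V)) (hs : 0 < s) (hs1 : s ≤ 1 / 4)
    (hC₂ : 0 < C₂) (hH : 0 < H) {lam2 del2 Lp kap : ℝ} {S Sk : ℕ} (hlam : 0 < lam2)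
    (hdel : 0 ≤ del2) (hL : 0 ≤ Lp) (hL3 : Lp ≤ 3) (hSk : 1 ≤ Sk)
    (ho : Orc d (lev s t) c' lam2 del2 Lp kap S) {ϑ e : ℝ} (hϑ : 0 ≤ ϑ) (hϑ1 : ϑ ≤ 1)
    (he : 0 ≤ e) (hp : PKS d s t c c' ϑ e X Sk) :
    KCode d s t c (R.d0 / (H * lam2) * √(lev s t))
      (R.d0 / H * (del2 * (√(lev s t) * √d) + 3 * (√(lev s t) * e)) + C₂ * H ^ (m - 2) * √d)
      (R.d0 / H * 6) (R.d0 / H * (3 * (√(lev s t) * ϑ))) (R.d0 / H * (3 * (√(lev s t) * ϑ)))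
      ((N + 1) * (S * Sk + 2) + 4) := by
  classical
  have hd0 := R.d0_one
  have hl : 0 < √(lev s t) := Real.sqrt_pos.2 (ssa_lev_pos hs t)
  have hl1 := pk_l_le hs hs1 t
  set l := √(lev s t) with hld
  have hcard : (Finset.univ : Finset (Fin (N + 1))).card = N + 1 := by simp
  have hF : ∀ j, Has (zctx d s t c) (fun V p => fo V.1 (lev s t) (X V j p).1) (l / lam2)
      (del2 * (l * √d) + 3 * (l * e)) ![6, 3 * (l * ϑ), 3 * (l * ϑ)] 0 6 (S * Sk) := by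
    intro j
    obtain ⟨h1, -, -⟩ := hp j
    have hmp : ∀ V : PotT d, MeasurePreserving (fun p => (X V j p).1) ((zctx d s t c).ρ V)
        (gibbs (US V.1 (lev s t))) := by
      intro V
      have h2 : MeasurePreserving (Prod.fst : Z3 d → E d) (mu3 V.1 (lev s t))
          (gibbs (US V.1 (lev s t))) :=
        ⟨measurable_fst, ssa_mu3_fst V.2 (ssa_lev_pos hs t) (le_trans (ssa_lev_le hs t) hs1)⟩
      exact h2.comp ((hX V).mp j)
    have h3 := Orc.call (C := zctx d s t c) (fun _ => rfl) ho (φ := fun V p => (X V j p).1) hmp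
      h1 hdel (by positivity) hϑ (by intro p; fin_cases p <;> simp <;> positivity) hSk
    have h4 := h3.shift0
    refine h4.cast (fun _ _ => rfl) rfl ?_ ?_ rfl ?_ le_rfl
    · rw [← hld]
      gcongr
    · intro p
      fin_cases p
      · change Lp * (1 + ϑ) ≤ 6
        nlinarith
      · change Lp * (l * ϑ) ≤ 3 * (l * ϑ)
        gcongr
      · change Lp * (l * ϑ) ≤ 3 * (l * ϑ)
        gcongr
    · rw [Fin.sum_univ_three]
      change Lp * (1 + ϑ) * |(1 : ℝ)| + Lp * (l * ϑ) * |(0 : ℝ)| + Lp * (l * ϑ) * |(0 : ℝ)| ≤ 6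
      rw [abs_one, abs_zero]
      nlinarith
  have hb : ∑ j, |(-(H⁻¹) * R.D j)| ≤ R.d0 / H := by
    simp_rw [abs_mul, abs_neg, abs_of_pos (inv_pos.2 hH)]
    rw [← Finset.mul_sum, div_eq_inv_mul]
    refine mul_le_mul_of_nonneg_left ?_ (by positivity)
    unfold RS.d0
    linarith
  have mF : ∀ V : PotT d, Measurable (fun p => ∑ j, (-(H⁻¹) * R.D j) •
      fo V.1 (lev s t) (X V j p).1) := fun V =>
    Finset.measurable_fun_sum _ fun j _ => Measurable.fun_const_smul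
      ((pk_fo_cont V.2 (ssa_lev_pos hs t)).measurable.comp ((hX V).mp j).measurable) _
  have hres : 0 ≤ C₂ * H ^ (m - 2) * √d := by positivity
  have hNB : ∀ V : PotT d, NB (mu3 V.1 (lev s t)) (fun p => ∑ j, (-(H⁻¹) * R.D j) •
      fo V.1 (lev s t) (X V j p).1 - √s • oK V.1 s t p) (C₂ * H ^ (m - 2) * √d) := by
    intro V
    refine (hX V).k.neg.congr fun p => ?_
    have : ∑ j, (-(H⁻¹) * R.D j) • fo V.1 (lev s t) (X V j p).1 =
        - (H⁻¹ • ∑ j, R.D j • fo V.1 (lev s t) (X V j p).1) := by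
      rw [Finset.smul_sum, ← Finset.sum_neg_distrib]
      refine Finset.sum_congr rfl fun j _ => ?_
      rw [smul_smul, ← neg_smul]
      congr 1
      ring
    rw [this]
    abel
  have hM : ∀ V : PotT d, Measurable (fun p => ∑ j, (-(H⁻¹) * R.D j) •
      fo V.1 (lev s t) (X V j p).1 - √s • oK V.1 s t p) := fun V =>
    (mF V).sub
      (Measurable.fun_const_smul (pk_oK_cont V.2 hs t).measurable _)
  have hnn : ∀ p, 0 ≤ (![6, 3 * (l * ϑ), 3 * (l * ϑ)] : Fin 3 → ℝ) p := by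
    intro p; fin_cases p <;> simp <;> positivity
  have hnoise : (R.d0 / H) ^ 2 * (l / lam2) ^ 2 ≤ (R.d0 / (H * lam2) * l) ^ 2 := by
    have : (R.d0 / H) ^ 2 * (l / lam2) ^ 2 = (R.d0 / (H * lam2) * l) ^ 2 := by
      field_simp
    rw [this]
  have h0 : 0 ≤ del2 * (l * √d) + 3 * (l * e) := by positivity
  have h6 : (0 : ℝ) ≤ 6 := by norm_num
  have h1 := Has.linN (C := zctx d s t c)
    (q' := fun (V : PotT d) (p : Z3 d) => √s • oK V.1 s t p) Finset.univ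
    (fun j => -(H⁻¹) * R.D j) (fun j _ => hF j)
    h0 h6 hnn hb (pk_sq_sum _ _ hb) hnoise hres hM hNB
  refine h1.cast (fun _ _ => rfl) rfl ?_ ?_ rfl ?_ ?_
  · linarith
  · intro p
    fin_cases p <;> simp
  · linarith
  · rw [hcard]

theorem pk_arith {C a0 d0 C₂ Cs l H q rd ε del Λ T : ℝ} {K : ℕ} (ha0 : 1 ≤ a0) (hd0 : 1 ≤ d0)
    (hC₂ : 0 < C₂) (hl : 0 < l) (hH : 0 < H) (hH1 : H ≤ 1) (hrd : 0 ≤ rd)
    (hε : 0 ≤ ε) (hdel : 0 ≤ del) (hq : 0 ≤ q)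
    (hCb : C₂ + 6 * d0 * C₂ ≤ C) (hCe : 3 * d0 * (C₂ + a0 * Cs) ≤ C)
    (hC6 : 6 * d0 * a0 ≤ C) (hC1 : d0 ≤ C) (hT : 0 ≤ T) (hT1 : T ≤ (C * H * Λ) ^ K) :
    d0 / H * (del * (l * rd) + 3 * (2 * (C₂ * q * rd * H ^ 2) + 2 * a0 * H * (l * ε) +
      T * ((C₂ + a0 * Cs) * H * rd))) + C₂ * q * rd ≤
      C * (rd * (q + l / H * del + (C * H * Λ) ^ K / H) + l * ε) := by
  have hd00 : 0 < d0 := by linarith
  have ha00 : 0 < a0 := by linarith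
  have hC0 : 0 < C := by linarith
  have e1 : d0 / H * (del * (l * rd) + 3 * (2 * (C₂ * q * rd * H ^ 2) + 2 * a0 * H * (l * ε) +
      T * ((C₂ + a0 * Cs) * H * rd))) + C₂ * q * rd =
      d0 * (rd * (l / H * del)) + (6 * d0 * C₂ * H + C₂) * (q * rd) + (6 * d0 * a0) * (l * ε) +
      (3 * d0 * (C₂ + a0 * Cs)) * (T * rd) := by
    field_simp
    ring
  have e2 : C * (rd * (q + l / H * del + (C * H * Λ) ^ K / H) + l * ε) =
      C * (rd * (l / H * del)) + C * (q * rd) + C * (l * ε) + C * ((C * H * Λ) ^ K / H * rd) := by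
    ring
  rw [e1, e2]
  have h1 : d0 * (rd * (l / H * del)) ≤ C * (rd * (l / H * del)) := by gcongr
  have h2 : (6 * d0 * C₂ * H + C₂) * (q * rd) ≤ C * (q * rd) := by
    refine mul_le_mul_of_nonneg_right ?_ (by positivity)
    have : 6 * d0 * C₂ * H ≤ 6 * d0 * C₂ := mul_le_of_le_one_right (by positivity) hH1
    linarith
  have h3 : (6 * d0 * a0) * (l * ε) ≤ C * (l * ε) := by gcongr
  have h4 : (3 * d0 * (C₂ + a0 * Cs)) * (T * rd) ≤ C * ((C * H * Λ) ^ K / H * rd) := by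
    have h5 : T ≤ (C * H * Λ) ^ K / H := by
      rw [le_div_iff₀ hH]
      exact (mul_le_of_le_one_right hT hH1).trans hT1
    gcongr
  linarith

theorem pk_main (hC₂ : 0 < C₂) (hm : 3 ≤ m) {Cs C : ℝ} (hCs : 0 < Cs)
    (hCa : R.a0 ^ 2 ≤ C) (hC4 : 4 * R.a0 ≤ C) (hC6 : 6 * R.d0 ≤ C) (hC12 : 12 * R.d0 * R.a0 ≤ C)
    (hCb : C₂ + 6 * R.d0 * C₂ ≤ C) (hCe : 3 * R.d0 * (C₂ + R.a0 * Cs) ≤ C)
    (hX : ∀ V : PotT d, S2P R C₂ V.1 s t H (X V))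
    (hst : ∀ V : PotT d, NB (mu3 V.1 (lev s t)) (fun p => oA V.1 s t p) (Cs * √d) ∧
      NB (mu3 V.1 (lev s t)) (fun p => oG V.1 s t p) (Cs * √d))
    {lam2 del2 Lp kap : ℝ} {S : ℕ} (K : ℕ) (hs : 0 < s) (hs1 : s ≤ 1 / 4) (hH : 0 < H)
    (hH1 : H ≤ 1) (hc : 0 < c) (hc' : 0 < c') (hcc : c ^ 2 + C * (H * τ) ^ 2 ≤ c' ^ 2)
    (hlam : 0 < lam2) (hdel : 0 ≤ del2) (hε : 0 ≤ ε) (hΛ : 1 ≤ Λ) (hCH : C * H * Λ ≤ 1)
    (hL : 0 ≤ Lp) (hL3 : Lp ≤ 3) (hS : 1 ≤ S) (hag : AG d s t c' τ ε Λ S)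
    (ho : Orc d (lev s t) c' lam2 del2 Lp kap S) :
    KCode d s t c (C / (H * lam2) * √(lev s t))
      (C * (√d * (H ^ (m - 2) + √(lev s t) / H * del2 + (C * H * Λ) ^ K / H) + √(lev s t) * ε))
      (C / H) (C * Λ * √(lev s t)) (C * Λ * √(lev s t)) (((3 * N + 10) * S) ^ (K + 2)) := by
  have ha0 := R.a0_one
  have hd0 := R.d0_one
  have hC0 : 0 < C := by linarith
  have hΛ0 := lt_of_lt_of_le one_pos hΛ
  have hl : 0 < √(lev s t) := Real.sqrt_pos.2 (ssa_lev_pos hs t)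
  have hl1 := pk_l_le hs hs1 t
  have hϑC : 4 * R.a0 * H * Λ ≤ C * H * Λ := by gcongr
  have hϑ1 : 4 * R.a0 * H * Λ ≤ 1 := hϑC.trans hCH
  have hϑ0 : 0 ≤ 4 * R.a0 * H * Λ := by positivity
  have hcc' : c ^ 2 + (R.a0 * (H * τ)) ^ 2 ≤ c' ^ 2 := by
    have : (R.a0 * (H * τ)) ^ 2 = R.a0 ^ 2 * (H * τ) ^ 2 := by ring
    rw [this]
    nlinarith [mul_le_mul_of_nonneg_right hCa (sq_nonneg (H * τ))]
  have hit := pk_iter hX hs hs1 hC₂ hm hH hH1 hε hΛ hS hag rfl hϑ1 hc.le hc'.le hcc' hCs hst K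
  have hSk1 : 1 ≤ ((3 * N + 10) * S) ^ (K + 1) := Nat.one_le_pow _ _ (by positivity)
  have hout := pk_out hX hs hs1 hC₂ hH hlam hdel hL hL3 hSk1 ho hϑ0 hϑ1 (by positivity) hit
  have hHm : √(lev s t) * (C₂ * H ^ m * √d / √(lev s t)) = C₂ * H ^ (m - 2) * √d * H ^ 2 := by
    have : H ^ m = H ^ (m - 2) * H ^ 2 := by
      rw [← pow_add]
      congr 1
      omega
    rw [this]
    field_simp
  have e1 : √(lev s t) * (2 * (C₂ * H ^ m * √d / √(lev s t) + R.a0 * H * ε) +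
      (4 * R.a0 * H * Λ) ^ K * ((C₂ + R.a0 * Cs) * H * √d / √(lev s t)))
      = 2 * (C₂ * H ^ (m - 2) * √d * H ^ 2) + 2 * R.a0 * H * (√(lev s t) * ε) +
        (4 * R.a0 * H * Λ) ^ K * ((C₂ + R.a0 * Cs) * H * √d) := by
    rw [mul_add, mul_left_comm, mul_add (√(lev s t)), hHm]
    field_simp
  have hda : 0 < R.d0 * R.a0 := by positivity
  unfold KCode
  have hnoise : (R.d0 / (H * lam2) * √(lev s t)) ^ 2 ≤ (C / (H * lam2) * √(lev s t)) ^ 2 := by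
    have : R.d0 ≤ C := by linarith
    gcongr
  refine (Has.noise (τ' := C / (H * lam2) * √(lev s t)) hout hnoise (by positivity)).cast
    (fun _ _ => rfl) rfl ?_ ?_ rfl ?_ ?_
  · rw [e1]
    exact pk_arith ha0 hd0 hC₂ hl hH hH1 (Real.sqrt_nonneg _) hε hdel (by positivity)
      hCb hCe (by linarith) (by linarith) (by positivity)
      (pow_le_pow_left₀ hϑ0 hϑC K)
  · have h1 : R.d0 / H * (3 * (√(lev s t) * (4 * R.a0 * H * Λ))) =
        (12 * R.d0 * R.a0) * Λ * √(lev s t) := by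
      field_simp
      ring
    have h2 : (12 * R.d0 * R.a0) * Λ * √(lev s t) ≤ C * Λ * √(lev s t) := by gcongr
    have h3 : R.d0 / H * 6 ≤ C / H := by
      have : R.d0 / H * 6 = 6 * R.d0 / H := by ring
      rw [this]
      gcongr
    intro p
    fin_cases p
    · exact h3
    · exact h1.le.trans h2
    · exact h1.le.trans h2
  · have : R.d0 / H * 6 = 6 * R.d0 / H := by ring
    rw [this]
    gcongr
  · have h2 : ((3 * N + 10) * S) ^ (K + 2) = (3 * N + 10) * (S * ((3 * N + 10) * S) ^ (K + 1)) := by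
      rw [pow_succ _ (K + 1)]
      ring
    rw [h2]
    have h3 : 1 ≤ S * ((3 * N + 10) * S) ^ (K + 1) := Nat.mul_pos hS hSk1
    nlinarith

end round

theorem k_code {m N : ℕ} (R : RS m N) (hm : 3 ≤ m) : ∃ (C : ℝ) (M : ℕ), 1 ≤ C ∧
    ∀ (K d : ℕ) (s t H c c' lam2 del2 τ ε Λ Lp kap : ℝ) (S : ℕ),
    0 < s → s ≤ 1 / 4 → 0 ≤ t → 0 < H → H ≤ 1 → 0 < c → 0 < c' → c' ≤ 1 →
    c ^ 2 + C * (H * τ) ^ 2 ≤ c' ^ 2 → 0 < lam2 → 0 ≤ del2 → 0 ≤ τ → 0 ≤ ε → 1 ≤ Λ →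
    C * H * Λ ≤ 1 → 0 ≤ Lp → Lp ≤ 3 → 0 ≤ kap → kap ≤ 1 → 1 ≤ S →
    AG d s t c' τ ε Λ S → Orc d (lev s t) c' lam2 del2 Lp kap S →
    KCode d s t c (C / (H * lam2) * √(lev s t))
      (C * (√d * (H ^ (m - 2) + √(lev s t) / H * del2 + (C * H * Λ) ^ K / H) + √(lev s t) * ε))
      (C / H) (C * Λ * √(lev s t)) (C * Λ * √(lev s t)) ((M * S) ^ (K + 2)) := by
  obtain ⟨C₂, hC₂, hs2⟩ := pk_s2 R hm
  obtain ⟨Cs, hCs, hstat⟩ := pk_static
  have ha0 := R.a0_one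
  have hd0 := R.d0_one
  have hcs : 0 ≤ R.d0 * R.a0 * Cs := by positivity
  have hdC : 0 < R.d0 * C₂ := by positivity
  have hda : 0 < R.d0 * R.a0 := by positivity
  refine ⟨6 * R.d0 + R.a0 ^ 2 + 4 * R.a0 + 12 * R.d0 * R.a0 + C₂ + 6 * R.d0 * C₂ +
    3 * R.d0 * (C₂ + R.a0 * Cs), 3 * N + 10, ?_, ?_⟩
  · nlinarith
  intro K d s t H c c' lam2 del2 τ ε Λ Lp kap S hs hs1 _ hH hH1 hc hc' _ hcc hlam hdel hτ hε hΛ
    hCH hL hL3 hkap _ hS hag ho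
  choose X hX using fun V : PotT d => hs2 d V.1 s t H V.2 hs hs1 hH hH1
  exact pk_main hC₂ hm hCs (by nlinarith) (by nlinarith) (by nlinarith) (by nlinarith)
    (by nlinarith) (by nlinarith) hX
    (fun V => ⟨(hstat d V.1 s t V.2 hs hs1).1, (hstat d V.1 s t V.2 hs hs1).2.1⟩) K hs hs1 hH hH1
    hc hc' hcc hlam hdel hε hΛ hCH hL hL3 hS hag ho

end P347Z
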