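import Vale.Agent.P347Z.PxDefs

/-!
Module PMG: from the code of the main path to an oracle at the level `s` (averaging over `(w₀, z₀)`).
1. `Has.app` along `φ (y, G) = (y, G 0, G 1)` (measure preserving from `π_s ⊗ gpi (Fin 2)` to `mu3 V s`) from the
context `(octx d s c₀).lab c σ sh` with `K = Fin 2`, `c 0 = y`, `σ 0 = rr s T`, `sh 0 = 1`; `c 1 = 0`, `σ 1 = 1`,
`sh 1 = 0`: the kinds of `mctx` are the slots `inl 0`, `inl 1`, `inr ()`.
2. `Has.marg`: law of `(√s/lam) • Ze (y, G) + fo y` is `gau (fo y) (√s/lam)`.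
3. `Has.app` with `φ = id` from `(octx d s c₀).ext` to `octx d s c₀`: kind `inl 0` (centre `y`, noise `rr s T`) is a
slot topped up (`c₀ √s ≤ rr s T`), kind `inl 1` is a seed, kind `inr ()` a slot.
4. `Has.noise`: `√(2 s / lam²) ≤ √s / (lam / 2)`.
-/

open MeasureTheory ProbabilityTheory Function
open scoped ENNReal BigOperators

namespace P347Z

open P347Q P347S

private theorem pmg_mp {d : ℕ} {s : ℝ} (V : E d → ℝ) (hp : IsProbabilityMeasure (gibbs (US V s))) :
    MeasurePreserving (fun x : E d × (Fin 2 → E d) => (x.1, x.2 0, x.2 1))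
      ((gibbs (US V s)).prod (gpi (Fin 2) d)) (mu3 V s) := by
  have h := (MeasurePreserving.id (gibbs (US V s))).prod
    (measurePreserving_finTwoArrow (stdGaussian (E d)))
  exact h

private theorem pmg_single {ι : Type} [DecidableEq ι] (i r : ι) :
    (0 : ℝ) ≤ (Pi.single i 1 : ι → ℝ) r := by
  by_cases h : r = i
  · subst h
    rw [Pi.single_eq_same]
    exact zero_le_one
  · rw [Pi.single_eq_of_ne h]

theorem orc_marg {d : ℕ} {s lam T c₀ ε L₀ L₁ L₂ a κ : ℝ} {S : ℕ} (hs : 0 < s) (hs1 : s ≤ 1 / 4)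
    (hlam : 0 < lam) (hT : 0 ≤ T) (hc : 0 < c₀) (hcT : c₀ * √s ≤ rr s T) (hε : 0 ≤ ε)
    (h0 : 0 ≤ L₀) (h2 : 0 ≤ L₂) (hS : 1 ≤ S) {Ze : PotT d → Z3 d → E d}
    (hZm : ∀ V, Measurable (Ze V))
    (hZ : ∀ (V : PotT d) (y : E d), ((stdGaussian (E d)).prod (stdGaussian (E d))).map
      (fun p : E d × E d => Ze V (y, p.1, p.2)) = stdGaussian (E d))
    (h : Has (mctx d s (rr s T) c₀) (fun V p => (√s / lam) • Ze V p + fo V.1 s p.1)
      (√s / lam) ε ![L₀, L₁, L₂] a κ S) :
    Has (octx d s c₀) (fun V y => fo V.1 s y) (√s / (lam / 2)) ε (fun _ => L₀ + L₂) a κ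
      (16 * S) := by
  classical
  have hprob : ∀ V : PotT d, IsProbabilityMeasure (gibbs (US V.1 s)) := fun V =>
    us_prob V.2 hs hs1
  set c : Fin 2 → PotT d → E d → E d := ![fun _ y => y, fun _ _ => 0] with hcdef
  set σ : Fin 2 → ℝ := ![rr s T, 1] with hσ
  set sh : Fin 2 → ℝ := ![1, 0] with hsh
  set C := (octx d s c₀).lab c σ sh with hC
  -- step 1
  have h1 : Has C (fun V x => (√s / lam) • Ze V (x.1, x.2 0, x.2 1) + fo V.1 s x.1) (√s / lam) ε
      (Sum.elim ![L₀, L₁] (fun _ => L₂)) a κ S := by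
    have hk : ∀ p : Fin 3, Has C (fun V x => (mctx d s (rr s T) c₀).cen p V (x.1, x.2 0, x.2 1))
        ((mctx d s (rr s T) c₀).sig p) 0
        ((![Pi.single (Sum.inl 0) 1, Pi.single (Sum.inl 1) 1, Pi.single (Sum.inr ()) 1] :
          Fin 3 → (Fin 2 ⊕ Unit) → ℝ) p)
        ((mctx d s (rr s T) c₀).sh p) 0 1 := by
      intro p
      fin_cases p
      · exact Has.slot C (Sum.inl 0)
      · refine (Has.slot C (Sum.inl 1)).congr (fun V x => ?_) rfl
        change (0 : E d) + (1 : ℝ) • x.2 1 = x.2 1
        simp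
      · exact Has.slot C (Sum.inr ())
    have h3 := Has.app (C := C) (C' := mctx d s (rr s T) c₀)
      (φ := fun _ x => (x.1, x.2 0, x.2 1)) (fun V => rfl) (fun V => pmg_mp V.1 (hprob V)) h
      (ε := fun _ => 0) (κ := fun _ => 0) hk hε (fun _ => le_rfl) (fun _ => le_rfl)
      (fun p r => by
        fin_cases p
        · exact pmg_single (Sum.inl 0) r
        · exact pmg_single (Sum.inl 1) r
        · exact pmg_single (Sum.inr ()) r) le_rfl
    refine h3.cast (fun V x => rfl) rfl (by simp) (fun r => ?_) rfl (by simp) (by simp)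
    rw [Fin.sum_univ_three]
    rcases r with k | u
    · fin_cases k
      · simp
      · simp
    · simp
  -- step 2
  have h4 : Has ((octx d s c₀).ext c σ sh) (fun V y => fo V.1 s y)
      √((√s / lam) ^ 2 + (√s / lam) ^ 2) ε (Sum.elim ![L₀, L₁] (fun _ => L₂)) a κ S := by
    refine Has.marg h1 (fun V => ?_) (fun V x => ?_) (fun V x => ?_)
    · have := hprob V
      change SFinite (gibbs (US V.1 s))
      infer_instance
    · have h5 := hZm V
      have h6 : Measurable (fun G : Fin 2 → E d => (x, G 0, G 1)) := by fun_prop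
      have h7 : Measurable (fun G : Fin 2 → E d => Ze V (x, G 0, G 1)) := h5.comp h6
      exact (h7.const_smul (√s / lam)).add_const (fo V.1 s x)
    · have h5 := hZm V
      have h6 : Measurable (fun p : E d × E d => Ze V (x, p.1, p.2)) :=
        h5.comp (by fun_prop : Measurable fun p : E d × E d => (x, p.1, p.2))
      have h7 := (measurePreserving_finTwoArrow (stdGaussian (E d))).map_eq
      have h8 : (fun G : Fin 2 → E d => (√s / lam) • Ze V (x, G 0, G 1) + fo V.1 s x) =
          (fun z : E d => fo V.1 s x + (√s / lam) • z) ∘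
            (fun p : E d × E d => Ze V (x, p.1, p.2)) ∘ MeasurableEquiv.finTwoArrow := by
        funext G
        simp [Function.comp, add_comm]
      change (gpi (Fin 2) d).map
        (fun G : Fin 2 → E d => (√s / lam) • Ze V (x, G 0, G 1) + fo V.1 s x) = _
      rw [h8, ← Measure.map_map (by fun_prop) (h6.comp (MeasurableEquiv.measurable _)),
        ← Measure.map_map h6 (MeasurableEquiv.measurable _)]
      unfold gpi
      rw [h7, hZ V x]
      rfl
  -- step 3
  have h9 : Has (octx d s c₀) (fun V y => fo V.1 s y) √((√s / lam) ^ 2 + (√s / lam) ^ 2) ε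
      (fun _ => L₀ + L₂) a κ (S * 4) := by
    have hk : ∀ p : Fin 2 ⊕ Unit, Has (octx d s c₀)
        (fun V x => ((octx d s c₀).ext c σ sh).cen p V x) (((octx d s c₀).ext c σ sh).sig p) 0
        ((Sum.elim ![fun _ => 1, fun _ => 0] (fun _ _ => 1) : Fin 2 ⊕ Unit → Unit → ℝ) p)
        (((octx d s c₀).ext c σ sh).sh p) 0 4 := by
      intro p
      rcases p with k | u
      · fin_cases k
        · have h10 := Has.noise (τ' := rr s T) (Has.slot (octx d s c₀) ()) (by
            change (c₀ * √s) ^ 2 ≤ rr s T ^ 2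
            exact pow_le_pow_left₀ (by positivity) hcT 2) le_rfl
          refine h10.cast (fun V x => rfl) rfl le_rfl (fun r => ?_) rfl le_rfl le_rfl
          simp
        · refine (Has.seed (octx d s c₀)).cast (fun V x => rfl) rfl le_rfl (fun r => ?_) rfl le_rfl
            (by norm_num)
          simp
      · refine (Has.slot (octx d s c₀) ()).cast (fun V x => rfl) rfl le_rfl (fun r => ?_) rfl le_rfl
          (by norm_num)
        simp
    have h11 := Has.app (C := octx d s c₀) (C' := (octx d s c₀).ext c σ sh)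
      (φ := fun _ x => x) (fun V => rfl) (fun V => MeasurePreserving.id _) h4
      (ε := fun _ => 0) (κ := fun _ => 0) hk hε (fun _ => le_rfl) (fun _ => le_rfl)
      (fun p r => by
        rcases p with k | u
        · fin_cases k
          · exact zero_le_one
          · exact le_rfl
        · exact zero_le_one) (by norm_num)
    refine h11.cast (fun V x => rfl) rfl (by simp) (fun r => ?_) rfl (by simp) le_rfl
    rw [Fintype.sum_sum_type, Fin.sum_univ_two]
    simp
  -- step 4
  have h12 := Has.noise (τ' := √s / (lam / 2)) h9 (by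
    rw [Real.sq_sqrt (by positivity), div_pow, div_pow, Real.sq_sqrt hs.le]
    have h13 : s / (lam / 2) ^ 2 = 4 * (s / lam ^ 2) := by
      field_simp
      norm_num
    rw [h13]
    have : 0 ≤ s / lam ^ 2 := by positivity
    linarith) hε
  exact h12.mono le_rfl (fun _ => le_rfl) le_rfl (by omega)

end P347Z
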