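import Vale.Agent.P347Z.PxNB

/-!
Module PMN: codes for the states of the main path at the nodes, by Picard iteration on codes, in the context
`mctx d s σ c₀`, `σ = rr s (J h)` (`X₁ = y + σ w₀` and `z₀` exactly known, `y` with noise `c₀ √s`).
Notation: `T_b = nt R h b`, `r_b = rr s T_b`, `l_b = √(lev s T_b)`, `ρ_b = r_b / σ`.
  `Y_b = ρ_b X₁ + (1 - ρ_b) y - r_b Br_b`,  `w_b = σ⁻¹ (X₁ - y) - Br_b`,
  `Br_b = ∑ c, (Wt b c rr' c) f(Y_c) + ∑ c, (Wt b c lam q_c²) oA(X_c)`,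
  `z_b = z₀ + ∑ c, (Wt b c lam / √s) oG(X_c)`   (`q_c² • GG = (√s)⁻¹ • oG`),
  `Y_e = X₁ - σ Br_e` with the weights `h w_j`.
`|Wt| ≤ C h`, `∑_c |Wt b c| ≤ C J h`, `∑_c |Wt b c|² ≤ C J h²`.
Round 0: without the sums.  Units `(√s, 1, 1)` for `(Y, w, z)`.  Errors
`e_{k+1} ≤ C (J h^m √d + J h (s delf √d + lam ε)) + C J h (s + lam Λ) e_k`, `e_0 ≤ C J h √d / √s + C J h^m √d`
(`static_bound`, `us_grad_sq`).
Noise of `Y_b`: `(1 - ρ_b)² c₀² s ≤ c₀² l_b²` since `(1-ρ)² ≤ 1 - ρ²`, `ρ_b ≥ tanh T_b`; the rest is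
`≤ s (C (s²/lamf² + (lam τ)²)) ≤ h l_b²`.  Noise of `w_b`: `c₀² / tanh² (J h) ≤ c₀² (1 + h)`.
-/

open MeasureTheory ProbabilityTheory Function
open scoped ENNReal BigOperators

namespace P347Z

open P347Q P347S

section rounds

variable {m N J d : ℕ} {R : RS m N} {CW s lam h c₀ c₁ lamf delf τ ε Λ ϑ Lp kap Er C₃ : ℝ}
  {S Sz : ℕ} {X : PotT d → Fin J × Fin (N + 1) → Z3 d → Z3 d} {Xe : PotT d → Z3 d → Z3 d}

theorem pn_zero (C : Inp d (PotT d) (Z3 d) (Fin 3)) :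
    Has C (fun _ _ => 0) 0 0 ![0, 0, 0] 0 0 1 := by
  refine (Has.zero C).mono le_rfl ?_ le_rfl le_rfl
  intro p
  fin_cases p
  · exact le_refl (0 : ℝ)
  · exact le_refl (0 : ℝ)
  · exact le_refl (0 : ℝ)

/-- round `0` -/
theorem pn_round0 (hn : NumN CW J s lam h c₀ c₁ lamf delf τ ε Λ ϑ)
    (hX : ∀ V : PotT d, S3P R C₃ V.1 s lam h J (X V) (Xe V)) (hEr : 0 ≤ Er)
    (hb : ∀ (V : PotT d) b, (Integrable (fun p => ‖(X V b p).2.1 - p.2.1‖) (mu3 V.1 s) ∧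
        ∫ p, ‖(X V b p).2.1 - p.2.1‖ ∂(mu3 V.1 s) ≤ Er) ∧
      (Integrable (fun p => ‖(X V b p).2.2 - p.2.2‖) (mu3 V.1 s) ∧
        ∫ p, ‖(X V b p).2.2 - p.2.2‖ ∂(mu3 V.1 s) ≤ Er)) :
    Rnd R d J s h c₀ c₁ ϑ Er 13 X := by
  intro b
  have hs0 := hn.s0
  have hsq0 := hn.sq0
  have hϑ0 := hn.ϑ0
  have hh0 := hn.h0
  have hc := px_cosh_pos (J * h)
  obtain ⟨ht0, ht1⟩ := s3_nt_mem R hn.h0 b
  have hmX : ∀ V, Measurable (X V b) := fun V => ((hX V).1 b).measurable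
  have hm1 : ∀ V, Measurable (fun p : Z3 d => (X V b p).2.1 - p.2.1 + (0 : E d)) := fun V =>
    (((hmX V).snd.fst).sub measurable_snd.fst).add_const _
  have hm2 : ∀ V, Measurable (fun p : Z3 d => (X V b p).2.2 - p.2.2 - (0 : E d)) := fun V =>
    (((hmX V).snd.snd).sub measurable_snd.snd).sub_const _
  have hi1 : ∀ V : PotT d, Integrable (fun p => ‖(X V b p).2.1 - p.2.1 + (0 : E d)‖)
      (mu3 V.1 s) := fun V => by
    simpa only [add_zero] using (hb V b).1.1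
  have hl1 : ∀ V : PotT d, ∫ p, ‖(X V b p).2.1 - p.2.1 + (0 : E d)‖ ∂(mu3 V.1 s) ≤ Er :=
    fun V => by simpa only [add_zero] using (hb V b).1.2
  have hi2 : ∀ V : PotT d, Integrable (fun p => ‖(X V b p).2.2 - p.2.2 - (0 : E d)‖)
      (mu3 V.1 s) := fun V => by
    simpa only [sub_zero] using (hb V b).2.1
  have hl2 : ∀ V : PotT d, ∫ p, ‖(X V b p).2.2 - p.2.2 - (0 : E d)‖ ∂(mu3 V.1 s) ≤ Er :=
    fun V => by simpa only [sub_zero] using (hb V b).2.2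
  have hz : (0 : ℝ) ^ 2 ≤ h / Real.cosh (J * h) ^ 2 := by
    rw [zero_pow two_ne_zero]
    positivity
  have k1 := pn_Y hn ht0 ht1 (Φ := fun V => X V b) (fun V p => (hX V).2.2.1 b p)
    (pn_zero _) hz le_rfl le_rfl le_rfl le_rfl le_rfl hm1 hi1 hl1 hEr
  have k2 := pn_w hn (Φ := fun V => X V b) (pn_zero _) hz le_rfl hm1 hi1 hl1 hEr
  have k3 := pn_z hn (Φ := fun V => X V b) (pn_zero _) hz le_rfl hm2 hi2 hl2 hEr
  refine ⟨k1.mono ?_ ?_ ?_ le_rfl, k2.mono ?_ ?_ ?_ le_rfl, k3.mono ?_ ?_ ?_ le_rfl⟩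
  · rw [zero_add]
  · intro p
    fin_cases p
    · show rr s (nt R h b) / rr s (J * h) + √s * 0 ≤ rr s (nt R h b) / rr s (J * h) + ϑ
      linarith
    · show √s * 0 ≤ √s * ϑ
      exact mul_le_mul_of_nonneg_left hϑ0 hsq0.le
    · show 1 - rr s (nt R h b) / rr s (J * h) + √s * 0 ≤ 1 - rr s (nt R h b) / rr s (J * h) + ϑ
      linarith
  · linarith
  · rw [zero_add]
  · have e : 2 / √s ≤ 3 / √s := div_le_div_of_nonneg_right (by norm_num) hsq0.le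
    intro p
    fin_cases p
    · show 2 / √s + 0 ≤ 3 / √s
      linarith
    · exact hϑ0
    · show 2 / √s + 0 ≤ 3 / √s
      linarith
  · positivity
  · rw [zero_add]
  · intro p
    fin_cases p
    · show (0 : ℝ) ≤ ϑ / √s
      positivity
    · show (1 : ℝ) + 0 ≤ 2
      norm_num
    · show (0 : ℝ) ≤ ϑ / √s
      positivity
  · positivity

/-- the bracket for arbitrary weights, from the codes of one round -/
theorem pn_bracket (hn : NumN CW J s lam h c₀ c₁ lamf delf τ ε Λ ϑ) {Cw : ℝ} (hCw : 1 ≤ Cw)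
    (hCW : ((N : ℝ) + 1) * Cw ^ 2 ≤ CW)
    (hX : ∀ V : PotT d, S3P R C₃ V.1 s lam h J (X V) (Xe V)) (hLp : 0 ≤ Lp) (hLp3 : Lp ≤ 3)
    (hS : 1 ≤ S) (hSz : 1 ≤ Sz) (hEr : 0 ≤ Er)
    (hAG : ∀ b : Fin J × Fin (N + 1), AG d s (nt R h b) c₁ τ ε Λ S)
    (hOrc : ∀ b : Fin J × Fin (N + 1), Orc d (lev s (nt R h b)) c₁ lamf delf Lp kap S)
    (hR : Rnd R d J s h c₀ c₁ ϑ Er Sz X) {v : Fin J × Fin (N + 1) → ℝ}
    (hv : ∀ c, |v c| ≤ Cw * h) :
    Has (mctx d s (rr s (J * h)) c₀) (fun V p => ∑ c, (v c * rr' s (nt R h c)) •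
        fo V.1 (lev s (nt R h c)) (X V c p).1 + ∑ c, (v c * (lam * qq (nt R h c) ^ 2)) •
        oA V.1 s (nt R h c) (X V c p)) √(h / Real.cosh (J * h) ^ 2)
      (CW * (J * h) * (s * delf * √d + lam * ε) + ϑ / 4 * Er) ![ϑ / (4 * √s), ϑ / 4, ϑ / (4 * √s)] 0
      (ϑ / (2 * √s)) (J * (N + 1) * (10 * (S * Sz) + 2) + 4) ∧
    Has (mctx d s (rr s (J * h)) c₀) (fun V p => ∑ c, (v c * (lam * qq (nt R h c) ^ 2)) •
        GG (US V.1 (lev s (nt R h c))) (rr s (nt R h c)) (X V c p).1 (X V c p).2.1)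
      √(h / Real.cosh (J * h) ^ 2)
      (CW * (J * h) * (s * delf * √d + lam * ε) + ϑ / 4 * Er) ![ϑ / (4 * √s), ϑ / 4, ϑ / (4 * √s)] 0
      (ϑ / (2 * √s)) (J * (N + 1) * (10 * (S * Sz) + 2) + 4) := by
  have hnode := fun b => pn_node hn hLp hLp3 hS hSz hEr b (fun V => (hX V).1 b) (hAG b) (hOrc b) hR
  have hsq0 := hn.sq0
  constructor
  · have h1 := pn_lin hn hCw hCW hv hEr (C := mctx d s (rr s (J * h)) c₀) rfl
      (fun b => (hnode b).1)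
    refine h1.congr (fun V p => ?_) rfl
    simp only [smul_add, smul_smul, Finset.sum_add_distrib]
  · have h1 := pn_lin hn hCw hCW hv hEr (C := mctx d s (rr s (J * h)) c₀) rfl
      (fun b => (hnode b).2)
    refine h1.congr (fun V p => ?_) rfl
    refine Finset.sum_congr rfl fun c _ => ?_
    have e : lam / √s * rr' s (nt R h c) = lam * qq (nt R h c) ^ 2 := by
      unfold rr' qq
      have := (px_cosh_pos (nt R h c)).ne'
      field_simp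
    unfold oG
    rw [smul_smul, smul_smul, mul_assoc, e]

/-- one round -/
theorem pn_step (hn : NumN CW J s lam h c₀ c₁ lamf delf τ ε Λ ϑ) {Cw : ℝ} (hCw : 1 ≤ Cw)
    (hCW : ((N : ℝ) + 1) * Cw ^ 2 ≤ CW) (hC₃ : 0 ≤ C₃)
    (hwt : ∀ b c : Fin J × Fin (N + 1), |Wt R h b c| ≤ Cw * h)
    (hX : ∀ V : PotT d, S3P R C₃ V.1 s lam h J (X V) (Xe V)) (hLp : 0 ≤ Lp) (hLp3 : Lp ≤ 3)
    (hS : 1 ≤ S) (hSz : 1 ≤ Sz) (hEr : 0 ≤ Er)
    (hAG : ∀ b : Fin J × Fin (N + 1), AG d s (nt R h b) c₁ τ ε Λ S)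
    (hOrc : ∀ b : Fin J × Fin (N + 1), Orc d (lev s (nt R h b)) c₁ lamf delf Lp kap S)
    (hR : Rnd R d J s h c₀ c₁ ϑ Er Sz X) :
    Rnd R d J s h c₀ c₁ ϑ (CW * (J * h) * (s * delf * √d + lam * ε) + ϑ / 4 * Er +
      C₃ * J * h ^ m * √d) (J * (N + 1) * (10 * (S * Sz) + 2) + 16) X := by
  intro b
  obtain ⟨g1, g2⟩ := pn_bracket hn hCw hCW hX hLp hLp3 hS hSz hEr hAG hOrc hR (hwt b)
  have hs0 := hn.s0
  have hsq0 := hn.sq0
  have hϑ0 := hn.ϑ0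
  have hh0 := hn.h0
  have hd0 := hn.delf0
  have hε0 := hn.ε0
  have hl0 := hn.lam0
  have hCW1 := hn.CW1
  have hc := px_cosh_pos (J * h)
  obtain ⟨ht0, ht1⟩ := s3_nt_mem R hn.h0 b
  have hmX : ∀ V c, Measurable (X V c) := fun V c => ((hX V).1 c).measurable
  have hτ : √(h / Real.cosh (J * h) ^ 2) ^ 2 ≤ h / Real.cosh (J * h) ^ 2 := by
    rw [Real.sq_sqrt (by positivity)]
  have hδ : 0 ≤ C₃ * J * h ^ m * √d := by positivity
  have hεG : 0 ≤ CW * (J * h) * (s * delf * √d + lam * ε) + ϑ / 4 * Er := by positivity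
  have hm1 : ∀ V : PotT d, Measurable (fun p : Z3 d => (X V b p).2.1 - p.2.1 +
      (∑ c, (Wt R h b c * rr' s (nt R h c)) •
        fo V.1 (lev s (nt R h c)) (X V c p).1 + ∑ c, (Wt R h b c * (lam * qq (nt R h c) ^ 2)) •
        oA V.1 s (nt R h c) (X V c p))) := fun V =>
    (((hmX V b).snd.fst).sub measurable_snd.fst).add
      (pnx_meas R V.2 hs0 hn.s1 (hX V) (Wt R h b)
        (fun c => Wt R h b c * (lam * qq (nt R h c) ^ 2))).1
  have hres1 := fun V : PotT d => (hX V).2.2.2.2.1 b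
  have hi1 : ∀ V : PotT d, Integrable (fun p : Z3 d => ‖(X V b p).2.1 - p.2.1 +
      (∑ c, (Wt R h b c * rr' s (nt R h c)) •
        fo V.1 (lev s (nt R h c)) (X V c p).1 + ∑ c, (Wt R h b c * (lam * qq (nt R h c) ^ 2)) •
        oA V.1 s (nt R h c) (X V c p))‖) (mu3 V.1 s) := fun V => by
    simpa only [← add_assoc] using (hres1 V).1
  have hl1 : ∀ V : PotT d, ∫ p, ‖(X V b p).2.1 - p.2.1 +
      (∑ c, (Wt R h b c * rr' s (nt R h c)) •
        fo V.1 (lev s (nt R h c)) (X V c p).1 + ∑ c, (Wt R h b c * (lam * qq (nt R h c) ^ 2)) •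
        oA V.1 s (nt R h c) (X V c p))‖ ∂(mu3 V.1 s) ≤ C₃ * J * h ^ m * √d := fun V => by
    simpa only [← add_assoc] using (hres1 V).2
  have hres2 := fun V : PotT d => (hX V).2.2.2.2.2.1 b
  have hm2 : ∀ V : PotT d, Measurable (fun p : Z3 d => (X V b p).2.2 - p.2.2 -
      ∑ c, (Wt R h b c * (lam * qq (nt R h c) ^ 2)) •
        GG (US V.1 (lev s (nt R h c))) (rr s (nt R h c)) (X V c p).1 (X V c p).2.1) := by
    intro V
    have h1 : (fun p : Z3 d => ∑ c, (Wt R h b c * (lam * qq (nt R h c) ^ 2)) •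
        GG (US V.1 (lev s (nt R h c))) (rr s (nt R h c)) (X V c p).1 (X V c p).2.1) =
        fun p => ∑ c, (Wt R h b c * (lam / √s)) • oG V.1 s (nt R h c) (X V c p) := by
      funext p
      refine Finset.sum_congr rfl fun c _ => ?_
      have e : lam / √s * rr' s (nt R h c) = lam * qq (nt R h c) ^ 2 := by
        unfold rr' qq
        have := (px_cosh_pos (nt R h c)).ne'
        field_simp
      unfold oG
      rw [smul_smul, mul_assoc, e]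
    refine (((hmX V b).snd.snd).sub measurable_snd.snd).sub ?_
    rw [h1]
    exact (pnx_meas R V.2 hs0 hn.s1 (hX V) (fun c => Wt R h b c * (lam / √s)) (fun _ => 0)).2
  have k1 := pn_Y hn ht0 ht1 (Φ := fun V => X V b) (fun V p => (hX V).2.2.1 b p)
    g1 hτ hεG (by positivity) (by positivity) (by positivity) (by positivity) hm1 hi1 hl1 hδ
  have k2 := pn_w hn (Φ := fun V => X V b) g1 hτ hεG hm1 hi1 hl1 hδ
  have k3 := pn_z hn (Φ := fun V => X V b) g2 hτ hεG hm2 (fun V => (hres2 V).1)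
    (fun V => (hres2 V).2) hδ
  have hϑ1 := hn.ϑ1
  have e0 : √s * (ϑ / (4 * √s)) = ϑ / 4 := by field_simp
  have e1 : √s * (ϑ / (2 * √s)) = ϑ / 2 := by field_simp
  have e2 : ϑ / (4 * √s) ≤ 1 / √s := by
    rw [div_le_div_iff₀ (by positivity) hsq0]
    nlinarith
  have e3 : 2 / √s + 1 / √s = 3 / √s := by
    field_simp
    norm_num
  have e4 : ϑ / (4 * √s) ≤ ϑ / √s := div_le_div_of_nonneg_left hϑ0 hsq0 (by linarith)
  have e5 : ϑ / (2 * √s) ≤ ϑ / √s := div_le_div_of_nonneg_left hϑ0 hsq0 (by linarith)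
  refine ⟨k1.mono le_rfl ?_ ?_ (by omega), k2.mono le_rfl ?_ e5 (by omega),
    k3.mono le_rfl ?_ e5 (by omega)⟩
  · intro p
    fin_cases p
    · show rr s (nt R h b) / rr s (J * h) + √s * (ϑ / (4 * √s)) ≤
        rr s (nt R h b) / rr s (J * h) + ϑ
      linarith
    · show √s * (ϑ / 4) ≤ √s * ϑ
      exact mul_le_mul_of_nonneg_left (by linarith) hsq0.le
    · show 1 - rr s (nt R h b) / rr s (J * h) + √s * (ϑ / (4 * √s)) ≤
        1 - rr s (nt R h b) / rr s (J * h) + ϑ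
      linarith
  · linarith
  · intro p
    fin_cases p
    · show 2 / √s + ϑ / (4 * √s) ≤ 3 / √s
      linarith
    · show ϑ / 4 ≤ ϑ
      linarith
    · show 2 / √s + ϑ / (4 * √s) ≤ 3 / √s
      linarith
  · intro p
    fin_cases p
    · exact e4
    · show 1 + ϑ / 4 ≤ 2
      linarith
    · exact e4

/-- the end point -/
theorem pn_end (hn : NumN CW J s lam h c₀ c₁ lamf delf τ ε Λ ϑ) {Cw : ℝ} (hCw : 1 ≤ Cw)
    (hCW : ((N : ℝ) + 1) * Cw ^ 2 ≤ CW) (hC₃ : 0 ≤ C₃)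
    (hwt : ∀ c : Fin J × Fin (N + 1), |h * R.w c.2| ≤ Cw * h)
    (hX : ∀ V : PotT d, S3P R C₃ V.1 s lam h J (X V) (Xe V)) (hLp : 0 ≤ Lp) (hLp3 : Lp ≤ 3)
    (hS : 1 ≤ S) (hSz : 1 ≤ Sz) (hEr : 0 ≤ Er)
    (hAG : ∀ b : Fin J × Fin (N + 1), AG d s (nt R h b) c₁ τ ε Λ S)
    (hOrc : ∀ b : Fin J × Fin (N + 1), Orc d (lev s (nt R h b)) c₁ lamf delf Lp kap S)
    (hR : Rnd R d J s h c₀ c₁ ϑ Er Sz X) :
    Has (mctx d s (rr s (J * h)) c₀) (fun V p => (Xe V p).1)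
      (c₁ * √(lev s (J * h))) (√s * (CW * (J * h) * (s * delf * √d + lam * ε) + ϑ / 4 * Er +
      C₃ * J * h ^ m * √d)) ![1 + ϑ, √s * ϑ, ϑ] 1 ϑ
      (J * (N + 1) * (10 * (S * Sz) + 2) + 16) := by
  obtain ⟨g1, g2⟩ := pn_bracket hn hCw hCW hX hLp hLp3 hS hSz hEr hAG hOrc hR hwt
  have hs0 := hn.s0
  have hsq0 := hn.sq0
  have hϑ0 := hn.ϑ0
  have hh0 := hn.h0
  have hd0 := hn.delf0
  have hε0 := hn.ε0
  have hl0 := hn.lam0
  have hCW1 := hn.CW1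
  have hc := px_cosh_pos (J * h)
  have hmX : ∀ V c, Measurable (X V c) := fun V c => ((hX V).1 c).measurable
  have hmXe : ∀ V, Measurable (Xe V) := fun V => (hX V).2.1.measurable
  have hτ : √(h / Real.cosh (J * h) ^ 2) ^ 2 ≤ h / Real.cosh (J * h) ^ 2 := by
    rw [Real.sq_sqrt (by positivity)]
  have hδ : 0 ≤ C₃ * J * h ^ m * √d := by positivity
  have hεG : 0 ≤ CW * (J * h) * (s * delf * √d + lam * ε) + ϑ / 4 * Er := by positivity
  have hm1 : ∀ V : PotT d, Measurable (fun p : Z3 d => (Xe V p).2.1 - p.2.1 +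
      (∑ c, (h * R.w c.2 * rr' s (nt R h c)) •
        fo V.1 (lev s (nt R h c)) (X V c p).1 + ∑ c, (h * R.w c.2 * (lam * qq (nt R h c) ^ 2)) •
        oA V.1 s (nt R h c) (X V c p))) := fun V =>
    (((hmXe V).snd.fst).sub measurable_snd.fst).add
      (pnx_meas R V.2 hs0 hn.s1 (hX V) (fun c => h * R.w c.2)
        (fun c => h * R.w c.2 * (lam * qq (nt R h c) ^ 2))).1
  have hres1 := fun V : PotT d => (hX V).2.2.2.2.2.2.1
  have hi1 : ∀ V : PotT d, Integrable (fun p : Z3 d => ‖(Xe V p).2.1 - p.2.1 +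
      (∑ c, (h * R.w c.2 * rr' s (nt R h c)) •
        fo V.1 (lev s (nt R h c)) (X V c p).1 + ∑ c, (h * R.w c.2 * (lam * qq (nt R h c) ^ 2)) •
        oA V.1 s (nt R h c) (X V c p))‖) (mu3 V.1 s) := fun V => by
    simpa only [← add_assoc] using (hres1 V).1
  have hl1 : ∀ V : PotT d, ∫ p, ‖(Xe V p).2.1 - p.2.1 +
      (∑ c, (h * R.w c.2 * rr' s (nt R h c)) •
        fo V.1 (lev s (nt R h c)) (X V c p).1 + ∑ c, (h * R.w c.2 * (lam * qq (nt R h c) ^ 2)) •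
        oA V.1 s (nt R h c) (X V c p))‖ ∂(mu3 V.1 s) ≤ C₃ * J * h ^ m * √d := fun V => by
    simpa only [← add_assoc] using (hres1 V).2
  have k1 := pn_Y hn hn.U0 le_rfl (Φ := fun V => Xe V) (fun V p => (hX V).2.2.2.1 p)
    g1 hτ hεG (by positivity) (by positivity) (by positivity) (by positivity) hm1 hi1 hl1 hδ
  have e0 : √s * (ϑ / (4 * √s)) = ϑ / 4 := by field_simp
  have e1 : √s * (ϑ / (2 * √s)) = ϑ / 2 := by field_simp
  have hσ := pnx_rr_pos hn.s0 hn.h0 hn.h1 hn.U0 hn.cosh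
  have e2 : rr s (J * h) / rr s (J * h) = 1 := div_self hσ.ne'
  refine k1.mono le_rfl ?_ ?_ (by omega)
  · intro p
    fin_cases p
    · show rr s (J * h) / rr s (J * h) + √s * (ϑ / (4 * √s)) ≤ 1 + ϑ
      linarith
    · show √s * (ϑ / 4) ≤ √s * ϑ
      exact mul_le_mul_of_nonneg_left (by linarith) hsq0.le
    · show 1 - rr s (J * h) / rr s (J * h) + √s * (ϑ / (4 * √s)) ≤ ϑ
      linarith
  · linarith

end rounds

/-- size bookkeeping -/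
theorem pn_size (N J S Sz : ℕ) (hJ : 1 ≤ J) (hS : 1 ≤ S) (hSz : 1 ≤ Sz) :
    J * (N + 1) * (10 * (S * Sz) + 2) + 16 ≤ 28 * (N + 1) * J * S * Sz := by
  have h1 : 1 ≤ S * Sz := Nat.one_le_iff_ne_zero.2 (by positivity)
  have h2 : 1 ≤ J * (N + 1) := Nat.one_le_iff_ne_zero.2 (by positivity)
  have h3 : J * (N + 1) * (10 * (S * Sz) + 2) ≤ J * (N + 1) * (12 * (S * Sz)) :=
    Nat.mul_le_mul_left _ (by omega)
  have h4 : 1 ≤ J * (N + 1) * (S * Sz) := Nat.one_le_iff_ne_zero.2 (by positivity)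
  calc J * (N + 1) * (10 * (S * Sz) + 2) + 16 ≤
      J * (N + 1) * (12 * (S * Sz)) + 16 * (J * (N + 1) * (S * Sz)) := by omega
    _ = 28 * (N + 1) * J * S * Sz := by ring

/-- the error recursion -/
theorem pn_rec {CW C C₃ A B D ϑ : ℝ} (hϑ0 : 0 ≤ ϑ) (hϑ1 : ϑ ≤ 1) (hA0 : 0 ≤ A) (hB0 : 0 ≤ B)
    (hD0 : 0 ≤ D) (hC0 : 0 ≤ C) (h1 : CW ≤ C / 2) (h2 : C₃ ≤ C / 2) (k : ℕ) :
    CW * B + ϑ / 4 * (C * (A + B + ϑ ^ k * D)) + C₃ * A ≤ C * (A + B + ϑ ^ (k + 1) * D) := by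
  have e0 : 0 ≤ C * (A + B) := by positivity
  have e3 : ϑ / 4 * (C * (A + B)) ≤ 1 / 4 * (C * (A + B)) :=
    mul_le_mul_of_nonneg_right (by linarith) e0
  have e4 : 0 ≤ C * (ϑ ^ (k + 1) * D) := by positivity
  have e5 : ϑ / 4 * (C * (ϑ ^ k * D)) = 1 / 4 * (C * (ϑ ^ (k + 1) * D)) := by ring
  have e6 : CW * B ≤ C / 2 * B := mul_le_mul_of_nonneg_right h1 hB0
  have e7 : C₃ * A ≤ C / 2 * A := mul_le_mul_of_nonneg_right h2 hA0
  have e8 : 0 ≤ C * A := by positivity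
  have e9 : 0 ≤ C * B := by positivity
  have e10 : ϑ / 4 * (C * (A + B + ϑ ^ k * D)) = ϑ / 4 * (C * (A + B)) +
    ϑ / 4 * (C * (ϑ ^ k * D)) := by ring
  have e11 : C * (A + B + ϑ ^ (k + 1) * D) = C * A + C * B + C * (ϑ ^ (k + 1) * D) := by ring
  have e12 : C * (A + B) = C * A + C * B := by ring
  rw [e10, e11, e5]
  rw [e12] at e3
  linarith

theorem main_nodes {m N : ℕ} (R : RS m N) (hm : 3 ≤ m) {C₃ : ℝ} (hC₃ : 0 < C₃) :
    ∃ (C : ℝ) (M : ℕ), 1 ≤ C ∧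
    ∀ (K J d : ℕ) (s lam h c₀ c₁ lamf delf τ ε Λ Lp kap ϑ e : ℝ) (S : ℕ)
      (X : PotT d → Fin J × Fin (N + 1) → Z3 d → Z3 d) (Xe : PotT d → Z3 d → Z3 d),
    (∀ V : PotT d, S3P R C₃ V.1 s lam h J (X V) (Xe V)) →
    0 < s → s ≤ 1 / 4 → 0 < lam → lam ≤ 1 → 0 < h → h ≤ 1 → 1 ≤ J → (J * h) * h ≤ 1 →
    2 ≤ h * Real.cosh (J * h) ^ 2 → 0 < c₀ → 0 < c₁ → c₁ ≤ 1 → c₀ ^ 2 + C * h ≤ c₁ ^ 2 →
    0 < lamf → 0 ≤ delf → 0 ≤ τ → 0 ≤ ε → 1 ≤ Λ →
    C * Real.cosh (J * h) ^ 2 * (s ^ 2 / lamf ^ 2 + (lam * τ) ^ 2) ≤ h →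
    ϑ = C * (J * h) * (s + lam * Λ) → ϑ ≤ 1 →
    e = C * (J * h ^ m * √d + (J * h) * (s * delf * √d + lam * ε) +
      ϑ ^ K * ((J * h) * √d / √s)) →
    0 ≤ Lp → Lp ≤ 3 → 0 ≤ kap → kap ≤ 1 → 1 ≤ S →
    (∀ b : Fin J × Fin (N + 1), AG d s (nt R h b) c₁ τ ε Λ S) →
    (∀ b : Fin J × Fin (N + 1), Orc d (lev s (nt R h b)) c₁ lamf delf Lp kap S) →
    (∀ b : Fin J × Fin (N + 1),
      Has (mctx d s (rr s (J * h)) c₀) (fun V p => (X V b p).1)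
        (c₁ * √(lev s (nt R h b))) (√s * e)
        ![rr s (nt R h b) / rr s (J * h) + ϑ, √s * ϑ,
          1 - rr s (nt R h b) / rr s (J * h) + ϑ] 1 ϑ ((M * J * S) ^ (K + 1)) ∧
      Has (mctx d s (rr s (J * h)) c₀) (fun V p => (X V b p).2.1) c₁ e
        ![C / √s, ϑ, C / √s] 0 (ϑ / √s) ((M * J * S) ^ (K + 1)) ∧
      Has (mctx d s (rr s (J * h)) c₀) (fun V p => (X V b p).2.2) c₁ e
        ![ϑ / √s, 2, ϑ / √s] 0 (ϑ / √s) ((M * J * S) ^ (K + 1))) ∧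
    Has (mctx d s (rr s (J * h)) c₀) (fun V p => (Xe V p).1)
      (c₁ * √(lev s (J * h))) (√s * e) ![1 + ϑ, √s * ϑ, ϑ] 1 ϑ ((M * J * S) ^ (K + 1)) := by
  obtain ⟨Cw, hCw, hwt, hwe⟩ := pnx_wt R
  obtain ⟨Cb, hCb, hbase⟩ := pnx_base R hC₃
  obtain ⟨CW, hCWd⟩ : ∃ CW : ℝ, CW = ((N : ℝ) + 1) * Cw ^ 2 := ⟨_, rfl⟩
  have hCW1 : 1 ≤ CW := by
    rw [hCWd]
    have h1 : (0 : ℝ) ≤ N := Nat.cast_nonneg N
    have h2 : 1 ≤ Cw ^ 2 := one_le_pow₀ hCw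
    nlinarith
  obtain ⟨C, hCd⟩ : ∃ C : ℝ, C = 24 * CW + 2 * C₃ + Cb + 3 := ⟨_, rfl⟩
  refine ⟨C, 364 * (N + 1), by linarith, ?_⟩
  intro K J d s lam h c₀ c₁ lamf delf τ ε Λ Lp kap ϑ e S X Xe hX hs hs1 hlam hlam1 hh hh1 hJ hJh
    hcosh hc₀ hc₁ hc₁1 hcc hlamf hdelf hτ hε hΛ hnoise hϑ hϑ1 he hLp hLp3 hkap hkap1 hS hAG hOrc
  have hJh0 : (0 : ℝ) ≤ J * h := by positivity
  have hsl : 0 ≤ s + lam * Λ := by
    have : 0 ≤ Λ := by linarith
    positivity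
  have hcoshp := px_cosh_pos (J * h)
  have hn : NumN CW J s lam h c₀ c₁ lamf delf τ ε Λ ϑ := by
    refine ⟨hs, hs1, hlam, hlam1, hh, hh1, hJ, hJh, hcosh, hc₀, hc₁, hc₁1, ?_, hlamf, hdelf, hτ,
      hε, hΛ, hCW1, ?_, hϑ1, ?_⟩
    · have : 2 * h ≤ C * h := mul_le_mul_of_nonneg_right (by linarith) hh.le
      linarith
    · refine le_trans ?_ hnoise
      have : CW ≤ C := by linarith
      gcongr
    · rw [hϑ]
      have : 24 * CW ≤ C := by linarith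
      gcongr
  have hϑ0 := hn.ϑ0
  obtain ⟨A, hA⟩ : ∃ A : ℝ, A = J * h ^ m * √d := ⟨_, rfl⟩
  obtain ⟨B, hB⟩ : ∃ B : ℝ, B = (J * h) * (s * delf * √d + lam * ε) := ⟨_, rfl⟩
  obtain ⟨D, hD⟩ : ∃ D : ℝ, D = (J * h) * √d / √s := ⟨_, rfl⟩
  have hA0 : 0 ≤ A := by rw [hA]; positivity
  have hB0 : 0 ≤ B := by rw [hB]; positivity
  have hD0 : 0 ≤ D := by rw [hD]; positivity
  have hC0 : 0 ≤ C := by linarith
  have hCWC : ((N : ℝ) + 1) * Cw ^ 2 ≤ CW := hCWd.ge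
  -- the error recursion
  have hrec : ∀ k : ℕ, CW * (J * h) * (s * delf * √d + lam * ε) +
      ϑ / 4 * (C * (A + B + ϑ ^ k * D)) + C₃ * J * h ^ m * √d ≤
      C * (A + B + ϑ ^ (k + 1) * D) := by
    intro k
    have e1 : CW * (J * h) * (s * delf * √d + lam * ε) = CW * B := by rw [hB]; ring
    have e2 : C₃ * J * h ^ m * √d = C₃ * A := by rw [hA]; ring
    rw [e1, e2]
    exact pn_rec hϑ0 hϑ1 hA0 hB0 hD0 hC0 (by linarith only [hCd, hCW1, hC₃, hCb])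
      (by linarith only [hCd, hCW1, hC₃, hCb]) k
  have hErk : ∀ k : ℕ, 0 ≤ C * (A + B + ϑ ^ k * D) := fun k => by positivity
  -- all rounds
  have hrounds : ∀ k : ℕ, Rnd R d J s h c₀ c₁ ϑ (C * (A + B + ϑ ^ k * D))
      (13 * (28 * (N + 1) * J * S) ^ k) X := by
    intro k
    induction k with
    | zero =>
      have h1 : Cb * (J * h ^ m * √d + (J * h) * √d / √s) ≤ C * (A + B + ϑ ^ 0 * D) := by
        rw [← hA, ← hD, pow_zero, one_mul]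
        have e1 : Cb * (A + D) ≤ C * (A + D) :=
          mul_le_mul_of_nonneg_right (by linarith) (by positivity)
        have e2 : 0 ≤ C * B := by positivity
        linarith
      have h0 := pn_round0 hn hX (hErk 0) (fun V b => by
        obtain ⟨⟨a1, a2⟩, ⟨a3, a4⟩⟩ := hbase J d V.1 s lam h (X V) (Xe V) V.2 (hX V) hs hs1 hlam
          hlam1 hh hh1 hJ b
        exact ⟨⟨a1, a2.trans h1⟩, ⟨a3, a4.trans h1⟩⟩)
      simpa only [pow_zero, mul_one] using h0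
    | succ k ih =>
      have hSz : 1 ≤ 13 * (28 * (N + 1) * J * S) ^ k :=
        Nat.one_le_iff_ne_zero.2 (by positivity)
      have h1 := pn_step hn hCw hCWC hC₃.le (hwt J h hh.le) hX hLp hLp3 hS hSz (hErk k) hAG hOrc ih
      intro b
      obtain ⟨a1, a2, a3⟩ := h1 b
      have hsz : J * (N + 1) * (10 * (S * (13 * (28 * (N + 1) * J * S) ^ k)) + 2) + 16 ≤
          13 * (28 * (N + 1) * J * S) ^ (k + 1) := by
        refine (pn_size N J S _ hJ hS hSz).trans (le_of_eq ?_)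
        ring
      exact ⟨a1.mono (mul_le_mul_of_nonneg_left (hrec k) (Real.sqrt_nonneg s)) (fun _ => le_rfl)
          le_rfl hsz, a2.mono (hrec k) (fun _ => le_rfl) le_rfl hsz,
        a3.mono (hrec k) (fun _ => le_rfl) le_rfl hsz⟩
  have heq : e = C * (A + B + ϑ ^ K * D) := by
    rw [he, hA, hB, hD]
  have hS13 : 13 * (28 * (N + 1) * J * S) ^ (K + 1) ≤ (364 * (N + 1) * J * S) ^ (K + 1) := by
    have h1 : 364 * (N + 1) * J * S = 13 * (28 * (N + 1) * J * S) := by ring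
    rw [h1, mul_pow 13 (28 * (N + 1) * J * S)]
    exact Nat.mul_le_mul_right _ (Nat.le_self_pow (Nat.succ_ne_zero K) 13)
  have hS12 : 13 * (28 * (N + 1) * J * S) ^ K ≤ (364 * (N + 1) * J * S) ^ (K + 1) := by
    refine le_trans ?_ hS13
    refine Nat.mul_le_mul_left _ (Nat.pow_le_pow_right ?_ (Nat.le_succ K))
    exact Nat.one_le_iff_ne_zero.2 (by positivity)
  have hsq0 := hn.sq0
  refine ⟨fun b => ?_, ?_⟩
  · obtain ⟨a1, a2, a3⟩ := hrounds K b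
    rw [← heq] at a1 a2 a3
    refine ⟨a1.mono le_rfl (fun _ => le_rfl) le_rfl hS12, a2.mono le_rfl ?_ le_rfl hS12,
      a3.mono le_rfl (fun _ => le_rfl) le_rfl hS12⟩
    have e1 : 3 / √s ≤ C / √s := div_le_div_of_nonneg_right (by linarith) hsq0.le
    intro p
    fin_cases p
    · exact e1
    · exact le_refl ϑ
    · exact e1
  · have hSz : 1 ≤ 13 * (28 * (N + 1) * J * S) ^ K := Nat.one_le_iff_ne_zero.2 (by positivity)
    have h1 := pn_end hn hCw hCWC hC₃.le (hwe J h hh.le) hX hLp hLp3 hS hSz (hErk K) hAG hOrc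
      (hrounds K)
    refine h1.mono ?_ (fun _ => le_rfl) le_rfl ?_
    · refine mul_le_mul_of_nonneg_left ?_ (Real.sqrt_nonneg s)
      rw [heq]
      refine (hrec K).trans ?_
      refine mul_le_mul_of_nonneg_left ?_ hC0
      have : ϑ ^ (K + 1) * D ≤ ϑ ^ K * D := by
        refine mul_le_mul_of_nonneg_right ?_ hD0
        exact pow_le_pow_of_le_one hϑ0 hϑ1 (Nat.le_succ K)
      linarith
    · refine le_trans ?_ hS13
      refine (pn_size N J S _ hJ hS hSz).trans (le_of_eq ?_)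
      ring

end P347Z
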