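import Vale.Agent.P347Z.PxAux

/-!
P347Z, program half: auxiliary facts for module PMN (weights, clock ratios, first moments of the increments,
measurability of the sums).
-/

open MeasureTheory ProbabilityTheory Function
open scoped ENNReal BigOperators

namespace P347Z

open P347Q P347S

/-! ### weights -/

/-- the composite weights are `O(h)` -/
theorem pnx_wt {m N : ℕ} (R : RS m N) : ∃ Cw : ℝ, 1 ≤ Cw ∧
    (∀ (J : ℕ) (h : ℝ), 0 ≤ h → ∀ b c : Fin J × Fin (N + 1), |Wt R h b c| ≤ Cw * h) ∧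
    ∀ (J : ℕ) (h : ℝ), 0 ≤ h → ∀ c : Fin J × Fin (N + 1), |h * R.w c.2| ≤ Cw * h := by
  have hw0 : 0 ≤ ∑ j, |R.w j| := Finset.sum_nonneg fun _ _ => abs_nonneg _
  have hA0 : 0 ≤ ∑ i, ∑ j, |R.A i j| :=
    Finset.sum_nonneg fun _ _ => Finset.sum_nonneg fun _ _ => abs_nonneg _
  have hw : ∀ j, |R.w j| ≤ 1 + ∑ j, |R.w j| + ∑ i, ∑ j, |R.A i j| := by
    intro j
    have := Finset.single_le_sum (f := fun j => |R.w j|) (fun _ _ => abs_nonneg _)
      (Finset.mem_univ j)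
    linarith
  have hA : ∀ i j, |R.A i j| ≤ 1 + ∑ j, |R.w j| + ∑ i, ∑ j, |R.A i j| := by
    intro i j
    have h1 := Finset.single_le_sum (f := fun j => |R.A i j|) (fun _ _ => abs_nonneg _)
      (Finset.mem_univ j)
    have h2 := Finset.single_le_sum (f := fun i => ∑ j, |R.A i j|)
      (fun _ _ => Finset.sum_nonneg fun _ _ => abs_nonneg _) (Finset.mem_univ i)
    linarith
  have key : ∀ j (h : ℝ), 0 ≤ h →
      |h * R.w j| ≤ (1 + ∑ j, |R.w j| + ∑ i, ∑ j, |R.A i j|) * h := by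
    intro j h hh
    rw [abs_mul, abs_of_nonneg hh, mul_comm]
    exact mul_le_mul_of_nonneg_right (hw j) hh
  refine ⟨1 + ∑ j, |R.w j| + ∑ i, ∑ j, |R.A i j|, by linarith, ?_, ?_⟩
  · intro J h hh b c
    unfold Wt
    split_ifs with h1 h2
    · exact key _ h hh
    · rw [abs_mul, abs_of_nonneg hh, mul_comm]
      exact mul_le_mul_of_nonneg_right (hA _ _) hh
    · rw [abs_zero]
      positivity
  · intro J h hh c
    exact key _ h hh

/-! ### clock ratios -/

section Clock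

variable {s U h T : ℝ}

private theorem pnx_tanh_sq (t : ℝ) : Real.tanh t ^ 2 = 1 - 1 / Real.cosh t ^ 2 := by
  have h1 := Real.cosh_pos t
  have h2 := Real.cosh_sq t
  rw [Real.tanh_eq_sinh_div_cosh, div_pow]
  field_simp
  linarith

private theorem pnx_tanh_nonneg {t : ℝ} (ht : 0 ≤ t) : 0 ≤ Real.tanh t := by
  rw [Real.tanh_eq_sinh_div_cosh]
  exact div_nonneg (Real.sinh_nonneg_iff.2 ht) (Real.cosh_pos t).le

private theorem pnx_tanh_le_one (t : ℝ) : Real.tanh t ≤ 1 := by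
  rw [Real.tanh_eq_sinh_div_cosh, div_le_one (Real.cosh_pos t)]
  exact (Real.sinh_lt_cosh t).le

private theorem pnx_inv_cosh_sq (h0 : 0 < h) (hU : 2 ≤ h * Real.cosh U ^ 2) :
    1 / Real.cosh U ^ 2 ≤ h / 2 := by
  have h1 := Real.cosh_pos U
  rw [div_le_div_iff₀ (by positivity) (by norm_num)]
  linarith

private theorem pnx_tanh_half (h0 : 0 < h) (h1 : h ≤ 1) (hU0 : 0 ≤ U)
    (hU : 2 ≤ h * Real.cosh U ^ 2) : 1 / 2 ≤ Real.tanh U := by
  have h2 := pnx_inv_cosh_sq h0 hU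
  have h3 := pnx_tanh_sq U
  have h4 := pnx_tanh_nonneg hU0
  nlinarith

theorem pnx_rr_pos (hs : 0 < s) (h0 : 0 < h) (h1 : h ≤ 1) (hU0 : 0 ≤ U)
    (hU : 2 ≤ h * Real.cosh U ^ 2) : 0 < rr s U := by
  have h2 := pnx_tanh_half h0 h1 hU0 hU
  have h3 := Real.sqrt_pos.2 hs
  unfold rr
  have : 0 < Real.tanh U := by linarith
  positivity

theorem pnx_rho_nonneg (_hs : 0 < s) (_h0 : 0 < h) (_h1 : h ≤ 1) (hU0 : 0 ≤ U)
    (_hU : 2 ≤ h * Real.cosh U ^ 2) (hT : 0 ≤ T) (_hTU : T ≤ U) : 0 ≤ rr s T / rr s U :=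
  div_nonneg (px_rr_nonneg s hT) (px_rr_nonneg s hU0)

private theorem pnx_rho_eq (hs : 0 < s) : rr s T / rr s U = Real.tanh T / Real.tanh U := by
  unfold rr
  have h3 := Real.sqrt_pos.2 hs
  rw [mul_div_mul_left _ _ h3.ne']

private theorem pnx_tanh_mono (hT : 0 ≤ T) (hTU : T ≤ U) : Real.tanh T ≤ Real.tanh U := by
  have h1 := pnx_tanh_sq T
  have h2 := pnx_tanh_sq U
  have h3 := pnx_tanh_nonneg (hT.trans hTU)
  have h4 : Real.cosh T ≤ Real.cosh U := by
    rw [Real.cosh_le_cosh, abs_of_nonneg hT, abs_of_nonneg (hT.trans hTU)]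
    exact hTU
  have h5 := Real.cosh_pos T
  have h6 : 1 / Real.cosh U ^ 2 ≤ 1 / Real.cosh T ^ 2 := by gcongr
  exact (sq_le_sq₀ (pnx_tanh_nonneg hT) h3).1 (by linarith)

theorem pnx_rho_le (hs : 0 < s) (h0 : 0 < h) (h1 : h ≤ 1) (hU0 : 0 ≤ U)
    (hU : 2 ≤ h * Real.cosh U ^ 2) (hT : 0 ≤ T) (hTU : T ≤ U) : rr s T / rr s U ≤ 1 := by
  rw [pnx_rho_eq hs]
  have h2 := pnx_tanh_half h0 h1 hU0 hU
  rw [div_le_one (by linarith)]
  exact pnx_tanh_mono hT hTU

theorem pnx_rho_noise (hs : 0 < s) (h0 : 0 < h) (h1 : h ≤ 1) (hU0 : 0 ≤ U)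
    (hU : 2 ≤ h * Real.cosh U ^ 2) (hT : 0 ≤ T) (hTU : T ≤ U) :
    (1 - rr s T / rr s U) ^ 2 * s ≤ lev s T := by
  have a0 := pnx_rho_nonneg hs h0 h1 hU0 hU hT hTU
  have a1 := pnx_rho_le hs h0 h1 hU0 hU hT hTU
  have h2 := pnx_tanh_half h0 h1 hU0 hU
  have a2 : Real.tanh T ≤ rr s T / rr s U := by
    rw [pnx_rho_eq hs, le_div_iff₀ (by linarith)]
    have := pnx_tanh_le_one U
    have := pnx_tanh_nonneg hT
    nlinarith
  have a3 := pnx_tanh_nonneg hT
  have a4 := pnx_tanh_sq T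
  have a5 : (1 - rr s T / rr s U) ^ 2 ≤ 1 / Real.cosh T ^ 2 := by
    have : Real.tanh T ^ 2 ≤ (rr s T / rr s U) ^ 2 := by gcongr
    nlinarith
  unfold lev
  calc (1 - rr s T / rr s U) ^ 2 * s ≤ 1 / Real.cosh T ^ 2 * s := by gcongr
    _ = s / Real.cosh T ^ 2 := by ring

theorem pnx_sig_inv (hs : 0 < s) (h0 : 0 < h) (h1 : h ≤ 1) (hU0 : 0 ≤ U)
    (hU : 2 ≤ h * Real.cosh U ^ 2) : (rr s U)⁻¹ ≤ 2 / √s := by
  have h2 := pnx_tanh_half h0 h1 hU0 hU
  have h3 := Real.sqrt_pos.2 hs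
  unfold rr
  rw [inv_eq_one_div, div_le_div_iff₀ (by positivity) h3]
  nlinarith

theorem pnx_sig_noise (hs : 0 < s) (h0 : 0 < h) (h1 : h ≤ 1) (hU0 : 0 ≤ U)
    (hU : 2 ≤ h * Real.cosh U ^ 2) : ((rr s U)⁻¹ * √s) ^ 2 ≤ 1 + h := by
  have h2 := pnx_tanh_half h0 h1 hU0 hU
  have h3 := Real.sqrt_pos.2 hs
  have h4 := pnx_inv_cosh_sq h0 hU
  have h5 := pnx_tanh_sq U
  have h6 : (rr s U)⁻¹ * √s = (Real.tanh U)⁻¹ := by
    unfold rr
    field_simp
  rw [h6, inv_pow, inv_eq_one_div, div_le_iff₀ (by positivity), h5]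
  nlinarith

theorem pnx_r_noise (hs : 0 < s) (h0 : 0 < h) (_h1 : h ≤ 1) (_hU0 : 0 ≤ U)
    (_hU : 2 ≤ h * Real.cosh U ^ 2) (hT : 0 ≤ T) (hTU : T ≤ U) :
    rr s T ^ 2 * (h / Real.cosh U ^ 2) ≤ h * lev s T := by
  have h4 : Real.cosh T ≤ Real.cosh U := by
    rw [Real.cosh_le_cosh, abs_of_nonneg hT, abs_of_nonneg (hT.trans hTU)]
    exact hTU
  have h5 := Real.cosh_pos T
  have h6 : rr s T ^ 2 ≤ s := by
    calc rr s T ^ 2 ≤ √s ^ 2 := by
          have := px_rr_nonneg s hT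
          have := px_rr_le s T
          gcongr
      _ = s := Real.sq_sqrt hs.le
  unfold lev
  calc rr s T ^ 2 * (h / Real.cosh U ^ 2) ≤ s * (h / Real.cosh T ^ 2) := by gcongr
    _ = h * (s / Real.cosh T ^ 2) := by ring

end Clock

/-! ### measurability -/

theorem pnx_meas {m N : ℕ} (R : RS m N) {C₃ : ℝ} {J d : ℕ} {V : E d → ℝ} {s lam h : ℝ}
    {X : Fin J × Fin (N + 1) → Z3 d → Z3 d} {Xe : Z3 d → Z3 d} (hV : Pot d V) (hs : 0 < s)
    (_hs1 : s ≤ 1 / 4) (hS : S3P R C₃ V s lam h J X Xe) (v v' : Fin J × Fin (N + 1) → ℝ) :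
    Measurable (fun p => ∑ c, (v c * rr' s (nt R h c)) • fo V (lev s (nt R h c)) (X c p).1 +
      ∑ c, (v' c) • oA V s (nt R h c) (X c p)) ∧
    Measurable (fun p => ∑ c, v c • oG V s (nt R h c) (X c p)) := by
  have hX : ∀ c, Measurable (X c) := fun c => (hS.1 c).measurable
  have h1 : Measurable (fun p => ∑ c, (v c * rr' s (nt R h c)) •
      fo V (lev s (nt R h c)) (X c p).1) := by
    refine Finset.measurable_fun_sum _ fun c _ => ?_
    have h2 := (px_fo_cont hV (px_lev_pos hs (nt R h c))).measurable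
    have h5 : Measurable (fun p => fo V (lev s (nt R h c)) (X c p).1) :=
      h2.comp (measurable_fst.comp (hX c))
    exact h5.const_smul (v c * rr' s (nt R h c))
  have h3 : Measurable (fun p => ∑ c, (v' c) • oA V s (nt R h c) (X c p)) := by
    refine Finset.measurable_fun_sum _ fun c _ => ?_
    have h5 : Measurable (fun p => oA V s (nt R h c) (X c p)) :=
      (px_oA_cont hV hs _).measurable.comp (hX c)
    exact h5.const_smul (v' c)
  have h4 : Measurable (fun p => ∑ c, v c • oG V s (nt R h c) (X c p)) := by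
    refine Finset.measurable_fun_sum _ fun c _ => ?_
    have h5 : Measurable (fun p => oG V s (nt R h c) (X c p)) :=
      (px_oG_cont hV hs _).measurable.comp (hX c)
    exact h5.const_smul (v c)
  exact ⟨h1.add h3, h4⟩

/-! ### first moments of the increments -/

/-- first moment of a sum of stationary observables -/
private theorem pnx_sum {X : Type*} [MeasurableSpace X] {μ : Measure X} {ι : Type*} [Fintype ι]
    {d : ℕ} (g : ι → X → E d) (v : ι → ℝ) {a b : ℝ} (ha : 0 ≤ a) (_hb : 0 ≤ b)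
    (hm : ∀ c, AEStronglyMeasurable (g c) μ)
    (hi : ∀ c, Integrable (fun x => ‖g c x‖) μ) (hg : ∀ c, ∫ x, ‖g c x‖ ∂μ ≤ b)
    (hv : ∀ c, |v c| ≤ a) :
    Integrable (fun x => ‖∑ c, v c • g c x‖) μ ∧
      ∫ x, ‖∑ c, v c • g c x‖ ∂μ ≤ Fintype.card ι * (a * b) := by
  have h1 : ∀ c, Integrable (g c) μ := fun c => (integrable_norm_iff (hm c)).1 (hi c)
  have h2 : Integrable (fun x => ∑ c, v c • g c x) μ :=
    integrable_finsetSum _ fun c _ => (h1 c).smul (v c)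
  refine ⟨h2.norm, ?_⟩
  have h3 : Integrable (fun x => ∑ c, |v c| * ‖g c x‖) μ :=
    integrable_finsetSum _ fun c _ => (hi c).const_mul _
  calc ∫ x, ‖∑ c, v c • g c x‖ ∂μ ≤ ∫ x, ∑ c, |v c| * ‖g c x‖ ∂μ := by
        refine integral_mono h2.norm h3 fun x => ?_
        refine (norm_sum_le _ _).trans (Finset.sum_le_sum fun c _ => ?_)
        rw [norm_smul, Real.norm_eq_abs]
    _ = ∑ c, |v c| * ∫ x, ‖g c x‖ ∂μ := by
        rw [integral_finsetSum _ fun c _ => (hi c).const_mul _]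
        simp only [integral_const_mul]
    _ ≤ ∑ _c : ι, a * b := by
        refine Finset.sum_le_sum fun c _ => ?_
        have : 0 ≤ ∫ x, ‖g c x‖ ∂μ := integral_nonneg fun _ => norm_nonneg _
        exact mul_le_mul (hv c) (hg c) this ha
    _ = Fintype.card ι * (a * b) := by
        rw [Finset.sum_const, Finset.card_univ, nsmul_eq_mul]

theorem pnx_base {m N : ℕ} (R : RS m N) {C₃ : ℝ} (hC₃ : 0 < C₃) : ∃ C : ℝ, 1 ≤ C ∧
    ∀ (J d : ℕ) (V : E d → ℝ) (s lam h : ℝ) (X : Fin J × Fin (N + 1) → Z3 d → Z3 d)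
      (Xe : Z3 d → Z3 d), Pot d V → S3P R C₃ V s lam h J X Xe → 0 < s → s ≤ 1 / 4 → 0 < lam →
    lam ≤ 1 → 0 < h → h ≤ 1 → 1 ≤ J →
    ∀ b, (Integrable (fun p => ‖(X b p).2.1 - p.2.1‖) (mu3 V s) ∧
        ∫ p, ‖(X b p).2.1 - p.2.1‖ ∂(mu3 V s) ≤
          C * (J * h ^ m * √d + (J * h) * √d / √s)) ∧
      (Integrable (fun p => ‖(X b p).2.2 - p.2.2‖) (mu3 V s) ∧
        ∫ p, ‖(X b p).2.2 - p.2.2‖ ∂(mu3 V s) ≤
          C * (J * h ^ m * √d + (J * h) * √d / √s)) := by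
  obtain ⟨Cw, hCw1, hWt, -⟩ := pnx_wt R
  obtain ⟨Cs, hCs1, hst⟩ := px_static
  have hN0 : (0 : ℝ) ≤ (N : ℝ) + 1 := by positivity
  refine ⟨1 + C₃ + 2 * (((N : ℝ) + 1) * Cw * Cs), ?_, ?_⟩
  · have : 0 ≤ ((N : ℝ) + 1) * Cw * Cs := by positivity
    linarith
  intro J d V s lam h X Xe hV hS hs hs1 hlam hlam1 h0 h1 hJ b
  have hss : 0 < √s := Real.sqrt_pos.2 hs
  have hss1 : √s ≤ 1 := Real.sqrt_le_one.2 (by linarith)
  obtain ⟨hmp, -, -, -, hw, hz, -, -, -⟩ := hS
  have hp3 := px_mu3_prob hV hs hs1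
  have hp3' : ∀ c : Fin J × Fin (N + 1), IsProbabilityMeasure (mu3 V (lev s (nt R h c))) :=
    fun c => px_mu3_prob hV (px_lev_pos hs _) ((px_lev_le hs _).trans hs1)
  -- the moments of the observables, pulled back
  have pull : ∀ (c : Fin J × Fin (N + 1)) (g : Z3 d → E d), Continuous g →
      (Integrable (fun x => ‖g x‖) (mu3 V (lev s (nt R h c))) ∧
        ∫ x, ‖g x‖ ∂(mu3 V (lev s (nt R h c))) ≤ Cs * √d) →
      Integrable (fun p => ‖g (X c p)‖) (mu3 V s) ∧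
        ∫ p, ‖g (X c p)‖ ∂(mu3 V s) ≤ Cs * √d := by
    intro c g hg ⟨i1, i2⟩
    have e1 := (hmp c).map_eq
    have hgn : AEStronglyMeasurable (fun x => ‖g x‖) (Measure.map (X c) (mu3 V s)) :=
      hg.norm.aestronglyMeasurable
    rw [← e1] at i1 i2
    rw [integral_map (hmp c).measurable.aemeasurable hgn] at i2
    exact ⟨(integrable_map_measure hgn (hmp c).measurable.aemeasurable).1 i1, i2⟩
  have hfoc : ∀ c : Fin J × Fin (N + 1), Continuous (fun x : Z3 d => fo V (lev s (nt R h c)) x.1) :=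
    fun c => (px_fo_cont hV (px_lev_pos hs _)).comp continuous_fst
  have mf := fun (c : Fin J × Fin (N + 1)) =>
    pull c _ (hfoc c) (hst d V s (nt R h c) hV hs hs1).1
  have mA := fun (c : Fin J × Fin (N + 1)) =>
    pull c _ (px_oA_cont hV hs (nt R h c)) (hst d V s (nt R h c) hV hs hs1).2.1
  have mG := fun (c : Fin J × Fin (N + 1)) =>
    pull c _ (px_oG_cont hV hs (nt R h c)) (hst d V s (nt R h c) hV hs hs1).2.2.1
  have hcard : (Fintype.card (Fin J × Fin (N + 1)) : ℝ) = J * (N + 1) := by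
    rw [Fintype.card_prod, Fintype.card_fin, Fintype.card_fin]
    push_cast
    ring
  have hd0 : 0 ≤ √(d : ℝ) := Real.sqrt_nonneg _
  have hq : ∀ t : ℝ, 0 ≤ qq t ∧ qq t ^ 2 ≤ 1 := by
    intro t
    have h2 := Real.one_le_cosh t
    unfold qq
    refine ⟨by positivity, ?_⟩
    rw [div_pow, one_pow, div_le_one (by positivity)]
    nlinarith
  have hsd : (J * h) * √d ≤ (J * h) * √d / √s := by
    rw [le_div_iff₀ hss]
    have : 0 ≤ (J : ℝ) * h * √d := by positivity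
    nlinarith
  have hJh : 0 ≤ (J : ℝ) * h ^ m * √d := by positivity
  have hJh' : 0 ≤ (J : ℝ) * h * √d / √s := by positivity
  have hX : ∀ c, Measurable (X c) := fun c => (hmp c).measurable
  -- the three sums
  obtain ⟨f1, f2⟩ := pnx_sum (μ := mu3 V s) (fun c p => fo V (lev s (nt R h c)) (X c p).1)
    (fun c => Wt R h b c * rr' s (nt R h c)) (a := Cw * h) (b := Cs * √d) (by positivity)
    (by positivity) (fun c => ((hfoc c).measurable.comp (hX c)).aestronglyMeasurable)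
    (fun c => (mf c).1) (fun c => (mf c).2) (fun c => by
      rw [abs_mul, abs_of_nonneg (px_rr'_nonneg s _)]
      have h2 := px_rr'_le s (nt R h c)
      have h3 := hWt J h h0.le b c
      have h4 := px_rr'_nonneg s (nt R h c)
      have h5 := abs_nonneg (Wt R h b c)
      calc |Wt R h b c| * rr' s (nt R h c) ≤ (Cw * h) * 1 := by
            gcongr
            exact h2.trans hss1
        _ = Cw * h := mul_one _)
  obtain ⟨A1, A2⟩ := pnx_sum (μ := mu3 V s) (fun c p => oA V s (nt R h c) (X c p))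
    (fun c => Wt R h b c * (lam * qq (nt R h c) ^ 2)) (a := Cw * h) (b := Cs * √d) (by positivity)
    (by positivity)
    (fun c => ((px_oA_cont hV hs (nt R h c)).measurable.comp (hX c)).aestronglyMeasurable)
    (fun c => (mA c).1) (fun c => (mA c).2) (fun c => by
      obtain ⟨q1, q2⟩ := hq (nt R h c)
      rw [abs_mul, abs_of_nonneg (mul_nonneg hlam.le (sq_nonneg (qq (nt R h c))))]
      have h3 := hWt J h h0.le b c
      have h5 := abs_nonneg (Wt R h b c)
      have h6 : lam * qq (nt R h c) ^ 2 ≤ 1 := by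
        calc lam * qq (nt R h c) ^ 2 ≤ 1 * 1 := by gcongr
          _ = 1 := mul_one _
      calc |Wt R h b c| * (lam * qq (nt R h c) ^ 2) ≤ (Cw * h) * 1 := by gcongr
        _ = Cw * h := mul_one _)
  obtain ⟨G1, G2⟩ := pnx_sum (μ := mu3 V s) (fun c p => oG V s (nt R h c) (X c p))
    (fun c => Wt R h b c * lam * (√s)⁻¹) (a := Cw * h * (√s)⁻¹) (b := Cs * √d) (by positivity)
    (by positivity)
    (fun c => ((px_oG_cont hV hs (nt R h c)).measurable.comp (hX c)).aestronglyMeasurable)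
    (fun c => (mG c).1) (fun c => (mG c).2) (fun c => by
      rw [abs_mul, abs_mul, abs_of_nonneg hlam.le, abs_of_nonneg (inv_nonneg.2 hss.le)]
      have h3 := hWt J h h0.le b c
      have h5 := abs_nonneg (Wt R h b c)
      calc |Wt R h b c| * lam * (√s)⁻¹ ≤ (Cw * h) * 1 * (√s)⁻¹ := by gcongr
        _ = Cw * h * (√s)⁻¹ := by ring)
  obtain ⟨w1, w2⟩ := hw b
  obtain ⟨z1, z2⟩ := hz b
  rw [hcard] at f2 A2 G2
  have hXw : Measurable (fun p : Z3 d => (X b p).2.1 - p.2.1) := by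
    have := hX b
    fun_prop
  have hXz : Measurable (fun p : Z3 d => (X b p).2.2 - p.2.2) := by
    have := hX b
    fun_prop
  have hfA : C₃ * J * h ^ m * √d + J * (N + 1) * (Cw * h * (Cs * √d)) +
      J * (N + 1) * (Cw * h * (Cs * √d)) ≤
      (1 + C₃ + 2 * (((N : ℝ) + 1) * Cw * Cs)) * (J * h ^ m * √d + (J * h) * √d / √s) := by
    have e1 : J * ((N : ℝ) + 1) * (Cw * h * (Cs * √d)) =
        (((N : ℝ) + 1) * Cw * Cs) * ((J * h) * √d) := by ring
    have e2 : (((N : ℝ) + 1) * Cw * Cs) * ((J * h) * √d) ≤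
        (((N : ℝ) + 1) * Cw * Cs) * ((J * h) * √d / √s) := by gcongr
    have e3 : 0 ≤ ((N : ℝ) + 1) * Cw * Cs := by positivity
    have e4 := mul_nonneg e3 hJh
    have e5 := mul_nonneg hC₃.le hJh'
    rw [e1]
    nlinarith
  have hG : C₃ * J * h ^ m * √d + J * (N + 1) * (Cw * h * (√s)⁻¹ * (Cs * √d)) ≤
      (1 + C₃ + 2 * (((N : ℝ) + 1) * Cw * Cs)) * (J * h ^ m * √d + (J * h) * √d / √s) := by
    have e1 : J * ((N : ℝ) + 1) * (Cw * h * (√s)⁻¹ * (Cs * √d)) =
        (((N : ℝ) + 1) * Cw * Cs) * ((J * h) * √d / √s) := by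
      rw [div_eq_mul_inv]
      ring
    have e3 : 0 ≤ ((N : ℝ) + 1) * Cw * Cs := by positivity
    have e4 := mul_nonneg e3 hJh
    have e5 := mul_nonneg hC₃.le hJh'
    have e6 := mul_nonneg e3 hJh'
    rw [e1]
    nlinarith
  refine ⟨?_, ?_⟩
  · have hle : ∀ p : Z3 d, ‖(X b p).2.1 - p.2.1‖ ≤
        ‖(X b p).2.1 - p.2.1 + ∑ c, (Wt R h b c * rr' s (nt R h c)) •
          fo V (lev s (nt R h c)) (X c p).1 + ∑ c, (Wt R h b c * (lam * qq (nt R h c) ^ 2)) •
          oA V s (nt R h c) (X c p)‖ +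
        ‖∑ c, (Wt R h b c * rr' s (nt R h c)) • fo V (lev s (nt R h c)) (X c p).1‖ +
        ‖∑ c, (Wt R h b c * (lam * qq (nt R h c) ^ 2)) • oA V s (nt R h c) (X c p)‖ := by
      intro p
      have e : (X b p).2.1 - p.2.1 = ((X b p).2.1 - p.2.1 +
          ∑ c, (Wt R h b c * rr' s (nt R h c)) • fo V (lev s (nt R h c)) (X c p).1 +
          ∑ c, (Wt R h b c * (lam * qq (nt R h c) ^ 2)) • oA V s (nt R h c) (X c p)) -
          ∑ c, (Wt R h b c * rr' s (nt R h c)) • fo V (lev s (nt R h c)) (X c p).1 -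
          ∑ c, (Wt R h b c * (lam * qq (nt R h c) ^ 2)) • oA V s (nt R h c) (X c p) := by
        abel
      calc ‖(X b p).2.1 - p.2.1‖ = ‖((X b p).2.1 - p.2.1 +
          ∑ c, (Wt R h b c * rr' s (nt R h c)) • fo V (lev s (nt R h c)) (X c p).1 +
          ∑ c, (Wt R h b c * (lam * qq (nt R h c) ^ 2)) • oA V s (nt R h c) (X c p)) -
          ∑ c, (Wt R h b c * rr' s (nt R h c)) • fo V (lev s (nt R h c)) (X c p).1 -
          ∑ c, (Wt R h b c * (lam * qq (nt R h c) ^ 2)) • oA V s (nt R h c) (X c p)‖ := by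
            rw [← e]
        _ ≤ _ := (norm_sub_le _ _).trans (add_le_add (norm_sub_le _ _) le_rfl)
    have hint := (w1.add f1).add A1
    refine ⟨hint.mono' hXw.norm.aestronglyMeasurable
      (Filter.Eventually.of_forall fun p => by
        rw [Real.norm_eq_abs, abs_of_nonneg (norm_nonneg _)]
        exact hle p), ?_⟩
    calc ∫ p, ‖(X b p).2.1 - p.2.1‖ ∂(mu3 V s) ≤ _ :=
          integral_mono_of_nonneg (Filter.Eventually.of_forall fun p => norm_nonneg _) hint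
            (Filter.Eventually.of_forall fun p => hle p)
      _ = _ := by
          rw [integral_add' (w1.add f1) A1, integral_add' w1 f1]
      _ ≤ C₃ * J * h ^ m * √d + J * (N + 1) * (Cw * h * (Cs * √d)) +
          J * (N + 1) * (Cw * h * (Cs * √d)) := add_le_add (add_le_add w2 f2) A2
      _ ≤ _ := hfA
  · have hoG : ∀ (c : Fin J × Fin (N + 1)) (p : Z3 d),
        (Wt R h b c * (lam * qq (nt R h c) ^ 2)) •
          GG (US V (lev s (nt R h c))) (rr s (nt R h c)) (X c p).1 (X c p).2.1 =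
        (Wt R h b c * lam * (√s)⁻¹) • oG V s (nt R h c) (X c p) := by
      intro c p
      unfold oG
      rw [smul_smul]
      congr 1
      unfold rr' qq
      field_simp
    have hle : ∀ p : Z3 d, ‖(X b p).2.2 - p.2.2‖ ≤
        ‖(X b p).2.2 - p.2.2 - ∑ c, (Wt R h b c * (lam * qq (nt R h c) ^ 2)) •
          GG (US V (lev s (nt R h c))) (rr s (nt R h c)) (X c p).1 (X c p).2.1‖ +
        ‖∑ c, (Wt R h b c * lam * (√s)⁻¹) • oG V s (nt R h c) (X c p)‖ := by
      intro p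
      have e0 : ∑ c, (Wt R h b c * (lam * qq (nt R h c) ^ 2)) •
          GG (US V (lev s (nt R h c))) (rr s (nt R h c)) (X c p).1 (X c p).2.1 =
          ∑ c, (Wt R h b c * lam * (√s)⁻¹) • oG V s (nt R h c) (X c p) :=
        Finset.sum_congr rfl fun c _ => hoG c p
      rw [e0]
      have e : (X b p).2.2 - p.2.2 = ((X b p).2.2 - p.2.2 -
          ∑ c, (Wt R h b c * lam * (√s)⁻¹) • oG V s (nt R h c) (X c p)) +
          ∑ c, (Wt R h b c * lam * (√s)⁻¹) • oG V s (nt R h c) (X c p) := by abel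
      calc ‖(X b p).2.2 - p.2.2‖ = ‖((X b p).2.2 - p.2.2 -
          ∑ c, (Wt R h b c * lam * (√s)⁻¹) • oG V s (nt R h c) (X c p)) +
          ∑ c, (Wt R h b c * lam * (√s)⁻¹) • oG V s (nt R h c) (X c p)‖ := by rw [← e]
        _ ≤ _ := norm_add_le _ _
    have hint := z1.add G1
    refine ⟨hint.mono' hXz.norm.aestronglyMeasurable
      (Filter.Eventually.of_forall fun p => by
        rw [Real.norm_eq_abs, abs_of_nonneg (norm_nonneg _)]
        exact hle p), ?_⟩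
    calc ∫ p, ‖(X b p).2.2 - p.2.2‖ ∂(mu3 V s) ≤ _ :=
          integral_mono_of_nonneg (Filter.Eventually.of_forall fun p => norm_nonneg _) hint
            (Filter.Eventually.of_forall fun p => hle p)
      _ = _ := by
          rw [integral_add' z1 G1]
      _ ≤ C₃ * J * h ^ m * √d + J * (N + 1) * (Cw * h * (√s)⁻¹ * (Cs * √d)) := add_le_add z2 G2
      _ ≤ _ := hG

end P347Z
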