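import Vale.Agent.P347Z.PxNAux

/-!
Helper file for module PMN (helper41): codes for the small parts and assembly of the states.
-/

open MeasureTheory ProbabilityTheory Function
open scoped ENNReal BigOperators

namespace P347Z

open P347Q P347S

/-- numerical hypotheses of `main_nodes` -/
structure NumN (CW : ℝ) (J : ℕ) (s lam h c₀ c₁ lamf delf τ ε Λ ϑ : ℝ) : Prop where
  s0 : 0 < s
  s1 : s ≤ 1 / 4
  lam0 : 0 < lam
  lam1 : lam ≤ 1
  h0 : 0 < h
  h1 : h ≤ 1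
  J1 : 1 ≤ J
  Jh : (J * h) * h ≤ 1
  cosh : 2 ≤ h * Real.cosh (J * h) ^ 2
  c0 : 0 < c₀
  c1 : 0 < c₁
  c11 : c₁ ≤ 1
  cc : c₀ ^ 2 + 2 * h ≤ c₁ ^ 2
  lamf0 : 0 < lamf
  delf0 : 0 ≤ delf
  τ0 : 0 ≤ τ
  ε0 : 0 ≤ ε
  Λ1 : 1 ≤ Λ
  CW1 : 1 ≤ CW
  noise : CW * Real.cosh (J * h) ^ 2 * (s ^ 2 / lamf ^ 2 + (lam * τ) ^ 2) ≤ h
  ϑ1 : ϑ ≤ 1
  ϑlow : 24 * CW * (J * h) * (s + lam * Λ) ≤ ϑ

namespace NumN

variable {CW : ℝ} {J : ℕ} {s lam h c₀ c₁ lamf delf τ ε Λ ϑ : ℝ}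

theorem U0 (hn : NumN CW J s lam h c₀ c₁ lamf delf τ ε Λ ϑ) : (0 : ℝ) ≤ J * h :=
  mul_nonneg (Nat.cast_nonneg _) hn.h0.le

theorem sq0 (hn : NumN CW J s lam h c₀ c₁ lamf delf τ ε Λ ϑ) : 0 < √s := Real.sqrt_pos.2 hn.s0

theorem sq1 (hn : NumN CW J s lam h c₀ c₁ lamf delf τ ε Λ ϑ) : √s ≤ 1 := by
  rw [Real.sqrt_le_left (by norm_num)]
  have := hn.s1
  linarith

theorem Λ0 (hn : NumN CW J s lam h c₀ c₁ lamf delf τ ε Λ ϑ) : 0 < Λ := by
  have := hn.Λ1
  linarith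

theorem ϑ0 (hn : NumN CW J s lam h c₀ c₁ lamf delf τ ε Λ ϑ) : 0 ≤ ϑ := by
  refine le_trans ?_ hn.ϑlow
  have h1 := hn.U0
  have h2 := hn.CW1
  have h3 := hn.s0
  have h4 := hn.lam0
  have h5 := hn.Λ0
  positivity

theorem c0_le (hn : NumN CW J s lam h c₀ c₁ lamf delf τ ε Λ ϑ) : c₀ ^ 2 ≤ 1 := by
  have h1 := hn.cc
  have h2 := hn.h0
  have h3 : c₁ ^ 2 ≤ 1 := pow_le_one₀ hn.c1.le hn.c11
  linarith

end NumN

/-- the state codes of one round -/
def Rnd {m N : ℕ} (R : RS m N) (d J : ℕ) (s h c₀ c₁ ϑ Er : ℝ) (Sz : ℕ)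
    (X : PotT d → Fin J × Fin (N + 1) → Z3 d → Z3 d) : Prop :=
  ∀ b : Fin J × Fin (N + 1),
    Has (mctx d s (rr s (J * h)) c₀) (fun V p => (X V b p).1)
      (c₁ * √(lev s (nt R h b))) (√s * Er)
      ![rr s (nt R h b) / rr s (J * h) + ϑ, √s * ϑ,
        1 - rr s (nt R h b) / rr s (J * h) + ϑ] 1 ϑ Sz ∧
    Has (mctx d s (rr s (J * h)) c₀) (fun V p => (X V b p).2.1) c₁ Er
      ![3 / √s, ϑ, 3 / √s] 0 (ϑ / √s) Sz ∧
    Has (mctx d s (rr s (J * h)) c₀) (fun V p => (X V b p).2.2) c₁ Er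
      ![ϑ / √s, 2, ϑ / √s] 0 (ϑ / √s) Sz

section parts

variable {m N J d : ℕ} {R : RS m N} {CW s lam h c₀ c₁ lamf delf τ ε Λ ϑ Lp kap Er : ℝ} {S Sz : ℕ}
  {X : PotT d → Fin J × Fin (N + 1) → Z3 d → Z3 d}

/-- ratio of the natural unit to the unit of the position -/
theorem pn_unit (s t : ℝ) (hs : 0 < s) : √s / √(lev s t) = Real.cosh t := by
  rw [px_sqrt_lev]
  have h1 : √s ≠ 0 := (Real.sqrt_pos.2 hs).ne'
  have h2 := (px_cosh_pos t).ne'
  field_simp

/-- the clock factors at a node -/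
theorem pn_clock (hn : NumN CW J s lam h c₀ c₁ lamf delf τ ε Λ ϑ) (t : ℝ) :
    0 < √(lev s t) ∧ √(lev s t) ≤ √s ∧ 0 ≤ rr' s t ∧ rr' s t ≤ √s ∧ 0 ≤ lam * qq t ^ 2 ∧
      lam * qq t ^ 2 ≤ lam ∧ (lam * qq t ^ 2) * (Λ / √(lev s t)) ≤ lam * Λ / √s := by
  have hc := Real.one_le_cosh t
  have hc0 := px_cosh_pos t
  have hq0 : 0 < qq t := by
    unfold qq
    positivity
  have hq1 : qq t ≤ 1 := by
    unfold qq
    rw [div_le_one hc0]
    exact hc
  have hl := hn.lam0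
  have hs := hn.sq0
  have hΛ := hn.Λ0
  refine ⟨Real.sqrt_pos.2 (px_lev_pos hn.s0 t), Real.sqrt_le_sqrt (px_lev_le hn.s0 t),
    px_rr'_nonneg s t, px_rr'_le s t, by positivity, ?_, ?_⟩
  · have : qq t ^ 2 ≤ 1 := pow_le_one₀ hq0.le hq1
    nlinarith
  · have e : (lam * qq t ^ 2) * (Λ / √(lev s t)) = qq t * (lam * Λ / √s) := by
      rw [px_sqrt_lev]
      unfold qq
      field_simp
    rw [e]
    have : 0 ≤ lam * Λ / √s := by positivity
    exact mul_le_of_le_one_left this hq1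

/-- the ratio `ρ_b` is between `0` and `1` -/
theorem pn_rho (hn : NumN CW J s lam h c₀ c₁ lamf delf τ ε Λ ϑ) (R : RS m N)
    (b : Fin J × Fin (N + 1)) : 0 ≤ rr s (nt R h b) / rr s (J * h) ∧
      rr s (nt R h b) / rr s (J * h) ≤ 1 := by
  obtain ⟨h1, h2⟩ := s3_nt_mem R hn.h0 b
  exact ⟨pnx_rho_nonneg hn.s0 hn.h0 hn.h1 hn.U0 hn.cosh h1 h2,
    pnx_rho_le hn.s0 hn.h0 hn.h1 hn.U0 hn.cosh h1 h2⟩

/-- node observables: `rr' f + lam q² T z` (for `w`) and `(lam / √s) r' G` (for `z`) -/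
theorem pn_node (hn : NumN CW J s lam h c₀ c₁ lamf delf τ ε Λ ϑ) (hLp : 0 ≤ Lp) (hLp3 : Lp ≤ 3)
    (hS : 1 ≤ S) (hSz : 1 ≤ Sz) (hEr : 0 ≤ Er)
    (b : Fin J × Fin (N + 1))
    (hmp : ∀ V : PotT d, MeasurePreserving (X V b) (mu3 V.1 s) (mu3 V.1 (lev s (nt R h b))))
    (hAG : AG d s (nt R h b) c₁ τ ε Λ S)
    (hOrc : Orc d (lev s (nt R h b)) c₁ lamf delf Lp kap S)
    (hR : Rnd R d J s h c₀ c₁ ϑ Er Sz X) :
    (∃ κ, Has (mctx d s (rr s (J * h)) c₀) (fun V p => rr' s (nt R h b) •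
      fo V.1 (lev s (nt R h b)) (X V b p).1 + (lam * qq (nt R h b) ^ 2) •
      oA V.1 s (nt R h b) (X V b p)) √(s ^ 2 / lamf ^ 2 + (lam * τ) ^ 2)
      (s * delf * √d + lam * ε + 3 * (s + lam * Λ) * Er)
      ![6 * (s + lam * Λ) / √s, 3 * (s + lam * Λ), 6 * (s + lam * Λ) / √s] 0 κ
      (10 * (S * Sz))) ∧
    (∃ κ, Has (mctx d s (rr s (J * h)) c₀) (fun V p => (lam / √s) •
      oG V.1 s (nt R h b) (X V b p)) √(s ^ 2 / lamf ^ 2 + (lam * τ) ^ 2)
      (s * delf * √d + lam * ε + 3 * (s + lam * Λ) * Er)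
      ![6 * (s + lam * Λ) / √s, 3 * (s + lam * Λ), 6 * (s + lam * Λ) / √s] 0 κ
      (10 * (S * Sz))) := by
  obtain ⟨hY, hw, hz⟩ := hR b
  obtain ⟨hl0, hl1, hg0, hg1, hk0, hk1, hk2⟩ := pn_clock hn (nt R h b)
  obtain ⟨hρ0, hρ1⟩ := pn_rho hn R b
  set T := nt R h b with hT
  set l := √(lev s T) with hl
  set g := rr' s T with hg
  set k := lam * qq T ^ 2 with hk
  set ρ := rr s T / rr s (J * h) with hρ
  have hs0 := hn.s0
  have hsq0 := hn.sq0
  have hsq1 := hn.sq1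
  have hsq : √s * √s = s := Real.mul_self_sqrt hs0.le
  have hϑ0 := hn.ϑ0
  have hϑ1 := hn.ϑ1
  have hΛ0 := hn.Λ0
  have hlam0 := hn.lam0
  have hd0 := hn.delf0
  have hε0 := hn.ε0
  have hτ0 := hn.τ0
  have hlf0 := hn.lamf0
  have hsd : 0 ≤ √(d : ℝ) := Real.sqrt_nonneg _
  have hmp1 : ∀ V : PotT d, MeasurePreserving (fun p => (X V b p).1) (mu3 V.1 s)
      (gibbs (US V.1 (lev s T))) := by
    intro V
    have h1 : MeasurePreserving (Prod.fst : Z3 d → E d) (mu3 V.1 (lev s T))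
        (gibbs (US V.1 (lev s T))) :=
      ⟨measurable_fst, ssa_mu3_fst V.2 (px_lev_pos hs0 T) ((px_lev_le hs0 T).trans hn.s1)⟩
    exact h1.comp (hmp V)
  have nn1 : ∀ p : Fin 3, 0 ≤ (![ρ + ϑ, √s * ϑ, 1 - ρ + ϑ] : Fin 3 → ℝ) p := by
    intro p
    fin_cases p
    · exact add_nonneg hρ0 hϑ0
    · exact mul_nonneg hsq0.le hϑ0
    · exact add_nonneg (by linarith) hϑ0
  have nn2 : ∀ p : Fin 3, 0 ≤ (![3 / √s, ϑ, 3 / √s] : Fin 3 → ℝ) p := by
    intro p
    fin_cases p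
    · exact div_nonneg (by norm_num) hsq0.le
    · exact hϑ0
    · exact div_nonneg (by norm_num) hsq0.le
  have nn3 : ∀ p : Fin 3, 0 ≤ (![ϑ / √s, 2, ϑ / √s] : Fin 3 → ℝ) p := by
    intro p
    fin_cases p
    · exact div_nonneg hϑ0 hsq0.le
    · exact zero_le_two
    · exact div_nonneg hϑ0 hsq0.le
  have hSS : 1 ≤ S * Sz := Nat.one_le_iff_ne_zero.2 (by positivity)
  have hdiv : s / √s = √s := by
    rw [div_eq_iff hsq0.ne']
    exact hsq.symm
  have hlamΛ : 0 ≤ lam * Λ / √s := by positivity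
  constructor
  · have h1 := (Orc.call (C := mctx d s (rr s (J * h)) c₀) (fun _ => rfl) hOrc
      (φ := fun V p => (X V b p).1) hmp1 hY hd0 (by positivity) hϑ0 nn1 hSz).smul g
    have h2 := (zcall (C := mctx d s (rr s (J * h)) c₀) (fun _ => rfl) hAG.1
      (φ := fun V p => X V b p) hmp hY hw hz hε0 (by positivity) hEr hEr hϑ0 (by positivity)
      (by positivity) nn1 nn2 nn3 hSz).smul k
    have h3 := (Has.add h1 h2 (by positivity) (by positivity)).shift0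
    refine ⟨_, (h3.noise (τ' := √(s ^ 2 / lamf ^ 2 + (lam * τ) ^ 2)) ?_ (by positivity)).mono ?_ ?_
      le_rfl ?_⟩
    · rw [Real.sq_sqrt (by positivity), Real.sq_sqrt (by positivity)]
      refine add_le_add ?_ ?_
      · have e : g * (l / lamf) ≤ s / lamf := by
          rw [← mul_div_assoc]
          refine div_le_div_of_nonneg_right ?_ hlf0.le
          calc g * l ≤ √s * √s := mul_le_mul hg1 hl1 hl0.le hsq0.le
            _ = s := hsq
        calc (g * (l / lamf)) ^ 2 ≤ (s / lamf) ^ 2 := pow_le_pow_left₀ (by positivity) e 2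
          _ = s ^ 2 / lamf ^ 2 := by rw [div_pow]
      · exact pow_le_pow_left₀ (by positivity) (mul_le_mul_of_nonneg_right hk1 hτ0) 2
    · rw [abs_of_nonneg hg0, abs_of_nonneg hk0]
      have e1 : g * (delf * (l * √d) + Lp * (√s * Er)) ≤ s * delf * √d + 3 * s * Er := by
        have e2 : delf * (l * √d) + Lp * (√s * Er) ≤ √s * (delf * √d + 3 * Er) := by
          have e3 : delf * (l * √d) ≤ delf * (√s * √d) := by gcongr
          have e4 : Lp * (√s * Er) ≤ 3 * (√s * Er) := by gcongr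
          calc _ ≤ delf * (√s * √d) + 3 * (√s * Er) := add_le_add e3 e4
            _ = _ := by ring
        calc g * (delf * (l * √d) + Lp * (√s * Er)) ≤ √s * (√s * (delf * √d + 3 * Er)) :=
              mul_le_mul hg1 e2 (by positivity) hsq0.le
          _ = (√s * √s) * (delf * √d + 3 * Er) := by ring
          _ = _ := by rw [hsq]; ring
      have e5 : k * (ε + (Λ / l * (√s * Er) + 0 * Er + Λ * Er)) ≤ lam * ε + 2 * (lam * Λ) * Er := by
        have e6 : k * ε ≤ lam * ε := by gcongr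
        have e7 : k * (Λ / l) * (√s * Er) ≤ (lam * Λ / √s) * (√s * Er) := by gcongr
        have e8 : (lam * Λ / √s) * (√s * Er) = lam * Λ * Er := by
          field_simp
        have e9 : k * (Λ * Er) ≤ lam * (Λ * Er) := by gcongr
        calc k * (ε + (Λ / l * (√s * Er) + 0 * Er + Λ * Er)) =
            k * ε + k * (Λ / l) * (√s * Er) + k * (Λ * Er) := by ring
          _ ≤ lam * ε + lam * Λ * Er + lam * (Λ * Er) := by
            rw [e8] at e7
            linarith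
          _ = _ := by ring
      have e10 : 0 ≤ lam * Λ * Er := by positivity
      calc _ ≤ (s * delf * √d + 3 * s * Er) + (lam * ε + 2 * (lam * Λ) * Er) := add_le_add e1 e5
        _ ≤ _ := by linarith
    · intro p
      rw [abs_of_nonneg hg0, abs_of_nonneg hk0]
      have key : ∀ y w z A : ℝ, 0 ≤ y → y ≤ 2 → 0 ≤ z → z ≤ A → A = 1 / √s →
          g * (Lp * y) + k * (Λ / l * y + 0 * w + Λ * z) ≤ 6 * (s + lam * Λ) / √s := by
        intro y w z A hy0 hy2 hz0 hzA hA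
        have e1 : g * (Lp * y) ≤ √s * (3 * 2) := by gcongr
        have e2 : k * (Λ / l) * y ≤ (lam * Λ / √s) * 2 := by gcongr
        have e3 : k * (Λ * z) ≤ lam * (Λ * (1 / √s)) := by
          rw [← hA]
          gcongr
        have e4 : 6 * (s + lam * Λ) / √s = 6 * √s + 6 * (lam * Λ / √s) := by
          rw [mul_add, add_div, mul_div_assoc, hdiv, mul_div_assoc]
        have e5 : lam * (Λ * (1 / √s)) = lam * Λ / √s := by ring
        rw [e5] at e3
        rw [e4]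
        have e6 : k * (Λ / l * y + 0 * w + Λ * z) = k * (Λ / l) * y + k * (Λ * z) := by ring
        rw [e6]
        linarith
      fin_cases p
      · exact key (ρ + ϑ) _ (ϑ / √s) (1 / √s) (add_nonneg hρ0 hϑ0) (by linarith)
          (by positivity) (by gcongr) rfl
      · show g * (Lp * (√s * ϑ)) + k * (Λ / l * (√s * ϑ) + 0 * ϑ + Λ * 2) ≤ 3 * (s + lam * Λ)
        have e1 : g * (Lp * (√s * ϑ)) ≤ √s * (3 * (√s * 1)) := by gcongr
        have e2 : √s * (3 * (√s * 1)) = 3 * s := by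
          calc √s * (3 * (√s * 1)) = 3 * (√s * √s) := by ring
            _ = _ := by rw [hsq]
        have e3 : k * (Λ / l) * (√s * ϑ) ≤ (lam * Λ / √s) * (√s * 1) := by gcongr
        have e4 : (lam * Λ / √s) * (√s * 1) = lam * Λ := by field_simp
        have e5 : k * (Λ * 2) ≤ lam * (Λ * 2) := by gcongr
        have e6 : k * (Λ / l * (√s * ϑ) + 0 * ϑ + Λ * 2) =
          k * (Λ / l) * (√s * ϑ) + k * (Λ * 2) := by ring
        rw [e6]
        linarith
      · exact key (1 - ρ + ϑ) _ (ϑ / √s) (1 / √s) (add_nonneg (by linarith) hϑ0) (by linarith)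
          (by positivity) (by gcongr) rfl
    · omega
  · have h2 := (zcall (C := mctx d s (rr s (J * h)) c₀) (fun _ => rfl) hAG.2
      (φ := fun V p => X V b p) hmp hY hw hz (by positivity) (by positivity) hEr hEr hϑ0
      (by positivity) (by positivity) nn1 nn2 nn3 hSz).smul (lam / √s)
    have hls : 0 ≤ lam / √s := by positivity
    refine ⟨_, (h2.shift0.noise (τ' := √(s ^ 2 / lamf ^ 2 + (lam * τ) ^ 2)) ?_
      (by positivity)).mono ?_ ?_ le_rfl ?_⟩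
    · rw [Real.sq_sqrt (by positivity)]
      have e1 : lam / √s * (τ * l) ≤ lam * τ := by
        calc lam / √s * (τ * l) ≤ lam / √s * (τ * √s) := by gcongr
          _ = lam * τ := by field_simp
      have e2 := pow_le_pow_left₀ (by positivity) e1 2
      have e3 : 0 ≤ s ^ 2 / lamf ^ 2 := by positivity
      linarith
    · rw [abs_of_nonneg hls]
      have e1 : lam / √s * (ε * l + (Λ * (√s * Er) + Λ * l * Er + 0 * Er)) ≤
          lam / √s * (ε * √s + (Λ * (√s * Er) + Λ * √s * Er + 0 * Er)) := by gcongr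
      have e2 : lam / √s * (ε * √s + (Λ * (√s * Er) + Λ * √s * Er + 0 * Er)) =
          lam * ε + 2 * (lam * Λ * Er) := by
        field_simp
        ring
      have e3 : 0 ≤ s * delf * √d := by positivity
      have e4 : 0 ≤ s * Er := by positivity
      have e5 : 0 ≤ lam * Λ * Er := by positivity
      calc _ ≤ _ := e1
        _ = _ := e2
        _ ≤ _ := by nlinarith
    · intro p
      rw [abs_of_nonneg hls]
      have key : ∀ y z : ℝ, 0 ≤ y → y ≤ 2 →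
          lam / √s * (Λ * y + Λ * l * (3 / √s) + 0 * z) ≤ 6 * (s + lam * Λ) / √s := by
        intro y z hy0 hy2
        have e1 : lam / √s * (Λ * y + Λ * l * (3 / √s) + 0 * z) ≤
            lam / √s * (Λ * 2 + Λ * √s * (3 / √s) + 0 * z) := by gcongr
        have e2 : lam / √s * (Λ * 2 + Λ * √s * (3 / √s) + 0 * z) = 5 * (lam * Λ) / √s := by
          field_simp
          ring
        have e3 : 5 * (lam * Λ) / √s ≤ 6 * (s + lam * Λ) / √s := by
          refine div_le_div_of_nonneg_right ?_ hsq0.le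
          have : 0 ≤ lam * Λ := by positivity
          linarith
        linarith
      fin_cases p
      · exact key (ρ + ϑ) _ (add_nonneg hρ0 hϑ0) (by linarith)
      · show lam / √s * (Λ * (√s * ϑ) + Λ * l * ϑ + 0 * 2) ≤ 3 * (s + lam * Λ)
        have e1 : lam / √s * (Λ * (√s * ϑ) + Λ * l * ϑ + 0 * 2) ≤
            lam / √s * (Λ * (√s * 1) + Λ * √s * 1 + 0 * 2) := by gcongr
        have e2 : lam / √s * (Λ * (√s * 1) + Λ * √s * 1 + 0 * 2) = 2 * (lam * Λ) := by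
          field_simp
          ring
        have : 0 ≤ lam * Λ := by positivity
        linarith
      · exact key (1 - ρ + ϑ) _ (add_nonneg (by linarith) hϑ0) (by linarith)
    · omega

/-- weighted sums of node observables -/
theorem pn_lin (hn : NumN CW J s lam h c₀ c₁ lamf delf τ ε Λ ϑ) {Cw : ℝ} (hCw : 1 ≤ Cw)
    (hCW : ((N : ℝ) + 1) * Cw ^ 2 ≤ CW) {v : Fin J × Fin (N + 1) → ℝ}
    (hv : ∀ c, |v c| ≤ Cw * h) (hEr : 0 ≤ Er)
    {C : Inp d (PotT d) (Z3 d) (Fin 3)} (hsh : C.sh = ![1, 0, 1])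
    {Q : Fin J × Fin (N + 1) → PotT d → Z3 d → E d} {SG : ℕ}
    (hQ : ∀ c, ∃ κ, Has C (Q c) √(s ^ 2 / lamf ^ 2 + (lam * τ) ^ 2)
      (s * delf * √d + lam * ε + 3 * (s + lam * Λ) * Er)
      ![6 * (s + lam * Λ) / √s, 3 * (s + lam * Λ), 6 * (s + lam * Λ) / √s] 0 κ SG) :
    Has C (fun V p => ∑ c, v c • Q c V p) √(h / Real.cosh (J * h) ^ 2)
      (CW * (J * h) * (s * delf * √d + lam * ε) + ϑ / 4 * Er) ![ϑ / (4 * √s), ϑ / 4, ϑ / (4 * √s)] 0
      (ϑ / (2 * √s)) (J * (N + 1) * (SG + 2) + 4) := by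
  choose κ hκ using hQ
  have hs0 := hn.s0
  have hsq0 := hn.sq0
  have hΛ0 := hn.Λ0
  have hlam0 := hn.lam0
  have hd0 := hn.delf0
  have hε0 := hn.ε0
  have hh0 := hn.h0
  have hCw0 : 0 < Cw := by linarith
  have hsl : 0 ≤ s + lam * Λ := by positivity
  have hN : (0 : ℝ) ≤ N := Nat.cast_nonneg N
  have hJ : (0 : ℝ) ≤ J := Nat.cast_nonneg J
  have hcard : ((Finset.univ : Finset (Fin J × Fin (N + 1))).card : ℝ) = J * (N + 1) := by
    rw [Finset.card_univ, Fintype.card_prod, Fintype.card_fin, Fintype.card_fin]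
    push_cast
    ring
  have hCw2 : ((N : ℝ) + 1) * Cw ≤ CW := by
    refine le_trans ?_ hCW
    have : Cw ≤ Cw ^ 2 := by nlinarith
    gcongr
  have hsum1 : ∑ c, |v c| ≤ CW * (J * h) := by
    calc ∑ c, |v c| ≤ ∑ _c : Fin J × Fin (N + 1), Cw * h := Finset.sum_le_sum fun c _ => hv c
      _ = (((N : ℝ) + 1) * Cw) * (J * h) := by
        rw [Finset.sum_const, nsmul_eq_mul, hcard]
        ring
      _ ≤ CW * (J * h) := mul_le_mul_of_nonneg_right hCw2 (by positivity)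
  have hsum2 : ∑ c, (v c) ^ 2 ≤ CW * (J * h * h) := by
    calc ∑ c, (v c) ^ 2 ≤ ∑ _c : Fin J × Fin (N + 1), (Cw * h) ^ 2 :=
          Finset.sum_le_sum fun c _ => by
            rw [← sq_abs]
            exact pow_le_pow_left₀ (abs_nonneg _) (hv c) 2
      _ = (((N : ℝ) + 1) * Cw ^ 2) * (J * h * h) := by
        rw [Finset.sum_const, nsmul_eq_mul, hcard]
        ring
      _ ≤ CW * (J * h * h) := mul_le_mul_of_nonneg_right hCW (by positivity)
  have hlow := hn.ϑlow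
  have hCWJ : 0 ≤ CW * (J * h) := by
    have := hn.CW1
    positivity
  have h1 := (Has.lin Finset.univ v (fun c _ => hκ c) (fun c _ => by positivity)).shift0
  have h2 := (h1.cast (q' := fun V p => ∑ c, v c • Q c V p) (τ' := √(∑ c,
    (v c * √(s ^ 2 / lamf ^ 2 + (lam * τ) ^ 2)) ^ 2)) (fun _ _ => rfl) rfl le_rfl
    (fun _ => le_rfl) rfl le_rfl le_rfl).noise (τ' := √(h / Real.cosh (J * h) ^ 2)) ?_
    (Finset.sum_nonneg fun c _ => by positivity)
  · refine h2.mono ?_ ?_ ?_ ?_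
    · rw [← Finset.sum_mul]
      have e1 : (∑ c, |v c|) * (s * delf * √d + lam * ε + 3 * (s + lam * Λ) * Er) ≤
          CW * (J * h) * (s * delf * √d + lam * ε + 3 * (s + lam * Λ) * Er) :=
        mul_le_mul_of_nonneg_right hsum1 (by positivity)
      have e2 : CW * (J * h) * (3 * (s + lam * Λ) * Er) ≤ ϑ / 4 * Er := by
        have e3 : CW * (J * h) * (3 * (s + lam * Λ)) ≤ ϑ / 4 := by
          have : 0 ≤ CW * (J * h) * (s + lam * Λ) := by positivity
          linarith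
        calc CW * (J * h) * (3 * (s + lam * Λ) * Er) =
            CW * (J * h) * (3 * (s + lam * Λ)) * Er := by ring
          _ ≤ _ := mul_le_mul_of_nonneg_right e3 hEr
      linarith
    · intro p
      have e0 : 0 ≤ CW * (J * h) * (s + lam * Λ) := by positivity
      fin_cases p
      · show ∑ c, |v c| * (6 * (s + lam * Λ) / √s) ≤ ϑ / (4 * √s)
        rw [← Finset.sum_mul]
        calc (∑ c, |v c|) * (6 * (s + lam * Λ) / √s) ≤
            CW * (J * h) * (6 * (s + lam * Λ) / √s) :=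
              mul_le_mul_of_nonneg_right hsum1 (by positivity)
          _ = 24 * CW * (J * h) * (s + lam * Λ) / (4 * √s) := by
              field_simp
              ring
          _ ≤ ϑ / (4 * √s) := div_le_div_of_nonneg_right hlow (by positivity)
      · show ∑ c, |v c| * (3 * (s + lam * Λ)) ≤ ϑ / 4
        rw [← Finset.sum_mul]
        calc (∑ c, |v c|) * (3 * (s + lam * Λ)) ≤ CW * (J * h) * (3 * (s + lam * Λ)) :=
              mul_le_mul_of_nonneg_right hsum1 (by positivity)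
          _ ≤ ϑ / 4 := by linarith
      · show ∑ c, |v c| * (6 * (s + lam * Λ) / √s) ≤ ϑ / (4 * √s)
        rw [← Finset.sum_mul]
        calc (∑ c, |v c|) * (6 * (s + lam * Λ) / √s) ≤
            CW * (J * h) * (6 * (s + lam * Λ) / √s) :=
              mul_le_mul_of_nonneg_right hsum1 (by positivity)
          _ = 24 * CW * (J * h) * (s + lam * Λ) / (4 * √s) := by
              field_simp
              ring
          _ ≤ ϑ / (4 * √s) := div_le_div_of_nonneg_right hlow (by positivity)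
    · rw [Fin.sum_univ_three, hsh]
      show (∑ c, |v c| * (6 * (s + lam * Λ) / √s)) * |(1 : ℝ)| +
        (∑ c, |v c| * (3 * (s + lam * Λ))) * |(0 : ℝ)| +
        (∑ c, |v c| * (6 * (s + lam * Λ) / √s)) * |(1 : ℝ)| ≤ ϑ / (2 * √s)
      rw [← Finset.sum_mul, abs_one, abs_zero, mul_zero, add_zero, mul_one]
      have e1 : (∑ c, |v c|) * (6 * (s + lam * Λ) / √s) ≤ ϑ / (4 * √s) := by
        calc (∑ c, |v c|) * (6 * (s + lam * Λ) / √s) ≤
            CW * (J * h) * (6 * (s + lam * Λ) / √s) :=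
              mul_le_mul_of_nonneg_right hsum1 (by positivity)
          _ = 24 * CW * (J * h) * (s + lam * Λ) / (4 * √s) := by
              field_simp
              ring
          _ ≤ ϑ / (4 * √s) := div_le_div_of_nonneg_right hlow (by positivity)
      have e2 : ϑ / (2 * √s) = ϑ / (4 * √s) + ϑ / (4 * √s) := by
        field_simp
        ring
      linarith
    · rw [Finset.card_univ, Fintype.card_prod, Fintype.card_fin, Fintype.card_fin]
  · rw [Real.sq_sqrt (Finset.sum_nonneg fun c _ => sq_nonneg _), Real.sq_sqrt (by positivity)]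
    have hx : 0 ≤ s ^ 2 / lamf ^ 2 + (lam * τ) ^ 2 := by positivity
    have hx2 : ∀ c, (v c * √(s ^ 2 / lamf ^ 2 + (lam * τ) ^ 2)) ^ 2 =
        v c ^ 2 * (s ^ 2 / lamf ^ 2 + (lam * τ) ^ 2) := fun c => by
      rw [mul_pow, Real.sq_sqrt hx]
    simp only [hx2]
    rw [← Finset.sum_mul]
    have hc := px_cosh_pos (J * h)
    calc (∑ c, (v c) ^ 2) * (s ^ 2 / lamf ^ 2 + (lam * τ) ^ 2) ≤
        (CW * (J * h * h)) * (s ^ 2 / lamf ^ 2 + (lam * τ) ^ 2) :=
          mul_le_mul_of_nonneg_right hsum2 hx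
      _ ≤ (CW * 1) * (s ^ 2 / lamf ^ 2 + (lam * τ) ^ 2) := by
          have h3 := hn.Jh
          have h4 := hn.CW1
          gcongr
      _ ≤ h / Real.cosh (J * h) ^ 2 := by
          rw [le_div_iff₀ (by positivity)]
          have h5 := hn.noise
          linarith

/-- position from a code for the bracket -/
theorem pn_Y (hn : NumN CW J s lam h c₀ c₁ lamf delf τ ε Λ ϑ) {T : ℝ} (hT0 : 0 ≤ T)
    (hT1 : T ≤ J * h) {Φ : PotT d → Z3 d → Z3 d} {G : PotT d → Z3 d → E d}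
    (hc : ∀ V p, (Φ V p).1 - rr s T • (Φ V p).2.1 = p.1) {τG εG a0 a1 a2 κG δ : ℝ} {SG : ℕ}
    (hG : Has (mctx d s (rr s (J * h)) c₀) G τG εG ![a0, a1, a2] 0 κG SG)
    (hτ : τG ^ 2 ≤ h / Real.cosh (J * h) ^ 2) (hεG : 0 ≤ εG) (h0 : 0 ≤ a0) (h1 : 0 ≤ a1)
    (h2 : 0 ≤ a2) (hκ : 0 ≤ κG)
    (hm : ∀ V, Measurable (fun p => (Φ V p).2.1 - p.2.1 + G V p))
    (hi : ∀ V : PotT d, Integrable (fun p => ‖(Φ V p).2.1 - p.2.1 + G V p‖) (mu3 V.1 s))
    (hle : ∀ V : PotT d, ∫ p, ‖(Φ V p).2.1 - p.2.1 + G V p‖ ∂(mu3 V.1 s) ≤ δ) (hδ : 0 ≤ δ) :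
    Has (mctx d s (rr s (J * h)) c₀) (fun V p => (Φ V p).1) (c₁ * √(lev s T)) (√s * (εG + δ))
      ![rr s T / rr s (J * h) + √s * a0, √s * a1, 1 - rr s T / rr s (J * h) + √s * a2] 1
      (√s * κG) (SG + 12) := by
  have hσ := pnx_rr_pos hn.s0 hn.h0 hn.h1 hn.U0 hn.cosh
  have hρ0 := pnx_rho_nonneg hn.s0 hn.h0 hn.h1 hn.U0 hn.cosh hT0 hT1
  have hρ1 := pnx_rho_le hn.s0 hn.h0 hn.h1 hn.U0 hn.cosh hT0 hT1
  have hnoise := pnx_rho_noise hn.s0 hn.h0 hn.h1 hn.U0 hn.cosh hT0 hT1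
  have hrn := pnx_r_noise hn.s0 hn.h0 hn.h1 hn.U0 hn.cosh hT0 hT1
  have hr0 := px_rr_nonneg s hT0
  have hr1 := px_rr_le s T
  have hρσ : rr s T / rr s (J * h) * rr s (J * h) = rr s T := div_mul_cancel₀ _ hσ.ne'
  set r := rr s T with hr
  set σ := rr s (J * h) with hσd
  set ρ := r / σ with hρ
  have hs0 := hn.s0
  have hsq0 := hn.sq0
  have hc1 := hn.c1
  have hc0 := hn.c0
  have hh0 := hn.h0
  have hL0 : 0 ≤ lev s T := (px_lev_pos hs0 T).le
  have k1 := (Has.slot (mctx d s σ c₀) 0).smul ρ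
  have k2 := (Has.slot (mctx d s σ c₀) 2).smul (1 - ρ)
  have k3 := hG.smul (-r)
  have k4 := Has.add (Has.add k1 k2 (by simp) (by simp)) k3 (by simp) (by positivity)
  have k5 := k4.noise (τ' := c₁ * √(lev s T)) ?_ (by positivity)
  · have k6 := k5.approxI (q' := fun V p => (Φ V p).1) (ε' := r * δ) ?_ (by positivity) ?_ ?_
      (by positivity)
    · refine k6.cast (fun _ _ => rfl) rfl ?_ ?_ ?_ ?_ ?_
      · rw [abs_neg, abs_of_nonneg hr0]
        calc |ρ| * 0 + |1 - ρ| * 0 + r * εG + r * δ = r * (εG + δ) := by ring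
          _ ≤ √s * (εG + δ) := mul_le_mul_of_nonneg_right hr1 (by positivity)
      · intro p
        rw [abs_neg, abs_of_nonneg hr0, abs_of_nonneg hρ0, abs_of_nonneg (by linarith : 0 ≤ 1 - ρ)]
        fin_cases p
        · show ρ * (Pi.single (0 : Fin 3) (1 : ℝ) : Fin 3 → ℝ) 0 +
            (1 - ρ) * (Pi.single (2 : Fin 3) (1 : ℝ) : Fin 3 → ℝ) 0 + r * a0 ≤ ρ + √s * a0
          have : r * a0 ≤ √s * a0 := mul_le_mul_of_nonneg_right hr1 h0
          simp
          linarith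
        · show ρ * (Pi.single (0 : Fin 3) (1 : ℝ) : Fin 3 → ℝ) 1 +
            (1 - ρ) * (Pi.single (2 : Fin 3) (1 : ℝ) : Fin 3 → ℝ) 1 + r * a1 ≤ √s * a1
          have : r * a1 ≤ √s * a1 := mul_le_mul_of_nonneg_right hr1 h1
          simp
          linarith
        · show ρ * (Pi.single (0 : Fin 3) (1 : ℝ) : Fin 3 → ℝ) 2 +
            (1 - ρ) * (Pi.single (2 : Fin 3) (1 : ℝ) : Fin 3 → ℝ) 2 + r * a2 ≤
            1 - ρ + √s * a2
          have : r * a2 ≤ √s * a2 := mul_le_mul_of_nonneg_right hr1 h2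
          simp
          linarith
      · show ρ * 1 + (1 - ρ) * 1 + -r * 0 = 1
        ring
      · rw [abs_neg, abs_of_nonneg hr0]
        have : r * κG ≤ √s * κG := mul_le_mul_of_nonneg_right hr1 hκ
        calc |ρ| * 0 + |1 - ρ| * 0 + r * κG = r * κG := by ring
          _ ≤ _ := this
      · omega
    · intro V
      have e : (fun p : Z3 d => ρ • (p.1 + σ • p.2.1) + (1 - ρ) • p.1 + -r • G V p - (Φ V p).1) =
          fun p => -r • ((Φ V p).2.1 - p.2.1 + G V p) := by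
        funext p
        have h3 := hc V p
        have h4 : (Φ V p).1 = p.1 + r • (Φ V p).2.1 := by
          rw [← h3]
          abel
        rw [h4, ← hρσ]
        module
      exact e ▸ (hm V).const_smul (-r)
    · intro V
      have e : (fun p : Z3 d => ‖ρ • (p.1 + σ • p.2.1) + (1 - ρ) • p.1 + -r • G V p -
          (Φ V p).1‖) = fun p => r * ‖(Φ V p).2.1 - p.2.1 + G V p‖ := by
        funext p
        have h3 := hc V p
        have h4 : (Φ V p).1 = p.1 + r • (Φ V p).2.1 := by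
          rw [← h3]
          abel
        have h5 : ρ • (p.1 + σ • p.2.1) + (1 - ρ) • p.1 + -r • G V p - (Φ V p).1 =
            -r • ((Φ V p).2.1 - p.2.1 + G V p) := by
          rw [h4, ← hρσ]
          module
        rw [h5, norm_smul, norm_neg, Real.norm_of_nonneg hr0]
      exact e ▸ (hi V).const_mul r
    · intro V
      have e : (fun p : Z3 d => ‖ρ • (p.1 + σ • p.2.1) + (1 - ρ) • p.1 + -r • G V p -
          (Φ V p).1‖) = fun p => r * ‖(Φ V p).2.1 - p.2.1 + G V p‖ := by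
        funext p
        have h3 := hc V p
        have h4 : (Φ V p).1 = p.1 + r • (Φ V p).2.1 := by
          rw [← h3]
          abel
        have h5 : ρ • (p.1 + σ • p.2.1) + (1 - ρ) • p.1 + -r • G V p - (Φ V p).1 =
            -r • ((Φ V p).2.1 - p.2.1 + G V p) := by
          rw [h4, ← hρσ]
          module
        rw [h5, norm_smul, norm_neg, Real.norm_of_nonneg hr0]
      have e2 : ∫ p, ‖ρ • (p.1 + σ • p.2.1) + (1 - ρ) • p.1 + -r • G V p -
          (Φ V p).1‖ ∂(mu3 V.1 s) ≤ r * δ := by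
        rw [e, integral_const_mul]
        exact mul_le_mul_of_nonneg_left (hle V) hr0
      exact e2
  · rw [Real.sq_sqrt (by positivity), Real.sq_sqrt (by positivity), mul_pow c₁,
      Real.sq_sqrt hL0]
    have e1 : (ρ * (mctx d s σ c₀).sig 0) ^ 2 = 0 := by
      show (ρ * 0) ^ 2 = 0
      norm_num
    have e2 : ((1 - ρ) * (mctx d s σ c₀).sig 2) ^ 2 = c₀ ^ 2 * ((1 - ρ) ^ 2 * s) := by
      show ((1 - ρ) * (c₀ * √s)) ^ 2 = _
      rw [mul_pow, mul_pow, Real.sq_sqrt hs0.le]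
      ring
    have e3 : (-r * τG) ^ 2 ≤ h * lev s T := by
      calc (-r * τG) ^ 2 = r ^ 2 * τG ^ 2 := by ring
        _ ≤ r ^ 2 * (h / Real.cosh (J * h) ^ 2) := mul_le_mul_of_nonneg_left hτ (sq_nonneg r)
        _ ≤ _ := hrn
    rw [e1, e2]
    have e4 : c₀ ^ 2 * ((1 - ρ) ^ 2 * s) ≤ c₀ ^ 2 * lev s T :=
      mul_le_mul_of_nonneg_left hnoise (sq_nonneg _)
    have e5 : (c₀ ^ 2 + h) * lev s T ≤ c₁ ^ 2 * lev s T := by
      have := hn.cc
      exact mul_le_mul_of_nonneg_right (by linarith) hL0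
    linarith

theorem pn_tau (hn : NumN CW J s lam h c₀ c₁ lamf delf τ ε Λ ϑ) {x : ℝ}
    (hx : x ≤ h / Real.cosh (J * h) ^ 2) : x ≤ h := by
  have h1 := px_one_le_cosh_sq (J * h)
  exact hx.trans (div_le_self hn.h0.le h1)

/-- velocity from a code for the bracket -/
theorem pn_w (hn : NumN CW J s lam h c₀ c₁ lamf delf τ ε Λ ϑ)
    {Φ : PotT d → Z3 d → Z3 d} {G : PotT d → Z3 d → E d} {τG εG a0 a1 a2 κG δ : ℝ} {SG : ℕ}
    (hG : Has (mctx d s (rr s (J * h)) c₀) G τG εG ![a0, a1, a2] 0 κG SG)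
    (hτ : τG ^ 2 ≤ h / Real.cosh (J * h) ^ 2) (hεG : 0 ≤ εG)
    (hm : ∀ V, Measurable (fun p => (Φ V p).2.1 - p.2.1 + G V p))
    (hi : ∀ V : PotT d, Integrable (fun p => ‖(Φ V p).2.1 - p.2.1 + G V p‖) (mu3 V.1 s))
    (hle : ∀ V : PotT d, ∫ p, ‖(Φ V p).2.1 - p.2.1 + G V p‖ ∂(mu3 V.1 s) ≤ δ) (hδ : 0 ≤ δ) :
    Has (mctx d s (rr s (J * h)) c₀) (fun V p => (Φ V p).2.1) c₁ (εG + δ)
      ![2 / √s + a0, a1, 2 / √s + a2] 0 κG (SG + 12) := by
  have hσ := pnx_rr_pos hn.s0 hn.h0 hn.h1 hn.U0 hn.cosh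
  have hσi := pnx_sig_inv hn.s0 hn.h0 hn.h1 hn.U0 hn.cosh
  have hσn := pnx_sig_noise hn.s0 hn.h0 hn.h1 hn.U0 hn.cosh
  have hτ2 := pn_tau hn hτ
  set σ := rr s (J * h) with hσd
  have hs0 := hn.s0
  have hsq0 := hn.sq0
  have hc1 := hn.c1
  have hc0 := hn.c0
  have hh0 := hn.h0
  have hσi0 : 0 ≤ σ⁻¹ := by positivity
  have hσσ : σ⁻¹ * σ = 1 := inv_mul_cancel₀ hσ.ne'
  have k1 := (Has.slot (mctx d s σ c₀) 0).smul σ⁻¹
  have k2 := (Has.slot (mctx d s σ c₀) 2).smul (-σ⁻¹)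
  have k3 := hG.smul (-1)
  have k4 := Has.add (Has.add k1 k2 (by simp) (by simp)) k3 (by simp) (by positivity)
  have k5 := k4.noise (τ' := c₁) ?_ (by positivity)
  · have hfun : ∀ (V : PotT d) (p : Z3 d), σ⁻¹ • (p.1 + σ • p.2.1) + -σ⁻¹ • p.1 +
        (-1 : ℝ) • G V p - (Φ V p).2.1 = (-1 : ℝ) • ((Φ V p).2.1 - p.2.1 + G V p) := by
      intro V p
      have h1 : σ⁻¹ • (σ • p.2.1) = p.2.1 := by rw [smul_smul, hσσ, one_smul]
      rw [smul_add, h1]
      module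
    have hn' : ∀ (V : PotT d) (p : Z3 d), ‖σ⁻¹ • (p.1 + σ • p.2.1) + -σ⁻¹ • p.1 +
        (-1 : ℝ) • G V p - (Φ V p).2.1‖ = ‖(Φ V p).2.1 - p.2.1 + G V p‖ := by
      intro V p
      rw [hfun, norm_smul, norm_neg, norm_one, one_mul]
    have k6 := k5.approxI (q' := fun V p => (Φ V p).2.1) (ε' := δ) ?_ (by positivity) ?_ ?_ hδ
    · refine k6.cast (fun _ _ => rfl) rfl ?_ ?_ ?_ ?_ ?_
      · rw [abs_neg, abs_neg, abs_one]
        linarith
      · intro p
        rw [abs_neg, abs_neg, abs_one, abs_of_nonneg hσi0]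
        fin_cases p
        · show σ⁻¹ * (Pi.single (0 : Fin 3) (1 : ℝ) : Fin 3 → ℝ) 0 +
            σ⁻¹ * (Pi.single (2 : Fin 3) (1 : ℝ) : Fin 3 → ℝ) 0 + 1 * a0 ≤ 2 / √s + a0
          simp
          linarith
        · show σ⁻¹ * (Pi.single (0 : Fin 3) (1 : ℝ) : Fin 3 → ℝ) 1 +
            σ⁻¹ * (Pi.single (2 : Fin 3) (1 : ℝ) : Fin 3 → ℝ) 1 + 1 * a1 ≤ a1
          simp
        · show σ⁻¹ * (Pi.single (0 : Fin 3) (1 : ℝ) : Fin 3 → ℝ) 2 +
            σ⁻¹ * (Pi.single (2 : Fin 3) (1 : ℝ) : Fin 3 → ℝ) 2 + 1 * a2 ≤ 2 / √s + a2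
          simp
          linarith
      · show σ⁻¹ * 1 + -σ⁻¹ * 1 + -1 * 0 = 0
        ring
      · rw [abs_neg, abs_neg, abs_one]
        linarith
      · omega
    · intro V
      have e : (fun p : Z3 d => σ⁻¹ • (p.1 + σ • p.2.1) + -σ⁻¹ • p.1 +
        (-1 : ℝ) • G V p - (Φ V p).2.1) =
          fun p => (-1 : ℝ) • ((Φ V p).2.1 - p.2.1 + G V p) := funext fun p => hfun V p
      exact e ▸ (hm V).const_smul (-1 : ℝ)
    · intro V
      have e : (fun p : Z3 d => ‖σ⁻¹ • (p.1 + σ • p.2.1) + -σ⁻¹ • p.1 +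
        (-1 : ℝ) • G V p - (Φ V p).2.1‖) =
          fun p => ‖(Φ V p).2.1 - p.2.1 + G V p‖ := funext fun p => hn' V p
      exact e ▸ hi V
    · intro V
      have e : (fun p : Z3 d => ‖σ⁻¹ • (p.1 + σ • p.2.1) + -σ⁻¹ • p.1 +
        (-1 : ℝ) • G V p - (Φ V p).2.1‖) =
          fun p => ‖(Φ V p).2.1 - p.2.1 + G V p‖ := funext fun p => hn' V p
      have e2 : ∫ p, ‖σ⁻¹ • (p.1 + σ • p.2.1) + -σ⁻¹ • p.1 +
        (-1 : ℝ) • G V p - (Φ V p).2.1‖ ∂(mu3 V.1 s) ≤ δ := by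
        rw [e]
        exact hle V
      exact e2
  · rw [Real.sq_sqrt (by positivity), Real.sq_sqrt (by positivity)]
    have e1 : (σ⁻¹ * (mctx d s σ c₀).sig 0) ^ 2 = 0 := by
      show (σ⁻¹ * 0) ^ 2 = 0
      norm_num
    have e2 : (-σ⁻¹ * (mctx d s σ c₀).sig 2) ^ 2 = c₀ ^ 2 * (σ⁻¹ * √s) ^ 2 := by
      show (-σ⁻¹ * (c₀ * √s)) ^ 2 = _
      ring
    have e3 : (-1 * τG) ^ 2 ≤ h := by
      calc (-1 * τG) ^ 2 = τG ^ 2 := by ring
        _ ≤ _ := hτ2
    rw [e1, e2]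
    have e4 : c₀ ^ 2 * (σ⁻¹ * √s) ^ 2 ≤ c₀ ^ 2 * (1 + h) :=
      mul_le_mul_of_nonneg_left hσn (sq_nonneg _)
    have e5 : c₀ ^ 2 * h ≤ 1 * h := mul_le_mul_of_nonneg_right hn.c0_le hh0.le
    have := hn.cc
    linarith

/-- auxiliary variable from a code for its increment -/
theorem pn_z (hn : NumN CW J s lam h c₀ c₁ lamf delf τ ε Λ ϑ)
    {Φ : PotT d → Z3 d → Z3 d} {G : PotT d → Z3 d → E d} {τG εG a0 a1 a2 κG δ : ℝ} {SG : ℕ}
    (hG : Has (mctx d s (rr s (J * h)) c₀) G τG εG ![a0, a1, a2] 0 κG SG)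
    (hτ : τG ^ 2 ≤ h / Real.cosh (J * h) ^ 2) (hεG : 0 ≤ εG)
    (hm : ∀ V, Measurable (fun p => (Φ V p).2.2 - p.2.2 - G V p))
    (hi : ∀ V : PotT d, Integrable (fun p => ‖(Φ V p).2.2 - p.2.2 - G V p‖) (mu3 V.1 s))
    (hle : ∀ V : PotT d, ∫ p, ‖(Φ V p).2.2 - p.2.2 - G V p‖ ∂(mu3 V.1 s) ≤ δ) (hδ : 0 ≤ δ) :
    Has (mctx d s (rr s (J * h)) c₀) (fun V p => (Φ V p).2.2) c₁ (εG + δ)
      ![a0, 1 + a1, a2] 0 κG (SG + 12) := by
  have hτ2 := pn_tau hn hτ
  set σ := rr s (J * h) with hσd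
  have hs0 := hn.s0
  have hsq0 := hn.sq0
  have hc1 := hn.c1
  have hh0 := hn.h0
  have k4 := Has.add (Has.slot (mctx d s σ c₀) 1) hG le_rfl hεG
  have k5 := k4.noise (τ' := c₁) ?_ (by positivity)
  · have hn' : ∀ (V : PotT d) (p : Z3 d), p.2.2 + G V p - (Φ V p).2.2 =
        (-1 : ℝ) • ((Φ V p).2.2 - p.2.2 - G V p) := by
      intro V p
      module
    have hn2 : ∀ (V : PotT d) (p : Z3 d), ‖p.2.2 + G V p - (Φ V p).2.2‖ =
        ‖(Φ V p).2.2 - p.2.2 - G V p‖ := by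
      intro V p
      rw [hn', norm_smul, norm_neg, norm_one, one_mul]
    have k6 := k5.approxI (q' := fun V p => (Φ V p).2.2) (ε' := δ) ?_ (by positivity) ?_ ?_ hδ
    · refine k6.cast (fun _ _ => rfl) rfl ?_ ?_ ?_ ?_ ?_
      · linarith
      · intro p
        fin_cases p
        · show (Pi.single (1 : Fin 3) (1 : ℝ) : Fin 3 → ℝ) 0 + a0 ≤ a0
          simp
        · show (Pi.single (1 : Fin 3) (1 : ℝ) : Fin 3 → ℝ) 1 + a1 ≤ 1 + a1
          simp
        · show (Pi.single (1 : Fin 3) (1 : ℝ) : Fin 3 → ℝ) 2 + a2 ≤ a2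
          simp
      · show (0 : ℝ) + 0 = 0
        ring
      · linarith
      · omega
    · intro V
      have e : (fun p : Z3 d => p.2.2 + G V p - (Φ V p).2.2) =
          fun p => (-1 : ℝ) • ((Φ V p).2.2 - p.2.2 - G V p) := funext fun p => hn' V p
      exact e ▸ (hm V).const_smul (-1 : ℝ)
    · intro V
      have e : (fun p : Z3 d => ‖p.2.2 + G V p - (Φ V p).2.2‖) =
          fun p => ‖(Φ V p).2.2 - p.2.2 - G V p‖ := funext fun p => hn2 V p
      exact e ▸ hi V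
    · intro V
      have e : (fun p : Z3 d => ‖p.2.2 + G V p - (Φ V p).2.2‖) =
          fun p => ‖(Φ V p).2.2 - p.2.2 - G V p‖ := funext fun p => hn2 V p
      have e2 : ∫ p, ‖p.2.2 + G V p - (Φ V p).2.2‖ ∂(mu3 V.1 s) ≤ δ := by
        rw [e]
        exact hle V
      exact e2
  · rw [Real.sq_sqrt (by positivity)]
    have e1 : ((mctx d s σ c₀).sig 1) ^ 2 = 0 := by
      show (0 : ℝ) ^ 2 = 0
      norm_num
    rw [e1]
    have := hn.cc
    have h2 := sq_nonneg c₀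
    linarith

end parts

end P347Z
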