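import Vale.Agent.P347Z.PxS
import Vale.Agent.P347Z.PxB3
import Vale.Agent.P347Z.OrcDefs

/-!
Module PRC (proved): recursion in the exponents, from `orc_step`, `orc_base`, `Orc.width`, `Orc.ratio`, `Orc.mono`,
`rs_exists`.

Stage `j` (with `n` stages in total, `n` fixed): width `c_j`, Lipschitz constant `L_j`, shift `k_j`, lower end of
the levels `d^(-B_j)`.  `P j a A`: for every `η > 0`, eventually in `d`, for all `s ∈ [d^(-B_j), d^(-k)]` there is
`S ≤ d^η` with `Orc d s c_j (d^(-a)) (d^(-A)) L_j k_j S`.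
Step (`lam / 2 = d^(-a)`, `cosh (J h) ≈ d^κ`, `h = d^(-η')` with `η'` tiny (after everything else), then `m` large
so that `h^(m-2)` is smaller than any needed power, `K` large depending on `a_*, k, A` only; `lam1 ≈ d^(-(a-2κ))`,
`lam2 ≈ d^(-(a+κ)) 4`, `lamf ≈ d^(-(k-2κ))`):
  `P (j+1) a A  ⟸  P j (a+κ-small) (A-κ/2), P j (a-2κ) (A-a+κ), P j (k-2κ) (A-k+κ)`.
Induction on the integer part of `A/(κ/2)`: for `0 < A ≤ A_max` and `a ≥ a_*/2 + a_* A/(2 A_max)` (`a_* ≤ k/2`,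
`κ ≤ a_*²/(32 A_max)`), starting from `A ≤ a_*/4` (`orc_base`: `A < min(a, k/2)`).  Sizes: `S_{j+1} ≤ (M J S_j)^((K+2)^3)`,
`J ≤ d^(2η')`, so `S ≤ d^(C η')`.
-/

open MeasureTheory ProbabilityTheory Function Filter
open scoped ENNReal BigOperators

namespace P347Z

open P347Q P347S

/-- the conclusion of `orc_step` -/
def PrStep (m : ℕ) (C : ℝ) (M : ℕ) : Prop :=
    ∀ (K J d : ℕ) (s h lam lam1 lam2 lamf del1 del2 delf c₀ c₃ Lp kap b ϑ : ℝ) (S : ℕ),
    0 < s → s ≤ 1 / 4 → 0 < h → h ≤ 1 → 1 ≤ J → (J * h) * h ≤ 1 →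
    2 ≤ h * Real.cosh (J * h) ^ 2 → 0 < lam → lam1 ≤ 1 →
    C * Real.cosh (J * h) * lam ≤ h ^ 2 * lam1 → C * Real.cosh (J * h) * s ≤ h * lamf →
    2 * lam ≤ lam2 * Real.cosh (J * h) → 0 < c₀ → 0 < c₃ → c₃ ≤ 1 → c₀ ^ 2 + C * h ≤ c₃ ^ 2 →
    0 ≤ del1 → 0 ≤ del2 → 0 ≤ delf → 0 ≤ Lp → Lp ≤ 3 → 0 ≤ kap → kap ≤ 1 → 1 ≤ S →
    ϑ = C / h ^ 4 * ((Real.cosh (J * h))⁻¹ + lam + s) → ϑ ≤ 1 → 0 ≤ b → h ^ (m - 2) ≤ b →
    (C * s) ^ K ≤ b → (C * h * lam1) ^ K ≤ b → ϑ ^ K ≤ b →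
    (∀ L, lev s (J * h + h) ≤ L → L ≤ s → Orc d L c₃ lam1 del1 Lp kap S ∧
      Orc d L c₃ lam2 del2 Lp kap S ∧ Orc d L c₃ lamf delf Lp kap S) →
    Orc d s c₀ (lam / 2)
      (C / h ^ 4 * (del2 / Real.cosh (J * h) + lam * del1 + s * delf) + C * b / (h ^ 4 * s * lam))
      (Lp + ϑ) (kap + ϑ) ((M * J * S) ^ ((K + 2) ^ 3))

theorem pr_ge {D Q x y c : ℝ} (hD : 1 ≤ D) (hQ : Q ≤ D ^ x) (hxy : x ≤ y) (hc : c ≤ Q) :
    c ≤ D ^ y :=
  hc.trans (hQ.trans (Real.rpow_le_rpow_of_exponent_le hD hxy))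

theorem pr_mul {D : ℝ} (hD : 0 < D) {x y z : ℝ} (h : x = y + z) : D ^ x = D ^ y * D ^ z := by
  rw [h, Real.rpow_add hD]

/-- the number of time steps -/
theorem pr_J {D g η : ℝ} (hD : 1 < D) (hη : 0 < η) (hg : 0 < g)
    (hQ : 2 * g / η + 1 ≤ D ^ (η / 2)) :
    ∃ J : ℕ, 1 ≤ J ∧ g * Real.log D ≤ J * D ^ (-η) ∧ J * D ^ (-η) ≤ g * Real.log D + D ^ (-η) ∧
      g * Real.log D + 1 ≤ D ^ η ∧ (J : ℝ) ≤ D ^ (2 * η) := by
  have hD0 : 0 < D := by linarith
  have hlog : 0 < Real.log D := Real.log_pos hD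
  have hh : 0 < D ^ (-η) := Real.rpow_pos_of_pos hD0 _
  have hinv : D ^ (-η) * D ^ η = 1 := by
    rw [← Real.rpow_add hD0]; simp
  have h1 : g * Real.log D + 1 ≤ D ^ η := by
    have h2 : Real.log D ≤ D ^ (η / 2) / (η / 2) := Real.log_le_rpow_div hD0.le (by positivity)
    have h3 : g * Real.log D ≤ g * (D ^ (η / 2) / (η / 2)) := mul_le_mul_of_nonneg_left h2 hg.le
    have h4 : (1 : ℝ) ≤ D ^ (η / 2) := Real.one_le_rpow hD.le (by positivity)
    have h5 : D ^ η = D ^ (η / 2) * D ^ (η / 2) := pr_mul hD0 (by ring)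
    have h6 : (2 * g / η + 1) * D ^ (η / 2) ≤ D ^ (η / 2) * D ^ (η / 2) :=
      mul_le_mul_of_nonneg_right hQ (by positivity)
    have h7 : g * (D ^ (η / 2) / (η / 2)) = 2 * g / η * D ^ (η / 2) := by
      field_simp
    rw [h7] at h3
    rw [h5]
    linarith
  refine ⟨⌈g * Real.log D / D ^ (-η)⌉₊, ?_, ?_, ?_, h1, ?_⟩
  · exact Nat.one_le_iff_ne_zero.2 (Nat.pos_iff_ne_zero.1 (Nat.ceil_pos.2 (by positivity)))
  · have := Nat.le_ceil (g * Real.log D / D ^ (-η))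
    rwa [div_le_iff₀ hh] at this
  · have h2 := (Nat.ceil_lt_add_one (by positivity : 0 ≤ g * Real.log D / D ^ (-η))).le
    have h3 := mul_le_mul_of_nonneg_right h2 hh.le
    rw [add_mul, div_mul_cancel₀ _ hh.ne', one_mul] at h3
    exact h3
  · have h2 := (Nat.ceil_lt_add_one (by positivity : 0 ≤ g * Real.log D / D ^ (-η))).le
    have h3 : g * Real.log D / D ^ (-η) = g * Real.log D * D ^ η := by
      rw [div_eq_iff hh.ne', mul_assoc, mul_comm (D ^ η), hinv, mul_one]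
    have h4 : (1 : ℝ) ≤ D ^ η := Real.one_le_rpow hD.le hη.le
    have h5 : D ^ (2 * η) = D ^ η * D ^ η := pr_mul hD0 (by ring)
    have h6 : (g * Real.log D + 1) * D ^ η ≤ D ^ η * D ^ η :=
      mul_le_mul_of_nonneg_right h1 (by positivity)
    rw [h3] at h2
    rw [h3, h5]
    linarith

/-- bounds of `cosh` -/
theorem pr_cosh {D g η : ℝ} (hD : 1 < D) (hη : 0 < η) {J : ℕ}
    (h1 : g * Real.log D ≤ J * D ^ (-η)) (h2 : J * D ^ (-η) ≤ g * Real.log D + D ^ (-η)) :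
    D ^ g / 2 ≤ Real.cosh (J * D ^ (-η)) ∧ Real.cosh (J * D ^ (-η)) ≤ 3 * D ^ g ∧
      Real.cosh (J * D ^ (-η) + D ^ (-η)) ≤ 9 * D ^ g := by
  have hD0 : 0 < D := by linarith
  have hh1 : D ^ (-η) ≤ 1 := by
    have := Real.rpow_le_rpow_of_exponent_le hD.le (by linarith : -η ≤ 0)
    rwa [Real.rpow_zero] at this
  have hh : 0 < D ^ (-η) := Real.rpow_pos_of_pos hD0 _
  have he : Real.exp (g * Real.log D) = D ^ g := by
    rw [Real.rpow_def_of_pos hD0, mul_comm]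
  have hJ0 : 0 ≤ (J : ℝ) * D ^ (-η) := by positivity
  have hup : ∀ t : ℝ, 0 ≤ t → Real.cosh t ≤ Real.exp t := by
    intro t ht
    rw [Real.cosh_eq]
    have : Real.exp (-t) ≤ Real.exp t := Real.exp_le_exp.2 (by linarith)
    linarith
  have e1 : Real.exp 1 ≤ 3 := by
    have := Real.exp_one_lt_d9
    linarith
  refine ⟨?_, ?_, ?_⟩
  · rw [Real.cosh_eq, ← he]
    have h3 : Real.exp (g * Real.log D) ≤ Real.exp (J * D ^ (-η)) := Real.exp_le_exp.2 h1
    have h4 := Real.exp_pos (-(J * D ^ (-η)))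
    linarith
  · calc Real.cosh (J * D ^ (-η)) ≤ Real.exp (J * D ^ (-η)) := hup _ hJ0
      _ ≤ Real.exp (g * Real.log D + 1) := Real.exp_le_exp.2 (by linarith)
      _ = Real.exp 1 * D ^ g := by rw [Real.exp_add, he]; ring
      _ ≤ 3 * D ^ g := by
          have : 0 ≤ D ^ g := (Real.rpow_pos_of_pos hD0 _).le
          exact mul_le_mul_of_nonneg_right e1 this
  · calc Real.cosh (J * D ^ (-η) + D ^ (-η)) ≤ Real.exp (J * D ^ (-η) + D ^ (-η)) :=
          hup _ (by linarith)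
      _ ≤ Real.exp (g * Real.log D + (1 + 1)) := Real.exp_le_exp.2 (by linarith)
      _ = (Real.exp 1 * Real.exp 1) * D ^ g := by rw [Real.exp_add, Real.exp_add, he]; ring
      _ ≤ 9 * D ^ g := by
          have h5 : 0 ≤ D ^ g := (Real.rpow_pos_of_pos hD0 _).le
          have h6 : Real.exp 1 * Real.exp 1 ≤ 3 * 3 :=
            mul_le_mul e1 e1 (Real.exp_nonneg _) (by norm_num)
          refine mul_le_mul_of_nonneg_right ?_ h5
          linarith

theorem pr_le {D Q η c x y : ℝ} (hD : 1 ≤ D) (hQ : Q ≤ D ^ (η / 2)) (hc : c ≤ Q)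
    (h : x + η / 2 ≤ y) : c * D ^ x ≤ D ^ y := by
  have hD0 : 0 < D := by linarith
  have h1 : c ≤ D ^ (y - x) := pr_ge hD hQ (by linarith) hc
  have h2 : D ^ y = D ^ (y - x) * D ^ x := pr_mul hD0 (by ring)
  rw [h2]
  exact mul_le_mul_of_nonneg_right h1 (Real.rpow_pos_of_pos hD0 _).le

set_option maxHeartbeats 1000000 in
/-- one step at a fixed dimension -/
theorem pr_one {m : ℕ} {C : ℝ} {M : ℕ} (hstep : PrStep m C M) (hC : 1 ≤ C) {K d : ℕ}
    {g η β k B' a A Q c₀ c₃ Lp kap e nn : ℝ} {S S' : ℕ}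
    (hD : 1 < (d : ℝ)) (hQ : Q ≤ (d : ℝ) ^ (η / 2))
    (hη : 0 < η) (hηg : 32 * η ≤ g) (hgk : 12 * g ≤ k) (hga : 12 * g ≤ a)
    (hβK : β ≤ K * (g / 2)) (hβm : β ≤ η * ((m - 2 : ℕ) : ℝ)) (hβ : A + B' + a + g ≤ β)
    (hnn : 1 ≤ nn)
    (q1 : 2 * g / η + 1 ≤ Q) (q2 : 81 ≤ Q) (q3 : 20 * nn * C ≤ Q) (q4 : (M : ℝ) ≤ Q)
    (hc0 : 1 / 4 ≤ c₀) (hc3 : c₃ = c₀ + 3 / (4 * nn)) (hc31 : c₃ ≤ 1)
    (hLp : 0 ≤ Lp) (hLp3 : Lp ≤ 3) (hkap : 0 ≤ kap) (hkap1 : kap ≤ 1) (hS : 1 ≤ S)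
    (hSe : (S : ℝ) ≤ (d : ℝ) ^ (η * e))
    (hS' : ∀ N : ℕ, (N : ℝ) ≤ (d : ℝ) ^ (η * ((3 + e) * ((K : ℝ) + 2) ^ 3)) → N ≤ S')
    (hO : ∀ L : ℝ, (d : ℝ) ^ (-(B' + 3 * g)) ≤ L → L ≤ (d : ℝ) ^ (-k) →
      Orc d L c₃ ((d : ℝ) ^ (-(a - 2 * g))) ((d : ℝ) ^ (-(A - a + g))) Lp kap S ∧
      Orc d L c₃ ((d : ℝ) ^ (-(a + g / 2))) ((d : ℝ) ^ (-(A - g / 2))) Lp kap S ∧
      Orc d L c₃ ((d : ℝ) ^ (-(k - 2 * g))) ((d : ℝ) ^ (-(A - k + g))) Lp kap S)
    {s : ℝ} (hs : (d : ℝ) ^ (-B') ≤ s) (hsk : s ≤ (d : ℝ) ^ (-k)) :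
    Orc d s c₀ ((d : ℝ) ^ (-a)) ((d : ℝ) ^ (-A)) (Lp + 1 / nn) (kap + 1 / (4 * nn)) S' := by
  set D : ℝ := (d : ℝ) with hDdef
  have hD0 : 0 < D := by linarith
  have hD1 : 1 ≤ D := hD.le
  have hg : 0 < g := by linarith
  have hpos : ∀ x : ℝ, 0 < D ^ x := fun x => Real.rpow_pos_of_pos hD0 x
  have hmono : ∀ {x y : ℝ}, x ≤ y → D ^ x ≤ D ^ y := fun h =>
    Real.rpow_le_rpow_of_exponent_le hD1 h
  have hs0 : 0 < s := (hpos _).trans_le hs
  obtain ⟨J, hJ1, hJa, hJb, hJc, hJd⟩ := pr_J hD hη hg (q1.trans hQ)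
  obtain ⟨hR1, hR2, hR3⟩ := pr_cosh hD hη hJa hJb
  set h : ℝ := D ^ (-η) with hh
  set R : ℝ := Real.cosh (J * h) with hR
  have hh0 : 0 < h := hpos _
  have hh1 : h ≤ 1 := by
    have := hmono (by linarith : -η ≤ 0)
    rwa [Real.rpow_zero] at this
  have hR0 : 0 < R := Real.cosh_pos _
  have hC0 : 0 < C := by linarith
  have hnnC : 20 * C ≤ Q := by nlinarith
  -- the parameters
  set lam : ℝ := 2 * D ^ (-a) with hlam
  set lam1 : ℝ := D ^ (-(a - 2 * g)) with hlam1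
  set lam2 : ℝ := D ^ (-(a + g / 2)) with hlam2
  set lamf : ℝ := D ^ (-(k - 2 * g)) with hlamf
  set del1 : ℝ := D ^ (-(A - a + g)) with hdel1
  set del2 : ℝ := D ^ (-(A - g / 2)) with hdel2
  set delf : ℝ := D ^ (-(A - k + g)) with hdelf
  set b : ℝ := D ^ (-β) with hb
  have hh4 : h ^ 4 = D ^ (-(4 * η)) := by
    rw [hh, ← Real.rpow_natCast, ← Real.rpow_mul hD0.le]
    congr 1
    push_cast
    ring
  have hh4' : C / h ^ 4 = C * D ^ (4 * η) := by
    rw [hh4, Real.rpow_neg hD0.le, div_inv_eq_mul]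
  have c1 : s ≤ 1 / 4 := by
    have h1 : (4 : ℝ) * D ^ (-k) ≤ D ^ (0 : ℝ) := pr_le hD1 hQ (by linarith) (by linarith)
    rw [Real.rpow_zero] at h1
    linarith
  have c2 : (J * h) * h ≤ 1 := by
    have h1 : J * h ≤ D ^ η := by linarith
    have h2 : D ^ η * h = 1 := by
      rw [hh, ← Real.rpow_add hD0]
      simp
    calc J * h * h ≤ D ^ η * h := mul_le_mul_of_nonneg_right h1 hh0.le
      _ = 1 := h2
  have c3 : 2 ≤ h * R ^ 2 := by
    have h1 : (8 : ℝ) * D ^ (0 : ℝ) ≤ D ^ (2 * g - η) :=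
      pr_le hD1 hQ (by linarith) (by linarith)
    rw [Real.rpow_zero, mul_one] at h1
    have h2 : D ^ (2 * g - η) = h * D ^ g * D ^ g := by
      rw [hh, ← Real.rpow_add hD0, ← Real.rpow_add hD0]
      congr 1
      ring
    have h3 : (D ^ g / 2) ^ 2 ≤ R ^ 2 := by
      have := hpos g
      gcongr
    have h4 : h * (D ^ g / 2) ^ 2 ≤ h * R ^ 2 := mul_le_mul_of_nonneg_left h3 hh0.le
    have h5 : h * (D ^ g / 2) ^ 2 = h * D ^ g * D ^ g / 4 := by ring
    rw [h5, ← h2] at h4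
    linarith
  have c4 : lam1 ≤ 1 := by
    have := hmono (by linarith : -(a - 2 * g) ≤ 0)
    rwa [Real.rpow_zero] at this
  have c5 : C * R * lam ≤ h ^ 2 * lam1 := by
    have h1 : (6 * C) * D ^ (g - a) ≤ D ^ (-(2 * η) - (a - 2 * g)) :=
      pr_le hD1 hQ (by linarith) (by linarith)
    have h2 : D ^ (-(2 * η) - (a - 2 * g)) = h ^ 2 * lam1 := by
      rw [pow_two, hh, hlam1, ← Real.rpow_add hD0, ← Real.rpow_add hD0]
      congr 1
      ring
    have h3 : D ^ (g - a) = D ^ g * D ^ (-a) := pr_mul hD0 (by ring)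
    have h4 : C * R * lam ≤ C * (3 * D ^ g) * lam := by
      have : 0 < lam := by rw [hlam]; have := hpos (-a); linarith
      gcongr
    rw [h2, h3] at h1
    calc C * R * lam ≤ C * (3 * D ^ g) * lam := h4
      _ = 6 * C * (D ^ g * D ^ (-a)) := by rw [hlam]; ring
      _ ≤ h ^ 2 * lam1 := h1
  have c6 : C * R * s ≤ h * lamf := by
    have h1 : (3 * C) * D ^ (g - k) ≤ D ^ (-η - (k - 2 * g)) :=
      pr_le hD1 hQ (by linarith) (by linarith)
    have h2 : D ^ (-η - (k - 2 * g)) = h * lamf := by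
      rw [hh, hlamf, ← Real.rpow_add hD0]
      congr 1
    have h3 : D ^ (g - k) = D ^ g * D ^ (-k) := pr_mul hD0 (by ring)
    rw [h2, h3] at h1
    calc C * R * s ≤ C * (3 * D ^ g) * D ^ (-k) := by
          have := hpos g
          gcongr
      _ = 3 * C * (D ^ g * D ^ (-k)) := by ring
      _ ≤ h * lamf := h1
  have c7 : 2 * lam ≤ lam2 * R := by
    have h1 : (8 : ℝ) * D ^ (-a) ≤ D ^ (-a + g / 2) := pr_le hD1 hQ (by linarith) (by linarith)
    have h2 : D ^ (-a + g / 2) = lam2 * D ^ g := by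
      rw [hlam2, ← Real.rpow_add hD0]
      congr 1
      ring
    have h3 : lam2 * (D ^ g / 2) ≤ lam2 * R := mul_le_mul_of_nonneg_left hR1 (hpos _).le
    rw [h2] at h1
    rw [hlam]
    linarith
  have hC' : C ≤ Q := by linarith
  have c8 : c₀ ^ 2 + C * h ≤ c₃ ^ 2 := by
    have h1 : (8 * nn * C) * D ^ (-η) ≤ D ^ (0 : ℝ) := by
      refine pr_le hD1 hQ ?_ (by linarith)
      have : 0 ≤ nn * C := by positivity
      linarith
    rw [Real.rpow_zero] at h1
    have h2 : c₃ ^ 2 = c₀ ^ 2 + 3 / (4 * nn) * (2 * c₀ + 3 / (4 * nn)) := by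
      rw [hc3]; ring
    have h3 : 0 < 3 / (4 * nn) := by positivity
    have h4 : 3 / (4 * nn) * (1 / 2) ≤ 3 / (4 * nn) * (2 * c₀ + 3 / (4 * nn)) :=
      mul_le_mul_of_nonneg_left (by linarith) h3.le
    have h5 : C * h ≤ 3 / (4 * nn) * (1 / 2) := by
      have : 3 / (4 * nn) * (1 / 2) = 3 / (8 * nn) := by ring
      rw [this, le_div_iff₀ (by positivity)]
      have h6 : C * h * (8 * nn) = 8 * nn * C * D ^ (-η) := by rw [hh]; ring
      linarith
    linarith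
  -- the small quantity
  set ϑ : ℝ := C / h ^ 4 * (R⁻¹ + lam + s) with hϑ
  have hRinv : R⁻¹ ≤ 2 * D ^ (-g) := by
    have h1 : R⁻¹ ≤ (D ^ g / 2)⁻¹ := inv_anti₀ (by have := hpos g; positivity) hR1
    have h2 : (D ^ g / 2)⁻¹ = 2 * D ^ (-g) := by
      rw [Real.rpow_neg hD0.le, inv_div, div_eq_mul_inv]
    rwa [h2] at h1
  have hϑ1 : ϑ ≤ 5 * C * D ^ (4 * η - g) := by
    have h1 : D ^ (4 * η - g) = D ^ (4 * η) * D ^ (-g) := pr_mul hD0 (by ring)
    have h2 : D ^ (-a) ≤ D ^ (-g) := hmono (by linarith)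
    have h3 : D ^ (-k) ≤ D ^ (-g) := hmono (by linarith)
    have h4 : R⁻¹ + lam + s ≤ 5 * D ^ (-g) := by rw [hlam]; linarith
    rw [hϑ, hh4', h1]
    calc C * D ^ (4 * η) * (R⁻¹ + lam + s) ≤ C * D ^ (4 * η) * (5 * D ^ (-g)) := by
          have := hpos (4 * η)
          gcongr
      _ = 5 * C * (D ^ (4 * η) * D ^ (-g)) := by ring
  have hϑ0 : 0 ≤ ϑ := by
    have := hpos (-a)
    positivity
  have hϑ2 : ϑ ≤ D ^ (-(g / 2)) :=
    hϑ1.trans (pr_le hD1 hQ (by linarith) (by linarith))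
  have hϑ3 : 4 * nn * ϑ ≤ 1 := by
    have h1 : (4 * nn * (5 * C)) * D ^ (4 * η - g) ≤ D ^ (0 : ℝ) :=
      pr_le hD1 hQ (by linarith) (by linarith)
    rw [Real.rpow_zero] at h1
    have h2 : 4 * nn * ϑ ≤ 4 * nn * (5 * C * D ^ (4 * η - g)) :=
      mul_le_mul_of_nonneg_left hϑ1 (by positivity)
    linarith
  have hϑ4 : ϑ ≤ 1 / (4 * nn) := by
    rw [le_div_iff₀ (by positivity)]
    linarith
  have hϑ5 : ϑ ≤ 1 := by
    have : 1 / (4 * nn) ≤ 1 := by
      rw [div_le_one (by positivity)]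
      linarith
    linarith
  have hpowK : ∀ x : ℝ, 0 ≤ x → x ≤ D ^ (-(g / 2)) → x ^ K ≤ b := by
    intro x hx0 hx
    calc x ^ K ≤ (D ^ (-(g / 2))) ^ K := pow_le_pow_left₀ hx0 hx K
      _ = D ^ (-(g / 2) * K) := by rw [← Real.rpow_natCast, ← Real.rpow_mul hD0.le]
      _ ≤ b := hmono (by linarith)
  have c9 : h ^ (m - 2) ≤ b := by
    rw [hh, ← Real.rpow_natCast, ← Real.rpow_mul hD0.le]
    exact hmono (by linarith)
  have c10 : (C * s) ^ K ≤ b := by
    refine hpowK _ (by positivity) ?_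
    calc C * s ≤ C * D ^ (-k) := by gcongr
      _ ≤ D ^ (-(g / 2)) := pr_le hD1 hQ hC' (by linarith)
  have c11 : (C * h * lam1) ^ K ≤ b := by
    refine hpowK _ (by have := hpos (-(a - 2 * g)); positivity) ?_
    have h1 : C * h * lam1 = C * D ^ (-η - (a - 2 * g)) := by
      rw [hh, hlam1, mul_assoc, ← Real.rpow_add hD0]
      congr 2
    rw [h1]
    exact pr_le hD1 hQ hC' (by linarith)
  have c12 : ϑ ^ K ≤ b := hpowK _ hϑ0 hϑ2
  -- the levels
  have hlev : ∀ L, lev s (J * h + h) ≤ L → L ≤ s → Orc d L c₃ lam1 del1 Lp kap S ∧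
      Orc d L c₃ lam2 del2 Lp kap S ∧ Orc d L c₃ lamf delf Lp kap S := by
    intro L h1 h2
    refine hO L ?_ (h2.trans hsk)
    refine le_trans ?_ h1
    unfold lev
    rw [le_div_iff₀ (by positivity)]
    have h3 : Real.cosh (J * h + h) ^ 2 ≤ (9 * D ^ g) ^ 2 := by
      have := Real.cosh_pos (J * h + h)
      gcongr
    have h4 : D ^ (-B') = D ^ (-(B' + 3 * g)) * D ^ g * D ^ g * D ^ g := by
      rw [← Real.rpow_add hD0, ← Real.rpow_add hD0, ← Real.rpow_add hD0]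
      congr 1
      ring
    have h5 : (81 : ℝ) * D ^ (0 : ℝ) ≤ D ^ g := pr_le hD1 hQ q2 (by linarith)
    rw [Real.rpow_zero, mul_one] at h5
    calc D ^ (-(B' + 3 * g)) * Real.cosh (J * h + h) ^ 2
        ≤ D ^ (-(B' + 3 * g)) * (9 * D ^ g) ^ 2 := mul_le_mul_of_nonneg_left h3 (hpos _).le
      _ = D ^ (-(B' + 3 * g)) * D ^ g * D ^ g * 81 := by ring
      _ ≤ D ^ (-(B' + 3 * g)) * D ^ g * D ^ g * D ^ g := by
          have i1 := hpos (-(B' + 3 * g))
          have i2 := hpos g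
          exact mul_le_mul_of_nonneg_left h5 (by positivity)
      _ = D ^ (-B') := h4.symm
      _ ≤ s := hs
  have key := hstep K J d s h lam lam1 lam2 lamf del1 del2 delf c₀ c₃ Lp kap b ϑ S hs0 c1 hh0 hh1
    hJ1 c2 c3 (by have := hpos (-a); rw [hlam]; linarith) c4 c5 c6 c7 (by linarith)
    (by have : 0 < 3 / (4 * nn) := by positivity
        linarith) hc31 c8 (hpos _).le (hpos _).le (hpos _).le hLp hLp3 hkap hkap1 hS hϑ hϑ5
    (hpos _).le c9 c10 c11 c12 hlev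
  have hlam_half : lam / 2 = D ^ (-a) := by rw [hlam]; ring
  rw [hlam_half] at key
  refine Orc.mono key ?_ ?_ (by linarith) ?_
  · -- the error
    have e1 : C / h ^ 4 * (del2 / R + lam * del1 + s * delf) ≤ 5 * C * D ^ (4 * η - A - g / 2) := by
      have f1 : del2 / R ≤ 2 * D ^ (-A - g / 2) := by
        have : D ^ (-A - g / 2) = D ^ (-g) * del2 := by
          rw [hdel2, ← Real.rpow_add hD0]
          congr 1
          ring
        rw [this, div_eq_mul_inv]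
        have i := hpos (-(A - g / 2))
        calc del2 * R⁻¹ ≤ del2 * (2 * D ^ (-g)) := mul_le_mul_of_nonneg_left hRinv i.le
          _ = 2 * (D ^ (-g) * del2) := by ring
      have f2 : lam * del1 ≤ 2 * D ^ (-A - g / 2) := by
        have f3 : lam * del1 = 2 * D ^ (-A - g) := by
          rw [hlam, hdel1, mul_assoc, ← Real.rpow_add hD0]
          congr 2
          ring
        rw [f3]
        have : D ^ (-A - g) ≤ D ^ (-A - g / 2) := hmono (by linarith)
        linarith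
      have f4 : s * delf ≤ D ^ (-A - g / 2) := by
        have f5 : D ^ (-k) * delf = D ^ (-A - g) := by
          rw [hdelf, ← Real.rpow_add hD0]
          congr 1
          ring
        calc s * delf ≤ D ^ (-k) * delf := mul_le_mul_of_nonneg_right hsk (hpos _).le
          _ = D ^ (-A - g) := f5
          _ ≤ D ^ (-A - g / 2) := hmono (by linarith)
      have f6 : D ^ (4 * η - A - g / 2) = D ^ (4 * η) * D ^ (-A - g / 2) := pr_mul hD0 (by ring)
      rw [hh4', f6]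
      calc C * D ^ (4 * η) * (del2 / R + lam * del1 + s * delf)
          ≤ C * D ^ (4 * η) * (5 * D ^ (-A - g / 2)) := by
            have i := hpos (4 * η)
            refine mul_le_mul_of_nonneg_left ?_ (by positivity)
            linarith
        _ = 5 * C * (D ^ (4 * η) * D ^ (-A - g / 2)) := by ring
    have e2 : (10 * C) * D ^ (4 * η - A - g / 2) ≤ D ^ (-A) :=
      pr_le hD1 hQ (by linarith) (by linarith)
    have e3 : C * b / (h ^ 4 * s * lam) ≤ D ^ (-A) / 2 := by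
      have i1 := hpos (-(4 * η))
      have i2 := hpos (-a)
      have i3 := hpos (-A)
      have i4 : 0 < h ^ 4 * s * lam := by rw [hlam]; positivity
      rw [div_le_iff₀ i4]
      have f1 : C * D ^ (-β) ≤ D ^ (-A - 4 * η - B' - a) :=
        pr_le hD1 hQ hC' (by linarith)
      have f2 : D ^ (-A - 4 * η - B' - a) = D ^ (-A) * (D ^ (-(4 * η)) * D ^ (-B') * D ^ (-a)) := by
        rw [← Real.rpow_add hD0, ← Real.rpow_add hD0, ← Real.rpow_add hD0]
        congr 1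
        ring
      calc C * b ≤ D ^ (-A) * (D ^ (-(4 * η)) * D ^ (-B') * D ^ (-a)) := by rw [← f2]; exact f1
        _ ≤ D ^ (-A) * (D ^ (-(4 * η)) * s * D ^ (-a)) := by gcongr
        _ = D ^ (-A) / 2 * (h ^ 4 * s * lam) := by rw [hh4, hlam]; ring
    linarith
  · have : 1 / (4 * nn) ≤ 1 / nn := by
      have : 0 < nn := by linarith
      exact one_div_le_one_div_of_le this (by linarith)
    linarith
  · -- the size
    refine hS' _ ?_
    push_cast
    have f1 : (M : ℝ) * J * S ≤ D ^ (η * (3 + e)) := by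
      have g1 : (M : ℝ) ≤ D ^ η := by
        have := pr_ge (c := (M : ℝ)) hD1 hQ (by linarith : η / 2 ≤ η) q4
        exact this
      have g2 : D ^ (η * (3 + e)) = D ^ η * D ^ (2 * η) * D ^ (η * e) := by
        rw [← Real.rpow_add hD0, ← Real.rpow_add hD0]
        congr 1
        ring
      rw [g2]
      have := hpos η
      have := hpos (2 * η)
      gcongr
    calc ((M : ℝ) * J * S) ^ ((K + 2) ^ 3) ≤ (D ^ (η * (3 + e))) ^ ((K + 2) ^ 3) :=
          pow_le_pow_left₀ (by positivity) f1 _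
      _ = D ^ (η * ((3 + e) * ((K : ℝ) + 2) ^ 3)) := by
          rw [← Real.rpow_natCast, ← Real.rpow_mul hD0.le]
          congr 1
          push_cast
          ring

/-- the exponents of the sizes -/
def prE (K : ℕ) : ℕ → ℝ
  | 0 => 1
  | j + 1 => (3 + prE K j) * ((K : ℝ) + 2) ^ 3

theorem prE_ge (K j : ℕ) : 1 ≤ prE K j := by
  induction j with
  | zero => simp [prE]
  | succ j ih =>
    rw [prE]
    have h1 : (1 : ℝ) ≤ ((K : ℝ) + 2) ^ 3 :=
      one_le_pow₀ (by have : (0 : ℝ) ≤ K := Nat.cast_nonneg K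
                      linarith)
    nlinarith

/-- the threshold -/
noncomputable def prLo (as Am x : ℝ) : ℝ := as / 2 + as * x / (2 * Am)

/-- admissible exponents at the stage `j` -/
def prOk (k as Am g : ℝ) (n j : ℕ) (a A : ℝ) : Prop :=
  a ≤ k + ((n : ℝ) - j) * g ∧ ((A ≤ as / 4 ∧ 3 * as / 8 ≤ a) ∨
    (as / 4 ≤ A ∧ A ≤ as / 4 + j * (g / 2) ∧ A ≤ Am ∧ prLo as Am A ≤ a))

theorem prOk_a {k as Am g : ℝ} (has : 0 < as) (hAm : 0 < Am) {n j : ℕ} {a A : ℝ}
    (h : prOk k as Am g n j a A) : 3 * as / 8 ≤ a := by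
  rcases h.2 with h1 | ⟨h1, _, _, h2⟩
  · exact h1.2
  · unfold prLo at h2
    have : 0 ≤ as * A / (2 * Am) := by
      have : 0 ≤ A := by linarith
      positivity
    linarith

/-- the three predecessors of an admissible pair -/
theorem prOk_step {k as Am g : ℝ} (has : 0 < as) (hAm : 0 < Am) (hak : 2 * as ≤ k)
    (hasA : as ≤ Am) (hg : g = as ^ 2 / (32 * Am)) {n j : ℕ} (hj : j + 1 ≤ n) {a A : ℝ}
    (h : a ≤ k + ((n : ℝ) - ((j + 1 : ℕ) : ℝ)) * g)
    (h1 : as / 4 ≤ A) (h2 : A ≤ as / 4 + ((j + 1 : ℕ) : ℝ) * (g / 2)) (h3 : A ≤ Am)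
    (h4 : prLo as Am A ≤ a) :
    prOk k as Am g n j (a - 2 * g) (A - a + g) ∧ prOk k as Am g n j (a + g / 2) (A - g / 2) ∧
      prOk k as Am g n j (k - 2 * g) (A - k + g) := by
  have hg0 : 0 < g := by rw [hg]; positivity
  have hgas : 32 * g ≤ as := by
    rw [hg]
    have : as ^ 2 / (32 * Am) ≤ as * Am / (32 * Am) := by
      gcongr
      nlinarith
    have h5 : as * Am / (32 * Am) = as / 32 := by field_simp
    linarith
  have hslope : ∀ x : ℝ, prLo as Am (A - x) = prLo as Am A - as * x / (2 * Am) := by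
    intro x
    unfold prLo
    ring
  have hsl : ∀ x : ℝ, as / 4 ≤ x → 4 * g ≤ as * x / (2 * Am) := by
    intro x hx
    have h5 : 4 * g = as * (as / 4) / (2 * Am) := by rw [hg]; field_simp; ring
    rw [h5]
    gcongr
  have hj' : (0 : ℝ) ≤ (n : ℝ) - ((j + 1 : ℕ) : ℝ) := by
    have : ((j + 1 : ℕ) : ℝ) ≤ n := by exact_mod_cast hj
    linarith
  have hj0 : (0 : ℝ) ≤ j := Nat.cast_nonneg j
  push_cast at h h2 hj'
  have hAs : 0 ≤ as * A / (2 * Am) := by
    have : 0 ≤ A := by linarith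
    positivity
  have ha : as / 2 ≤ a := by
    unfold prLo at h4
    linarith
  have hjg : 0 ≤ (j : ℝ) * (g / 2) := by positivity
  have hng : 0 ≤ ((n : ℝ) - (j + 1)) * g := mul_nonneg hj' hg0.le
  have hhi : k + ((n : ℝ) - j) * g = k + ((n : ℝ) - (j + 1)) * g + g := by ring
  refine ⟨⟨by rw [hhi]; linarith, ?_⟩, ⟨by rw [hhi]; linarith, ?_⟩, ⟨by rw [hhi]; linarith, ?_⟩⟩
  · by_cases hA : A - a + g ≤ as / 4
    · left
      exact ⟨hA, by linarith⟩
    · right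
      refine ⟨by linarith, by linarith, by linarith, ?_⟩
      have e1 : A - a + g = A - (a - g) := by ring
      rw [e1, hslope]
      have := hsl (a - g) (by linarith)
      linarith
  · by_cases hA : A - g / 2 ≤ as / 4
    · left
      exact ⟨hA, by linarith⟩
    · right
      refine ⟨by linarith, by linarith, by linarith, ?_⟩
      rw [hslope]
      have : 0 ≤ as * (g / 2) / (2 * Am) := by positivity
      linarith
  · by_cases hA : A - k + g ≤ as / 4
    · left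
      exact ⟨hA, by linarith⟩
    · right
      refine ⟨by linarith, by linarith, by linarith, ?_⟩
      have e1 : A - k + g = A - (k - g) := by ring
      rw [e1, hslope]
      have e2 := hsl (k - g) (by linarith)
      have e3 : prLo as Am A ≤ as := by
        unfold prLo
        have : as * A / (2 * Am) ≤ as * Am / (2 * Am) := by gcongr
        have h5 : as * Am / (2 * Am) = as / 2 := by field_simp
        linarith
      linarith

/-- the induction at a fixed dimension -/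
theorem pr_ind {m : ℕ} {C Cb : ℝ} {M : ℕ} (hstep : PrStep m C M) (hC : 1 ≤ C) (hCb : 1 ≤ Cb)
    (hbase : ∀ (d : ℕ) (s lam : ℝ), 0 < s → s ≤ 1 / 4 → 0 < lam →
      lam ≤ 1 → Orc d s 1 lam (Cb * (lam + √s)) 2 (1 / 2) 5) {K d n : ℕ}
    {g η β k B as Am Q : ℝ} (hn : 1 ≤ n)
    (hD : 1 < (d : ℝ)) (hQ : Q ≤ (d : ℝ) ^ (η / 2))
    (has : 0 < as) (hAm : 0 < Am) (hak : 2 * as ≤ k)
    (hasA : as ≤ Am) (hg : g = as ^ 2 / (32 * Am))
    (hη : 0 < η) (hηg : 32 * η ≤ g)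
    (hβK : β ≤ K * (g / 2)) (hβm : β ≤ η * ((m - 2 : ℕ) : ℝ))
    (hβ : Am + (B + 3 * (n * g)) + (k + n * g) + g ≤ β)
    (q1 : 2 * g / η + 1 ≤ Q) (q2 : 81 ≤ Q) (q3 : 20 * n * C ≤ Q) (q4 : (M : ℝ) ≤ Q)
    (q5 : 2 * Cb ≤ Q) :
    ∀ j : ℕ, j ≤ n → ∀ a A : ℝ, prOk k as Am g n j a A → ∀ s : ℝ,
      (d : ℝ) ^ (-(B + 3 * (((n : ℝ) - j) * g))) ≤ s → s ≤ (d : ℝ) ^ (-k) →
      Orc d s (1 - 3 * j / (4 * n)) ((d : ℝ) ^ (-a)) ((d : ℝ) ^ (-A)) (2 + j / n)
        (1 / 2 + j / (4 * n)) ⌊(d : ℝ) ^ (η * prE K j)⌋₊ := by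
  have hD0 : 0 < (d : ℝ) := by linarith
  have hD1 : 1 ≤ (d : ℝ) := hD.le
  have hg0 : 0 < g := by rw [hg]; positivity
  have hgas : 32 * g ≤ as := by
    rw [hg]
    have : as ^ 2 / (32 * Am) ≤ as * Am / (32 * Am) := by
      gcongr
      nlinarith
    have h5 : as * Am / (32 * Am) = as / 32 := by field_simp
    linarith
  have hn1 : (1 : ℝ) ≤ n := by exact_mod_cast hn
  have hmono : ∀ {x y : ℝ}, x ≤ y → (d : ℝ) ^ x ≤ (d : ℝ) ^ y := fun h =>
    Real.rpow_le_rpow_of_exponent_le hD1 h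
  have hpos : ∀ x : ℝ, 0 < (d : ℝ) ^ x := fun x => Real.rpow_pos_of_pos hD0 x
  have hfl : ∀ j, (20 : ℝ) ≤ (d : ℝ) ^ (η * prE K j) := by
    intro j
    refine pr_ge hD1 hQ ?_ (by linarith)
    have := prE_ge K j
    nlinarith
  -- the base
  have base : ∀ j : ℕ, j ≤ n → ∀ a A : ℝ, A ≤ as / 4 → 3 * as / 8 ≤ a → ∀ s : ℝ,
      0 < s → s ≤ (d : ℝ) ^ (-k) →
      Orc d s (1 - 3 * j / (4 * n)) ((d : ℝ) ^ (-a)) ((d : ℝ) ^ (-A)) (2 + j / n)
        (1 / 2 + j / (4 * n)) ⌊(d : ℝ) ^ (η * prE K j)⌋₊ := by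
    intro j hj a A h1 h2 s hs0 hsk
    have hjn : (j : ℝ) ≤ n := by exact_mod_cast hj
    have hj0 : (0 : ℝ) ≤ j := Nat.cast_nonneg j
    have c1 : s ≤ 1 / 4 := by
      have h3 : (4 : ℝ) * (d : ℝ) ^ (-k) ≤ (d : ℝ) ^ (0 : ℝ) :=
        pr_le hD1 hQ (by linarith) (by linarith)
      rw [Real.rpow_zero] at h3
      linarith
    have c2 : (d : ℝ) ^ (-a) ≤ 1 := by
      have := hmono (by linarith : -a ≤ 0)
      rwa [Real.rpow_zero] at this
    have key := hbase d s ((d : ℝ) ^ (-a)) hs0 c1 (hpos _) c2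
    have i0 := hpos (-a)
    have key2 := Orc.width (c := 1 - 3 * j / (4 * n)) key (fun V => us_prob V.2 hs0 c1) ?_ ?_
      (by positivity)
    · refine Orc.mono key2 ?_ ?_ ?_ ?_
      · have e1 : √s ≤ (d : ℝ) ^ (-(3 * as / 8)) := by
          rw [Real.sqrt_le_left (hpos _).le, ← Real.rpow_natCast, ← Real.rpow_mul hD0.le]
          refine hsk.trans (hmono ?_)
          push_cast
          linarith
        have e2 : (d : ℝ) ^ (-a) ≤ (d : ℝ) ^ (-(3 * as / 8)) := hmono (by linarith)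
        calc Cb * ((d : ℝ) ^ (-a) + √s)
            ≤ Cb * ((d : ℝ) ^ (-(3 * as / 8)) + (d : ℝ) ^ (-(3 * as / 8))) := by gcongr
          _ = (2 * Cb) * (d : ℝ) ^ (-(3 * as / 8)) := by ring
          _ ≤ (d : ℝ) ^ (-A) := pr_le hD1 hQ q5 (by linarith)
      · have : 0 ≤ (j : ℝ) / n := by positivity
        linarith
      · have : 0 ≤ (j : ℝ) / (4 * n) := by positivity
        linarith
      · exact Nat.le_floor (by have := hfl j; push_cast; linarith)
    · have : 3 * (j : ℝ) / (4 * n) ≤ 1 := by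
        rw [div_le_one (by positivity)]
        linarith
      linarith
    · have : 0 ≤ 3 * (j : ℝ) / (4 * n) := by positivity
      linarith
  intro j
  induction j with
  | zero =>
    intro hj a A hok s hs hsk
    have hs0 : 0 < s := (hpos _).trans_le hs
    refine base 0 hj a A ?_ (prOk_a has hAm hok) s hs0 hsk
    rcases hok.2 with h1 | ⟨_, h1, _, _⟩
    · exact h1.1
    · simpa using h1
  | succ j ih =>
    intro hj a A hok s hs hsk
    have hs0 : 0 < s := (hpos _).trans_le hs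
    have hjn : ((j : ℝ) + 1) ≤ n := by exact_mod_cast hj
    have hj0 : (0 : ℝ) ≤ j := Nat.cast_nonneg j
    rcases hok with ⟨hhi, h1 | ⟨h1, h2, h3, h4⟩⟩
    · exact base (j + 1) hj a A h1.1 h1.2 s hs0 hsk
    have hpre := prOk_step has hAm hak hasA hg hj hhi h1 h2 h3 h4
    have ihj := ih (by omega)
    have ha : as / 2 ≤ a := by
      unfold prLo at h4
      have : 0 ≤ as * A / (2 * Am) := by
        have : 0 ≤ A := by linarith
        positivity
      linarith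
    have hjg : 0 ≤ (j : ℝ) * g := by positivity
    have key := pr_one (K := K) (d := d) (g := g) (η := η) (β := β) (k := k)
      (B' := B + 3 * (((n : ℝ) - ((j + 1 : ℕ) : ℝ)) * g)) (a := a) (A := A) (Q := Q)
      (c₀ := 1 - 3 * ((j + 1 : ℕ) : ℝ) / (4 * n)) (c₃ := 1 - 3 * (j : ℝ) / (4 * n))
      (Lp := 2 + (j : ℝ) / n) (kap := 1 / 2 + (j : ℝ) / (4 * n)) (e := prE K j) (nn := n)
      (S := ⌊(d : ℝ) ^ (η * prE K j)⌋₊) (S' := ⌊(d : ℝ) ^ (η * prE K (j + 1))⌋₊)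
      hstep hC hD hQ hη hηg (by linarith) (by linarith) hβK hβm ?_ hn1 q1 q2 q3 q4 ?_ ?_ ?_ ?_
      ?_ ?_ ?_ ?_ ?_ ?_ ?_ hs hsk
    · have e1 : 2 + (j : ℝ) / n + 1 / n = 2 + ((j + 1 : ℕ) : ℝ) / n := by
        push_cast; ring
      have e2 : 1 / 2 + (j : ℝ) / (4 * n) + 1 / (4 * n) = 1 / 2 + ((j + 1 : ℕ) : ℝ) / (4 * n) := by
        push_cast; ring
      rwa [e1, e2] at key
    · push_cast at hhi ⊢
      have e1 : ((n : ℝ) - (j + 1)) * g ≤ n * g := by nlinarith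
      linarith
    · have : 3 * ((j + 1 : ℕ) : ℝ) / (4 * n) ≤ 3 / 4 := by
        rw [div_le_div_iff₀ (by positivity) (by norm_num)]
        push_cast
        linarith
      linarith
    · push_cast
      field_simp
      ring
    · have : 0 ≤ 3 * (j : ℝ) / (4 * n) := by positivity
      linarith
    · positivity
    · have : (j : ℝ) / n ≤ 1 := by
        rw [div_le_one (by positivity)]
        linarith
      linarith
    · positivity
    · have : (j : ℝ) / (4 * n) ≤ 1 / 4 := by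
        rw [div_le_div_iff₀ (by positivity) (by norm_num)]
        linarith
      linarith
    · exact Nat.le_floor (by have := hfl j; push_cast; linarith)
    · exact Nat.floor_le (hpos _).le
    · intro N hN
      exact Nat.le_floor hN
    · intro L hL1 hL2
      have e1 : (d : ℝ) ^ (-(B + 3 * (((n : ℝ) - j) * g))) ≤ L := by
        refine le_trans (le_of_eq ?_) hL1
        congr 1
        push_cast
        ring
      exact ⟨ihj _ _ hpre.1 L e1 hL2, ihj _ _ hpre.2.1 L e1 hL2, ihj _ _ hpre.2.2 L e1 hL2⟩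

theorem orc_all : OrcAll := by
  intro k B A hk hA
  obtain ⟨Cb, hCb, hbase⟩ := orc_base
  set as : ℝ := min (k / 2) A with hasd
  have has : 0 < as := lt_min (by linarith) hA
  have hak : 2 * as ≤ k := by
    have := min_le_left (k / 2) A
    linarith
  have hasA : as ≤ A := min_le_right _ _
  set g : ℝ := as ^ 2 / (32 * A) with hg
  have hg0 : 0 < g := by positivity
  obtain ⟨n', hn'⟩ := exists_nat_ge (2 * A / g)
  set n : ℕ := n' + 1 with hnd
  have hn1 : (1 : ℝ) ≤ n := by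
    rw [hnd]
    push_cast
    have : (0 : ℝ) ≤ n' := Nat.cast_nonneg n'
    linarith
  have hnA : A ≤ n * (g / 2) := by
    rw [div_le_iff₀ hg0] at hn'
    have : (n : ℝ) * (g / 2) = n' * g / 2 + g / 2 := by
      rw [hnd]
      push_cast
      ring
    rw [this]
    linarith
  set β : ℝ := A + (B + 3 * (n * g)) + (k + n * g) + g with hβ
  obtain ⟨K, hK⟩ := exists_nat_ge (2 * β / g)
  have hβK : β ≤ K * (g / 2) := by
    rw [div_le_iff₀ hg0] at hK
    linarith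
  refine ⟨as, has, by linarith, ?_⟩
  intro κ hκ
  have he : 1 ≤ prE K n := prE_ge K n
  have he0 : 0 < prE K n := by linarith
  set η : ℝ := min (g / 32) (κ / prE K n) with hηd
  have hη : 0 < η := lt_min (by positivity) (by positivity)
  have hηg : 32 * η ≤ g := by
    have := min_le_left (g / 32) (κ / prE K n)
    linarith
  have hηκ : η * prE K n ≤ κ := by
    have := min_le_right (g / 32) (κ / prE K n)
    rwa [← hηd, le_div_iff₀ he0] at this
  obtain ⟨m', hm'⟩ := exists_nat_ge (β / η)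
  obtain ⟨N, ⟨R⟩⟩ := rs_exists (m' + 3)
  obtain ⟨C, M, hC, hstep⟩ := orc_step R (by omega)
  have hβm : β ≤ η * ((m' + 3 - 2 : ℕ) : ℝ) := by
    rw [div_le_iff₀ hη] at hm'
    have h1 : ((m' + 3 - 2 : ℕ) : ℝ) = m' + 1 := by
      have : m' + 3 - 2 = m' + 1 := by omega
      rw [this]
      push_cast
      ring
    rw [h1]
    linarith
  set Q : ℝ := (2 * g / η + 1) + 81 + 20 * n * C + M + 2 * Cb with hQd
  have i1 : 0 < 2 * g / η := by positivity
  have i2 : 0 ≤ 20 * (n : ℝ) * C := by positivity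
  have i3 : (0 : ℝ) ≤ M := Nat.cast_nonneg M
  have hev : ∀ᶠ d : ℕ in atTop, Q ≤ (d : ℝ) ^ (η / 2) :=
    ((tendsto_rpow_atTop (by positivity : 0 < η / 2)).comp
      (tendsto_natCast_atTop_atTop (R := ℝ))).eventually_ge_atTop Q
  filter_upwards [hev, eventually_gt_atTop 1] with d hQ hd s hs hsk
  have hD : (1 : ℝ) < d := by exact_mod_cast hd
  refine ⟨⌊(d : ℝ) ^ (η * prE K n)⌋₊, ?_, ?_⟩
  · exact (Nat.floor_le (by positivity)).trans (Real.rpow_le_rpow_of_exponent_le hD.le hηκ)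
  · have hok : prOk k as A g n n as A := by
      refine ⟨by linarith [mul_nonneg (sub_self (n : ℝ)).ge hg0.le], Or.inr ⟨by linarith,
        by linarith, le_rfl, ?_⟩⟩
      unfold prLo
      have : as * A / (2 * A) = as / 2 := by field_simp
      linarith
    have key := pr_ind (B := B) (C := C) (Cb := Cb) (M := M) (K := K) (n := n) (g := g) (η := η)
      (β := β) (k := k) (as := as) (Am := A) (Q := Q) hstep hC hCb hbase (by omega) hD hQ has hA
      hak hasA hg hη hηg hβK hβm hβ.ge (by linarith) (by linarith) (by linarith) (by linarith)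
      (by linarith) n le_rfl as A hok s (by simpa using hs) hsk
    have e0 : (n : ℝ) ≠ 0 := by positivity
    have e1 : 1 - 3 * (n : ℝ) / (4 * n) = 1 / 4 := by field_simp; norm_num
    have e2 : 2 + (n : ℝ) / n = 3 := by field_simp; norm_num
    have e3 : 1 / 2 + (n : ℝ) / (4 * n) = 3 / 4 := by field_simp; norm_num
    rwa [e1, e2, e3] at key

end P347Z
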