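import Vale.Agent.P347Z.PxS0

/-!
P347Z, module PST: the choice of the parameters of `orc_step`.
-/

namespace P347Z

namespace PST

open P347Q P347S

/-- the constant of `orc_step` -/
noncomputable def cst (CA CK CN CF : ℝ) : ℝ :=
  1 + 3 * CA + 3 * (CK * CA ^ 2) + 3 * CN + CN * (1 + CA ^ 2) + CF * CK +
    (6 * (CN * CA) + 2 * (CF * CK * CA) + 2 * (CF * CK)) +
    CF * (1 + 2 * CK + 4 * CN * CA + 2 * CK * CA + 8 * CK * CN * CA ^ 2) + CK * CA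

theorem cst_ge {CA CK CN CF : ℝ} (hA : 1 ≤ CA) (hK : 1 ≤ CK) (hN : 1 ≤ CN) (hF : 1 ≤ CF) :
    1 ≤ cst CA CK CN CF ∧ 3 * CA ≤ cst CA CK CN CF ∧ 3 * (CK * CA ^ 2) ≤ cst CA CK CN CF ∧
    3 * CN ≤ cst CA CK CN CF ∧ CN * (1 + CA ^ 2) ≤ cst CA CK CN CF ∧ CF * CK ≤ cst CA CK CN CF ∧
    6 * (CN * CA) + 2 * (CF * CK * CA) + 2 * (CF * CK) ≤ cst CA CK CN CF ∧
    CF * (1 + 2 * CK + 4 * CN * CA + 2 * CK * CA + 8 * CK * CN * CA ^ 2) ≤ cst CA CK CN CF ∧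
    CK * CA ≤ cst CA CK CN CF := by
  have t1 : 0 ≤ 3 * CA := by positivity
  have t2 : 0 ≤ 3 * (CK * CA ^ 2) := by positivity
  have t3 : 0 ≤ 3 * CN := by positivity
  have t4 : 0 ≤ CN * (1 + CA ^ 2) := by positivity
  have t5 : 0 ≤ CF * CK := by positivity
  have t6 : 0 ≤ 6 * (CN * CA) + 2 * (CF * CK * CA) + 2 * (CF * CK) := by positivity
  have t7 : 0 ≤ CF * (1 + 2 * CK + 4 * CN * CA + 2 * CK * CA + 8 * CK * CN * CA ^ 2) := by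
    positivity
  have t8 : 0 ≤ CK * CA := by positivity
  unfold cst
  refine ⟨?_, ?_, ?_, ?_, ?_, ?_, ?_, ?_, ?_⟩ <;> linarith

variable {J' h T rs s lam lam1 lam2 lamf G H CA CK CN CF C b θ c₀ c₃ : ℝ} {m K : ℕ}

theorem lam_H (hh : 0 < h) (hG : 1 ≤ G) (hlam : 0 < lam) (hC : 1 ≤ C)
    (h1 : C * G * lam ≤ h ^ 2 * lam1) : 0 < lam1 ∧ lam / (h ^ 2 * lam1) ≤ 1 / (C * G) ∧
      lam / (h ^ 2 * lam1) ≤ 1 / G ∧ lam / (h ^ 2 * lam1) ≤ 1 := by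
  have hG0 : 0 < G := by linarith
  have hC0 : 0 < C := by linarith
  have h2 : 0 < h ^ 2 * lam1 := lt_of_lt_of_le (by positivity) h1
  have h3 : 0 < lam1 := by
    by_contra h5
    have h6 : (0 : ℝ) ≤ -lam1 := by linarith
    nlinarith [mul_nonneg (sq_nonneg (h : ℝ)) h6]
  have h5 : lam / (h ^ 2 * lam1) ≤ 1 / (C * G) := by
    rw [div_le_div_iff₀ h2 (by positivity)]
    linarith
  have h6 : 1 / (C * G) ≤ 1 / G := by
    apply one_div_le_one_div_of_le hG0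
    nlinarith
  have h7 : 1 / G ≤ 1 := by
    rw [div_le_one hG0]
    exact hG
  exact ⟨h3, h5, h5.trans h6, (h5.trans h6).trans h7⟩

theorem lam_G (hh : 0 < h) (hh1 : h ≤ 1) (hG : 1 ≤ G) (hlam : 0 < lam) (hC : 1 ≤ C)
    (hl1 : lam1 ≤ 1) (hl0 : 0 < lam1) (h1 : C * G * lam ≤ h ^ 2 * lam1) :
    lam * G ≤ 1 ∧ lam ≤ 1 := by
  have h2 : h ^ 2 * lam1 ≤ 1 := by
    calc h ^ 2 * lam1 ≤ 1 ^ 2 * 1 := by gcongr
      _ = 1 := by norm_num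
  have h3 : lam * G ≤ C * G * lam := by
    have : 0 ≤ G * lam := by positivity
    nlinarith
  have h4 : lam ≤ lam * G := by nlinarith
  exact ⟨by linarith, by linarith⟩

theorem widths (hh : 0 < h) (hc₀ : 0 < c₀) (hc₃ : 0 < c₃) (hc₃1 : c₃ ≤ 1)
    (hC : 0 < C) (hcc : c₀ ^ 2 + C * h ≤ c₃ ^ 2) : ∃ c₁ c₂ : ℝ, 0 < c₁ ∧ 0 < c₂ ∧ c₁ ≤ 1 ∧ c₂ ≤ 1 ∧
      c₁ ≤ c₃ ∧ c₂ ≤ c₃ ∧ c₀ ^ 2 + C / 3 * h ≤ c₁ ^ 2 ∧ c₁ ^ 2 + C / 3 * h ≤ c₂ ^ 2 ∧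
      c₂ ^ 2 + C / 3 * h ≤ c₃ ^ 2 := by
  have h0 : 0 < C * h := by positivity
  have h31 : c₃ ^ 2 ≤ 1 := by nlinarith
  have p0 : 0 < c₀ ^ 2 := by positivity
  have s1 : √(c₀ ^ 2 + C / 3 * h) ^ 2 = c₀ ^ 2 + C / 3 * h := Real.sq_sqrt (by positivity)
  have s2 : √(c₀ ^ 2 + 2 * (C / 3 * h)) ^ 2 = c₀ ^ 2 + 2 * (C / 3 * h) :=
    Real.sq_sqrt (by positivity)
  have k1 : c₀ ^ 2 + C / 3 * h ≤ c₃ ^ 2 := by linarith
  have k2 : c₀ ^ 2 + 2 * (C / 3 * h) ≤ c₃ ^ 2 := by linarith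
  refine ⟨√(c₀ ^ 2 + C / 3 * h), √(c₀ ^ 2 + 2 * (C / 3 * h)), Real.sqrt_pos.2 (by positivity),
    Real.sqrt_pos.2 (by positivity), ?_, ?_, ?_, ?_, s1.ge, ?_, ?_⟩
  · rw [Real.sqrt_le_one]
    linarith
  · rw [Real.sqrt_le_one]
    linarith
  · exact Real.sqrt_le_iff.2 ⟨hc₃.le, k1⟩
  · exact Real.sqrt_le_iff.2 ⟨hc₃.le, k2⟩
  · rw [s1, s2]
    linarith
  · rw [s2]
    linarith

/-- the noise budget of the nodes -/
theorem noise_ok (hh : 0 < h) (hh1 : h ≤ 1) (hG : 1 ≤ G) (hlam : 0 < lam) (hs : 0 < s)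
    (hC : 1 ≤ C) (hCA : 1 ≤ CA) (hCN : 1 ≤ CN) (hl0 : 0 < lam1) (hf0 : 0 < lamf)
    (h1 : C * G * lam ≤ h ^ 2 * lam1) (h2 : C * G * s ≤ h * lamf)
    (h3 : CN * (1 + CA ^ 2) ≤ C) :
    CN * G ^ 2 * (s ^ 2 / lamf ^ 2 + (lam * (CA / (h * lam1))) ^ 2) ≤ h := by
  have hC0 : 0 < C := by linarith
  have hG0 : 0 < G := by linarith
  have a1 : G * (s / lamf) ≤ h / C := by
    rw [← mul_div_assoc, div_le_div_iff₀ hf0 hC0]
    linarith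
  have a2 : G * (lam * (CA / (h * lam1))) ≤ CA * (h / C) := by
    have : G * (lam * (CA / (h * lam1))) = CA * ((G * lam) / (h * lam1)) := by ring
    rw [this]
    apply mul_le_mul_of_nonneg_left _ (by linarith)
    rw [div_le_div_iff₀ (by positivity) hC0]
    calc G * lam * C = C * G * lam := by ring
      _ ≤ h ^ 2 * lam1 := h1
      _ = h * (h * lam1) := by ring
  have e : CN * G ^ 2 * (s ^ 2 / lamf ^ 2 + (lam * (CA / (h * lam1))) ^ 2) =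
      CN * ((G * (s / lamf)) ^ 2 + (G * (lam * (CA / (h * lam1)))) ^ 2) := by ring
  rw [e]
  calc CN * ((G * (s / lamf)) ^ 2 + (G * (lam * (CA / (h * lam1)))) ^ 2)
      ≤ CN * ((h / C) ^ 2 + (CA * (h / C)) ^ 2) := by gcongr
    _ = (CN * (1 + CA ^ 2)) * (h / C) ^ 2 := by ring
    _ ≤ C * (h / C) ^ 2 := by gcongr
    _ = h * (h / C) := by
        field_simp
    _ ≤ h * 1 := by
        gcongr
        rw [div_le_one hC0]
        linarith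
    _ = h := mul_one h

/-- the contraction constant of the nodes -/
theorem theta_le (hh : 0 < h) (hh1 : h ≤ 1) (hG : 0 < G) (hlam : 0 < lam) (hs : 0 < s)
    (hT : 0 < T) (hTh : T ≤ 1 / h) (hCA : 1 ≤ CA) (hCN : 1 ≤ CN) :
    CN * T * (s + lam * (CA / h)) ≤ CN * CA * (1 / h ^ 4 * (G⁻¹ + lam + s)) := by
  have g1 : 1 / h ≤ 1 / h ^ 2 := by
    apply one_div_le_one_div_of_le (by positivity)
    nlinarith
  have g2 : 1 / h ^ 2 ≤ 1 / h ^ 4 := by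
    apply one_div_le_one_div_of_le (by positivity)
    exact pow_le_pow_of_le_one hh.le hh1 (by norm_num)
  have g0 : 0 < G⁻¹ := by positivity
  calc CN * T * (s + lam * (CA / h)) ≤ CN * (1 / h) * (s + lam * (CA / h)) := by gcongr
    _ = CN * (1 * s * (1 / h) + CA * lam * (1 / h ^ 2)) := by ring
    _ ≤ CN * (CA * s * (1 / h ^ 2) + CA * lam * (1 / h ^ 2)) := by gcongr
    _ = CN * CA * (1 / h ^ 2 * (lam + s)) := by ring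
    _ ≤ CN * CA * (1 / h ^ 4 * (G⁻¹ + lam + s)) := by
        gcongr
        linarith

/-- the loss in the Lipschitz constants -/
theorem delta_le (hh : 0 < h) (hh1 : h ≤ 1) (hG : 0 < G) (hlam : 0 < lam) (hs : 0 < s)
    (hT : 0 < T) (hTh : T ≤ 1 / h) (hCA : 1 ≤ CA) (hCK : 1 ≤ CK) (hCN : 1 ≤ CN) (hCF : 1 ≤ CF)
    (hH : 0 < H) (hlH : lam / H ≤ 1 / G)
    (h6 : 6 * (CN * CA) + 2 * (CF * CK * CA) + 2 * (CF * CK) ≤ C) :
    2 * (3 * (CN * T * (s + lam * (CA / h))) + CF * lam * T * (CK / H + CK * (CA / h))) ≤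
      C / h ^ 4 * (G⁻¹ + lam + s) := by
  have k1 := theta_le hh hh1 hG hlam hs hT hTh hCA hCN
  have g0 : 0 < G⁻¹ := by positivity
  have g2 : 1 / h ^ 2 ≤ 1 / h ^ 4 := by
    apply one_div_le_one_div_of_le (by positivity)
    exact pow_le_pow_of_le_one hh.le hh1 (by norm_num)
  have g3 : 1 / h ≤ 1 / h ^ 4 := by
    apply one_div_le_one_div_of_le (by positivity)
    calc h ^ 4 ≤ h ^ 1 := pow_le_pow_of_le_one hh.le hh1 (by norm_num)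
      _ = h := pow_one h
  have k2 : CF * lam * T * (CK / H) ≤ CF * CK * (1 / h ^ 4 * (G⁻¹ + lam + s)) := by
    calc CF * lam * T * (CK / H) = CF * CK * (T * (lam / H)) := by ring
      _ ≤ CF * CK * (1 / h ^ 4 * (1 / G)) := by
          gcongr
          exact hTh.trans g3
      _ = CF * CK * (1 / h ^ 4 * (G⁻¹)) := by rw [one_div G]
      _ ≤ CF * CK * (1 / h ^ 4 * (G⁻¹ + lam + s)) := by
          gcongr
          linarith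
  have k3 : CF * lam * T * (CK * (CA / h)) ≤ CF * CK * CA * (1 / h ^ 4 * (G⁻¹ + lam + s)) := by
    calc CF * lam * T * (CK * (CA / h)) ≤ CF * lam * (1 / h) * (CK * (CA / h)) := by gcongr
      _ = CF * CK * CA * (1 / h ^ 2 * lam) := by ring
      _ ≤ CF * CK * CA * (1 / h ^ 4 * (G⁻¹ + lam + s)) := by
          gcongr
          linarith
  have hY : 0 ≤ 1 / h ^ 4 * (G⁻¹ + lam + s) := by positivity
  calc 2 * (3 * (CN * T * (s + lam * (CA / h))) + CF * lam * T * (CK / H + CK * (CA / h)))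
      = 6 * (CN * T * (s + lam * (CA / h))) + 2 * (CF * lam * T * (CK / H)) +
        2 * (CF * lam * T * (CK * (CA / h))) := by ring
    _ ≤ (6 * (CN * CA) + 2 * (CF * CK * CA) + 2 * (CF * CK)) *
        (1 / h ^ 4 * (G⁻¹ + lam + s)) := by linarith
    _ ≤ C * (1 / h ^ 4 * (G⁻¹ + lam + s)) := by gcongr
    _ = _ := by ring

theorem kappa_ok (hG : 0 < G) (hlam : 0 < lam) (hC : 1 ≤ C)
    (hCK : 1 ≤ CK) (hCF : 1 ≤ CF) (hH : 0 < H) (hlH : lam / H ≤ 1 / (C * G))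
    (h2 : 2 * lam ≤ lam2 * G) (h5 : CF * CK ≤ C) : 0 < lam2 ∧
    CF * lam ^ 2 * (CK / (H * lam2)) ≤ 1 := by
  have hl2 : 0 < lam2 := by
    by_contra hx
    have h3 : lam2 ≤ 0 := not_lt.1 hx
    nlinarith
  refine ⟨hl2, ?_⟩
  have h3 : lam / lam2 ≤ G := by
    rw [div_le_iff₀ hl2]
    nlinarith
  have hC0 : 0 < C := by linarith
  calc CF * lam ^ 2 * (CK / (H * lam2)) = CF * CK * ((lam / H) * (lam / lam2)) := by ring
    _ ≤ C * ((1 / (C * G)) * G) := by gcongr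
    _ = 1 := by field_simp

theorem tanh_ok {c₀ c₃ C h T s : ℝ} (hh : 0 < h) (hT : 0 ≤ T) (hc₀ : 0 < c₀) (hc₃ : 0 < c₃)
    (hc₃1 : c₃ ≤ 1) (hC : 1 ≤ C) (hcc : c₀ ^ 2 + C * h ≤ c₃ ^ 2) (h2 : 2 ≤ h * Real.cosh T ^ 2) :
    c₀ * √s ≤ rr s T := by
  have hch := Real.cosh_pos T
  have h0 : 0 ≤ Real.tanh T := by
    rw [Real.tanh_eq_sinh_div_cosh]
    exact div_nonneg (Real.sinh_nonneg_iff.2 hT) hch.le
  have h1 : Real.tanh T ^ 2 = 1 - 1 / Real.cosh T ^ 2 := by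
    rw [Real.tanh_eq_sinh_div_cosh, div_pow]
    have := Real.cosh_sq T
    field_simp
    linarith
  have h3 : 1 / Real.cosh T ^ 2 ≤ h := by
    rw [div_le_iff₀ (by positivity)]
    linarith
  have h4 : c₃ ^ 2 ≤ 1 := by nlinarith
  have h5 : c₀ ^ 2 ≤ Real.tanh T ^ 2 := by
    rw [h1]
    nlinarith
  have h6 : c₀ ≤ Real.tanh T := by
    exact (pow_le_pow_iff_left₀ hc₀.le h0 (by norm_num)).1 h5
  unfold rr
  rw [mul_comm]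
  exact mul_le_mul_of_nonneg_left h6 (Real.sqrt_nonneg s)

theorem C_facts (hh : 0 < h) (hh1 : h ≤ 1) (hG : 1 ≤ G) (hlam : 0 < lam) (hs : 0 < s)
    (hc₀ : 0 < c₀) (hc₃ : 0 < c₃) (hc₃1 : c₃ ≤ 1) (hC : 1 ≤ C) (hcc : c₀ ^ 2 + C * h ≤ c₃ ^ 2)
    (hθ : C / h ^ 4 * (G⁻¹ + lam + s) ≤ 1) : C * s ≤ 1 ∧ C * h ≤ 1 := by
  have hC0 : 0 < C := by linarith
  constructor
  · have a1 : 0 < G⁻¹ := by
      have : 0 < G := by linarith
      positivity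
    have a2 : C / h ^ 4 * s ≤ C / h ^ 4 * (G⁻¹ + lam + s) := by
      gcongr
      linarith
    have a3 : C * s ≤ C / h ^ 4 * s := by
      have a4 : C ≤ C / h ^ 4 := by
        rw [le_div_iff₀ (by positivity)]
        have : h ^ 4 ≤ 1 := pow_le_one₀ hh.le hh1
        nlinarith
      exact mul_le_mul_of_nonneg_right a4 hs.le
    linarith
  · have h1 : c₃ ^ 2 ≤ 1 := pow_le_one₀ hc₃.le hc₃1
    nlinarith [sq_nonneg c₀]

theorem lamf_facts (hh : 0 < h) (hh1 : h ≤ 1) (hG : 1 ≤ G) (hs : 0 < s) (hC : 1 ≤ C)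
    (h2 : C * G * s ≤ h * lamf) : 0 < lamf ∧ s ≤ lamf := by
  have hC0 : 0 < C := by linarith
  have hG0 : 0 < G := by linarith
  have a1 : 0 < C * G * s := by positivity
  have a2 : 0 < h * lamf := by linarith
  have hlf : 0 < lamf := (pos_iff_pos_of_mul_pos a2).1 hh
  refine ⟨hlf, ?_⟩
  have a3 : 1 ≤ C * G := by nlinarith
  have a4 : 1 * s ≤ C * G * s := mul_le_mul_of_nonneg_right a3 hs.le
  have a5 : h * lamf ≤ 1 * lamf := mul_le_mul_of_nonneg_right hh1 hlf.le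
  linarith

/-- the derived parameters -/
structure Prm (CA CK CN CF C : ℝ) (m K : ℕ)
    (s h T G lam lam1 lam2 lamf c₀ c₁ c₂ c₃ b ϑ : ℝ) : Prop where
  hyp : Hyp h T √s s lam G (h ^ 2 * lam1) CA CK b
  hl0 : 0 < lam1
  hl2 : 0 < lam2
  hκ : CF * lam ^ 2 * (CK / (h ^ 2 * lam1 * lam2)) ≤ 1
  hc₁ : 0 < c₁
  hc₂ : 0 < c₂
  hc₁1 : c₁ ≤ 1
  hc₂1 : c₂ ≤ 1
  hc₁3 : c₁ ≤ c₃
  hc₂3 : c₂ ≤ c₃
  w1 : c₀ ^ 2 + CN * h ≤ c₁ ^ 2
  w2 : c₁ ^ 2 + CA * h ≤ c₂ ^ 2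
  w3 : c₂ ^ 2 + CA * h ≤ c₃ ^ 2
  w4 : c₁ ^ 2 + CK * (h ^ 2 * lam1 * (CA / (h * lam1))) ^ 2 ≤ c₂ ^ 2
  hlf : 0 < lamf
  hsf : s ≤ lamf
  hCAs : CA * s ≤ 1
  hKH : CK * (h ^ 2 * lam1) * (CA / h) ≤ 1
  hH1 : h ^ 2 * lam1 ≤ 1
  hΛ : 1 ≤ CA / h
  noise : CN * G ^ 2 * (s ^ 2 / lamf ^ 2 + (lam * (CA / (h * lam1))) ^ 2) ≤ h
  hθN : CN * T * (s + lam * (CA / h)) ≤ ϑ
  hθN0 : 0 ≤ CN * T * (s + lam * (CA / h))
  hΔ : 2 * (3 * (CN * T * (s + lam * (CA / h))) +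
    CF * lam * T * (CK / (h ^ 2 * lam1) + CK * (CA / h))) ≤ ϑ
  hbs : (CA * s) ^ K ≤ b
  hbl : (CK * (h ^ 2 * lam1) * (CA / h)) ^ K ≤ b
  hbθ : (CN * T * (s + lam * (CA / h))) ^ K ≤ b
  hbH : (h ^ 2 * lam1) ^ (m - 2) ≤ b
  hm2 : h ^ (m - 2) ≤ b

theorem prm {c₀ c₃ ϑ : ℝ} (hCA : 1 ≤ CA) (hCK : 1 ≤ CK) (hCN : 1 ≤ CN) (hCF : 1 ≤ CF)
    (gA : 3 * CA ≤ C) (gKA : 3 * (CK * CA ^ 2) ≤ C)
    (gN : 3 * CN ≤ C) (gNA : CN * (1 + CA ^ 2) ≤ C) (gFK : CF * CK ≤ C)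
    (g6 : 6 * (CN * CA) + 2 * (CF * CK * CA) + 2 * (CF * CK) ≤ C) (g8 : CK * CA ≤ C) (g1 : 1 ≤ C)
    (hs : 0 < s) (hs1 : s ≤ 1 / 4) (hh : 0 < h) (hh1 : h ≤ 1) (hT : 0 < T)
    (hTh : T ≤ 1 / h) (hG : 1 ≤ G) (hlam : 0 < lam) (hl1 : lam1 ≤ 1)
    (i1 : C * G * lam ≤ h ^ 2 * lam1) (i2 : C * G * s ≤ h * lamf) (i3 : 2 * lam ≤ lam2 * G)
    (hc₀ : 0 < c₀) (hc₃ : 0 < c₃) (hc₃1 : c₃ ≤ 1) (hcc : c₀ ^ 2 + C * h ≤ c₃ ^ 2)
    (hϑ : ϑ = C / h ^ 4 * (G⁻¹ + lam + s)) (hϑ1 : ϑ ≤ 1) (hb : 0 ≤ b) (hbm : h ^ (m - 2) ≤ b)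
    (hbs : (C * s) ^ K ≤ b) (hbl : (C * h * lam1) ^ K ≤ b) (hbθ : ϑ ^ K ≤ b) :
    ∃ c₁ c₂ : ℝ, Prm CA CK CN CF C m K s h T G lam lam1 lam2 lamf c₀ c₁ c₂ c₃ b ϑ := by
  have hC0 : 0 < C := by linarith
  have hG0 : 0 < G := by linarith
  obtain ⟨hl0, hlC, hlG', hlH1⟩ := lam_H hh hG hlam g1 i1
  obtain ⟨hlG, hlam1⟩ := lam_G hh hh1 hG hlam g1 hl1 hl0 i1
  obtain ⟨hl2, hκ⟩ := kappa_ok hG0 hlam g1 hCK hCF (H := h ^ 2 * lam1) (by positivity) hlC i3 gFK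
  obtain ⟨c₁, c₂, hc₁, hc₂, hc₁1, hc₂1, hc₁3, hc₂3, w1, w2, w3⟩ :=
    widths hh hc₀ hc₃ hc₃1 hC0 hcc
  obtain ⟨hCs4, hCh⟩ := C_facts hh hh1 hG hlam hs hc₀ hc₃ hc₃1 g1 hcc (by rwa [← hϑ])
  obtain ⟨hlf, hsf⟩ := lamf_facts hh hh1 hG hs g1 i2
  have hrs : 0 < √s := Real.sqrt_pos.2 hs
  have hrs1 : √s ≤ 1 := by
    rw [Real.sqrt_le_one]
    linarith
  have hss : s = √s ^ 2 := (Real.sq_sqrt hs.le).symm
  have hCAs : CA * s ≤ C * s := mul_le_mul_of_nonneg_right (by linarith) hs.le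
  have hθ1 := theta_le hh hh1 hG0 hlam hs hT hTh hCA hCN
  have hΔ := delta_le hh hh1 hG0 hlam hs hT hTh hCA hCK hCN hCF (H := h ^ 2 * lam1)
    (by positivity) hlG' g6
  rw [← hϑ] at hΔ
  have gNAC : CN * CA ≤ C := by
    have z1 : 0 < CN * CA := by positivity
    have z2 : 0 < CF * CK * CA := by positivity
    have z3 : 0 < CF * CK := by positivity
    linarith
  have hθ2 : CN * T * (s + lam * (CA / h)) ≤ ϑ := by
    refine hθ1.trans ?_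
    rw [hϑ]
    have : 0 ≤ 1 / h ^ 4 * (G⁻¹ + lam + s) := by positivity
    calc CN * CA * (1 / h ^ 4 * (G⁻¹ + lam + s)) ≤ C * (1 / h ^ 4 * (G⁻¹ + lam + s)) :=
          mul_le_mul_of_nonneg_right gNAC this
      _ = _ := by ring
  have hθ0 : 0 ≤ CN * T * (s + lam * (CA / h)) := by positivity
  have eK : CK * (h ^ 2 * lam1) * (CA / h) = CK * CA * h * lam1 := by
    field_simp
  have hKC : CK * (h ^ 2 * lam1) * (CA / h) ≤ C * h * lam1 := by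
    rw [eK]
    exact mul_le_mul_of_nonneg_right (mul_le_mul_of_nonneg_right g8 hh.le) hl0.le
  have hh2 : h ^ 2 ≤ 1 := pow_le_one₀ hh.le hh1
  have hH1 : h ^ 2 * lam1 ≤ 1 := by
    calc h ^ 2 * lam1 ≤ 1 * 1 := by gcongr
      _ = 1 := by norm_num
  refine ⟨c₁, c₂, ⟨hh, hh1, hT, hTh, hrs, hrs1, hss, hlam, hlam1, hG0, hlG, hCA, hCK, hb,
    by positivity, hlG', hlH1⟩, hl0, hl2, hκ, hc₁, hc₂, hc₁1, hc₂1, hc₁3, hc₂3, ?_, ?_, ?_, ?_,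
    hlf, hsf, hCAs.trans hCs4, ?_, hH1, ?_, noise_ok hh hh1 hG hlam hs g1 hCA hCN hl0 hlf i1 i2 gNA,
    hθ2, hθ0, hΔ, ?_, ?_, ?_, ?_, hbm⟩
  · have : CN * h ≤ C / 3 * h := mul_le_mul_of_nonneg_right (by linarith) hh.le
    linarith
  · have : CA * h ≤ C / 3 * h := mul_le_mul_of_nonneg_right (by linarith) hh.le
    linarith
  · have : CA * h ≤ C / 3 * h := mul_le_mul_of_nonneg_right (by linarith) hh.le
    linarith
  · have e2 : h ^ 2 * lam1 * (CA / (h * lam1)) = h * CA := by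
      field_simp
    rw [e2]
    have a1 : CK * (h * CA) ^ 2 ≤ C / 3 * h := by
      calc CK * (h * CA) ^ 2 = (CK * CA ^ 2) * h * h := by ring
        _ ≤ (C / 3) * h * 1 := by
            gcongr
            linarith
        _ = _ := mul_one _
    linarith
  · refine hKC.trans ?_
    calc C * h * lam1 ≤ 1 * 1 := by gcongr
      _ = 1 := by norm_num
  · rw [le_div_iff₀ hh]
    linarith
  · exact (pow_le_pow_left₀ (by positivity) hCAs K).trans hbs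
  · exact (pow_le_pow_left₀ (by positivity) hKC K).trans hbl
  · exact (pow_le_pow_left₀ hθ0 hθ2 K).trans hbθ
  · refine le_trans ?_ hbm
    apply pow_le_pow_left₀ (by positivity)
    calc h ^ 2 * lam1 ≤ h ^ 2 * 1 := by gcongr
      _ = h * h := by ring
      _ ≤ 1 * h := by gcongr
      _ = h := one_mul h

theorem final_err {c₀ c₁ c₂ c₃ ϑ ε e rd del1 del2 delf : ℝ} (p : Prm CA CK CN CF C m K s h T G lam lam1 lam2 lamf c₀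
      c₁ c₂ c₃ b ϑ) (hm : 3 ≤ m) (hJ : 0 < J') (hT : T = J' * h) (hTh : T * h ≤ 1)
    (hrd : 0 ≤ rd) (hs : 0 < s) (hCN : 1 ≤ CN) (hCF : 1 ≤ CF) (hd1 : 0 ≤ del1) (hd2 : 0 ≤ del2)
    (hdf : 0 ≤ delf)
    (g7 : CF * (1 + 2 * CK + 4 * CN * CA + 2 * CK * CA + 8 * CK * CN * CA ^ 2) ≤ C)
    (hε : ε = CA / h * (del1 + s * delf + 2 * b * G / √s) * rd)
    (he : e = CN * (J' * h ^ m * rd + T * (s * delf * rd + lam * ε) +
      (CN * T * (s + lam * (CA / h))) ^ K * (T * rd / √s))) :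
    0 ≤ ε ∧ 0 ≤ e ∧
    CF * (J' * h ^ m * rd / lam + √s / G * del2 * rd + √s * e +
      lam * T * (CK * (rd * (b + √s / (h ^ 2 * lam1) * del2 + b / (h ^ 2 * lam1)) + √s * ε) +
        (CK / (h ^ 2 * lam1) + CK * (CA / h)) * (√s * e))) ≤
    (C / h ^ 4 * (del2 / G + lam * del1 + s * delf) + C * b / (h ^ 4 * s * lam)) * (√s * rd) := by
  have y := p.hyp
  have hh := y.hh
  have hG := y.hG
  have hb := y.hb
  have hlam := y.hlam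
  have hCA := y.hCA
  have hrs := y.hrs
  have hT0 := y.hT0
  have hθ0 := pow_nonneg p.hθN0 K
  have hε0 : 0 ≤ ε := by
    rw [hε]
    positivity
  have he0 : 0 ≤ e := by
    rw [he]
    positivity
  refine ⟨hε0, he0, ?_⟩
  have hbd : e ≤ 4 * CN * CA * rd / h ^ 2 * (lam * del1 + s * delf + b / √s) := by
    rw [he, hε]
    exact e_bound (K := K) hm hh y.hh1 hJ hT hTh hrd hrs y.hrs1 hs hlam y.hlam1 hG y.hlG hCA hCN hb
      p.hm2 hd1 hdf p.hbθ hθ0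
  rw [hε]
  exact fin_bound y hm hJ hT hrd hCN hCF p.hm2 hd1 hd2 hdf he0 hbd g7

theorem size_aux (K S MA : ℕ) (hS : 1 ≤ S) : ∃ SA : ℕ, SA = (4 * (MA + 1) * S) ^ (K + 2) ∧
    (MA * (S * 4)) ^ (K + 2) ≤ SA ∧ (MA * S) ^ (K + 2) ≤ SA ∧ S * 4 ≤ SA ∧ 1 ≤ SA := by
  have a1 : MA * (S * 4) ≤ 4 * (MA + 1) * S := by nlinarith
  have a2 : MA * S ≤ 4 * (MA + 1) * S := by nlinarith
  have a3 : S * 4 ≤ 4 * (MA + 1) * S := by nlinarith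
  have a4 : 4 * (MA + 1) * S ≤ (4 * (MA + 1) * S) ^ (K + 2) := Nat.le_self_pow (by omega) _
  exact ⟨_, rfl, Nat.pow_le_pow_left a1 _, Nat.pow_le_pow_left a2 _, a3.trans a4, by omega⟩

theorem size_k (K MK SA : ℕ) : (MK * SA) ^ (K + 2) ≤ ((MK + 1) * SA) ^ (K + 2) :=
  Nat.pow_le_pow_left (Nat.mul_le_mul_right _ (by omega)) _

theorem size_n (K MN J SA : ℕ) : (MN * J * SA) ^ (K + 1) ≤ ((MN + 1) * J * SA) ^ (K + 1) :=
  Nat.pow_le_pow_left (Nat.mul_le_mul_right _ (Nat.mul_le_mul_right _ (by omega))) _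

end PST

end P347Z
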