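import Vale.Agent.P347Z.PxA
import Vale.Agent.P347Z.PxK
import Vale.Agent.P347Z.PxN
import Vale.Agent.P347Z.PxF
import Vale.Agent.P347Z.PxM
import Vale.Agent.P347Z.PxS1

/-!
Module PST: one step of the recursion (assembly of `ag_code`, `k_code`, `main_nodes`, `main_final`, `orc_marg`,
`s3P`).  Below `C'` denotes the constants of these theorems, `T = J h ≤ 1/h`, `R = cosh T`.
* Widths: `c_i² = c₀² + (i/3)(c₃² - c₀²)`; `Orc.width` brings the given oracles to the width `c₂`.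
* `ag_code` with `(c₁, c₂)` (for the nodes) and with `(c₂, c₃)` (for `k_code`) at all `t = nt R h b ∈ [0, J h]`:
  `τ = C'/(h lam1)`, `Λ = C'/h`, `ε = (C'/h)(del1 + s delf + 2 b R/√s) √d` (weakened to be uniform in `b`:
  `√(lev s t) ≥ √s / R`).
* `k_code` with `H = h² lam1` and widths `(c₁, c₂)`: `κ = C'/(H lam2)`, `ΛY = C'/H`, `Λw = C' Λ`,
  `εK = C'(√d (b + √s/H del2 + b/H) + √s ε)`.
* `main_nodes`: `e ≤ (C/h²) √d (s delf + lam del1 + b/√s)` (use `lam R ≤ 1`); `main_final`; `Δ ≤ ϑ/2`;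
  `orc_marg` with `T = J h`.
-/

open MeasureTheory ProbabilityTheory Function
open scoped ENNReal BigOperators

namespace P347Z

open P347Q P347S

theorem AG.mono49 {d : ℕ} {s t c τ ε ε' Λ : ℝ} {S S' : ℕ} (h : AG d s t c τ ε Λ S)
    (hε : ε ≤ ε') (hS : S ≤ S') : AG d s t c τ ε' Λ S' :=
  ⟨Has.mono h.1 hε (fun _ => le_rfl) le_rfl hS,
    Has.mono h.2 (mul_le_mul_of_nonneg_right hε (Real.sqrt_nonneg _)) (fun _ => le_rfl) le_rfl hS⟩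

namespace PST

/-- uniform version of `ag_code` -/
theorem ag_unif {m N : ℕ} {R : RS m N} {CA : ℝ} {MA : ℕ} (hm : 3 ≤ m) (hCA : 1 ≤ CA)
    (HA : ∀ (K d : ℕ) (s t h c c' lam1 lamf del1 delf Lp kap : ℝ) (S : ℕ),
    0 < s → s ≤ 1 / 4 → 0 ≤ t → 0 < h → h ≤ 1 → 0 < c → 0 < c' → c' ≤ 1 →
    c ^ 2 + CA * h ≤ c' ^ 2 → 0 < lam1 → s ≤ lamf → CA * s ≤ 1 → 0 ≤ del1 → 0 ≤ delf →
    0 ≤ Lp → Lp ≤ 3 → 0 ≤ kap → kap ≤ 1 → 1 ≤ S →
    (∀ L, lev s (t + h) ≤ L → L ≤ lev s t → Orc d L c' lam1 del1 Lp kap S) →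
    (∀ L, lev s (t + h) ≤ L → L ≤ lev s t → Orc d L c' lamf delf Lp kap S) →
    AG d s t c (CA / (h * lam1))
      (CA / h * (del1 + s * delf + (h ^ (m - 1) + (CA * s) ^ (K + 1)) / √(lev s t)) * √d)
      (CA / h) ((MA * S) ^ (K + 2)))
    {K J d : ℕ} {s h c c' lam1 lamf del1 delf Lp kap b : ℝ} {S S' : ℕ}
    (hs : 0 < s) (hs1 : s ≤ 1 / 4) (hh : 0 < h) (hh1 : h ≤ 1) (hc : 0 < c) (hc' : 0 < c')
    (hc1 : c' ≤ 1) (hcc : c ^ 2 + CA * h ≤ c' ^ 2) (hl1 : 0 < lam1) (hsf : s ≤ lamf)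
    (hCs : CA * s ≤ 1) (hd1 : 0 ≤ del1) (hdf : 0 ≤ delf) (hLp : 0 ≤ Lp) (hLp3 : Lp ≤ 3)
    (hk : 0 ≤ kap) (hk1 : kap ≤ 1) (hS : 1 ≤ S) (hbm : h ^ (m - 2) ≤ b) (hbs : (CA * s) ^ K ≤ b)
    (hS' : (MA * S) ^ (K + 2) ≤ S')
    (ho : ∀ L, lev s (J * h + h) ≤ L → L ≤ s → Orc d L c' lam1 del1 Lp kap S ∧
      Orc d L c' lamf delf Lp kap S) (q : Fin J × Fin (N + 1)) :
    AG d s (nt R h q) c (CA / (h * lam1))
      (CA / h * (del1 + s * delf + 2 * b * Real.cosh (J * h) / √s) * √d) (CA / h) S' := by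
  obtain ⟨t0, tT⟩ := s3_nt_mem R hh q
  set t := nt R h q with ht
  have hlow : lev s (J * h + h) ≤ lev s (t + h) := by
    have := px_lev_anti hs (t := t + h) (τ := J * h - t) (by linarith) (by linarith)
    rwa [show t + h + (J * h - t) = J * h + h by ring] at this
  have h1 := HA K d s t h c c' lam1 lamf del1 delf Lp kap S hs hs1 t0 hh hh1 hc hc' hc1 hcc hl1 hsf
    hCs hd1 hdf hLp hLp3 hk hk1 hS
    (fun L l1 l2 => (ho L (hlow.trans l1) (l2.trans (px_lev_le hs t))).1)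
    (fun L l1 l2 => (ho L (hlow.trans l1) (l2.trans (px_lev_le hs t))).2)
  refine h1.mono49 ?_ hS'
  have hsq : 0 < √s := Real.sqrt_pos.2 hs
  have hct := Real.cosh_pos t
  have hcT : Real.cosh t ≤ Real.cosh (J * h) := by
    rw [Real.cosh_le_cosh, abs_of_nonneg t0, abs_of_nonneg (t0.trans tT)]
    exact tT
  have hb0 : 0 ≤ b := le_trans (by positivity) hbm
  have hx : h ^ (m - 1) + (CA * s) ^ (K + 1) ≤ 2 * b := by
    have a1 : h ^ (m - 1) ≤ h ^ (m - 2) := pow_le_pow_of_le_one hh.le hh1 (by omega)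
    have a2 : (CA * s) ^ (K + 1) ≤ (CA * s) ^ K :=
      pow_le_pow_of_le_one (by positivity) hCs (by omega)
    linarith
  have hy : (h ^ (m - 1) + (CA * s) ^ (K + 1)) / √(lev s t) ≤
      2 * b * Real.cosh (J * h) / √s := by
    rw [px_sqrt_lev, div_div_eq_mul_div]
    gcongr
  gcongr

/-- uniform version of `k_code` -/
theorem k_unif {d m K : ℕ} {s t h H c₁ c₂ lam2 del2 τ ε Λ Lp kap CK b : ℝ} {MK S S' : ℕ}
    (HK : KCode d s t c₁ (CK / (H * lam2) * √(lev s t))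
      (CK * (√d * (H ^ (m - 2) + √(lev s t) / H * del2 + (CK * H * Λ) ^ K / H) +
        √(lev s t) * ε))
      (CK / H) (CK * Λ * √(lev s t)) (CK * Λ * √(lev s t)) ((MK * S) ^ (K + 2)))
    (hs : 0 < s) (hCK : 1 ≤ CK) (hH : 0 < H) (hd2 : 0 ≤ del2) (hε : 0 ≤ ε)
    (hHb : H ^ (m - 2) ≤ b) (hKb : (CK * H * Λ) ^ K ≤ b) (hS' : (MK * S) ^ (K + 2) ≤ S') :
    KCode d s t c₁ (CK / (H * lam2) * √(lev s t))
      (CK * (√d * (b + √s / H * del2 + b / H) + √s * ε))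
      (CK / H) (CK * Λ * √(lev s t)) (CK * Λ * √(lev s t)) S' := by
  have hl : √(lev s t) ≤ √s := Real.sqrt_le_sqrt (px_lev_le hs t)
  have hrd : 0 ≤ √(d : ℝ) := Real.sqrt_nonneg _
  refine Has.mono HK ?_ (fun _ => le_rfl) le_rfl hS'
  gcongr

end PST

theorem orc_step {m N : ℕ} (R : RS m N) (hm : 3 ≤ m) : ∃ (C : ℝ) (M : ℕ), 1 ≤ C ∧
    ∀ (K J d : ℕ) (s h lam lam1 lam2 lamf del1 del2 delf c₀ c₃ Lp kap b ϑ : ℝ) (S : ℕ),
    0 < s → s ≤ 1 / 4 → 0 < h → h ≤ 1 → 1 ≤ J → (J * h) * h ≤ 1 →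
    2 ≤ h * Real.cosh (J * h) ^ 2 → 0 < lam → lam1 ≤ 1 →
    C * Real.cosh (J * h) * lam ≤ h ^ 2 * lam1 → C * Real.cosh (J * h) * s ≤ h * lamf →
    2 * lam ≤ lam2 * Real.cosh (J * h) → 0 < c₀ → 0 < c₃ → c₃ ≤ 1 → c₀ ^ 2 + C * h ≤ c₃ ^ 2 →
    0 ≤ del1 → 0 ≤ del2 → 0 ≤ delf → 0 ≤ Lp → Lp ≤ 3 → 0 ≤ kap → kap ≤ 1 → 1 ≤ S →
    ϑ = C / h ^ 4 * ((Real.cosh (J * h))⁻¹ + lam + s) → ϑ ≤ 1 → 0 ≤ b → h ^ (m - 2) ≤ b →
    (C * s) ^ K ≤ b → (C * h * lam1) ^ K ≤ b → ϑ ^ K ≤ b →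
    (∀ L, lev s (J * h + h) ≤ L → L ≤ s → Orc d L c₃ lam1 del1 Lp kap S ∧
      Orc d L c₃ lam2 del2 Lp kap S ∧ Orc d L c₃ lamf delf Lp kap S) →
    Orc d s c₀ (lam / 2)
      (C / h ^ 4 * (del2 / Real.cosh (J * h) + lam * del1 + s * delf) + C * b / (h ^ 4 * s * lam))
      (Lp + ϑ) (kap + ϑ) ((M * J * S) ^ ((K + 2) ^ 3)) := by
  obtain ⟨CA, MA, hCA, HA⟩ := ag_code R hm
  obtain ⟨CK, MK, hCK, HK⟩ := k_code R hm
  obtain ⟨C3, hC3, H3⟩ := s3P R hm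
  obtain ⟨CN, MN, hCN, HN⟩ := main_nodes R hm hC3
  obtain ⟨CF, MF, hCF, HF⟩ := main_final R hm hC3 (C₄ := CN) (by linarith)
  obtain ⟨g1, gA, gKA, gN, gNA, gFK, g6, g7, g8⟩ := PST.cst_ge hCA hCK hCN hCF
  refine ⟨PST.cst CA CK CN CF, (64 * (MA + 1) * (MK + 1 + 1) * (MN + 1 + 1) * (MF + 1 + 1)) ^ 2, g1, ?_⟩
  generalize hCd : PST.cst CA CK CN CF = C at *
  clear hCd
  intro K J d s h lam lam1 lam2 lamf del1 del2 delf c₀ c₃ Lp kap b ϑ S hs hs1 hh hh1 hJ hTh hG2 hlam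
    hl1 i1 i2 i3 hc₀ hc₃ hc₃1 hcc hd1 hd2 hdf hLp hLp3 hk hk1 hS hϑ hϑ1 hb hbm hbs hbl hbθ ho
  have hJr : (1 : ℝ) ≤ J := by exact_mod_cast hJ
  have hJ0 : (0 : ℝ) < J := by linarith
  have hT0 : 0 < (J : ℝ) * h := mul_pos hJ0 hh
  have hTh' : (J : ℝ) * h ≤ 1 / h := by
    rw [le_div_iff₀ hh]
    exact hTh
  obtain ⟨c₁, c₂, p⟩ := PST.prm (m := m) (K := K) hCA hCK hCN hCF gA gKA gN gNA gFK g6 g8 g1 hs hs1
    hh hh1 hT0 hTh' (Real.one_le_cosh (J * h)) hlam hl1 i1 i2 i3 hc₀ hc₃ hc₃1 hcc hϑ hϑ1 hb hbm hbs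
    hbl hbθ
  have hcT := PST.tanh_ok (s := s) hh hT0.le hc₀ hc₃ hc₃1 g1 hcc hG2
  -- the oracles
  have hlevp : ∀ L, lev s (J * h + h) ≤ L → 0 < L := fun L hL => lt_of_lt_of_le (px_lev_pos hs _) hL
  have ho2 : ∀ L, lev s (J * h + h) ≤ L → L ≤ s → Orc d L c₂ lam1 del1 Lp kap (S * 4) ∧
      Orc d L c₂ lam2 del2 Lp kap (S * 4) ∧ Orc d L c₂ lamf delf Lp kap (S * 4) := by
    intro L l1 l2
    have hpr : ∀ V : PotT d, IsProbabilityMeasure (gibbs (US V.1 L)) := fun V =>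
      us_prob V.2 (hlevp L l1) (l2.trans hs1)
    obtain ⟨o1, o2, o3⟩ := ho L l1 l2
    exact ⟨o1.width hpr p.hc₂.le p.hc₂3 hd1, o2.width hpr p.hc₂.le p.hc₂3 hd2,
      o3.width hpr p.hc₂.le p.hc₂3 hdf⟩
  have ho1 : ∀ L, lev s (J * h + h) ≤ L → L ≤ s → 
      Orc d L c₁ lam2 del2 Lp kap (S * 4) ∧ Orc d L c₁ lamf delf Lp kap (S * 4) := by
    intro L l1 l2
    have hpr : ∀ V : PotT d, IsProbabilityMeasure (gibbs (US V.1 L)) := fun V =>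
      us_prob V.2 (hlevp L l1) (l2.trans hs1)
    obtain ⟨o1, o2, o3⟩ := ho L l1 l2
    exact ⟨o2.width hpr p.hc₁.le p.hc₁3 hd2, o3.width hpr p.hc₁.le p.hc₁3 hdf⟩
  have hrd : 0 ≤ √(d : ℝ) := Real.sqrt_nonneg _
  have hrs : 0 < √s := p.hyp.hrs
  have hl0 := p.hl0
  have hl2 := p.hl2
  have hnt : ∀ q : Fin J × Fin (N + 1), lev s (J * h + h) ≤ lev s (nt R h q) := by
    intro q
    obtain ⟨t0, tT⟩ := s3_nt_mem R hh q
    have := px_lev_anti hs (t := nt R h q) (τ := J * h + h - nt R h q) t0 (by linarith)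
    rwa [show nt R h q + (J * h + h - nt R h q) = J * h + h by ring] at this
  have hlT : lev s (J * h + h) ≤ lev s (J * h) := px_lev_anti hs hT0.le hh.le
  -- sizes
  obtain ⟨SA, hSA, z1, z2, z3, z4⟩ := PST.size_aux K S MA hS
  -- the codes for the fields
  have hAG1 := PST.ag_unif (N := N) (R := R) (K := K) hm hCA HA hs hs1 hh hh1 p.hc₁ p.hc₂ p.hc₂1
    p.w2 hl0 p.hsf p.hCAs hd1 hdf hLp hLp3 hk hk1 (S := S * 4) (S' := SA) (by omega) hbm p.hbs z1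
    (fun L l1 l2 => ⟨(ho2 L l1 l2).1, (ho2 L l1 l2).2.2⟩)
  have hAG2 := PST.ag_unif (N := N) (R := R) (K := K) hm hCA HA hs hs1 hh hh1 p.hc₂ hc₃ hc₃1
    p.w3 hl0 p.hsf p.hCAs hd1 hdf hLp hLp3 hk hk1 (S := S) (S' := SA) hS hbm p.hbs z2
    (fun L l1 l2 => ⟨(ho L l1 l2).1, (ho L l1 l2).2.2⟩)
  obtain ⟨ε, hεd⟩ : ∃ ε : ℝ, ε = CA / h * (del1 + s * delf + 2 * b * Real.cosh (J * h) / √s) *
    √d := ⟨_, rfl⟩
  rw [← hεd] at hAG1 hAG2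
  obtain ⟨e, hed⟩ : ∃ e : ℝ, e = CN * (J * h ^ m * √d + J * h * (s * delf * √d + lam * ε) +
      (CN * (J * h) * (s + lam * (CA / h))) ^ K * (J * h * √d / √s)) := ⟨_, rfl⟩
  obtain ⟨hε0, he0, hfin⟩ := PST.final_err p hm hJ0 rfl hTh hrd hs hCN hCF hd1 hd2 hdf g7 hεd hed
  clear hεd
  have hH0 : 0 < h ^ 2 * lam1 := by positivity
  have hKC : ∀ q : Fin J × Fin (N + 1),
      KCode d s (nt R h q) c₁ (CK / (h ^ 2 * lam1 * lam2) * √(lev s (nt R h q)))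
      (CK * (√d * (b + √s / (h ^ 2 * lam1) * del2 + b / (h ^ 2 * lam1)) + √s * ε))
      (CK / (h ^ 2 * lam1)) (CK * (CA / h) * √(lev s (nt R h q)))
      (CK * (CA / h) * √(lev s (nt R h q))) (((MK + 1) * SA) ^ (K + 2)) := by
    intro q
    have h1 := HK K d s (nt R h q) (h ^ 2 * lam1) c₁ c₂ lam2 del2 (CA / (h * lam1)) ε (CA / h) Lp
      kap SA hs hs1 (s3_nt_mem R hh q).1 hH0 p.hH1 p.hc₁ p.hc₂ p.hc₂1 p.w4 hl2 hd2 (by positivity)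
      hε0 p.hΛ p.hKH hLp hLp3 hk hk1 z4 (hAG2 q)
      ((ho2 _ (hnt q) (px_lev_le hs _)).2.1.mono le_rfl le_rfl le_rfl z3)
    exact PST.k_unif (h := h) (c₂ := c₂) (τ := ε) (Lp := Lp) (kap := kap) h1 hs hCK hH0 hd2 hε0
      p.hbH p.hbl (PST.size_k K MK SA)
  choose X Xe hX using fun V : PotT d => H3 d V.1 s lam h J V.2 hs hs1 hlam.le p.hyp.hlam1 hh hh1
  have hN := HN K J d s lam h c₀ c₁ lamf delf (CA / (h * lam1)) ε (CA / h) Lp kap _ e SA X Xe hX hs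
    hs1 hlam p.hyp.hlam1 hh hh1 hJ hTh hG2 hc₀ p.hc₁ p.hc₁1 p.w1 p.hlf hdf (by positivity) hε0 p.hΛ
    p.noise rfl (p.hθN.trans hϑ1) hed hLp hLp3 hk hk1 z4 hAG1
    (fun q => (ho1 _ (hnt q) (px_lev_le hs _)).2.mono le_rfl le_rfl le_rfl z3)
  have hT1 : lev s (J * h) ≤ s := px_lev_le hs _
  -- the nodes with larger sizes
  obtain ⟨SN, hSN⟩ : ∃ SN : ℕ, SN = ((MN + 1) * J * SA) ^ (K + 1) := ⟨_, rfl⟩
  obtain ⟨SK, hSK⟩ : ∃ SK : ℕ, SK = ((MK + 1) * SA) ^ (K + 2) := ⟨_, rfl⟩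
  have y1 : (MN * J * SA) ^ (K + 1) ≤ SN := by
    rw [hSN]
    exact PST.size_n K MN J SA
  have y2 : 1 ≤ SN := by
    rw [hSN]
    exact Nat.one_le_pow _ _ (Nat.mul_pos (Nat.mul_pos (Nat.succ_pos _) hJ) z4)
  have y3 : SA ≤ SK := by
    rw [hSK]
    calc SA ≤ (MK + 1) * SA := Nat.le_mul_of_pos_left _ (Nat.succ_pos _)
      _ ≤ _ := Nat.le_self_pow (by omega) _
  rw [← hSK] at hKC
  have hF := HF J d s lam h c₀ c₁ lam2 del2 (CK / (h ^ 2 * lam1 * lam2))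
    (CK * (√d * (b + √s / (h ^ 2 * lam1) * del2 + b / (h ^ 2 * lam1)) + √s * ε))
    (CK / (h ^ 2 * lam1)) (CK * (CA / h)) Lp kap (CN * (J * h) * (s + lam * (CA / h)))
    (3 * (CN * (J * h) * (s + lam * (CA / h))) + CF * lam * (J * h) * (CK / (h ^ 2 * lam1) +
      CK * (CA / h))) e SK SN X Xe hX hs hs1 hlam p.hyp.hlam1 hh hh1 hJ hTh hc₀ p.hc₁ p.hc₁1 hl2 hd2
    (by positivity) (by positivity) (by positivity) (by positivity) i3 p.hκ p.hθN0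
    (p.hθN.trans hϑ1) he0 hLp hLp3 hk hk1 (z4.trans y3) y2 hKC
    ((ho1 _ hlT hT1).1.mono le_rfl le_rfl le_rfl (z3.trans y3))
    (fun q => ⟨(hN.1 q).1.mono le_rfl (fun _ => le_rfl) le_rfl y1,
      (hN.1 q).2.1.mono le_rfl (fun _ => le_rfl) le_rfl y1,
      (hN.1 q).2.2.mono le_rfl (fun _ => le_rfl) le_rfl y1⟩)
    (hN.2.mono le_rfl (fun _ => le_rfl) le_rfl y1) rfl
  obtain ⟨L₁, hF⟩ := hF
  have hΔ := p.hΔ
  have hΔ0 : 0 ≤ 3 * (CN * (J * h) * (s + lam * (CA / h))) + CF * lam * (J * h) *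
      (CK / (h ^ 2 * lam1) + CK * (CA / h)) := by positivity
  generalize 3 * (CN * (J * h) * (s + lam * (CA / h))) + CF * lam * (J * h) *
      (CK / (h ^ 2 * lam1) + CK * (CA / h)) = Δ at *
  have hbound : (0 : ℝ) ≤ CF * (J * h ^ m * √d / lam + √s / Real.cosh (J * h) * del2 * √d + √s * e +
      lam * (J * h) * (CK * (√d * (b + √s / (h ^ 2 * lam1) * del2 + b / (h ^ 2 * lam1)) + √s * ε) +
        (CK / (h ^ 2 * lam1) + CK * (CA / h)) * (√s * e))) := by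
    have := Real.cosh_pos (J * h)
    positivity
  have hF1 := hF.mono le_rfl (fun _ => le_rfl) le_rfl
    (show MF * J * (SK * SN) ≤ (MF + 1) * J * (SK * SN) from
      Nat.mul_le_mul_right _ (Nat.mul_le_mul_right _ (Nat.le_succ MF)))
  have hpos : 1 ≤ (MF + 1) * J * (SK * SN) :=
    Nat.mul_pos (Nat.mul_pos (Nat.succ_pos _) hJ) (Nat.mul_pos (z4.trans y3) y2)
  have hM := orc_marg (T := J * h) hs hs1 hlam hT0.le hc₀ hcT hbound (add_nonneg hLp hΔ0) hΔ0 hpos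
    (Ze := fun V p => (Xe V p).2.2)
    (fun V => measurable_snd.comp (measurable_snd.comp (hX V).2.1.measurable))
    (fun V => (hX V).2.2.2.2.2.2.2.2) hF1
  have hsz := PST.size_ineq (K := K) (J := J) (S := S) (MA := MA) (MK := MK + 1) (MN := MN + 1)
    (MF := MF + 1) hJ hS
  rw [← hSA, ← hSK, ← hSN] at hsz
  exact Has.mono hM hfin (fun _ => by linarith) (by linarith) hsz

end P347Z
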