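import Vale.Agent.P347Z.PxAux

/-!
P347Z, module PST: the real inequalities of `orc_step`.
-/

namespace P347Z

namespace PST

theorem size_eq (M Y K : ℕ) : M * Y * (((M * (M * Y) ^ (K + 2)) ^ (K + 2)) *
      ((M * (M * Y) ^ (K + 2)) ^ (K + 1))) =
    M ^ (1 + (2 * K + 3) + (K + 2) * (2 * K + 3)) * Y ^ (1 + (K + 2) * (2 * K + 3)) := by
  rw [← pow_add, show K + 2 + (K + 1) = 2 * K + 3 by omega, mul_pow M, ← pow_mul, mul_pow M Y]
  generalize (K + 2) * (2 * K + 3) = c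
  generalize 2 * K + 3 = b
  rw [pow_add M, pow_add M, pow_add Y, pow_one, pow_one]
  ring

theorem size_ineq {K J S MA MK MN MF : ℕ} (hJ : 1 ≤ J) (hS : 1 ≤ S) :
    16 * (MF * J * (((MK * (4 * (MA + 1) * S) ^ (K + 2)) ^ (K + 2)) *
      ((MN * J * (4 * (MA + 1) * S) ^ (K + 2)) ^ (K + 1)))) ≤
    ((64 * (MA + 1) * (MK + 1) * (MN + 1) * (MF + 1)) ^ 2 * J * S) ^ ((K + 2) ^ 3) := by
  set M0 := 64 * (MA + 1) * (MK + 1) * (MN + 1) * (MF + 1) with hM0
  have a1 : 1 ≤ MA + 1 := by omega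
  have a2 : 1 ≤ MK + 1 := by omega
  have a3 : 1 ≤ MN + 1 := by omega
  have a4 : 1 ≤ MF + 1 := by omega
  have bA : 4 * (MA + 1) ≤ M0 := by
    calc 4 * (MA + 1) ≤ 64 * (MA + 1) * 1 * 1 * 1 := by omega
      _ ≤ M0 := by rw [hM0]; gcongr
  have bK : MK ≤ M0 := by
    calc MK ≤ 64 * 1 * (MK + 1) * 1 * 1 := by omega
      _ ≤ M0 := by rw [hM0]; gcongr
  have bN : MN ≤ M0 := by
    calc MN ≤ 64 * 1 * 1 * (MN + 1) * 1 := by omega
      _ ≤ M0 := by rw [hM0]; gcongr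
  have bF : 16 * MF ≤ M0 := by
    calc 16 * MF ≤ 64 * 1 * 1 * 1 * (MF + 1) := by omega
      _ ≤ M0 := by rw [hM0]; gcongr
  have bM : 1 ≤ M0 := by omega
  clear_value M0
  have hY : 1 ≤ J * S := Nat.mul_pos hJ hS
  have c1 : (4 * (MA + 1) * S) ^ (K + 2) ≤ (M0 * (J * S)) ^ (K + 2) := by
    have : 4 * (MA + 1) * S ≤ M0 * (J * S) := by
      calc 4 * (MA + 1) * S ≤ M0 * S := by gcongr
        _ = M0 * (1 * S) := by ring
        _ ≤ M0 * (J * S) := by gcongr
    gcongr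
  have c2 : J * (4 * (MA + 1) * S) ^ (K + 2) ≤ (M0 * (J * S)) ^ (K + 2) := by
    calc J * (4 * (MA + 1) * S) ^ (K + 2) ≤ J ^ (K + 2) * (4 * (MA + 1) * S) ^ (K + 2) := by
          gcongr
          exact Nat.le_self_pow (by omega) J
      _ = (4 * (MA + 1) * (J * S)) ^ (K + 2) := by rw [← mul_pow]; congr 1; ring
      _ ≤ (M0 * (J * S)) ^ (K + 2) := by gcongr
  have e1 : 1 + (K + 2) * (2 * K + 3) ≤ (K + 2) ^ 3 := by
    have : (K + 2) ^ 3 = K ^ 3 + 6 * K ^ 2 + 12 * K + 8 := by ring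
    rw [this]
    nlinarith [Nat.zero_le (K ^ 3), Nat.zero_le (K ^ 2), Nat.zero_le K]
  have e2 : 1 + (2 * K + 3) + (K + 2) * (2 * K + 3) ≤ 2 * (K + 2) ^ 3 := by
    have : (K + 2) ^ 3 = K ^ 3 + 6 * K ^ 2 + 12 * K + 8 := by ring
    rw [this]
    nlinarith [Nat.zero_le (K ^ 3), Nat.zero_le (K ^ 2), Nat.zero_le K]
  calc 16 * (MF * J * (((MK * (4 * (MA + 1) * S) ^ (K + 2)) ^ (K + 2)) *
      ((MN * J * (4 * (MA + 1) * S) ^ (K + 2)) ^ (K + 1))))
      = (16 * MF) * J * (((MK * (4 * (MA + 1) * S) ^ (K + 2)) ^ (K + 2)) *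
      ((MN * (J * (4 * (MA + 1) * S) ^ (K + 2))) ^ (K + 1))) := by ring
    _ ≤ M0 * (J * S) * (((M0 * (M0 * (J * S)) ^ (K + 2)) ^ (K + 2)) *
      ((M0 * (M0 * (J * S)) ^ (K + 2)) ^ (K + 1))) := by
        gcongr
        exact Nat.le_mul_of_pos_right J hS
    _ = M0 ^ (1 + (2 * K + 3) + (K + 2) * (2 * K + 3)) * (J * S) ^ (1 + (K + 2) * (2 * K + 3)) :=
        size_eq M0 (J * S) K
    _ ≤ M0 ^ (2 * (K + 2) ^ 3) * (J * S) ^ ((K + 2) ^ 3) :=
        Nat.mul_le_mul (Nat.pow_le_pow_right bM e2) (Nat.pow_le_pow_right hY e1)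
    _ = (M0 ^ 2 * J * S) ^ ((K + 2) ^ 3) := by
        rw [pow_mul, ← mul_pow]
        congr 1
        ring

variable {J' h T rd rs s lam lam1 G H CA CK CN CF b del1 del2 delf θ : ℝ} {m K : ℕ}

/-- bound of the error of the nodes -/
theorem e_bound (hm : 3 ≤ m) (hh : 0 < h) (hh1 : h ≤ 1) (hJ : 0 < J') (hT : T = J' * h)
    (hTh : T * h ≤ 1) (hrd : 0 ≤ rd) (hrs : 0 < rs) (hrs1 : rs ≤ 1) (hs : 0 < s) (hlam : 0 < lam)
    (hlam1 : lam ≤ 1) (hG : 0 < G) (hlG : lam * G ≤ 1) (hCA : 1 ≤ CA) (hCN : 1 ≤ CN) (hb : 0 ≤ b)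
    (hbm : h ^ (m - 2) ≤ b) (hd1 : 0 ≤ del1) (hdf : 0 ≤ delf) (hθ : θ ^ K ≤ b) (_hθ0 : 0 ≤ θ ^ K) :
    CN * (J' * h ^ m * rd + T * (s * delf * rd + lam *
      (CA / h * (del1 + s * delf + 2 * b * G / rs) * rd)) + θ ^ K * (T * rd / rs)) ≤
    4 * CN * CA * rd / h ^ 2 * (lam * del1 + s * delf + b / rs) := by
  have hT0 : 0 < T := by rw [hT]; positivity
  have f1 : T ≤ 1 / h := by
    rw [le_div_iff₀ hh]
    exact hTh
  have f2 : J' * h ^ m ≤ b := by
    have : J' * h ^ m = (T * h) * h ^ (m - 2) := by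
      rw [hT]
      have : m = (m - 2) + 2 := by omega
      conv_lhs => rw [this, pow_add]
      ring
    rw [this]
    calc (T * h) * h ^ (m - 2) ≤ 1 * b := by gcongr
      _ = b := one_mul b
  have hb' : b ≤ b / rs := by
    rw [le_div_iff₀ hrs]
    nlinarith
  have hh2 : 1 ≤ 1 / h ^ 2 := by
    rw [le_div_iff₀ (by positivity), one_mul]
    exact pow_le_one₀ hh.le hh1
  have hh3 : 1 / h ≤ 1 / h ^ 2 := by
    apply one_div_le_one_div_of_le (by positivity)
    nlinarith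
  have k1 : J' * h ^ m * rd ≤ CA * rd / h ^ 2 * (b / rs) := by
    calc J' * h ^ m * rd ≤ b * rd := by gcongr
      _ = 1 * rd * 1 * b := by ring
      _ ≤ CA * rd * (1 / h ^ 2) * (b / rs) := by gcongr
      _ = _ := by ring
  have k2 : T * (s * delf * rd) ≤ CA * rd / h ^ 2 * (s * delf) := by
    calc T * (s * delf * rd) ≤ 1 / h * (s * delf * rd) := by gcongr
      _ ≤ 1 / h ^ 2 * (s * delf * rd) := by gcongr
      _ = 1 * (rd * (1 / h ^ 2) * (s * delf)) := by ring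
      _ ≤ CA * (rd * (1 / h ^ 2) * (s * delf)) := by gcongr
      _ = _ := by ring
  have k3 : T * (lam * (CA / h * (del1 + s * delf + 2 * b * G / rs) * rd)) ≤
      CA * rd / h ^ 2 * (lam * del1 + s * delf + 2 * (b / rs)) := by
    calc T * (lam * (CA / h * (del1 + s * delf + 2 * b * G / rs) * rd))
        ≤ 1 / h * (lam * (CA / h * (del1 + s * delf + 2 * b * G / rs) * rd)) := by gcongr
      _ = CA * rd / h ^ 2 * (lam * del1 + lam * (s * delf) + 2 * (b / rs) * (lam * G)) := by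
          field_simp
      _ ≤ CA * rd / h ^ 2 * (lam * del1 + 1 * (s * delf) + 2 * (b / rs) * 1) := by gcongr
      _ = _ := by ring
  have k4 : θ ^ K * (T * rd / rs) ≤ CA * rd / h ^ 2 * (b / rs) := by
    calc θ ^ K * (T * rd / rs) ≤ b * ((1 / h ^ 2) * rd / rs) := by
          gcongr
          exact f1.trans hh3
      _ = 1 * (rd * (1 / h ^ 2) * (b / rs)) := by ring
      _ ≤ CA * (rd * (1 / h ^ 2) * (b / rs)) := by gcongr
      _ = _ := by ring
  have k5 : 0 ≤ CA * rd / h ^ 2 * (lam * del1) := by positivity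
  have k6 : 0 ≤ CA * rd / h ^ 2 * (s * delf) := by positivity
  calc CN * (J' * h ^ m * rd + T * (s * delf * rd + lam *
      (CA / h * (del1 + s * delf + 2 * b * G / rs) * rd)) + θ ^ K * (T * rd / rs))
      = CN * (J' * h ^ m * rd + T * (s * delf * rd) + T * (lam *
      (CA / h * (del1 + s * delf + 2 * b * G / rs) * rd)) + θ ^ K * (T * rd / rs)) := by ring
    _ ≤ CN * (4 * (CA * rd / h ^ 2 * (lam * del1 + s * delf + b / rs))) := by
        gcongr
        nlinarith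
    _ = _ := by ring

/-- common hypotheses -/
structure Hyp (h T rs s lam G H CA CK b : ℝ) : Prop where
  hh : 0 < h
  hh1 : h ≤ 1
  hT0 : 0 < T
  hTh : T ≤ 1 / h
  hrs : 0 < rs
  hrs1 : rs ≤ 1
  hs : s = rs ^ 2
  hlam : 0 < lam
  hlam1 : lam ≤ 1
  hG : 0 < G
  hlG : lam * G ≤ 1
  hCA : 1 ≤ CA
  hCK : 1 ≤ CK
  hb : 0 ≤ b
  hH : 0 < H
  hlH : lam / H ≤ 1 / G
  hlH1 : lam / H ≤ 1

theorem Hyp.s_pos (y : Hyp h T rs s lam G H CA CK b) : 0 < s := by
  rw [y.hs]
  have := y.hrs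
  positivity

theorem Hyp.h1 (y : Hyp h T rs s lam G H CA CK b) : 1 / h ≤ 1 / h ^ 4 := by
  have := y.hh
  apply one_div_le_one_div_of_le (by positivity)
  calc h ^ 4 ≤ h ^ 1 := pow_le_pow_of_le_one y.hh.le y.hh1 (by norm_num)
    _ = h := pow_one h

theorem Hyp.h2 (y : Hyp h T rs s lam G H CA CK b) : 1 / h ^ 2 ≤ 1 / h ^ 4 := by
  have := y.hh
  apply one_div_le_one_div_of_le (by positivity)
  exact pow_le_pow_of_le_one y.hh.le y.hh1 (by norm_num)

theorem Hyp.h4 (y : Hyp h T rs s lam G H CA CK b) : 1 ≤ 1 / h ^ 4 := by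
  have := y.hh
  rw [le_div_iff₀ (by positivity), one_mul]
  exact pow_le_one₀ y.hh.le y.hh1

theorem Hyp.b1 (y : Hyp h T rs s lam G H CA CK b) : b / lam ≤ rs * (b / (s * lam)) := by
  obtain ⟨hh, hh1, hT0, hTh, hrs, hrs1, hs, hlam, hlam1, hG, hlG, hCA, hCK, hb, hH, hlH, hlH1⟩ := y
  have e : rs * (b / (s * lam)) = b / lam * (1 / rs) := by
    rw [hs]
    field_simp
  rw [e]
  have h1 : 1 ≤ 1 / rs := by
    rw [le_div_iff₀ hrs]
    linarith
  calc b / lam = b / lam * 1 := (mul_one _).symm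
    _ ≤ b / lam * (1 / rs) := by gcongr

theorem Hyp.b2 (y : Hyp h T rs s lam G H CA CK b) : b ≤ rs * (b / (s * lam)) := by
  refine le_trans ?_ y.b1
  rw [le_div_iff₀ y.hlam]
  nlinarith [y.hb, y.hlam1]

theorem Hyp.b3 (y : Hyp h T rs s lam G H CA CK b) : b / rs ≤ b / (s * lam) := by
  have h0 := y.s_pos
  obtain ⟨hh, hh1, hT0, hTh, hrs, hrs1, hs, hlam, hlam1, hG, hlG, hCA, hCK, hb, hH, hlH, hlH1⟩ := y
  have h2 : s * lam ≤ rs := by
    rw [hs]
    calc rs ^ 2 * lam ≤ rs ^ 2 * 1 := by gcongr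
      _ = rs * rs := by ring
      _ ≤ rs * 1 := by gcongr
      _ = rs := mul_one rs
  have h3 : 0 < s * lam := by positivity
  gcongr

theorem q1 (y : Hyp h T rs s lam G H CA CK b) (hrd : 0 ≤ rd) :
    lam * T * (CK * (rd * b)) ≤ CK * ((rs * rd) * (1 / h ^ 4 * (b / (s * lam)))) := by
  have h0 := y.s_pos
  have b2 := y.b2
  have h1 := y.h1
  obtain ⟨hh, hh1, hT0, hTh, hrs, hrs1, hs, hlam, hlam1, hG, hlG, hCA, hCK, hb, hH, hlH, hlH1⟩ := y
  have hx : 0 ≤ b / (s * lam) := by positivity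
  generalize b / (s * lam) = B at *
  have hTh' : T ≤ 1 / h ^ 4 := hTh.trans h1
  generalize 1 / h ^ 4 = W at *
  have hW0 : 0 ≤ W := hT0.le.trans hTh'
  calc lam * T * (CK * (rd * b)) ≤ 1 * W * (CK * (rd * (rs * B))) := by gcongr
    _ = _ := by ring

theorem q2 (y : Hyp h T rs s lam G H CA CK b) (hrd : 0 ≤ rd) (hd2 : 0 ≤ del2) :
    lam * T * (CK * (rd * (rs / H * del2))) ≤ CK * ((rs * rd) * (1 / h ^ 4 * (del2 / G))) := by
  have h1 := y.h1
  obtain ⟨hh, hh1, hT0, hTh, hrs, hrs1, hs, hlam, hlam1, hG, hlG, hCA, hCK, hb, hH, hlH, hlH1⟩ := y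
  have hTh' : T ≤ 1 / h ^ 4 := hTh.trans h1
  generalize 1 / h ^ 4 = W at *
  have hW0 : 0 ≤ W := hT0.le.trans hTh'
  calc lam * T * (CK * (rd * (rs / H * del2))) = T * (lam / H) * (CK * (rd * (rs * del2))) := by
        ring
    _ ≤ W * (1 / G) * (CK * (rd * (rs * del2))) := by gcongr
    _ = _ := by ring

theorem q3 (y : Hyp h T rs s lam G H CA CK b) (hrd : 0 ≤ rd) :
    lam * T * (CK * (rd * (b / H))) ≤ CK * ((rs * rd) * (1 / h ^ 4 * (b / (s * lam)))) := by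
  have h0 := y.s_pos
  have b2 := y.b2
  have h1 := y.h1
  obtain ⟨hh, hh1, hT0, hTh, hrs, hrs1, hs, hlam, hlam1, hG, hlG, hCA, hCK, hb, hH, hlH, hlH1⟩ := y
  have hx : 0 ≤ b / (s * lam) := by positivity
  generalize b / (s * lam) = B at *
  have hTh' : T ≤ 1 / h ^ 4 := hTh.trans h1
  generalize 1 / h ^ 4 = W at *
  have hW0 : 0 ≤ W := hT0.le.trans hTh'
  calc lam * T * (CK * (rd * (b / H))) = T * (lam / H) * (CK * (rd * b)) := by ring
    _ ≤ W * 1 * (CK * (rd * (rs * B))) := by gcongr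
    _ = _ := by ring

theorem q4 (y : Hyp h T rs s lam G H CA CK b) (hrd : 0 ≤ rd) (hd1 : 0 ≤ del1) (hdf : 0 ≤ delf) :
    lam * T * (CK * (rs * (CA / h * (del1 + s * delf + 2 * b * G / rs) * rd))) ≤
      (2 * CK * CA) * ((rs * rd) * (1 / h ^ 4 * (lam * del1 + s * delf + b / (s * lam)))) := by
  have h0 := y.s_pos
  have b3 := y.b3
  have h2 := y.h2
  obtain ⟨hh, hh1, hT0, hTh, hrs, hrs1, hs, hlam, hlam1, hG, hlG, hCA, hCK, hb, hH, hlH, hlH1⟩ := y
  have hx : 0 ≤ b / (s * lam) := by positivity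
  generalize b / (s * lam) = B at *
  have z1 : 0 ≤ lam * del1 := by positivity
  have z2 : 0 ≤ s * delf := by positivity
  calc lam * T * (CK * (rs * (CA / h * (del1 + s * delf + 2 * b * G / rs) * rd)))
      ≤ lam * (1 / h) * (CK * (rs * (CA / h * (del1 + s * delf + 2 * b * G / rs) * rd))) := by
        gcongr
    _ = CK * CA * ((rs * rd) * ((1 / h ^ 2) * (lam * del1 + lam * (s * delf) +
          2 * (b / rs) * (lam * G)))) := by ring
    _ ≤ CK * CA * ((rs * rd) * ((1 / h ^ 2) * (2 * (lam * del1 + s * delf + B)))) := by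
        have r : lam * del1 + lam * (s * delf) + 2 * (b / rs) * (lam * G) ≤
            2 * (lam * del1 + s * delf + B) := by
          have r1 : lam * (s * delf) ≤ 1 * (s * delf) := by gcongr
          have r2 : 2 * (b / rs) * (lam * G) ≤ 2 * B * 1 := by gcongr
          linarith
        gcongr
    _ ≤ CK * CA * ((rs * rd) * ((1 / h ^ 4) * (2 * (lam * del1 + s * delf + B)))) := by
        gcongr
    _ = _ := by ring

theorem q5 (y : Hyp h T rs s lam G H CA CK b) (hrd : 0 ≤ rd) (hCN : 1 ≤ CN) {D B e : ℝ}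
    (he0 : 0 ≤ e) (hD : 0 ≤ D) (hB : 0 ≤ B)
    (e1 : rs * e ≤ (4 * CN * CA) * (rs * rd) * ((1 / h ^ 2) * (D + B))) :
    lam * T * ((CK / H + CK * (CA / h)) * (rs * e)) ≤
      (8 * CK * CN * CA ^ 2) * ((rs * rd) * (1 / h ^ 4 * (D + B))) := by
  obtain ⟨hh, hh1, hT0, hTh, hrs, hrs1, hs, hlam, hlam1, hG, hlG, hCA, hCK, hb, hH, hlH, hlH1⟩ := y
  have g1 : 1 / h ≤ 1 / h ^ 2 := by
    apply one_div_le_one_div_of_le (by positivity)
    nlinarith
  have r1 : lam * T * (CK / H + CK * (CA / h)) ≤ 2 * CK * CA * (1 / h ^ 2) := by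
    calc lam * T * (CK / H + CK * (CA / h)) = T * (CK * (lam / H) + CK * CA * lam * (1 / h)) := by
          ring
      _ ≤ (1 / h) * (CK * 1 + CK * CA * 1 * (1 / h)) := by gcongr
      _ = CK * 1 * (1 / h) + CK * CA * (1 / h ^ 2) := by ring
      _ ≤ CK * CA * (1 / h ^ 2) + CK * CA * (1 / h ^ 2) := by gcongr
      _ = _ := by ring
  have r2 : 0 ≤ rs * e := by positivity
  have r3 : 0 ≤ lam * T * (CK / H + CK * (CA / h)) := by positivity
  calc lam * T * ((CK / H + CK * (CA / h)) * (rs * e))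
      = (lam * T * (CK / H + CK * (CA / h))) * (rs * e) := by ring
    _ ≤ (2 * CK * CA * (1 / h ^ 2)) * ((4 * CN * CA) * (rs * rd) * ((1 / h ^ 2) * (D + B))) :=
        mul_le_mul r1 e1 r2 (by positivity)
    _ = _ := by ring

/-- bound of the final error -/
theorem fin_bound {e : ℝ} (y : Hyp h T rs s lam G H CA CK b) (hm : 3 ≤ m) (hJ : 0 < J')
    (hT : T = J' * h) (hrd : 0 ≤ rd) (hCN : 1 ≤ CN) (hCF : 1 ≤ CF) (hbm : h ^ (m - 2) ≤ b)
    (hd1 : 0 ≤ del1) (hd2 : 0 ≤ del2) (hdf : 0 ≤ delf) (he0 : 0 ≤ e)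
    (he : e ≤ 4 * CN * CA * rd / h ^ 2 * (lam * del1 + s * delf + b / rs)) {C : ℝ}
    (hC : CF * (1 + 2 * CK + 4 * CN * CA + 2 * CK * CA + 8 * CK * CN * CA ^ 2) ≤ C) :
    CF * (J' * h ^ m * rd / lam + rs / G * del2 * rd + rs * e +
      lam * T * (CK * (rd * (b + rs / H * del2 + b / H) + rs *
        (CA / h * (del1 + s * delf + 2 * b * G / rs) * rd)) +
        (CK / H + CK * (CA / h)) * (rs * e))) ≤
    (C / h ^ 4 * (del2 / G + lam * del1 + s * delf) + C * b / (h ^ 4 * s * lam)) * (rs * rd) := by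
  have k1 := q1 y hrd
  have k2 := q2 y hrd hd2
  have k3 := q3 y hrd
  have k4 := q4 y hrd hd1 hdf
  have h0 := y.s_pos
  have b1 := y.b1
  have b3 := y.b3
  have h2 := y.h2
  have h4 := y.h4
  have e1 : rs * e ≤ (4 * CN * CA) * (rs * rd) * ((1 / h ^ 2) *
      (lam * del1 + s * delf + b / (s * lam))) := by
    obtain ⟨hh, hh1, hT0, hTh, hrs, hrs1, hs, hlam, hlam1, hG, hlG, hCA, hCK, hb, hH, hlH, hlH1⟩ := y
    calc rs * e ≤ rs * (4 * CN * CA * rd / h ^ 2 * (lam * del1 + s * delf + b / rs)) := by gcongr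
      _ ≤ rs * (4 * CN * CA * rd / h ^ 2 * (lam * del1 + s * delf + b / (s * lam))) := by gcongr
      _ = _ := by ring
  have hlam := y.hlam
  have hb := y.hb
  have k5 := q5 y hrd hCN he0 (D := lam * del1 + s * delf) (B := b / (s * lam)) (by positivity)
    (by positivity) e1
  have f2 : J' * h ^ m ≤ b := by
    have hh := y.hh
    have : J' * h ^ m = (T * h) * h ^ (m - 2) := by
      rw [hT]
      have : m = (m - 2) + 2 := by omega
      conv_lhs => rw [this, pow_add]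
      ring
    rw [this]
    have hTh : T * h ≤ 1 := by
      have := y.hTh
      rwa [le_div_iff₀ hh] at this
    calc (T * h) * h ^ (m - 2) ≤ 1 * b := by gcongr
      _ = b := one_mul b
  obtain ⟨hh, hh1, hT0, hTh, hrs, hrs1, hs, hlam, hlam1, hG, hlG, hCA, hCK, hb, hH, hlH, hlH1⟩ := y
  clear hs
  have hB0 : 0 ≤ b / (s * lam) := by positivity
  have hD0 : 0 ≤ lam * del1 + s * delf := by positivity
  have p1 : J' * h ^ m * rd / lam ≤ (rs * rd) * (1 / h ^ 4 * (b / (s * lam))) := by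
    calc J' * h ^ m * rd / lam ≤ b * rd / lam := by gcongr
      _ = rd * 1 * (b / lam) := by ring
      _ ≤ rd * (1 / h ^ 4) * (rs * (b / (s * lam))) := by gcongr
      _ = _ := by ring
  have p2 : rs / G * del2 * rd ≤ (rs * rd) * (1 / h ^ 4 * (del2 / G)) := by
    calc rs / G * del2 * rd = (rs * rd) * (1 * (del2 / G)) := by ring
      _ ≤ _ := by gcongr
  have p3 : rs * e ≤ (4 * CN * CA) * ((rs * rd) * (1 / h ^ 4 *
      (lam * del1 + s * delf + b / (s * lam)))) := by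
    refine e1.trans ?_
    rw [mul_assoc (4 * CN * CA)]
    gcongr
  have ez : (C / h ^ 4 * (del2 / G + lam * del1 + s * delf) + C * b / (h ^ 4 * s * lam)) *
      (rs * rd) = C * ((rs * rd) * (1 / h ^ 4 * (del2 / G + (lam * del1 + s * delf) +
        b / (s * lam)))) := by ring
  rw [ez]
  clear ez e1 he b1 b3 h2 h4 f2
  generalize hWd : (1 : ℝ) / h ^ 4 = W at *
  have hW0 : 0 ≤ W := by
    rw [← hWd]
    positivity
  generalize lam * del1 + s * delf = D at *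
  generalize b / (s * lam) = B at *
  have hdG : 0 ≤ del2 / G := by positivity
  generalize del2 / G = Y at *
  have hfin : CF * (J' * h ^ m * rd / lam + rs / G * del2 * rd + rs * e +
      lam * T * (CK * (rd * (b + rs / H * del2 + b / H) + rs *
        (CA / h * (del1 + s * delf + 2 * b * G / rs) * rd)) +
        (CK / H + CK * (CA / h)) * (rs * e))) ≤
      CF * ((1 + 2 * CK + 4 * CN * CA + 2 * CK * CA + 8 * CK * CN * CA ^ 2) *
        ((rs * rd) * (W * (Y + D + B)))) := by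
    apply mul_le_mul_of_nonneg_left _ (by linarith)
    have z : 0 ≤ (rs * rd) * (W * Y) := by positivity
    have z1 : 0 ≤ (rs * rd) * (W * D) := by positivity
    have z2 : 0 ≤ (rs * rd) * (W * B) := by positivity
    have z3 : 0 ≤ CK * ((rs * rd) * (W * Y)) := by positivity
    have z4 : 0 ≤ CK * ((rs * rd) * (W * D)) := by positivity
    have z5 : 0 ≤ (4 * CN * CA + 2 * CK * CA + 8 * CK * CN * CA ^ 2) *
      ((rs * rd) * (W * Y)) := by positivity
    have ex : lam * T * (CK * (rd * (b + rs / H * del2 + b / H) + rs *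
        (CA / h * (del1 + s * delf + 2 * b * G / rs) * rd)) +
        (CK / H + CK * (CA / h)) * (rs * e)) =
        lam * T * (CK * (rd * b)) + lam * T * (CK * (rd * (rs / H * del2))) +
        lam * T * (CK * (rd * (b / H))) +
        lam * T * (CK * (rs * (CA / h * (del1 + s * delf + 2 * b * G / rs) * rd))) +
        lam * T * ((CK / H + CK * (CA / h)) * (rs * e)) := by ring
    rw [ex]
    have ey : (1 + 2 * CK + 4 * CN * CA + 2 * CK * CA + 8 * CK * CN * CA ^ 2) *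
        ((rs * rd) * (W * (Y + D + B))) =
        (rs * rd) * (W * Y) + (rs * rd) * (W * D) + (rs * rd) * (W * B) +
        2 * (CK * ((rs * rd) * (W * Y))) + 2 * (CK * ((rs * rd) * (W * D))) +
        2 * (CK * ((rs * rd) * (W * B))) +
        (4 * CN * CA + 2 * CK * CA + 8 * CK * CN * CA ^ 2) * ((rs * rd) * (W * Y)) +
        (4 * CN * CA) * ((rs * rd) * (W * (D + B))) +
        (2 * CK * CA) * ((rs * rd) * (W * (D + B))) +
        (8 * CK * CN * CA ^ 2) * ((rs * rd) * (W * (D + B))) := by ring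
    rw [ey]
    linarith
  refine hfin.trans ?_
  calc CF * ((1 + 2 * CK + 4 * CN * CA + 2 * CK * CA + 8 * CK * CN * CA ^ 2) *
        ((rs * rd) * (W * (Y + D + B))))
      = (CF * (1 + 2 * CK + 4 * CN * CA + 2 * CK * CA + 8 * CK * CN * CA ^ 2)) *
        ((rs * rd) * (W * (Y + D + B))) := by ring
    _ ≤ C * ((rs * rd) * (W * (Y + D + B))) := by gcongr

end PST

end P347Z
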