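import Vale.Agent.P347Z.WdTame
import Vale.Agent.P347Z.GFlow

/-!
Module REGF: regularity along the flows, from `tame_main`, `tame_R`, `tame_smul`, `sem_sq`.
Words: `f` for the force; `T z` for `oA`; `Bs (T (Z z))` for `qq • GG` (`vg`; because `Z z` is the identity);
`T (T z)` for `T T z`; the scalars `lam`, `qq`, `tanh` are coefficients, `√s ≤ 1` by `tame_smul`
(`rr' s t = √s qq²`).
-/

open MeasureTheory ProbabilityTheory Function
open scoped ENNReal BigOperators ContDiff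

namespace P347Z

open P347Q P347S

/-- REGF1: identification of the words -/
theorem vec_f {d : ℕ} {V : E d → ℝ} {s : ℝ} (hV : Pot d V) (hs : 0 < s) (hs1 : s ≤ 1 / 4)
    (lam t : ℝ) (x : Z3 d) : vec (sem (PU V s lam) .f) (t, x) = fo V (lev s t) x.1 := by
  ext k
  exact pu_f (lam := lam) hV hs hs1 t x k

theorem rf1_Tz {d : ℕ} {V : E d → ℝ} {s : ℝ} (hV : Pot d V) (hs : 0 < s) (hs1 : s ≤ 1 / 4)
    (lam t : ℝ) (x : Z3 d) (i : Fin d) : sem (PU V s lam) (.T .z) [i] (t, x) =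
      HV (US V (lev s t)) x.1 x.2.2 i := by
  rw [← pu_T (lam := lam) hV hs hs1 t x x.2.2 i]
  rfl

/-- REGF1 -/
theorem vec_Tz {d : ℕ} {V : E d → ℝ} {s : ℝ} (hV : Pot d V) (hs : 0 < s) (hs1 : s ≤ 1 / 4)
    (lam t : ℝ) (x : Z3 d) : vec (sem (PU V s lam) (.T .z)) (t, x) = oA V s t x := by
  ext i
  exact rf1_Tz hV hs hs1 lam t x i

/-- REGF1 -/
theorem vec_TTz {d : ℕ} {V : E d → ℝ} {s : ℝ} (hV : Pot d V) (hs : 0 < s) (hs1 : s ≤ 1 / 4)
    (lam t : ℝ) (x : Z3 d) : (qq t * Real.tanh t) • vec (sem (PU V s lam) (.T (.T .z))) (t, x) =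
      oK V s t x := by
  have h : vec (sem (PU V s lam) (.T (.T .z))) (t, x) =
      HV (US V (lev s t)) x.1 (HV (US V (lev s t)) x.1 x.2.2) := by
    ext i
    rw [← pu_T (lam := lam) hV hs hs1 t x (HV (US V (lev s t)) x.1 x.2.2) i]
    have h2 : sem (PU V s lam) (.T (.T .z)) [i] (t, x) =
        ∑ j, (PU V s lam).T i j (t, x) * sem (PU V s lam) (.T .z) [j] (t, x) := rfl
    have h3 : vec (sem (PU V s lam) (.T (.T .z))) (t, x) i =
        sem (PU V s lam) (.T (.T .z)) [i] (t, x) := rfl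
    rw [h3, h2]
    exact Finset.sum_congr rfl fun j _ => by rw [rf1_Tz hV hs hs1]
  rw [h]
  rfl

/-- the word `B* T Z z` is the vector `vg` -/
theorem rf1_g {d : ℕ} {B : ℕ → ℝ} {P : Prm d} (hP : Fam B P) (x : TS d) :
    vec (sem P (Wd.Bs (.T (.Z .z)))) x = vg P x := by
  have hT : ∀ l i : Fin d, sem P (.T (.Z .z)) [l, i] = P.T l i := by
    intro l i
    funext y
    have h1 : sem P (.T (.Z .z)) [l, i] y = ∑ j, P.T l j y * dd (eZ j) (cz i) y := rfl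
    have h2 : ∀ j : Fin d, dd (eZ j) (cz i) y = bas d j i := fun j => by
      rw [dd_cz]
      rfl
    rw [h1]
    simp only [h2]
    simp [bas]
  ext i
  rw [dt_vg]
  have h3 : vec (sem P (Wd.Bs (.T (.Z .z)))) x i =
      cc x.1 * (∑ l, (cw l x * sem P (.T (.Z .z)) [l, i] x -
        dd (eW l) (sem P (.T (.Z .z)) [l, i]) x)) +
      th x.1 * ∑ l, (P.ρ x.1 * P.f l x * sem P (.T (.Z .z)) [l, i] x -
        P.ρ x.1 * dd (eY l) (sem P (.T (.Z .z)) [l, i]) x) := rfl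
  rw [h3]
  simp only [hT]
  rw [Finset.mul_sum, Finset.mul_sum, ← Finset.sum_add_distrib]
  refine Finset.sum_congr rfl fun l _ => ?_
  have h4 : dd (eW l) (P.T l i) x = 0 := congrFun (dd_W_Df hP l [l] i) x
  have h5 : dd (eY l) (P.T l i) x = P.Df [l, l] i x := rfl
  rw [h4, h5]
  unfold Prm.ρ
  ring

/-- REGF1 -/
theorem vec_g {d : ℕ} {V : E d → ℝ} {s : ℝ} (hV : Pot d V) (hs : 0 < s) (hs1 : s ≤ 1 / 4)
    (lam t : ℝ) (x : Z3 d) : vec (sem (PU V s lam) (Wd.Bs (.T (.Z .z)))) (t, x) =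
      qq t • GG (US V (lev s t)) (rr s t) x.1 x.2.1 := by
  obtain ⟨B, hB⟩ := fam_us
  have h1 : vec (sem (PU V s lam) (Wd.Bs (.T (.Z .z)))) (t, x) =
      vec (sem (PU V s 0) (Wd.Bs (.T (.Z .z)))) (t, x) := rfl
  rw [h1, rf1_g (hB d V s 0 hV hs hs1 le_rfl zero_le_one), pu_vg hV hs hs1]

end P347Z
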