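import Vale.Agent.P347Z.REGF1

/-!
Module REGF: regularity along the flows, from `tame_main`, `tame_R`, `tame_smul`, `sem_sq`.
Words: `f` for the force; `T z` for `oA`; `Bs (T (Z z))` for `qq • GG` (`vg`; because `Z z` is the identity);
`T (T z)` for `T T z`; the scalars `lam`, `qq`, `tanh` are coefficients, `√s ≤ 1` by `tame_smul`
(`rr' s t = √s qq²`).
-/

open MeasureTheory ProbabilityTheory Function
open scoped ENNReal BigOperators ContDiff

namespace P347Z

open P347Q P347S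

private theorem rgm_sc {d : ℕ} (P : Prm d) (g : Cf) (a : Wd) (x : TS d) :
    vec (sem P (.sc g a)) x = g.ev P.s P.lam x.1 • vec (sem P a) x := by
  ext i
  simp [vec, sem, opS]

private theorem rgm_cc (t : ℝ) : cc t = qq t := by
  rw [cc, qq, one_div]

private theorem rgm_th (t : ℝ) : th t = Real.tanh t := by
  rw [th, Real.tanh_eq_sinh_div_cosh]

/-- REGF2 -/
theorem reg_main (m : ℕ) : ∃ C : ℝ, 0 < C ∧ ∀ (d : ℕ) (V : E d → ℝ) (s lam t0 T : ℝ)
    (Φ : ℝ → Z3 d → Z3 d), Pot d V → 0 < s → s ≤ 1 / 4 → 0 ≤ lam → lam ≤ 1 → 0 ≤ T →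
    IsG V s (fun t => rr s (t0 + t)) (fun t => lam * qq (t0 + t) ^ 2) T Φ →
    Tame m C T (mu3 V (lev s t0)) (fun t x => fo V (lev s (t0 + t)) (Φ t x).1) ∧
    Tame m C T (mu3 V (lev s t0)) (fun t x => rr' s (t0 + t) • fo V (lev s (t0 + t)) (Φ t x).1) ∧
    Tame m C T (mu3 V (lev s t0)) (fun t x => (lam * qq (t0 + t) ^ 2) • oA V s (t0 + t) (Φ t x)) ∧
    Tame m C T (mu3 V (lev s t0)) (fun t x => (lam * qq (t0 + t) ^ 2) •
      GG (US V (lev s (t0 + t))) (rr s (t0 + t)) (Φ t x).1 (Φ t x).2.1) ∧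
    Tame m C T (mu3 V (lev s t0)) (fun t x => (lam * qq (t0 + t)) • oK V s (t0 + t) (Φ t x)) := by
  obtain ⟨C1, hC1, H1⟩ := tame_main .f (by simp [Wd.ok]) m
  obtain ⟨C2, hC2, H2⟩ := tame_main (.sc (.mul .c .c) .f) (by simp [Wd.ok]) m
  obtain ⟨C3, hC3, H3⟩ := tame_main (.sc (.mul .l (.mul .c .c)) (.T .z)) (by simp [Wd.ok]) m
  obtain ⟨C4, hC4, H4⟩ := tame_main (.sc (.mul .l .c) (Wd.Bs (.T (.Z .z))))
    (by simp [Wd.ok, Wd.Bs]) m
  obtain ⟨C5, hC5, H5⟩ := tame_main (.sc (.mul (.mul .l .c) (.mul .c .h)) (.T (.T .z)))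
    (by simp [Wd.ok]) m
  refine ⟨C1 + C2 + C3 + C4 + C5, by positivity, ?_⟩
  intro d V s lam t0 T Φ hV hs hs1 hl0 hl1 hT hΦ
  refine ⟨?_, ?_, ?_, ?_, ?_⟩
  · have h := H1 d V s lam t0 T Φ hV hs hs1 hl0 hl1 hT hΦ
    have e : (fun t x => vec (sem (PU V s lam) .f) (t0 + t, Φ t x)) =
        fun t x => fo V (lev s (t0 + t)) (Φ t x).1 := by
      funext t x
      rw [vec_f hV hs hs1]
    rw [e] at h
    exact tame_mono h (by linarith)
  · have h := H2 d V s lam t0 T Φ hV hs hs1 hl0 hl1 hT hΦ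
    have hs2 : |√s| ≤ 1 := by
      rw [abs_of_nonneg (Real.sqrt_nonneg s)]
      rw [Real.sqrt_le_left (by norm_num)]
      linarith
    have h' := tame_smul hs2 h hC2.le
    have e : (fun t x => √s • vec (sem (PU V s lam) (.sc (.mul .c .c) .f)) (t0 + t, Φ t x)) =
        fun t x => rr' s (t0 + t) • fo V (lev s (t0 + t)) (Φ t x).1 := by
      funext t x
      rw [rgm_sc, vec_f hV hs hs1, smul_smul]
      congr 1
      simp only [Cf.ev, rgm_cc, qq, rr']
      ring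
    rw [e] at h'
    exact tame_mono h' (by linarith)
  · have h := H3 d V s lam t0 T Φ hV hs hs1 hl0 hl1 hT hΦ
    have e : (fun t x => vec (sem (PU V s lam) (.sc (.mul .l (.mul .c .c)) (.T .z)))
        (t0 + t, Φ t x)) = fun t x => (lam * qq (t0 + t) ^ 2) • oA V s (t0 + t) (Φ t x) := by
      funext t x
      rw [rgm_sc, vec_Tz hV hs hs1]
      congr 1
      simp only [Cf.ev, rgm_cc, PU]
      ring
    rw [e] at h
    exact tame_mono h (by linarith)
  · have h := H4 d V s lam t0 T Φ hV hs hs1 hl0 hl1 hT hΦ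
    have e : (fun t x => vec (sem (PU V s lam) (.sc (.mul .l .c) (Wd.Bs (.T (.Z .z)))))
        (t0 + t, Φ t x)) = fun t x => (lam * qq (t0 + t) ^ 2) •
      GG (US V (lev s (t0 + t))) (rr s (t0 + t)) (Φ t x).1 (Φ t x).2.1 := by
      funext t x
      rw [rgm_sc, vec_g hV hs hs1, smul_smul]
      congr 1
      simp only [Cf.ev, rgm_cc, PU]
      ring
    rw [e] at h
    exact tame_mono h (by linarith)
  · have h := H5 d V s lam t0 T Φ hV hs hs1 hl0 hl1 hT hΦ
    have e : (fun t x => vec (sem (PU V s lam) (.sc (.mul (.mul .l .c) (.mul .c .h))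
        (.T (.T .z)))) (t0 + t, Φ t x)) =
        fun t x => (lam * qq (t0 + t)) • oK V s (t0 + t) (Φ t x) := by
      funext t x
      rw [rgm_sc, ← vec_TTz hV hs hs1 lam, smul_smul]
      congr 1
      simp only [Cf.ev, rgm_cc, rgm_th, PU]
    rw [e] at h
    exact tame_mono h (by linarith)

end P347Z
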