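import Vale.Agent.P347Z.REGF1

/-!
Module REGF: regularity along the flows, from `tame_main`, `tame_R`, `tame_smul`, `sem_sq`.
Words: `f` for the force; `T z` for `oA`; `Bs (T (Z z))` for `qq • GG` (`vg`; because `Z z` is the identity);
`T (T z)` for `T T z`; the scalars `lam`, `qq`, `tanh` are coefficients, `√s ≤ 1` by `tame_smul`
(`rr' s t = √s qq²`).
-/

open MeasureTheory ProbabilityTheory Function
open scoped ENNReal BigOperators ContDiff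

namespace P347Z

open P347Q P347S

/-- REGF3 -/
theorem reg_R (m : ℕ) : ∃ C : ℝ, 0 < C ∧ ∀ (d : ℕ) (V : E d → ℝ) (s t0 T : ℝ)
    (Φ : ℝ → Z3 d → Z3 d), Pot d V → 0 < s → s ≤ 1 / 4 → 0 ≤ T →
    IsG V s (fun _ => rr s t0) (fun _ => qq t0) T Φ →
    Tame m C T (mu3 V (lev s t0)) (fun v x => fo V (lev s t0) (Φ v x).1) ∧
    Tame m C T (mu3 V (lev s t0)) (fun v x => qq t0 • oA V s t0 (Φ v x)) ∧
    Tame m C T (mu3 V (lev s t0)) (fun v x => qq t0 •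
      GG (US V (lev s t0)) (rr s t0) (Φ v x).1 (Φ v x).2.1) := by
  have ok1 : Wd.f.ok 1 := rfl
  have ok2 : (Wd.sc .c (.T .z)).ok 1 := ⟨rfl, le_rfl⟩
  have ok3 : (Wd.Bs (.T (.Z .z))).ok 1 := ok_Bs ⟨⟨by omega, rfl⟩, by omega⟩
  obtain ⟨C1, hC1, h1⟩ := tame_R .f ok1 m
  obtain ⟨C2, hC2, h2⟩ := tame_R (.sc .c (.T .z)) ok2 m
  obtain ⟨C3, hC3, h3⟩ := tame_R (Wd.Bs (.T (.Z .z))) ok3 m
  refine ⟨C1 + C2 + C3, by positivity, fun d V s t0 T Φ hV hs hs1 hT hΦ => ⟨?_, ?_, ?_⟩⟩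
  · have h := h1 d V s 0 t0 T Φ hV hs hs1 le_rfl zero_le_one hT hΦ
    refine tame_mono ?_ (by linarith : C1 ≤ C1 + C2 + C3)
    refine (congrArg (Tame m C1 T (mu3 V (lev s t0))) ?_).mp h
    funext t x
    exact vec_f hV hs hs1 0 t0 (Φ t x)
  · have h := h2 d V s 0 t0 T Φ hV hs hs1 le_rfl zero_le_one hT hΦ
    refine tame_mono ?_ (by linarith : C2 ≤ C1 + C2 + C3)
    refine (congrArg (Tame m C2 T (mu3 V (lev s t0))) ?_).mp h
    funext t x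
    rw [← vec_Tz hV hs hs1 0 t0 (Φ t x), ← cc_eq]
    rfl
  · have h := h3 d V s 0 t0 T Φ hV hs hs1 le_rfl zero_le_one hT hΦ
    refine tame_mono ?_ (by linarith : C3 ≤ C1 + C2 + C3)
    refine (congrArg (Tame m C3 T (mu3 V (lev s t0))) ?_).mp h
    funext t x
    exact vec_g hV hs hs1 0 t0 (Φ t x)

end P347Z
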