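import Vale.Agent.P347Z.REGF1

/-!
Module REGF: regularity along the flows, from `tame_main`, `tame_R`, `tame_smul`, `sem_sq`.
Words: `f` for the force; `T z` for `oA`; `Bs (T (Z z))` for `qq • GG` (`vg`; because `Z z` is the identity);
`T (T z)` for `T T z`; the scalars `lam`, `qq`, `tanh` are coefficients, `√s ≤ 1` by `tame_smul`
(`rr' s t = √s qq²`).
-/

open MeasureTheory ProbabilityTheory Function
open scoped ENNReal BigOperators ContDiff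

namespace P347Z

open P347Q P347S

/-- static bound of one word -/
theorem rf4_word (a : Wd) (ha : a.ok 1) : ∃ C : ℝ, 0 < C ∧ ∀ (d : ℕ) (V : E d → ℝ) (s t : ℝ),
    Pot d V → 0 < s → s ≤ 1 / 4 →
    Integrable (fun x => ‖vec (sem (PU V s 0) a) (t, x)‖ ^ 2) (mu3 V (lev s t)) ∧
      ∫ x, ‖vec (sem (PU V s 0) a) (t, x)‖ ^ 2 ∂(mu3 V (lev s t)) ≤ C * d := by
  obtain ⟨B, hB⟩ := fam_us
  obtain ⟨C, hC, h⟩ := sem_sq B a ha
  refine ⟨C + 1, by positivity, fun d V s t hV hs hs1 => ?_⟩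
  have hP := hB d V s 0 hV hs hs1 le_rfl zero_le_one
  have hid : MeasurePreserving (id : Z3 d → Z3 d) (mu3 V (lev s t)) ((PU V s 0).mu t) := by
    rw [pu_mu]
    exact MeasurePreserving.id _
  refine TameW.vec_int hP (sem_reg hP a) hid ((h d _ t hP).trans ?_)
  exact mul_le_mul_of_nonneg_right (by linarith) (Nat.cast_nonneg d)

/-- multiplication by a small number -/
theorem rf4_smul {X : Type*} [MeasurableSpace X] {d : ℕ} {μ : Measure X} {g : X → E d} {a C : ℝ}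
    (ha : a ^ 2 ≤ 1) (h1 : Integrable (fun x => ‖g x‖ ^ 2) μ) (h2 : ∫ x, ‖g x‖ ^ 2 ∂μ ≤ C * d) :
    Integrable (fun x => ‖a • g x‖ ^ 2) μ ∧ ∫ x, ‖a • g x‖ ^ 2 ∂μ ≤ C * d := by
  have e : (fun x => ‖a • g x‖ ^ 2) = fun x => a ^ 2 * ‖g x‖ ^ 2 := by
    funext x
    rw [norm_smul, mul_pow, Real.norm_eq_abs, sq_abs]
  rw [e]
  refine ⟨h1.const_mul _, ?_⟩
  rw [integral_const_mul]
  have hn : 0 ≤ ∫ x, ‖g x‖ ^ 2 ∂μ := integral_nonneg fun x => by positivity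
  calc a ^ 2 * ∫ x, ‖g x‖ ^ 2 ∂μ ≤ 1 * ∫ x, ‖g x‖ ^ 2 ∂μ :=
        mul_le_mul_of_nonneg_right ha hn
    _ ≤ C * d := by rw [one_mul]; exact h2

/-- REGF4: static bounds (words without derivatives in time) -/
theorem static_bound : ∃ C : ℝ, 0 < C ∧ ∀ (d : ℕ) (V : E d → ℝ) (s t : ℝ), Pot d V → 0 < s →
    s ≤ 1 / 4 →
    (Integrable (fun x => ‖fo V (lev s t) x.1‖ ^ 2) (mu3 V (lev s t)) ∧
      ∫ x, ‖fo V (lev s t) x.1‖ ^ 2 ∂(mu3 V (lev s t)) ≤ C * d) ∧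
    (Integrable (fun x => ‖oA V s t x‖ ^ 2) (mu3 V (lev s t)) ∧
      ∫ x, ‖oA V s t x‖ ^ 2 ∂(mu3 V (lev s t)) ≤ C * d) ∧
    (Integrable (fun x => ‖oG V s t x‖ ^ 2) (mu3 V (lev s t)) ∧
      ∫ x, ‖oG V s t x‖ ^ 2 ∂(mu3 V (lev s t)) ≤ C * d) ∧
    (Integrable (fun x => ‖oK V s t x‖ ^ 2) (mu3 V (lev s t)) ∧
      ∫ x, ‖oK V s t x‖ ^ 2 ∂(mu3 V (lev s t)) ≤ C * d) := by
  have ok1 : Wd.f.ok 1 := rfl
  have ok2 : (Wd.T .z).ok 1 := ⟨rfl, le_rfl⟩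
  have ok3 : (Wd.Bs (.T (.Z .z))).ok 1 := ok_Bs ⟨⟨by omega, rfl⟩, by omega⟩
  have ok4 : (Wd.T (.T .z)).ok 1 := ⟨⟨rfl, le_rfl⟩, le_rfl⟩
  obtain ⟨C1, hC1, h1⟩ := rf4_word .f ok1
  obtain ⟨C2, hC2, h2⟩ := rf4_word (.T .z) ok2
  obtain ⟨C3, hC3, h3⟩ := rf4_word (Wd.Bs (.T (.Z .z))) ok3
  obtain ⟨C4, hC4, h4⟩ := rf4_word (.T (.T .z)) ok4
  refine ⟨C1 + C2 + C3 + C4, by positivity, fun d V s t hV hs hs1 => ?_⟩
  have hd : (0 : ℝ) ≤ d := Nat.cast_nonneg d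
  have hc0 := cc_pos t
  have hc1 := cc_le_one t
  refine ⟨?_, ?_, ?_, ?_⟩
  · obtain ⟨g1, g2⟩ := h1 d V s t hV hs hs1
    simp only [vec_f hV hs hs1] at g1 g2
    exact ⟨g1, g2.trans (mul_le_mul_of_nonneg_right (by linarith) hd)⟩
  · obtain ⟨g1, g2⟩ := h2 d V s t hV hs hs1
    simp only [vec_Tz hV hs hs1] at g1 g2
    exact ⟨g1, g2.trans (mul_le_mul_of_nonneg_right (by linarith) hd)⟩
  · obtain ⟨g1, g2⟩ := h3 d V s t hV hs hs1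
    have ha : (√s * cc t) ^ 2 ≤ 1 := by
      rw [mul_pow, Real.sq_sqrt hs.le]
      have : cc t ^ 2 ≤ 1 := pow_le_one₀ hc0.le hc1
      nlinarith
    obtain ⟨g3, g4⟩ := rf4_smul ha g1 g2
    have e : ∀ x : Z3 d, (√s * cc t) • vec (sem (PU V s 0) (Wd.Bs (.T (.Z .z)))) (t, x) =
        oG V s t x := by
      intro x
      rw [vec_g hV hs hs1, ← cc_eq, smul_smul, oG, rr'_eq]
      congr 1
      ring
    simp only [e] at g3 g4
    exact ⟨g3, g4.trans (mul_le_mul_of_nonneg_right (by linarith) hd)⟩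
  · obtain ⟨g1, g2⟩ := h4 d V s t hV hs hs1
    have ha : (qq t * Real.tanh t) ^ 2 ≤ 1 := by
      rw [← cc_eq, ← th_eq, mul_pow]
      have h5 := cc_sq_add t
      have h6 : cc t ^ 2 ≤ 1 := pow_le_one₀ hc0.le hc1
      nlinarith [sq_nonneg (th t), sq_nonneg (cc t)]
    obtain ⟨g3, g4⟩ := rf4_smul ha g1 g2
    simp only [vec_TTz hV hs hs1] at g3 g4
    exact ⟨g3, g4.trans (mul_le_mul_of_nonneg_right (by linarith) hd)⟩

end P347Z
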