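import Vale.Agent.P347Z.RUDefs
import Vale.Agent.P347Z.RulesA

/-!
Module RULES: quadrature and differentiation rules on `N+1` common nodes `t_j ∈ [0,1]`, `t_0 = 0`, exact for
polynomials of degree `< m`.
Existence: the nodes are those of a positive rule (`P347Q.rule_exists`) together with `0` and `m` distinct extra
nodes of weight zero in `w`; the evaluations at `m` distinct nodes span the dual of the polynomials of degree
`< m`, which gives the rows of `A` and `D` (for example by Lagrange interpolation).
Errors: Taylor's formula, see `P347Q/QuadErr.lean` (`taylor_err'`; there the interval is `[0,1/4]`, here `[0,h]`).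
-/

open MeasureTheory ProbabilityTheory Function
open scoped ENNReal BigOperators ContDiff

namespace P347Z

open P347Q P347S

/-- RU1 -/
theorem rs_exists (m : ℕ) : ∃ N : ℕ, Nonempty (RS m N) := by
  obtain ⟨N₀, _, ⟨R⟩⟩ := rule_exists m
  set e : Fin m → ℝ := fun i => 1 / (((i : ℕ) : ℝ) + 1) with he
  have hinj : Function.Injective e := by
    intro i j hij
    simp only [he] at hij
    have h1 : (((i : ℕ) : ℝ) + 1) ≠ 0 := by positivity
    have h2 : (((j : ℕ) : ℝ) + 1) ≠ 0 := by positivity
    have h3 : ((i : ℕ) : ℝ) + 1 = ((j : ℕ) : ℝ) + 1 := by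
      field_simp at hij
      linarith
    exact Fin.ext (by exact_mod_cast add_right_cancel h3)
  set t : Fin (N₀ + m + 1) → ℝ := Fin.cons 0 (Fin.append R.t e) with ht
  have ht1 : ∀ j, t j ∈ Set.Icc (0 : ℝ) 1 := by
    intro j
    refine Fin.cases ?_ (fun j => ?_) j
    · simp [ht]
    · rw [ht, Fin.cons_succ]
      refine Fin.addCases (fun j => ?_) (fun j => ?_) j
      · rw [Fin.append_left]
        exact R.t_mem j
      · rw [Fin.append_right, he]
        refine ⟨by positivity, ?_⟩
        show 1 / (((j : ℕ) : ℝ) + 1) ≤ 1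
        rw [div_le_one (by positivity)]
        have : (0 : ℝ) ≤ (j : ℕ) := Nat.cast_nonneg _
        linarith
  choose c hc using fun y : ℕ → ℝ => RulesAux.wts m e hinj y
  have hsum : ∀ (y : ℕ → ℝ), ∀ i < m,
      ∑ j, (Fin.cons 0 (Fin.append (0 : Fin N₀ → ℝ) (c y)) : Fin (N₀ + m + 1) → ℝ) j * t j ^ i =
        y i := by
    intro y i hi
    rw [Fin.sum_univ_succ, Fin.sum_univ_add]
    simp only [ht, Fin.cons_zero, Fin.cons_succ, Fin.append_left, Fin.append_right, zero_mul,
      zero_add, Pi.zero_apply, Finset.sum_const_zero]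
    exact hc y i hi
  refine ⟨N₀ + m, ⟨⟨t, Fin.cons 0 (Fin.append R.w 0),
    fun k => Fin.cons 0 (Fin.append 0 (c fun i => t k ^ (i + 1) / ((i : ℝ) + 1))),
    Fin.cons 0 (Fin.append 0 (c fun i => if i = 1 then 1 else 0)), ht1, rfl, ?_, ?_, ?_, ?_⟩⟩⟩
  · intro j
    refine Fin.cases ?_ (fun j => ?_) j
    · simp
    · rw [Fin.cons_succ]
      refine Fin.addCases (fun j => ?_) (fun j => ?_) j
      · rw [Fin.append_left]
        exact R.w_nonneg j
      · rw [Fin.append_right]
        exact le_rfl
  · intro i hi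
    rw [Fin.sum_univ_succ, Fin.sum_univ_add]
    simp only [ht, Fin.cons_zero, Fin.cons_succ, Fin.append_left, Fin.append_right, zero_mul,
      zero_add, Pi.zero_apply, Finset.sum_const_zero, add_zero]
    exact R.w_exact i hi
  · intro k i hi
    exact hsum (fun i => t k ^ (i + 1) / ((i : ℝ) + 1)) i hi
  · intro i hi
    exact hsum (fun i => if i = 1 then 1 else 0) i hi

end P347Z
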