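import Vale.Agent.P347Z.WdTame
import Vale.Agent.P347Q.QuadErr
import Vale.Agent.P347Q.QuadEx

/-!
Module RULES: quadrature and differentiation rules on `N+1` common nodes `t_j ∈ [0,1]`, `t_0 = 0`, exact for
polynomials of degree `< m`.
Existence: the nodes are those of a positive rule (`P347Q.rule_exists`) together with `0` and `m` distinct extra
nodes of weight zero in `w`; the evaluations at `m` distinct nodes span the dual of the polynomials of degree
`< m`, which gives the rows of `A` and `D` (for example by Lagrange interpolation).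
Errors: Taylor's formula, see `P347Q/QuadErr.lean` (`taylor_err'`; there the interval is `[0,1/4]`, here `[0,h]`).
-/

open MeasureTheory ProbabilityTheory Function
open scoped ENNReal BigOperators ContDiff

namespace P347Z

open P347Q P347S

/-- rules exact for polynomials of degree `< m` on the nodes `t_0 = 0, t_1, ..., t_N` -/
structure RS (m N : ℕ) where
  t : Fin (N + 1) → ℝ
  w : Fin (N + 1) → ℝ
  A : Fin (N + 1) → Fin (N + 1) → ℝ
  D : Fin (N + 1) → ℝ
  t_mem : ∀ j, t j ∈ Set.Icc (0 : ℝ) 1
  t_zero : t 0 = 0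
  w_nonneg : ∀ j, 0 ≤ w j
  w_exact : ∀ i < m, ∑ j, w j * t j ^ i = 1 / ((i : ℝ) + 1)
  A_exact : ∀ k, ∀ i < m, ∑ j, A k j * t j ^ i = t k ^ (i + 1) / ((i : ℝ) + 1)
  D_exact : ∀ i < m, ∑ j, D j * t j ^ i = if i = 1 then 1 else 0

end P347Z
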