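import Vale.Agent.P347Z.REGF2
import Vale.Agent.P347Z.REGF3
import Vale.Agent.P347Z.REGF4

/-! collects REGF1..REGF4 -/
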