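import Vale.Agent.P347Z.SSAux
import Vale.Agent.P347Z.SSDefs

/-!
Module SS: the exact paths seen by the algorithm (nodes, stationarity, quadrature residuals).  Everything follows
from `gflow_exists`, `reg_main`, `reg_R`, `rs_tame`, the fundamental theorem of calculus and `IsG`.
S1: free path from the clock time `t0`.  S2: kick flow at the fixed clock time `t0`.  S3: main path.
-/

open MeasureTheory ProbabilityTheory Function
open scoped ENNReal BigOperators ContDiff

namespace P347Z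

open P347Q P347S

/-- S1.  `x i` = position `Y` of the free path at the clock time `t0 + h t_i`, started at time `t0` in
`p = (Y, w, z)` (`lam = 0`; `z` is irrelevant).  Last item: the derivative of the force at time `t0` is `oG`. -/
theorem s1_exists {m N : ℕ} (R : RS m N) (hm : 3 ≤ m) : ∃ C : ℝ, 0 < C ∧
    ∀ (d : ℕ) (V : E d → ℝ) (s t0 h : ℝ), Pot d V → 0 < s → s ≤ 1 / 4 → 0 < h → h ≤ 1 →
    ∃ x : Fin (N + 1) → Z3 d → E d, (∀ i, Measurable (x i)) ∧
      (∀ i, (mu3 V (lev s t0)).map (x i) = gibbs (US V (lev s (t0 + h * R.t i)))) ∧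
      (∀ i, Integrable (fun p => ‖x i p - (p.1 + (rr s (t0 + h * R.t i) - rr s t0) • p.2.1) +
          rr s (t0 + h * R.t i) • ∑ j, (h * R.A i j * rr' s (t0 + h * R.t j)) •
            fo V (lev s (t0 + h * R.t j)) (x j p)‖) (mu3 V (lev s t0)) ∧
        ∫ p, ‖x i p - (p.1 + (rr s (t0 + h * R.t i) - rr s t0) • p.2.1) +
          rr s (t0 + h * R.t i) • ∑ j, (h * R.A i j * rr' s (t0 + h * R.t j)) •
            fo V (lev s (t0 + h * R.t j)) (x j p)‖ ∂(mu3 V (lev s t0)) ≤ C * h ^ m * √d) ∧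
      (Integrable (fun p => ‖h⁻¹ • ∑ j, R.D j • fo V (lev s (t0 + h * R.t j)) (x j p) - oG V s t0 p‖)
          (mu3 V (lev s t0)) ∧
        ∫ p, ‖h⁻¹ • ∑ j, R.D j • fo V (lev s (t0 + h * R.t j)) (x j p) - oG V s t0 p‖
          ∂(mu3 V (lev s t0)) ≤ C * h ^ (m - 2) * √d) := by
  obtain ⟨C1, hC1, hreg⟩ := reg_main m
  obtain ⟨K, hK, hrs⟩ := rs_tame R hm
  refine ⟨K * √C1, by positivity, ?_⟩
  intro d V s t0 h hV hs hs1 hh hh1
  obtain ⟨Φ, hΦ, -⟩ := gflow_exists hV hs hs1 (ssa_rr_smooth s t0) (ssa_a_smooth 0 t0)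
    (fun t => ssa_rr_sq_lt hs _) (T := h) hh.le
  obtain ⟨T1, T2, T3, -, -⟩ := hreg d V s 0 t0 h Φ hV hs hs1 le_rfl zero_le_one hh.le hΦ
  have hp := ssa_mu3_prob hV (ssa_lev_pos hs t0) (le_trans (ssa_lev_le hs t0) hs1)
  obtain ⟨-, q2, -⟩ := hrs d C1 h 0 h (mu3 V (lev s t0)) _ hp T2 hC1 le_rfl hh (by simp)
  obtain ⟨-, -, q3⟩ := hrs d C1 h 0 h (mu3 V (lev s t0)) _ hp T1 hC1 le_rfl hh (by simp)
  have hmem : ∀ i, h * R.t i ∈ Set.Icc (0 : ℝ) h := fun i =>
    ⟨mul_nonneg hh.le (R.t_mem i).1, mul_le_of_le_one_right hh.le (R.t_mem i).2⟩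
  have hmp : ∀ i, MeasurePreserving (Φ (h * R.t i)) (mu3 V (lev s t0))
      (mu3 V (lev s (t0 + h * R.t i))) := by
    intro i
    have := hΦ.mp _ (hmem i)
    simp only [lev_rr hs, add_zero] at this
    exact this
  refine ⟨fun i p => (Φ (h * R.t i) p).1, fun i => (hmp i).measurable.fst, ?_, ?_, ?_⟩
  · intro i
    have h1 : (mu3 V (lev s t0)).map (fun p => (Φ (h * R.t i) p).1) =
        ((mu3 V (lev s t0)).map (Φ (h * R.t i))).map Prod.fst := by
      rw [Measure.map_map measurable_fst (hmp i).measurable]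
      rfl
    rw [h1, (hmp i).map_eq]
    exact ssa_mu3_fst hV (ssa_lev_pos hs _) (le_trans (ssa_lev_le hs _) hs1)
  · intro i
    obtain ⟨j1, j2⟩ := q2 i
    have key : (fun p : Z3 d => ‖(Φ (h * R.t i) p).1 - (p.1 + (rr s (t0 + h * R.t i) - rr s t0) • p.2.1) +
          rr s (t0 + h * R.t i) • ∑ j, (h * R.A i j * rr' s (t0 + h * R.t j)) •
            fo V (lev s (t0 + h * R.t j)) (Φ (h * R.t j) p).1‖) =
        fun p => |rr s (t0 + h * R.t i)| * ‖(∫ t in (0 : ℝ)..(0 + h * R.t i), rr' s (t0 + t) •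
          fo V (lev s (t0 + t)) (Φ t p).1) - h • ∑ j, R.A i j • (rr' s (t0 + (0 + h * R.t j)) •
            fo V (lev s (t0 + (0 + h * R.t j))) (Φ (0 + h * R.t j) p).1)‖ := by
      funext p
      have e1 := hΦ.centre p _ (hmem i)
      have e2 := ssa_w hs hΦ T2 T3 p le_rfl (hmem i).1 (hmem i).2
      simp only [add_zero, hΦ.zero, zero_mul, zero_smul, intervalIntegral.integral_zero, sub_zero] at e1 e2
      rw [← Real.norm_eq_abs, ← norm_smul]
      simp only [zero_add]
      have e3 : (Φ (h * R.t i) p).2.1 = p.2.1 - ∫ t in (0 : ℝ)..(h * R.t i), rr' s (t0 + t) •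
          fo V (lev s (t0 + t)) (Φ t p).1 := by
        rw [sub_eq_iff_eq_add] at e2
        rw [e2]
        abel
      have e4 : (Φ (h * R.t i) p).1 = p.1 - rr s t0 • p.2.1 +
          rr s (t0 + h * R.t i) • (Φ (h * R.t i) p).2.1 := by
        rw [← e1]
        abel
      have e5 : ∑ j, (h * R.A i j * rr' s (t0 + h * R.t j)) •
            fo V (lev s (t0 + h * R.t j)) (Φ (h * R.t j) p).1 =
          h • ∑ j, R.A i j • (rr' s (t0 + h * R.t j) •
            fo V (lev s (t0 + h * R.t j)) (Φ (h * R.t j) p).1) := by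
        rw [Finset.smul_sum]
        refine Finset.sum_congr rfl fun j _ => ?_
        module
      rw [e4, e3, e5, ← norm_neg]
      congr 1
      module
    rw [key]
    refine ⟨j1.const_mul _, ?_⟩
    rw [integral_const_mul, ← ssa_sqrt K C1 h m d hC1]
    calc _ ≤ 1 * _ := mul_le_mul_of_nonneg_right (ssa_abs_rr_le hs hs1 _)
          (integral_nonneg fun _ => norm_nonneg _)
      _ ≤ _ := by
          rw [one_mul]
          exact j2
  · have h1 : ∀ x, HasDerivWithinAt (fun τ => fo V (lev s (t0 + τ)) (Φ τ x).1) (oG V s t0 x)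
        (Set.Icc (0 : ℝ) h) 0 := by
      intro x
      have h2 := ssa_fo_along hV hΦ (fun t => ssa_rr_sq_lt hs _) x (t := 0) ⟨le_rfl, hh.le⟩
        ((ssa_rr_smooth s t0).differentiable (by simp) 0)
      rw [deriv_rr] at h2
      simp only [lev_rr hs, hΦ.zero, add_zero, zero_mul, mul_zero, zero_smul, sub_zero] at h2
      exact h2
    obtain ⟨j1, j2⟩ := q3 _ h1
    simp only [zero_add] at j1 j2
    simp only [norm_sub_rev (oG V s t0 _)] at j1 j2
    refine ⟨j1, ?_⟩
    rw [← ssa_sqrt K C1 h (m - 2) d hC1]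
    exact j2

end P347Z
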