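import Vale.Agent.P347Z.SS
import Vale.Agent.P347Z.OrcDefs
import Vale.Agent.P347Z.PassHas

/-!
P347Z / SampA: the free path over one small step, from `s3_exists` with `lam = 0`, `J = 1`.
-/

open MeasureTheory ProbabilityTheory Function
open scoped ENNReal

namespace P347Z

open P347Q P347S

namespace Samp

variable {d : ℕ}

theorem lev_pos {s t : ℝ} (hs : 0 < s) : 0 < lev s t := by
  unfold lev
  have := Real.cosh_pos t
  positivity

theorem lev_le {s t : ℝ} (hs : 0 ≤ s) : lev s t ≤ s := by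
  unfold lev
  have h1 : 1 ≤ Real.cosh t ^ 2 := one_le_pow₀ (Real.one_le_cosh t)
  exact div_le_self hs h1

theorem lev_zero (s : ℝ) : lev s 0 = s := by
  unfold lev
  simp

theorem gauss_enorm (d : ℕ) : ∫⁻ z, ‖z‖ₑ ∂(stdGaussian (E d)) ≤ ENNReal.ofReal (√d) := by
  have hi : Integrable (fun z : E d => z) (stdGaussian (E d)) := by
    have := gauss_int_pow d 1
    simp only [pow_one] at this
    exact (integrable_norm_iff (by fun_prop)).1 this
  have h1 := ofReal_integral_norm_eq_lintegral_enorm hi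
  rw [← h1]
  exact ENNReal.ofReal_le_ofReal (gauss_norm d)

/-- conversion of an integral bound -/
theorem lint_of_int {X : Type*} [MeasurableSpace X] {μ : Measure X} {F G : X → E d} {c : ℝ}
    (hi : Integrable (fun x => ‖F x‖) μ) (hb : ∫ x, ‖F x‖ ∂μ ≤ c) (h : ∀ x, ‖G x‖ = ‖F x‖) :
    ∫⁻ x, ‖G x‖ₑ ∂μ ≤ ENNReal.ofReal c := by
  have h1 := ofReal_integral_norm_eq_lintegral_enorm hi
  have e1 : ∫⁻ x, ‖G x‖ₑ ∂μ = ∫⁻ x, ‖‖F x‖‖ₑ ∂μ := by
    refine lintegral_congr fun x => ?_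
    rw [← ofReal_norm, ← ofReal_norm, norm_norm, h x]
  rw [e1, ← h1]
  refine ENNReal.ofReal_le_ofReal (le_trans (le_of_eq ?_) hb)
  refine integral_congr_ae (Filter.Eventually.of_forall fun x => ?_)
  exact norm_norm _

/-- nodes and residuals of the free path over one small step -/
theorem fp_exists {m N : ℕ} (R : RS m N) (hm : 3 ≤ m) : ∃ C : ℝ, 0 < C ∧
    ∀ (d : ℕ) (s h : ℝ), 0 < s → s ≤ 1 / 4 → 0 < h → h ≤ 1 →
    ∃ (W Y : Fin (N + 1) → PotT d → Z3 d → E d) (We Ye : PotT d → Z3 d → E d),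
      (∀ i V, Measurable (W i V)) ∧ (∀ i V, Measurable (Y i V)) ∧ (∀ V, Measurable (We V)) ∧
      (∀ V, Measurable (Ye V)) ∧
      (∀ i V p, Y i V p = p.1 + rr s (h * R.t i) • W i V p) ∧
      (∀ V p, Ye V p = p.1 + rr s h • We V p) ∧
      (∀ i V, MeasurePreserving (Y i V) (mu3 V.1 s) (gibbs (US V.1 (lev s (h * R.t i))))) ∧
      (∀ V, MeasurePreserving (Ye V) (mu3 V.1 s) (gibbs (US V.1 (lev s h)))) ∧
      (∀ i (V : PotT d), ∫⁻ p, ‖p.2.1 - W i V p‖ₑ ∂(mu3 V.1 s) ≤ ENNReal.ofReal (2 * √d)) ∧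
      (∀ i (V : PotT d), ∫⁻ p, ‖(p.2.1 + ∑ c, (-(h * R.A i c * rr' s (h * R.t c))) •
          gradient (US V.1 (lev s (h * R.t c))) (Y c V p)) - W i V p‖ₑ ∂(mu3 V.1 s) ≤
            ENNReal.ofReal (C * h ^ m * √d)) ∧
      (∀ (V : PotT d), ∫⁻ p, ‖(p.2.1 + ∑ c, (-(h * R.w c * rr' s (h * R.t c))) •
          gradient (US V.1 (lev s (h * R.t c))) (Y c V p)) - We V p‖ₑ ∂(mu3 V.1 s) ≤
            ENNReal.ofReal (C * h ^ m * √d)) := by
  obtain ⟨C, hC, H⟩ := s3_exists R hm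
  refine ⟨C, hC, ?_⟩
  intro d s h hs hs1 hh hh1
  have H' := fun V : PotT d => H d V.1 s 0 h 1 V.2 hs hs1 le_rfl zero_le_one hh hh1
  choose X Xe hX hXe hXc hXec r1 r2 r3 r4 r5 using H'
  have hnt : ∀ i : Fin (N + 1), nt R h ((0 : Fin 1), i) = h * R.t i := by
    intro i
    unfold nt
    simp
  have hl0 : ∀ t : ℝ, 0 < lev s t := fun t => lev_pos hs
  have hl1 : ∀ t : ℝ, lev s t ≤ 1 / 4 := fun t => (lev_le hs.le).trans hs1
  have hJ : ((1 : ℕ) : ℝ) * h = h := by simp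
  refine ⟨fun i V p => (X V (0, i) p).2.1, fun i V p => (X V (0, i) p).1,
    fun V p => (Xe V p).2.1, fun V p => (Xe V p).1, ?_, ?_, ?_, ?_, ?_, ?_, ?_, ?_, ?_, ?_, ?_⟩
  · intro i V
    exact (measurable_fst.comp measurable_snd).comp (hX V (0, i)).measurable
  · intro i V
    exact measurable_fst.comp (hX V (0, i)).measurable
  · intro V
    exact (measurable_fst.comp measurable_snd).comp (hXe V).measurable
  · intro V
    exact measurable_fst.comp (hXe V).measurable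
  · intro i V p
    have := hXc V (0, i) p
    rw [hnt] at this
    rw [← this]
    simp
  · intro V p
    have := hXec V p
    rw [hJ] at this
    rw [← this]
    simp
  · intro i V
    have h1 := hX V (0, i)
    rw [hnt] at h1
    have p1 := us_prob V.2 (hl0 (h * R.t i)) (hl1 (h * R.t i))
    have h2 : MeasurePreserving (Prod.fst : Z3 d → E d) (mu3 V.1 (lev s (h * R.t i)))
        (gibbs (US V.1 (lev s (h * R.t i)))) := measurePreserving_fst
    exact h2.comp h1
  · intro V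
    have h1 := hXe V
    rw [hJ] at h1
    have p1 := us_prob V.2 (hl0 h) (hl1 h)
    have h2 : MeasurePreserving (Prod.fst : Z3 d → E d) (mu3 V.1 (lev s h))
        (gibbs (US V.1 (lev s h))) := measurePreserving_fst
    exact h2.comp h1
  · intro i V
    have h1 := hX V (0, i)
    have p1 := us_prob V.2 (hl0 (nt R h ((0 : Fin 1), i))) (hl1 (nt R h ((0 : Fin 1), i)))
    have p2 := us_prob V.2 hs hs1
    have h2 : ∀ L : ℝ, IsProbabilityMeasure (gibbs (US V.1 L)) →
        MeasurePreserving (fun p : Z3 d => p.2.1) (mu3 V.1 L) (stdGaussian (E d)) := by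
      intro L hL
      exact measurePreserving_fst.comp measurePreserving_snd
    have h3 := (h2 _ p1).comp h1
    have h4 := h2 _ p2
    have e1 : ∫⁻ p, ‖(X V (0, i) p).2.1‖ₑ ∂(mu3 V.1 s) = ∫⁻ z, ‖z‖ₑ ∂(stdGaussian (E d)) :=
      h3.lintegral_comp (f := fun z => ‖z‖ₑ) (by fun_prop)
    have e2 : ∫⁻ p : Z3 d, ‖p.2.1‖ₑ ∂(mu3 V.1 s) = ∫⁻ z, ‖z‖ₑ ∂(stdGaussian (E d)) :=
      h4.lintegral_comp (f := fun z => ‖z‖ₑ) (by fun_prop)
    have hm1 : Measurable (fun p : Z3 d => ‖p.2.1‖ₑ) := by fun_prop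
    calc ∫⁻ p : Z3 d, ‖p.2.1 - (X V (0, i) p).2.1‖ₑ ∂(mu3 V.1 s)
        ≤ ∫⁻ p : Z3 d, (‖p.2.1‖ₑ + ‖(X V (0, i) p).2.1‖ₑ) ∂(mu3 V.1 s) :=
          lintegral_mono fun p => enorm_sub_le
      _ = ∫⁻ z, ‖z‖ₑ ∂(stdGaussian (E d)) + ∫⁻ z, ‖z‖ₑ ∂(stdGaussian (E d)) := by
          rw [lintegral_add_left hm1, e1, e2]
      _ ≤ ENNReal.ofReal (√d) + ENNReal.ofReal (√d) := add_le_add (gauss_enorm d) (gauss_enorm d)
      _ = ENNReal.ofReal (2 * √d) := by
          rw [← ENNReal.ofReal_add (Real.sqrt_nonneg _) (Real.sqrt_nonneg _)]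
          congr 1
          ring
  · intro i V
    obtain ⟨j1, j2⟩ := r1 V (0, i)
    refine lint_of_int (c := C * h ^ m * √d) j1 (j2.trans (le_of_eq (by simp))) fun p => ?_
    rw [← norm_neg]
    congr 1
    have hz : ∀ c : Fin 1 × Fin (N + 1), (Wt R h ((0 : Fin 1), i) c * (0 * qq (nt R h c) ^ 2)) •
        oA V.1 s (nt R h c) (X V c p) = 0 := by
      intro c
      rw [zero_mul, mul_zero, zero_smul]
    simp only [hz, Finset.sum_const_zero, add_zero]
    have hs2 : ∑ c : Fin 1 × Fin (N + 1), (Wt R h ((0 : Fin 1), i) c * rr' s (nt R h c)) •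
        fo V.1 (lev s (nt R h c)) (X V c p).1 = ∑ c : Fin (N + 1), (h * R.A i c *
        rr' s (h * R.t c)) • gradient (US V.1 (lev s (h * R.t c))) (X V (0, c) p).1 := by
      rw [Fintype.sum_prod_type]
      simp only [Finset.univ_unique, Finset.sum_singleton, Fin.default_eq_zero, hnt]
      refine Finset.sum_congr rfl fun c _ => ?_
      congr 2
    rw [hs2]
    simp only [neg_smul, Finset.sum_neg_distrib]
    abel
  · intro V
    obtain ⟨j1, j2⟩ := r3 V
    refine lint_of_int (c := C * h ^ m * √d) j1 (j2.trans (le_of_eq (by simp))) fun p => ?_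
    rw [← norm_neg]
    congr 1
    have hz : ∀ c : Fin 1 × Fin (N + 1), (h * R.w c.2 * (0 * qq (nt R h c) ^ 2)) •
        oA V.1 s (nt R h c) (X V c p) = 0 := by
      intro c
      rw [zero_mul, mul_zero, zero_smul]
    simp only [hz, Finset.sum_const_zero, add_zero]
    have hs2 : ∑ c : Fin 1 × Fin (N + 1), (h * R.w c.2 * rr' s (nt R h c)) •
        fo V.1 (lev s (nt R h c)) (X V c p).1 = ∑ c : Fin (N + 1), (h * R.w c *
        rr' s (h * R.t c)) • gradient (US V.1 (lev s (h * R.t c))) (X V (0, c) p).1 := by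
      rw [Fintype.sum_prod_type]
      simp only [Finset.univ_unique, Finset.sum_singleton, Fin.default_eq_zero, hnt]
      try rfl
    rw [hs2]
    simp only [neg_smul, Finset.sum_neg_distrib]
    abel

end Samp

end P347Z
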