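import Vale.Agent.P347Z.SampA
import Vale.Agent.P347Z.CodeRules

/-!
P347Z / SampB: Picard iteration on codes for the free path over one small step.
-/

open MeasureTheory ProbabilityTheory Function
open scoped ENNReal

namespace P347Z

open P347Q P347S

namespace Samp

variable {d : ℕ}

/-- changing the coefficient of the common shift -/
theorem _root_.P347Z.Has.ashift49 {Θ X P : Type} [MeasurableSpace X] {C : Inp d Θ X P} {q : Θ → X → E d}
    {τ ε a κ : ℝ} {L : P → ℝ} {S : ℕ} (h : Has C q τ ε L a κ S) (a' : ℝ) :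
    Has C q τ ε L a' (κ + |a - a'|) S := by
  obtain ⟨I, hI, kd, t, l, err, hc, h1, h2, h3⟩ := h
  refine ⟨I, hI, kd, t, l, err, ⟨hc.l_nonneg, hc.lip, fun θ Y e => ?_, hc.meas, hc.law⟩, h1, h2, h3⟩
  have h4 := hc.shift θ Y e
  have e1 : t.ev (C.g θ) (fun i => Y i + C.so (kd i) • e) - t.ev (C.g θ) Y - a' • e =
      (t.ev (C.g θ) (fun i => Y i + C.so (kd i) • e) - t.ev (C.g θ) Y - a • e) + (a - a') • e := by
    rw [sub_smul]
    abel
  rw [e1]
  refine (norm_add_le _ _).trans ?_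
  rw [add_mul]
  refine add_le_add h4 ?_
  rw [norm_smul, Real.norm_eq_abs]

theorem rr_nonneg {s t : ℝ} (ht : 0 ≤ t) : 0 ≤ rr s t := by
  unfold rr
  rw [Real.tanh_eq_sinh_div_cosh]
  have h1 := Real.sinh_nonneg_iff.2 ht
  have h2 := Real.cosh_pos t
  positivity

theorem rr_le {s t : ℝ} : rr s t ≤ √s := by
  unfold rr
  have := (Real.tanh_lt_one t).le
  exact mul_le_of_le_one_right (Real.sqrt_nonneg _) this

theorem rr'_nonneg {s t : ℝ} : 0 ≤ rr' s t := by
  unfold rr'
  have h2 := Real.cosh_pos t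
  positivity

theorem rr'_le {s t : ℝ} : rr' s t ≤ √s := by
  unfold rr'
  exact div_le_self (Real.sqrt_nonneg _) (one_le_pow₀ (Real.one_le_cosh t))

theorem sqrt_lev {s t : ℝ} (hs : 0 ≤ s) : √(lev s t) = √s / Real.cosh t := by
  unfold lev
  rw [Real.sqrt_div hs, Real.sqrt_sq (Real.cosh_pos t).le]

theorem sqrt_lev_le {s t : ℝ} (hs : 0 ≤ s) : √(lev s t) ≤ √s := Real.sqrt_le_sqrt (lev_le hs)

theorem cosh_le_three {t : ℝ} (ht0 : 0 ≤ t) (ht : t ≤ 1) : Real.cosh t ≤ 3 := by
  have h1 : Real.cosh t ≤ Real.exp t := by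
    rw [Real.cosh_eq]
    have : Real.exp (-t) ≤ Real.exp t := Real.exp_le_exp.2 (by linarith)
    linarith
  have h2 : Real.exp t ≤ Real.exp 1 := Real.exp_le_exp.2 ht
  have h3 := Real.exp_one_lt_d9
  linarith

theorem rr_mul_le {s t τ : ℝ} (hs : 0 ≤ s) (ht0 : 0 ≤ t) (ht : t ≤ 1) (hτ0 : 0 ≤ τ)
    (hτ : τ ≤ 1 / 12) : rr s t * τ ≤ 1 / 4 * √(lev s t) := by
  rw [sqrt_lev hs]
  unfold rr
  rw [Real.tanh_eq_sinh_div_cosh]
  have h1 := Real.cosh_pos t
  have h2 : Real.sinh t ≤ 3 := (Real.sinh_lt_cosh t).le.trans (cosh_le_three ht0 ht)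
  have h3 : Real.sinh t * τ ≤ 1 / 4 := by
    have : Real.sinh t * τ ≤ 3 * (1 / 12) := mul_le_mul h2 hτ hτ0 (by norm_num)
    linarith
  calc √s * (Real.sinh t / Real.cosh t) * τ = (√s / Real.cosh t) * (Real.sinh t * τ) := by
        field_simp
    _ ≤ (√s / Real.cosh t) * (1 / 4) := by gcongr
    _ = 1 / 4 * (√s / Real.cosh t) := by ring

theorem sum_sq_le' {ι : Type*} (u : Finset ι) (f : ι → ℝ) (hf : ∀ i, 0 ≤ f i) :
    ∑ i ∈ u, f i ^ 2 ≤ (∑ i ∈ u, f i) ^ 2 := by
  rw [sq, Finset.sum_mul]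
  refine Finset.sum_le_sum fun i hi => ?_
  rw [sq]
  exact mul_le_mul_of_nonneg_left (Finset.single_le_sum (fun j _ => hf j) hi) (hf i)

section picard

variable {m N : ℕ} (R : RS m N) {s h lam del : ℝ} {S : ℕ}

/-- code of the force at a node, from a code of the label at the node -/
theorem node_code {c : Fin (N + 1)} (hs : 0 < s) (hh : 0 < h) (hh1 : h ≤ 1)
    {W Y : PotT d → Z3 d → E d}
    (hY : ∀ V p, Y V p = p.1 + rr s (h * R.t c) • W V p)
    (hm : ∀ V, MeasurePreserving (Y V) (mu3 V.1 s) (gibbs (US V.1 (lev s (h * R.t c)))))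
    (hdel : 0 ≤ del) (horc : Orc d (lev s (h * R.t c)) (1 / 4) lam del 3 (3 / 4) S)
    {τ ε κ : ℝ} {Sz : ℕ} (hτ0 : 0 ≤ τ) (hτ : τ ≤ 1 / 12) (hε : 0 ≤ ε) (hκ : 0 ≤ κ)
    (hW : Has (fctx d s) W τ ε (fun _ => 2) 0 κ Sz) :
    Has (fctx d s) (fun V p => gradient (US V.1 (lev s (h * R.t c))) (Y V p))
      (√(lev s (h * R.t c)) / lam)
      (del * (√(lev s (h * R.t c)) * √d) + 3 * (rr s (h * R.t c) * ε))
      (fun _ => 3 * (1 + rr s (h * R.t c) * 2)) (3 / 2)
      (3 / 4 + 3 * (rr s (h * R.t c) * κ)) (S * (Sz + 6)) := by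
  classical
  set t := h * R.t c with ht
  have ht0 : 0 ≤ t := mul_nonneg hh.le (R.t_mem c).1
  have ht1 : t ≤ 1 := mul_le_one₀ hh1 (R.t_mem c).1 (R.t_mem c).2
  have hr0 : 0 ≤ rr s t := rr_nonneg ht0
  have hl : 0 < lev s t := lev_pos hs
  -- code of the position
  have h1 := Has.slot (fctx d s) true
  have h2 := hW.smul (rr s t)
  have h3 := Has.add h1 h2 le_rfl (by positivity)
  have h4 : Has (fctx d s) Y (rr s t * τ) (rr s t * ε) (fun _ => 1 + rr s t * 2) 1
      (rr s t * κ) (Sz + 3) := by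
    refine h3.cast (fun V p => ?_) ?_ ?_ (fun b => ?_) ?_ ?_ ?_
    · rw [hY]
      rfl
    · rw [Real.sq_sqrt (by positivity)]
      simp [fctx]
    · rw [abs_of_nonneg hr0, zero_add]
    · rw [abs_of_nonneg hr0]
      cases b <;> simp
    · simp [fctx]
    · rw [abs_of_nonneg hr0, zero_add]
    · omega
  have h5 := h4.noise (τ' := 1 / 4 * √(lev s t)) (by
    have := rr_mul_le hs.le ht0 ht1 hτ0 hτ
    exact pow_le_pow_left₀ (by positivity) this 2) (by positivity)
  -- application of the oracle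
  have h6 := Has.app (C := fctx d s) (C' := octx d (lev s t) (1 / 4)) (fun _ => rfl)
    (φ := fun V => Y V) hm horc (ε := fun _ => rr s t * ε) (κ := fun _ => rr s t * κ)
    (L := fun _ _ => 1 + rr s t * 2) (S := Sz + 3 + 3) (fun _ => h5) (by positivity)
    (fun _ => by positivity) (fun _ => by positivity) (fun _ _ => by positivity) (by omega)
  refine h6.cast (fun V p => rfl) rfl ?_ (fun b => ?_) rfl ?_ ?_
  · simp
  · simp
  · simp
  · rw [show Sz + 3 + 3 = Sz + 6 by ring]

/-- linear combination of the forces at the nodes, with weights `b` -/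
theorem comb_code (b : Fin (N + 1) → ℝ) {CA : ℝ} (hCA : ∑ c, |b c| ≤ CA) (hs : 0 < s)
    (hs1 : s ≤ 1 / 4) (hh : 0 < h) (hh1 : h ≤ 1) (hlam : 0 < lam)
    {W Y : Fin (N + 1) → PotT d → Z3 d → E d}
    (hY : ∀ c V p, Y c V p = p.1 + rr s (h * R.t c) • W c V p)
    (hm : ∀ c V, MeasurePreserving (Y c V) (mu3 V.1 s) (gibbs (US V.1 (lev s (h * R.t c)))))
    (hdel : 0 ≤ del) (horc : ∀ c, Orc d (lev s (h * R.t c)) (1 / 4) lam del 3 (3 / 4) S)
    {τ ε κ : ℝ} {Sz : ℕ} (hτ0 : 0 ≤ τ) (hτ : τ ≤ 1 / 12) (hε : 0 ≤ ε) (hκ : 0 ≤ κ)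
    (hsm : 6 * CA * h * √s ≤ 1)
    (hW : ∀ c, Has (fctx d s) (W c) τ ε (fun _ => 2) 0 κ Sz) :
    Has (fctx d s) (fun V p => p.2.1 + ∑ c, (-(h * b c * rr' s (h * R.t c))) •
        gradient (US V.1 (lev s (h * R.t c))) (Y c V p))
      (CA * h * s / lam) (CA * h * s * del * √d + 3 * CA * h * s * ε)
      (fun _ => 2) (-(∑ c, h * b c * rr' s (h * R.t c) * (3 / 2)))
      (∑ c, h * |b c| * rr' s (h * R.t c) * (3 / 4 + 3 * (√s * κ)))
      ((N + 1) * (S * (Sz + 6) + 2) + 6) := by
  classical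
  have hCA0 : 0 ≤ CA := (Finset.sum_nonneg fun c _ => abs_nonneg _).trans hCA
  have hss : √s * √s = s := Real.mul_self_sqrt hs.le
  have hsq0 : 0 ≤ √s := Real.sqrt_nonneg _
  have ht0 : ∀ c, 0 ≤ h * R.t c := fun c => mul_nonneg hh.le (R.t_mem c).1
  have n1 := fun c => node_code R (d := d) hs hh hh1 (hY c) (hm c) hdel (horc c) hτ0 hτ hε hκ (hW c)
  have n2 := fun c => (n1 c).smul (-(h * b c * rr' s (h * R.t c)))
  have hr0 : ∀ c, 0 ≤ rr s (h * R.t c) := fun c => rr_nonneg (ht0 c)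
  have n3 := Has.sum (C := fctx d s) Finset.univ (fun c _ => n2 c) (fun c _ => by
    have := hr0 c
    positivity)
  have n4 := Has.add (Has.slot (fctx d s) false) n3 le_rfl (Finset.sum_nonneg fun c _ => by
    have := hr0 c
    positivity)
  -- bounds
  have hab : ∀ c, |-(h * b c * rr' s (h * R.t c))| = h * |b c| * rr' s (h * R.t c) := by
    intro c
    rw [abs_neg, abs_mul, abs_mul, abs_of_pos hh, abs_of_nonneg rr'_nonneg]
  have hsb : ∀ (f : Fin (N + 1) → ℝ) (M : ℝ), (∀ c, 0 ≤ f c) → (∀ c, f c ≤ M) →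
      ∑ c, h * |b c| * rr' s (h * R.t c) * f c ≤ CA * h * √s * M := by
    intro f M hf0 hf
    have hM : 0 ≤ M := (hf0 0).trans (hf 0)
    calc ∑ c, h * |b c| * rr' s (h * R.t c) * f c ≤ ∑ c, h * |b c| * √s * M := by
          refine Finset.sum_le_sum fun c _ => ?_
          have := hf0 c
          have := hf c
          have := rr'_le (s := s) (t := h * R.t c)
          have := rr'_nonneg (s := s) (t := h * R.t c)
          gcongr
      _ = (∑ c, |b c|) * (h * √s * M) := by
          rw [Finset.sum_mul]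
          refine Finset.sum_congr rfl fun c _ => ?_
          ring
      _ ≤ CA * (h * √s * M) := by gcongr
      _ = _ := by ring
  have n5 := n4.noise (τ' := CA * h * s / lam) (by
    rw [Real.sq_sqrt (by positivity), Real.sq_sqrt (Finset.sum_nonneg fun c _ => sq_nonneg _)]
    have z : (fctx d s).sig false = 0 := rfl
    rw [z]
    have e1 : ∑ c, (-(h * b c * rr' s (h * R.t c)) * (√(lev s (h * R.t c)) / lam)) ^ 2 ≤
        (∑ c, h * |b c| * rr' s (h * R.t c) * (√(lev s (h * R.t c)) / lam)) ^ 2 := by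
      have : ∀ c, (-(h * b c * rr' s (h * R.t c)) * (√(lev s (h * R.t c)) / lam)) ^ 2 =
          (h * |b c| * rr' s (h * R.t c) * (√(lev s (h * R.t c)) / lam)) ^ 2 := by
        intro c
        have e : (h * |b c| * rr' s (h * R.t c) * (√(lev s (h * R.t c)) / lam)) ^ 2 =
          (h * rr' s (h * R.t c) * (√(lev s (h * R.t c)) / lam)) ^ 2 * |b c| ^ 2 := by ring
        rw [e, sq_abs]
        ring
      simp_rw [this]
      refine sum_sq_le' _ _ fun c => ?_
      have := rr'_nonneg (s := s) (t := h * R.t c)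
      positivity
    have e2 : ∑ c, h * |b c| * rr' s (h * R.t c) * (√(lev s (h * R.t c)) / lam) ≤
        CA * h * √s * (√s / lam) := by
      refine hsb _ _ (fun c => by positivity) (fun c => ?_)
      have := sqrt_lev_le (t := h * R.t c) hs.le
      gcongr
    have e3 : CA * h * √s * (√s / lam) = CA * h * s / lam := by
      rw [← hss]
      rw [hss]
      field_simp
      rw [Real.sq_sqrt hs.le]
    rw [e3] at e2
    have e4 : 0 ≤ ∑ c, h * |b c| * rr' s (h * R.t c) * (√(lev s (h * R.t c)) / lam) :=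
      Finset.sum_nonneg fun c _ => by
        have := rr'_nonneg (s := s) (t := h * R.t c)
        positivity
    have e5 := pow_le_pow_left₀ e4 e2 2
    simpa using e1.trans e5) (by
      have : 0 ≤ ∑ c, |-(h * b c * rr' s (h * R.t c))| *
        (del * (√(lev s (h * R.t c)) * √d) + 3 * (rr s (h * R.t c) * ε)) :=
        Finset.sum_nonneg fun c _ => by
          have := hr0 c
          positivity
      linarith)
  refine n5.cast (fun V p => rfl) rfl ?_ (fun p => ?_) ?_ ?_ ?_
  · simp only [hab, zero_add]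
    have e1 := hsb (fun c => del * (√(lev s (h * R.t c)) * √d) + 3 * (rr s (h * R.t c) * ε))
      (del * (√s * √d) + 3 * (√s * ε)) (fun c => by have := hr0 c; positivity) (fun c => by
        have h1 := sqrt_lev_le (t := h * R.t c) hs.le
        have h2 := rr_le (s := s) (t := h * R.t c)
        gcongr)
    refine e1.trans (le_of_eq ?_)
    have : CA * h * √s * (del * (√s * √d) + 3 * (√s * ε)) =
        CA * h * (√s * √s) * del * √d + 3 * CA * h * (√s * √s) * ε := by ring
    rw [this, hss]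
  · simp only [hab]
    have e1 := hsb (fun c => 3 * (1 + rr s (h * R.t c) * 2)) 6
      (fun c => by have := hr0 c; positivity) (fun c => by
        have h2 := rr_le (s := s) (t := h * R.t c)
        have h3 : √s ≤ 1 / 2 := by
          rw [Real.sqrt_le_left (by norm_num)]
          linarith
        linarith)
    have e2 : (Pi.single (M := fun _ => ℝ) false (1 : ℝ) : Bool → ℝ) p ≤ 1 := by
      cases p <;> simp
    have e3 : CA * h * √s * 6 = 6 * CA * h * √s := by ring
    linarith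
  · have : (fctx d s).sh false = 0 := rfl
    rw [this, zero_add, ← Finset.sum_neg_distrib]
    refine Finset.sum_congr rfl fun c _ => ?_
    ring
  · simp only [hab, zero_add]
    refine Finset.sum_le_sum fun c _ => ?_
    have h2 := rr_le (s := s) (t := h * R.t c)
    have := hr0 c
    have := rr'_nonneg (s := s) (t := h * R.t c)
    gcongr
  · simp only [Finset.sum_const, Finset.card_univ, Fintype.card_fin, smul_eq_mul]
    rw [show S * (Sz + 6) + 1 + 1 = S * (Sz + 6) + 2 by ring]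
    omega

end picard

end Samp

end P347Z
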