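import Vale.Agent.P347Z.SampB

/-!
P347Z / SampC: the small pass from oracles at the levels near `s`.
-/

open MeasureTheory ProbabilityTheory Function
open scoped ENNReal

namespace P347Z

open P347Q P347S

namespace Samp

variable {d : ℕ}

/-- size of the program after `K` iterations -/
def szK (N S : ℕ) : ℕ → ℕ
  | 0 => 4
  | K + 1 => (N + 1) * (S * (szK N S K + 6) + 2) + 6

theorem szK_pos (N S K : ℕ) : 1 ≤ szK N S K := by
  cases K <;> simp [szK]

theorem szK_le {N S : ℕ} (hS : 1 ≤ S) (K : ℕ) : szK N S K ≤ 4 * (20 * (N + 1) * S) ^ K := by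
  induction K with
  | zero => simp [szK]
  | succ K ih =>
    have h1 := szK_pos N S K
    have h2 : szK N S (K + 1) ≤ (20 * (N + 1) * S) * szK N S K := by
      simp only [szK]
      have h3 : 1 ≤ (N + 1) * S := Nat.mul_pos (Nat.succ_pos N) hS
      have h4 : (N + 1) * 1 ≤ (N + 1) * S := Nat.mul_le_mul_left _ hS
      have e1 : (N + 1) * (S * (szK N S K + 6) + 2) + 6 =
          (N + 1) * S * szK N S K + 6 * ((N + 1) * S) + 2 * ((N + 1) * 1) + 6 := by ring
      rw [e1]
      have h5 : (N + 1) * S ≤ (N + 1) * S * szK N S K := Nat.le_mul_of_pos_right _ h1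
      have e2 : 20 * (N + 1) * S * szK N S K = 20 * ((N + 1) * S * szK N S K) := by ring
      rw [e2]
      omega
    calc szK N S (K + 1) ≤ (20 * (N + 1) * S) * szK N S K := h2
      _ ≤ (20 * (N + 1) * S) * (4 * (20 * (N + 1) * S) ^ K) := Nat.mul_le_mul_left _ ih
      _ = _ := by ring

section

variable {m N : ℕ} (R : RS m N) {s h lam del : ℝ} {S : ℕ}

/-- the Picard iteration -/
theorem picard {CA C : ℝ} (hC : 0 < C) (hCA1 : 1 ≤ CA) (hA : ∀ i, ∑ c, |R.A i c| ≤ CA) (hs : 0 < s)
    (hs1 : s ≤ 1 / 4) (hh : 0 < h) (hh1 : h ≤ 1) (hlam : 0 < lam)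
    {W Y : Fin (N + 1) → PotT d → Z3 d → E d} (hWm : ∀ i V, Measurable (W i V))
    (hYm : ∀ i V, Measurable (Y i V))
    (hY : ∀ c V p, Y c V p = p.1 + rr s (h * R.t c) • W c V p)
    (hm : ∀ c V, MeasurePreserving (Y c V) (mu3 V.1 s) (gibbs (US V.1 (lev s (h * R.t c)))))
    (h0 : ∀ i (V : PotT d), ∫⁻ p, ‖p.2.1 - W i V p‖ₑ ∂(mu3 V.1 s) ≤ ENNReal.ofReal (2 * √d))
    (h1 : ∀ i (V : PotT d), ∫⁻ p, ‖(p.2.1 + ∑ c, (-(h * R.A i c * rr' s (h * R.t c))) •
          gradient (US V.1 (lev s (h * R.t c))) (Y c V p)) - W i V p‖ₑ ∂(mu3 V.1 s) ≤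
            ENNReal.ofReal (C * h ^ m * √d))
    (hdel : 0 ≤ del) (horc : ∀ c, Orc d (lev s (h * R.t c)) (1 / 4) lam del 3 (3 / 4) S)
    (hτ : CA * h * s / lam ≤ 1 / 12) (hsm : 6 * CA * h * √s ≤ 1) (K : ℕ) :
    ∀ i, Has (fctx d s) (W i) (CA * h * s / lam)
      ((3 * CA * h * s) ^ K * (2 * √d) + 2 * (C * h ^ m * √d + CA * h * s * del * √d))
      (fun _ => 2) 0 (4 * CA * h * √s) (szK N S K) := by
  have hCA0 : 0 < CA := by linarith
  have hsq0 : 0 ≤ √s := Real.sqrt_nonneg _
  have hsq1 : √s ≤ 1 / 2 := by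
    rw [Real.sqrt_le_left (by norm_num)]
    linarith
  have hss : √s * √s = s := Real.mul_self_sqrt hs.le
  have hθ : 3 * CA * h * s ≤ 1 / 2 := by
    have : 3 * CA * h * s = (6 * CA * h * √s) * (√s / 2) := by
      rw [← hss]
      rw [hss]
      ring_nf
      rw [Real.sq_sqrt hs.le]
    rw [this]
    have h3 : √s / 2 ≤ 1 / 2 := by linarith
    calc (6 * CA * h * √s) * (√s / 2) ≤ 1 * (1 / 2) := by gcongr
      _ = 1 / 2 := by norm_num
  have hκ1 : 4 * CA * h * √s ≤ 1 := by nlinarith [mul_nonneg (mul_nonneg hCA0.le hh.le) hsq0]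
  induction K with
  | zero =>
    intro i
    have g1 := Has.slot (fctx d s) false
    have g2 := Has.approx (q' := W i) g1 (fun V => by
      have := hWm i V
      exact (by fun_prop : Measurable (fun p : Z3 d => p.2.1)).sub this) le_rfl
      (by positivity : (0 : ℝ) ≤ 2 * √d) (h0 i)
    have g3 := g2.noise (τ' := CA * h * s / lam) (by
      have : (fctx d s).sig false = 0 := rfl
      rw [this, zero_pow (by norm_num)]
      positivity) (by positivity)
    refine g3.cast (fun V p => rfl) rfl ?_ (fun p => ?_) rfl (by positivity) le_rfl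
    · rw [pow_zero, one_mul, zero_add]
      have : 0 ≤ 2 * (C * h ^ m * √d + CA * h * s * del * √d) := by positivity
      linarith
    · cases p <;> simp
  | succ K ih =>
    intro i
    have g1 := comb_code R (R.A i) (hA i) hs hs1 hh hh1 hlam hY hm hdel horc (by positivity) hτ
      (by positivity) (by positivity) hsm ih
    have g2 := Has.approx (q' := W i) g1 (fun V => by
      have a1 : Measurable (fun p : Z3 d => p.2.1 + ∑ c, (-(h * R.A i c * rr' s (h * R.t c))) •
          gradient (US V.1 (lev s (h * R.t c))) (Y c V p)) := by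
        refine (by fun_prop : Measurable (fun p : Z3 d => p.2.1)).add ?_
        refine Finset.measurable_sum _ fun c _ => ?_
        have hc : Continuous (gradient (US V.1 (lev s (h * R.t c)))) := by
          have := us_temp V.2 (lev_pos (t := h * R.t c) hs) ((lev_le hs.le).trans hs1)
          have h6 : Continuous (fderiv ℝ (US V.1 (lev s (h * R.t c)))) :=
            this.1.continuous_fderiv (by simp)
          unfold gradient
          exact ((InnerProductSpace.toDual ℝ (E d)).symm.continuous).comp h6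
        exact (hc.measurable.comp (hYm c V)).const_smul (-(h * R.A i c * rr' s (h * R.t c)))
      exact a1.sub (hWm i V)) (by positivity) (by positivity) (h1 i)
    have g3 := g2.ashift49 0
    refine g3.cast (fun V p => rfl) rfl ?_ (fun p => le_rfl) rfl ?_ le_rfl
    · have e1 : (3 * CA * h * s) * ((3 * CA * h * s) ^ K * (2 * √d) +
          2 * (C * h ^ m * √d + CA * h * s * del * √d)) ≤
          (3 * CA * h * s) ^ (K + 1) * (2 * √d) +
            1 * (C * h ^ m * √d + CA * h * s * del * √d) := by
        have e2 : (3 * CA * h * s) * ((3 * CA * h * s) ^ K * (2 * √d) +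
          2 * (C * h ^ m * √d + CA * h * s * del * √d)) =
          (3 * CA * h * s) ^ (K + 1) * (2 * √d) +
            (2 * (3 * CA * h * s)) * (C * h ^ m * √d + CA * h * s * del * √d) := by ring
        rw [e2]
        have : 2 * (3 * CA * h * s) ≤ 1 := by linarith
        gcongr
      linarith
    · have e1 : ∑ c, h * |R.A i c| * rr' s (h * R.t c) * (3 / 4 + 3 * (√s * (4 * CA * h * √s))) ≤
          CA * h * √s * (9 / 4) := by
        calc ∑ c, h * |R.A i c| * rr' s (h * R.t c) * (3 / 4 + 3 * (√s * (4 * CA * h * √s))) ≤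
              ∑ c, h * |R.A i c| * √s * (9 / 4) := by
              refine Finset.sum_le_sum fun c _ => ?_
              have b1 := rr'_le (s := s) (t := h * R.t c)
              have b2 := rr'_nonneg (s := s) (t := h * R.t c)
              have b3 : 3 / 4 + 3 * (√s * (4 * CA * h * √s)) ≤ 9 / 4 := by
                have : √s * (4 * CA * h * √s) ≤ 1 / 2 * 1 := by gcongr
                linarith
              gcongr
          _ = (∑ c, |R.A i c|) * (h * √s * (9 / 4)) := by
              rw [Finset.sum_mul]
              exact Finset.sum_congr rfl fun c _ => by ring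
          _ ≤ CA * (h * √s * (9 / 4)) := by gcongr; exact hA i
          _ = _ := by ring
      have e2 : |-(∑ c, h * R.A i c * rr' s (h * R.t c) * (3 / 2)) - 0| ≤ CA * h * √s * (3 / 2) := by
        rw [sub_zero, abs_neg]
        refine (Finset.abs_sum_le_sum_abs _ _).trans ?_
        calc ∑ c, |h * R.A i c * rr' s (h * R.t c) * (3 / 2)| ≤ ∑ c, h * |R.A i c| * √s * (3 / 2) := by
              refine Finset.sum_le_sum fun c _ => ?_
              have b1 := rr'_le (s := s) (t := h * R.t c)
              have b2 := rr'_nonneg (s := s) (t := h * R.t c)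
              rw [abs_mul, abs_mul, abs_mul, abs_of_pos hh, abs_of_nonneg b2,
                abs_of_pos (by norm_num : (0 : ℝ) < 3 / 2)]
              gcongr
          _ = (∑ c, |R.A i c|) * (h * √s * (3 / 2)) := by
              rw [Finset.sum_mul]
              exact Finset.sum_congr rfl fun c _ => by ring
          _ ≤ CA * (h * √s * (3 / 2)) := by gcongr; exact hA i
          _ = _ := by ring
      have e3 : 0 ≤ CA * h * √s := by positivity
      linarith

end

end Samp

end P347Z
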