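import Vale.Agent.P347Z.SampC

/-!
P347Z / SampD: the small pass.
-/

open MeasureTheory ProbabilityTheory Function
open scoped ENNReal

namespace P347Z

open P347Q P347S

namespace Samp

variable {d : ℕ}

theorem fo_meas {V : E d → ℝ} (hV : Pot d V) {L : ℝ} (hL : 0 < L) (hL1 : L ≤ 1 / 4) :
    Measurable (gradient (US V L)) := by
  have h6 : Continuous (fderiv ℝ (US V L)) := (us_temp hV hL hL1).1.continuous_fderiv (by simp)
  have : Continuous (gradient (US V L)) := by
    unfold gradient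
    exact ((InnerProductSpace.toDual ℝ (E d)).symm.continuous).comp h6
  exact this.measurable

/-- elementary bounds for a small step -/
theorem small_h {h : ℝ} (hh : 0 < h) (hh1 : h ≤ 1 / 10) :
    0.99 * h ≤ Real.tanh h ∧ Real.cosh h ≤ 1.0051 := by
  have hc0 := Real.cosh_pos h
  have hc : Real.cosh h ≤ 1.0051 := by
    refine (Real.cosh_le_exp_half_sq h).trans ?_
    have h1 : h ^ 2 / 2 ≤ 0.005 := by nlinarith
    have h2 : Real.exp (h ^ 2 / 2) ≤ Real.exp 0.005 := Real.exp_le_exp.2 h1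
    have h3 : Real.exp 0.005 ≤ 1 / (1 - 0.005) := by
      have := Real.add_one_le_exp (-0.005)
      rw [le_div_iff₀ (by norm_num)]
      have h4 : Real.exp 0.005 * Real.exp (-0.005) = 1 := by
        rw [← Real.exp_add]
        simp
      nlinarith [Real.exp_pos 0.005]
    refine (h2.trans h3).trans ?_
    norm_num
  refine ⟨?_, hc⟩
  rw [Real.tanh_eq_sinh_div_cosh, le_div_iff₀ hc0]
  have h1 : h ≤ Real.sinh h := Real.self_le_sinh_iff.2 hh.le
  nlinarith

/-- level at the end of a small step -/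
theorem lev_small {s h : ℝ} (hs : 0 < s) (hh : 0 < h) (hh1 : h ≤ 1 / 10) :
    lev s h + s * h ^ 2 / 4 ≤ s * (1 - h ^ 2 / 2) := by
  obtain ⟨h1, h2⟩ := small_h hh hh1
  have hc0 := Real.cosh_pos h
  have e1 : 1 / Real.cosh h ^ 2 = 1 - Real.tanh h ^ 2 := by
    rw [Real.tanh_eq_sinh_div_cosh]
    have := Real.cosh_sq h
    field_simp
    linarith
  have h3 : 0.98 * h ^ 2 ≤ Real.tanh h ^ 2 := by nlinarith
  have e2 : lev s h = s * (1 / Real.cosh h ^ 2) := by
    unfold lev
    ring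
  rw [e2, e1]
  nlinarith

/-- the contraction factor: `Q = r Σ h w r'` -/
theorem Q_bounds {m N : ℕ} (R : RS m N) (hm : 3 ≤ m) {s h : ℝ} (hs : 0 < s) (hs1 : s ≤ 1 / 4)
    (hh : 0 < h) (hh1 : h ≤ 1 / 10) :
    0.95 * (s * h ^ 2) ≤ rr s h * ∑ c, h * R.w c * rr' s (h * R.t c) ∧
      rr s h * ∑ c, h * R.w c * rr' s (h * R.t c) ≤ 1 / 2 := by
  have hw1 : ∑ c, R.w c = 1 := by
    have := R.w_exact 0 (by omega)
    simpa using this
  obtain ⟨h1, h2⟩ := small_h hh hh1
  have hss : √s * √s = s := Real.mul_self_sqrt hs.le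
  have hsq0 : 0 ≤ √s := Real.sqrt_nonneg _
  have hsq1 : √s ≤ 1 / 2 := by
    rw [Real.sqrt_le_left (by norm_num)]
    linarith
  have hr : √s * (0.99 * h) ≤ rr s h := by
    unfold rr
    gcongr
  have hr0 : 0 ≤ rr s h := rr_nonneg hh.le
  have hr1 : rr s h ≤ √s := rr_le
  have hrp : ∀ c, √s * 0.97 ≤ rr' s (h * R.t c) := by
    intro c
    unfold rr'
    have ht0 : 0 ≤ R.t c := (R.t_mem c).1
    have ht1 : R.t c ≤ 1 := (R.t_mem c).2
    have h3 : Real.cosh (h * R.t c) ≤ Real.cosh h := by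
      rw [Real.cosh_le_cosh, abs_of_nonneg (mul_nonneg hh.le ht0), abs_of_pos hh]
      exact mul_le_of_le_one_right hh.le ht1
    have h4 := Real.cosh_pos (h * R.t c)
    rw [le_div_iff₀ (by positivity)]
    have h5 : Real.cosh (h * R.t c) ^ 2 ≤ 1.0051 ^ 2 := by
      have := h3.trans h2
      gcongr
    have h6 : 0.97 * Real.cosh (h * R.t c) ^ 2 ≤ 1 := by
      have : (0.97 : ℝ) * 1.0051 ^ 2 ≤ 1 := by norm_num
      linarith
    calc √s * 0.97 * Real.cosh (h * R.t c) ^ 2 = √s * (0.97 * Real.cosh (h * R.t c) ^ 2) := by ring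
      _ ≤ √s * 1 := by gcongr
      _ = √s := mul_one _
  have hsum1 : h * (√s * 0.97) ≤ ∑ c, h * R.w c * rr' s (h * R.t c) := by
    calc h * (√s * 0.97) = ∑ c, h * R.w c * (√s * 0.97) := by
          rw [← Finset.sum_mul, ← Finset.mul_sum, hw1]
          ring
      _ ≤ _ := by
          refine Finset.sum_le_sum fun c _ => ?_
          have := R.w_nonneg c
          have := hrp c
          gcongr
  have hsum2 : ∑ c, h * R.w c * rr' s (h * R.t c) ≤ h * √s := by
    calc ∑ c, h * R.w c * rr' s (h * R.t c) ≤ ∑ c, h * R.w c * √s := by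
          refine Finset.sum_le_sum fun c _ => ?_
          have := R.w_nonneg c
          have := rr'_le (s := s) (t := h * R.t c)
          gcongr
      _ = h * √s := by
          rw [← Finset.sum_mul, ← Finset.mul_sum, hw1]
          ring
  have hsum0 : 0 ≤ ∑ c, h * R.w c * rr' s (h * R.t c) := by
    have : 0 ≤ h * (√s * 0.97) := by positivity
    linarith
  constructor
  · calc 0.95 * (s * h ^ 2) ≤ 0.99 * 0.97 * (s * h ^ 2) := by
          have : 0 ≤ s * h ^ 2 := by positivity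
          nlinarith
      _ = (√s * (0.99 * h)) * (h * (√s * 0.97)) := by
          have e : (√s * (0.99 * h)) * (h * (√s * 0.97)) = 0.99 * 0.97 * ((√s * √s) * h ^ 2) := by
            ring
          rw [e, hss]
      _ ≤ _ := by gcongr
  · calc rr s h * ∑ c, h * R.w c * rr' s (h * R.t c) ≤ √s * (h * √s) := by gcongr
      _ ≤ 1 / 2 * (1 / 10 * (1 / 2)) := by gcongr
      _ ≤ 1 / 2 := by norm_num

/-- arithmetic of the contraction factor -/
theorem contr_arith {s h CA Q : ℝ} (hh : 0 < h) (hh1 : h ≤ 1 / 10) (hsq1 : √s ≤ 1 / 2)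
    (_hCA0 : 0 < CA) (hcs : 24 * CA * √s ≤ 1) (q0 : 0 ≤ s * h ^ 2)
    (q1 : 0.95 * (s * h ^ 2) ≤ Q) (q2 : Q ≤ 1 / 2) :
    |1 - 3 / 2 * Q| + (3 / 4 + 3 * (√s * (4 * CA * h * √s))) * Q ≤ 1 - s * h ^ 2 / 2 := by
  have hsq0 : 0 ≤ √s := Real.sqrt_nonneg _
  rw [abs_of_nonneg (by linarith)]
  have e3 : 3 * (√s * (4 * CA * h * √s)) ≤ 1 / 20 := by
    have e : √s * (4 * CA * h * √s) = (24 * CA * √s) * (√s * h / 6) := by ring
    rw [e]
    have h7 : √s * h / 6 ≤ 1 / 2 * (1 / 10) / 6 := by gcongr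
    have h8 : 0 ≤ √s * h / 6 := by positivity
    have h10 : (24 * CA * √s) * (√s * h / 6) ≤ 1 * (1 / 2 * (1 / 10) / 6) := by gcongr
    linarith
  have hQ0 : 0 ≤ Q := le_trans (by positivity) q1
  have e4 : (3 / 4 + 3 * (√s * (4 * CA * h * √s))) * Q ≤ (3 / 4 + 1 / 20) * Q := by gcongr
  linarith

/-- arithmetic of the error -/
theorem err_arith {s h CA C del D : ℝ} {m K : ℕ} (hs : 0 < s) (hs1 : s ≤ 1 / 4) (hh : 0 < h)
    (hh1 : h ≤ 1) (hsq1 : √s ≤ 1 / 2) (hCA0 : 0 < CA) (hC : 0 < C) (hdel : 0 ≤ del) (hD : 0 ≤ D)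
    (hcs : 24 * CA * √s ≤ 1) :
    CA * h * s * del * D + 3 * CA * h * s * ((3 * CA * h * s) ^ K * (2 * D) +
      2 * (C * h ^ m * D + CA * h * s * del * D)) + C * h ^ m * D ≤
      D * (2 * √s ^ (K + 1) + 3 * C * h ^ m + 3 * CA * del) := by
  have hsq0 : 0 ≤ √s := Real.sqrt_nonneg _
  have hss : √s * √s = s := Real.mul_self_sqrt hs.le
  have hθ : 3 * CA * h * s ≤ √s / 8 := by
    have e : 3 * CA * h * (√s * √s) = (24 * CA * √s) * (√s * h / 8) := by ring
    rw [hss] at e
    rw [e]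
    calc (24 * CA * √s) * (√s * h / 8) ≤ 1 * (√s * 1 / 8) := by gcongr
      _ = √s / 8 := by ring
  have hθ0 : 0 ≤ 3 * CA * h * s := by positivity
  have a1 : (3 * CA * h * s) ^ (K + 1) ≤ √s ^ (K + 1) := by
    apply pow_le_pow_left₀ hθ0
    linarith
  have b2 : CA * h * s * del * D ≤ CA * del * D := by
    have : CA * h * s ≤ CA := by
      calc CA * h * s ≤ CA * 1 * 1 := by
            have : s ≤ 1 := by linarith
            gcongr
        _ = CA := by ring
    gcongr
  have a2 : 3 * CA * h * s * (2 * (C * h ^ m * D + CA * h * s * del * D)) ≤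
      1 / 2 * (2 * (C * h ^ m * D + CA * del * D)) := by
    have b1 : 3 * CA * h * s ≤ 1 / 2 := by linarith
    gcongr
  have e2 : 3 * CA * h * s * ((3 * CA * h * s) ^ K * (2 * D) +
      2 * (C * h ^ m * D + CA * h * s * del * D)) ≤ √s ^ (K + 1) * (2 * D) +
      (C * h ^ m * D + CA * del * D) := by
    calc 3 * CA * h * s * ((3 * CA * h * s) ^ K * (2 * D) +
          2 * (C * h ^ m * D + CA * h * s * del * D)) = (3 * CA * h * s) ^ (K + 1) * (2 * D) +
          3 * CA * h * s * (2 * (C * h ^ m * D + CA * h * s * del * D)) := by ring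
      _ ≤ √s ^ (K + 1) * (2 * D) + 1 / 2 * (2 * (C * h ^ m * D + CA * del * D)) := by
            gcongr
      _ = _ := by ring
  have e4 : 0 ≤ C * h ^ m * D := by positivity
  have e5 : 0 ≤ CA * del * D := by positivity
  have e6 : D * (2 * √s ^ (K + 1) + 3 * C * h ^ m + 3 * CA * del) =
      √s ^ (K + 1) * (2 * D) + 3 * (C * h ^ m * D) + 3 * (CA * del * D) := by ring
  linarith

theorem small_pass {m N : ℕ} (R : RS m N) (hm : 3 ≤ m) : ∃ C CA : ℝ, 0 < C ∧ 1 ≤ CA ∧
    ∀ (d : ℕ) (s h lam del : ℝ) (S K : ℕ), 0 < s → s ≤ 1 / 4 → 0 < h → h ≤ 1 / 10 → 0 < lam →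
      0 ≤ del → 12 * CA * s ≤ lam → 24 * CA * √s ≤ 1 →
      (∀ c, Orc d (lev s (h * R.t c)) (1 / 4) lam del 3 (3 / 4) S) →
      Pass d (szK N S (K + 1) + 6) s (s * (1 - h ^ 2 / 2)) (1 - s * h ^ 2 / 2)
        (√d * (2 * √s ^ (K + 1) + 3 * C * h ^ m + 3 * CA * del)) := by
  obtain ⟨C, hC, H⟩ := fp_exists R hm
  set CA : ℝ := 1 + ∑ i, ∑ c, |R.A i c| with hCAd
  have hCA1 : 1 ≤ CA := by
    have : 0 ≤ ∑ i, ∑ c, |R.A i c| := Finset.sum_nonneg fun i _ => Finset.sum_nonneg fun c _ =>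
      abs_nonneg _
    linarith
  have hA : ∀ i, ∑ c, |R.A i c| ≤ CA := by
    intro i
    have : ∑ c, |R.A i c| ≤ ∑ i, ∑ c, |R.A i c| :=
      Finset.single_le_sum (f := fun i => ∑ c, |R.A i c|)
        (fun i _ => Finset.sum_nonneg fun c _ => abs_nonneg _) (Finset.mem_univ i)
    linarith
  have hw1 : ∑ c, R.w c = 1 := by
    have := R.w_exact 0 (by omega)
    simpa using this
  have hw : ∑ c, |R.w c| ≤ CA := by
    simp_rw [fun c => abs_of_nonneg (R.w_nonneg c)]
    linarith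
  refine ⟨C, CA, hC, hCA1, ?_⟩
  intro d s h lam del S K hs hs1 hh hh10 hlam hdel hcl hcs horc
  have hh1 : h ≤ 1 := by linarith
  have hCA0 : 0 < CA := by linarith
  obtain ⟨W, Y, We, Ye, mW, mY, mWe, mYe, eY, eYe, pY, pYe, r0, r1, r2⟩ := H d s h hs hs1 hh hh1
  have hss : √s * √s = s := Real.mul_self_sqrt hs.le
  have hsq0 : 0 ≤ √s := Real.sqrt_nonneg _
  have hsq1 : √s ≤ 1 / 2 := by
    rw [Real.sqrt_le_left (by norm_num)]
    linarith
  have hτ : CA * h * s / lam ≤ 1 / 12 := by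
    rw [div_le_iff₀ hlam]
    have : CA * h * s ≤ CA * 1 * s := by gcongr
    linarith
  have hsm : 6 * CA * h * √s ≤ 1 := by
    have : 6 * CA * h * √s ≤ 6 * CA * 1 * √s := by gcongr
    have h2 : 0 ≤ CA * √s := by positivity
    linarith
  have hP := picard R hC hCA1 hA hs hs1 hh hh1 hlam mW mY eY pY r0 r1 hdel horc hτ hsm K
  have hκ0 : 0 ≤ 4 * CA * h * √s := by positivity
  set εK : ℝ := (3 * CA * h * s) ^ K * (2 * √d) + 2 * (C * h ^ m * √d + CA * h * s * del * √d)
    with hεK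
  have hεK0 : 0 ≤ εK := by positivity
  have g1 := comb_code R R.w hw hs hs1 hh hh1 hlam eY pY hdel horc (by positivity) hτ hεK0
    hκ0 hsm hP
  have g2 := Has.approx (q' := We) g1 (fun V => by
    have a1 : Measurable (fun p : Z3 d => p.2.1 + ∑ c, (-(h * R.w c * rr' s (h * R.t c))) •
        gradient (US V.1 (lev s (h * R.t c))) (Y c V p)) := by
      refine (by fun_prop : Measurable (fun p : Z3 d => p.2.1)).add ?_
      refine Finset.measurable_sum _ fun c _ => ?_
      exact ((fo_meas V.2 (lev_pos (t := h * R.t c) hs) ((lev_le hs.le).trans hs1)).comp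
        (mY c V)).const_smul (-(h * R.w c * rr' s (h * R.t c)))
    exact a1.sub (mWe V)) (by positivity) (by positivity) r2
  have hr0 : 0 ≤ rr s h := rr_nonneg hh.le
  have hr1 : rr s h ≤ √s := rr_le
  have g3 := g2.smul (rr s h)
  have g4 := Has.add (Has.slot (fctx d s) true) g3 le_rfl (by positivity)
  -- final noise
  have hlev := lev_small hs hh hh10
  set ν2 : ℝ := s * (1 - h ^ 2 / 2) - lev s h with hν2
  have hν0 : s * h ^ 2 / 4 ≤ ν2 := by linarith
  have hν1 : 0 ≤ ν2 := le_trans (by positivity) hν0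
  have g5 := g4.noise (τ' := √ν2) (by
    have z : (fctx d s).sig true = 0 := rfl
    rw [Real.sq_sqrt hν1, Real.sq_sqrt (by positivity), z, zero_pow (by norm_num), zero_add]
    refine le_trans ?_ hν0
    have h1 : rr s h * (CA * h * s / lam) ≤ √s * (h / 2) := by
      have h2 : CA * h * s / lam ≤ h / 2 := by
        rw [div_le_iff₀ hlam]
        have : 12 * CA * s * h ≤ lam * h := by gcongr
        have h3 : 0 ≤ CA * s * h := by positivity
        linarith
      gcongr
    have h4 : (rr s h * (CA * h * s / lam)) ^ 2 ≤ (√s * (h / 2)) ^ 2 :=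
      pow_le_pow_left₀ (by positivity) h1 2
    refine h4.trans (le_of_eq ?_)
    rw [mul_pow, Real.sq_sqrt hs.le]
    ring) (by positivity)
  -- the pass
  have hYem : ∀ V, Measurable (fun p => (fctx d s).cen true V p + rr s h • We V p) := by
    intro V
    have := mWe V
    exact (by fun_prop : Measurable (fun p : Z3 d => p.1)).add (this.const_smul (rr s h))
  have g6 := pass_of_has (s' := s * (1 - h ^ 2 / 2)) hs hs1 (by positivity) hYem g5 (by
    intro V
    have e1 : ∀ p, (fctx d s).cen true V p + rr s h • We V p = Ye V p := fun p => (eYe V p).symm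
    simp only [e1]
    have hl0 : 0 < lev s h := lev_pos hs
    have hl1 : lev s h ≤ 1 / 4 := (lev_le hs.le).trans hs1
    have m1 := cv_add V.2 hl0.le hν1
    have hp1 := us_prob V.2 hs hs1
    have hp3 := cv_prob (Pot.cpot V.2) (lev s h)
    have m2 := pYe V
    rw [us_cv V.2 hl0 hl1] at m2
    have hp2 : IsProbabilityMeasure (mu3 V.1 s) := by
      unfold mu3
      infer_instance
    have m3 := (m2.prod (MeasurePreserving.id (stdGaussian (E d))))
    have m4 := Measure.measurePreserving_swap (μ := cv V.1 (lev s h)) (ν := stdGaussian (E d))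
    have m5 := m1.comp (m4.comp m3)
    have e2 : lev s h + ν2 = s * (1 - h ^ 2 / 2) := by rw [hν2]; ring
    rw [e2] at m5
    exact m5.map_eq)
  refine g6.mono (by simp only [szK]; omega) ?_ ?_
  · -- contraction
    have z : (fctx d s).sh true = 1 := rfl
    rw [z]
    obtain ⟨q1, q2⟩ := Q_bounds R hm hs hs1 hh hh10
    set Q : ℝ := rr s h * ∑ c, h * R.w c * rr' s (h * R.t c) with hQ
    have e1 : 1 + rr s h * -(∑ c, h * R.w c * rr' s (h * R.t c) * (3 / 2)) = 1 - 3 / 2 * Q := by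
      rw [hQ, ← Finset.sum_mul]
      ring
    have e2 : 0 + |rr s h| * ∑ c, h * |R.w c| * rr' s (h * R.t c) *
        (3 / 4 + 3 * (√s * (4 * CA * h * √s))) = (3 / 4 + 3 * (√s * (4 * CA * h * √s))) * Q := by
      rw [hQ, ← Finset.sum_mul, abs_of_nonneg hr0]
      simp_rw [fun c => abs_of_nonneg (R.w_nonneg c)]
      ring
    rw [e1, e2]
    exact contr_arith hh hh10 hsq1 hCA0 hcs (by positivity) q1 q2
  · -- error
    rw [zero_add, abs_of_nonneg hr0]
    have hr2 : rr s h ≤ 1 := by linarith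
    have e0 : 0 ≤ CA * h * s * del * √d + 3 * CA * h * s * εK + C * h ^ m * √d := by positivity
    exact (mul_le_of_le_one_left e0 hr2).trans
      (err_arith hs hs1 hh hh1 hsq1 hCA0 hC hdel (Real.sqrt_nonneg _) hcs)

end Samp

end P347Z
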