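import Vale.Agent.P347Z.Defs

/-!
Auxiliary file for module ULEVEL (U1): scaling reduction of `US V L` to `lsm ε W`, `KPot ε W`.
-/

open MeasureTheory ProbabilityTheory Function
open scoped ENNReal BigOperators ContDiff

namespace P347Z

open P347Q P347S

variable {d : ℕ} {V : E d → ℝ} {L : ℝ}

/-- smoothing parameter of the rescaled problem -/
noncomputable def ulE (L : ℝ) : ℝ := √(L / (1 + L))

theorem ulE_sq (hL : 0 < L) : ulE L ^ 2 = L / (1 + L) := by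
  unfold ulE
  rw [Real.sq_sqrt (by positivity)]

theorem ulE_pos (hL : 0 < L) : 0 < ulE L := by
  unfold ulE
  positivity

theorem ulE_le (hL : 0 < L) (hL1 : L ≤ 1 / 4) : ulE L ≤ 1 / 2 := by
  unfold ulE
  rw [show (1 / 2 : ℝ) = √(1 / 4) by
    rw [show (1 / 4 : ℝ) = (1 / 2) ^ 2 by norm_num, Real.sqrt_sq (by norm_num)]]
  apply Real.sqrt_le_sqrt
  rw [div_le_iff₀ (by linarith)]
  linarith

theorem ul_rho_sq (hL : 0 < L) : √(1 + L) ^ 2 = 1 + L := Real.sq_sqrt (by linarith)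

theorem ul_rho_pos (hL : 0 < L) : 0 < √(1 + L) := Real.sqrt_pos.2 (by linarith)

theorem ul_rho_eps (hL : 0 < L) : √(1 + L) * ulE L = √L := by
  unfold ulE
  rw [← Real.sqrt_mul (by linarith)]
  congr 1
  field_simp

/-- rescaled potential -/
noncomputable def ulW {d : ℕ} (V : E d → ℝ) (L : ℝ) : E d → ℝ := fun x => V (√(1 + L) • x)

theorem ul_fd (f : E d → ℝ) (c : ℝ) (x w : E d) :
    fderiv ℝ (fun y => f (c • y)) x w = c * fderiv ℝ f (c • x) w := by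
  rw [fderiv_comp_smul]
  rfl

theorem ul_fd_fun (f : E d → ℝ) (c : ℝ) :
    fderiv ℝ (fun y => f (c • y)) = fun y => c • fderiv ℝ f (c • y) := by
  funext y
  rw [fderiv_comp_smul]

theorem ul_fd2 (f : E d → ℝ) (c : ℝ) (x w w' : E d) :
    fderiv ℝ (fderiv ℝ (fun y => f (c • y))) x w w' =
      c ^ 2 * fderiv ℝ (fderiv ℝ f) (c • x) w w' := by
  rw [ul_fd_fun]
  have h : fderiv ℝ (fun y => c • fderiv ℝ f (c • y)) x = c • c • fderiv ℝ (fderiv ℝ f) (c • x) := by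
    have h1 := congrFun (fderiv_const_smul_field (𝕜 := ℝ) (f := fun y => fderiv ℝ f (c • y)) c) x
    have h2 : fderiv ℝ (fun y => c • fderiv ℝ f (c • y)) x =
        c • fderiv ℝ (fun y => fderiv ℝ f (c • y)) x := h1
    rw [h2, fderiv_comp_smul]
  rw [h]
  simp only [smul_apply, smul_eq_mul]
  ring

theorem ul_kpot (hV : Pot d V) (hL : 0 < L) : KPot (ulE L) (ulW V L) := by
  have h1 : (1 - ulE L ^ 2) * √(1 + L) ^ 2 = 1 := by
    rw [ulE_sq hL, ul_rho_sq hL]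
    field_simp
    ring
  refine ⟨?_, fun x w => ?_, fun x w => ?_⟩
  · exact hV.smooth.comp (contDiff_const_smul _)
  · unfold ulW
    rw [ul_fd2, ← mul_assoc, h1, one_mul]
    exact hV.lower _ _
  · unfold ulW
    rw [ul_fd2, ← mul_assoc, h1, one_mul]
    exact hV.upper _ _

theorem ul_eq (hL : 0 < L) (y : E d) :
    US V L y = lsm (ulE L) (ulW V L) ((√(1 + L))⁻¹ • y) := by
  unfold US lsm ulW
  congr 2
  congr 1
  funext z
  congr 2
  rw [smul_add, smul_smul, smul_smul, mul_inv_cancel₀ (ul_rho_pos hL).ne', one_smul,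
    ul_rho_eps hL]

theorem ul_eq_fun (hL : 0 < L) :
    US V L = fun y => lsm (ulE L) (ulW V L) ((√(1 + L))⁻¹ • y) := funext (ul_eq hL)

theorem ul_spot (hV : Pot d V) (hL : 0 < L) (hL1 : L ≤ 1 / 4) : SPot (lsm (ulE L) (ulW V L)) :=
  lsm_spot (ul_kpot hV hL) (ulE_pos hL) (ulE_le hL hL1)

theorem ul_temp (hV : Pot d V) (hL : 0 < L) (hL1 : L ≤ 1 / 4) : HasTemperateGrowth (US V L) := by
  rw [ul_eq_fun hL]
  have h := (ul_spot hV hL hL1).temp
  have h2 : HasTemperateGrowth (fun y : E d => (√(1 + L))⁻¹ • y) :=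
    ((√(1 + L))⁻¹ • ContinuousLinearMap.id ℝ (E d)).hasTemperateGrowth
  exact h.comp h2

theorem ul_rho_inv_sq (hL : 0 < L) : ((√(1 + L))⁻¹) ^ 2 = (1 + L)⁻¹ := by
  rw [inv_pow, ul_rho_sq hL]

theorem ul_lower (hV : Pot d V) (hL : 0 < L) (hL1 : L ≤ 1 / 4) (x w : E d) :
    (1 / 2) * ‖w‖ ^ 2 ≤ fderiv ℝ (fderiv ℝ (US V L)) x w w := by
  rw [ul_eq_fun hL, ul_fd2, ul_rho_inv_sq hL]
  have h := (ul_spot hV hL hL1).lower ((√(1 + L))⁻¹ • x) w
  have h2 : (1 / 2 : ℝ) ≤ (1 + L)⁻¹ := by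
    rw [le_inv_comm₀ (by norm_num) (by linarith)]
    norm_num
    linarith
  have h3 : 0 ≤ ‖w‖ ^ 2 := sq_nonneg _
  exact mul_le_mul h2 h h3 (by positivity)

theorem ul_upper (hV : Pot d V) (hL : 0 < L) (hL1 : L ≤ 1 / 4) (x w : E d) :
    fderiv ℝ (fderiv ℝ (US V L)) x w w ≤ 2 * ‖w‖ ^ 2 := by
  rw [ul_eq_fun hL, ul_fd2, ul_rho_inv_sq hL]
  have h := (ul_spot hV hL hL1).upper ((√(1 + L))⁻¹ • x) w
  have h0 := (ul_spot hV hL hL1).lower ((√(1 + L))⁻¹ • x) w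
  have h2 : (1 + L)⁻¹ ≤ 1 := inv_le_one_of_one_le₀ (by linarith)
  have h3 : 0 ≤ fderiv ℝ (fderiv ℝ (lsm (ulE L) (ulW V L))) ((√(1 + L))⁻¹ • x) w w :=
    le_trans (sq_nonneg _) h0
  calc (1 + L)⁻¹ * _ ≤ 1 * _ := mul_le_mul_of_nonneg_right h2 h3
    _ ≤ _ := by rw [one_mul]; exact h

theorem ul_hs_mul {Z : Type*} [NormedAddCommGroup Z] [NormedSpace ℝ Z] {κ : Type*} [Fintype κ]
    (e : κ → Z) (n : ℕ) (c : ℝ) (f : Z → ℝ) (x : Z) :
    hs e n (fun z => c * f z) x = c ^ 2 * hs e n f x := by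
  induction n generalizing f x with
  | zero => simp only [hs]; ring
  | succ n ih =>
    simp only [hs]
    rw [Finset.mul_sum]
    refine Finset.sum_congr rfl fun k _ => ?_
    rw [← ih]
    congr 1
    funext z
    have h1 := congrFun (fderiv_const_smul_field (𝕜 := ℝ) (f := f) c) z
    have h2 : fderiv ℝ (fun z => c * f z) z = c • fderiv ℝ f z := h1
    rw [h2]
    rfl

theorem ul_hs_comp (n : ℕ) (c : ℝ) (f : E d → ℝ) (x : E d) :
    hs (bas d) n (fun z => f (c • z)) x = c ^ (2 * n) * hs (bas d) n f (c • x) := by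
  induction n generalizing f x with
  | zero => simp only [hs]; ring
  | succ n ih =>
    simp only [hs]
    rw [Finset.mul_sum]
    refine Finset.sum_congr rfl fun k _ => ?_
    have h1 : (fun z' => fderiv ℝ (fun z => f (c • z)) z' (bas d k)) =
        fun z' => c * (fun z => fderiv ℝ f z (bas d k)) (c • z') := by
      funext z'
      rw [ul_fd]
    rw [h1, ul_hs_mul (bas d) n c (fun z' => (fun z => fderiv ℝ f z (bas d k)) (c • z')) x]
    have h2 := ih (fun z => fderiv ℝ f z (bas d k)) x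
    simp only at h2 ⊢
    rw [h2]
    ring

theorem ul_hsb : ∃ B : ℕ → ℝ, (∀ n, 0 ≤ B n) ∧ ∀ (d : ℕ) (V : E d → ℝ) (L : ℝ), Pot d V → 0 < L →
    L ≤ 1 / 4 → HSB B (√L) (US V L) := by
  refine ⟨fun n => 9 * ((n.factorial : ℝ)) ^ 2, fun n => by positivity, ?_⟩
  intro d V L hV hL hL1 n hn w x
  have h := lsm_hsb (ul_kpot hV hL) (ulE_pos hL) (ulE_le hL hL1) n hn w ((√(1 + L))⁻¹ • x)
  have h1 : (fun y => fderiv ℝ (US V L) y w) =
      fun y => (√(1 + L))⁻¹ * (fun z => fderiv ℝ (lsm (ulE L) (ulW V L)) z w) ((√(1 + L))⁻¹ • y) := by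
    funext y
    rw [ul_eq_fun hL, ul_fd]
  rw [h1, ul_hs_mul (bas d) n _
    (fun y => (fun z => fderiv ℝ (lsm (ulE L) (ulW V L)) z w) ((√(1 + L))⁻¹ • y)) x]
  have h2 := ul_hs_comp n ((√(1 + L))⁻¹) (fun z => fderiv ℝ (lsm (ulE L) (ulW V L)) z w) x
  simp only at h2 ⊢
  rw [h2]
  clear h2
  obtain ⟨m, rfl⟩ : ∃ m, n = m + 1 := ⟨n - 1, by omega⟩
  simp only [Nat.add_sub_cancel] at h ⊢
  rw [pow_mul (ulE L) 2 m, ulE_sq hL] at h
  rw [pow_mul (√L) 2 m, Real.sq_sqrt hL.le, pow_mul, ul_rho_inv_sq hL]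
  have hr : (0 : ℝ) < 1 + L := by linarith
  calc (1 + L)⁻¹ * ((1 + L)⁻¹ ^ (m + 1) * _)
      ≤ (1 + L)⁻¹ * ((1 + L)⁻¹ ^ (m + 1) *
        (9 * ((m + 1).factorial : ℝ) ^ 2 * ((L / (1 + L)) ^ m)⁻¹ * ‖w‖ ^ 2)) := by
        apply mul_le_mul_of_nonneg_left _ (by positivity)
        exact mul_le_mul_of_nonneg_left h (by positivity)
    _ = ((1 + L)⁻¹ ^ 2) * (9 * ((m + 1).factorial : ℝ) ^ 2 * (L ^ m)⁻¹ * ‖w‖ ^ 2) := by
        rw [div_pow, inv_div, pow_succ, inv_pow]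
        have : (1 + L) ^ m ≠ 0 := by positivity
        field_simp
    _ ≤ 1 * (9 * ((m + 1).factorial : ℝ) ^ 2 * (L ^ m)⁻¹ * ‖w‖ ^ 2) := by
        apply mul_le_mul_of_nonneg_right _ (by positivity)
        exact pow_le_one₀ (by positivity) (inv_le_one_of_one_le₀ (by linarith))
    _ = _ := by ring

end P347Z
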