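import Vale.Agent.P347Z.Defs
import Vale.Agent.P347Z.ULevelA

/-!
Module U1.
Potentials `V ∈ Pot d V` (curvature in `[1,2]`), levels `0 < L`.

The theorems of `P347S` (`lsm_spot`, `lsm_hsb`, `gibbs_lsm`, ...) are for the class `KPot ε W`
(curvature in `[1/(1-ε²), 2/(1-ε²)]`).  Reduction by scaling: with `ε² = L/(1+L)` (so `1-ε² = 1/(1+L)`),
`ρ = √(1+L)`, `W x = V (ρ x)` one has `KPot ε W` and
`lsm ε W x = lsm (√L) V (ρ x)`  (because `ρ ε = √L`), i.e. `US V L y = lsm ε W (y/ρ)`.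
For `L ≤ 1/4`: `ε ≤ 1/2`.  Derivatives of `US V L` are those of `lsm ε W` times powers of `1/ρ ≤ 1`.
-/

open MeasureTheory ProbabilityTheory Function
open scoped ENNReal BigOperators ContDiff

namespace P347Z

open P347Q P347S

variable {d : ℕ} {V : E d → ℝ} {L : ℝ}

/-- U1 -/
theorem us_temp (hV : Pot d V) (hL : 0 < L) (hL1 : L ≤ 1 / 4) : HasTemperateGrowth (US V L) :=
  ul_temp hV hL hL1

/-- U1: curvature of `lsm ε W` is at least `1`, scaled by `ρ⁻² = 1/(1+L) ≥ 1/2` -/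
theorem us_lower (hV : Pot d V) (hL : 0 < L) (hL1 : L ≤ 1 / 4) (x w : E d) :
    (1 / 2) * ‖w‖ ^ 2 ≤ fderiv ℝ (fderiv ℝ (US V L)) x w w :=
  ul_lower hV hL hL1 x w

/-- U1 -/
theorem us_upper (hV : Pot d V) (hL : 0 < L) (hL1 : L ≤ 1 / 4) (x w : E d) :
    fderiv ℝ (fderiv ℝ (US V L)) x w w ≤ 2 * ‖w‖ ^ 2 :=
  ul_upper hV hL hL1 x w

/-- U1: universal slot bounds -/
theorem us_hsb : ∃ B : ℕ → ℝ, (∀ n, 0 ≤ B n) ∧ ∀ (d : ℕ) (V : E d → ℝ) (L : ℝ), Pot d V → 0 < L →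
    L ≤ 1 / 4 → HSB B (√L) (US V L) :=
  ul_hsb

end P347Z
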