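import Vale.Agent.P347Z.ULevel
import Vale.Agent.P347Z.WdInd
import Vale.Agent.P347Z.WdIBP

/-!
Module WFAM: bridge between the family `US V (lev s t)` and the block `Wd*`.

`fam_us`: from `us_joint`, `us_temp`, `us_lower`, `us_upper`, `us_pde` (chain rule, `d/dt lev s t = -2 q h`),
`us_hsb` (`HSB B (√L)` is `Fam.slot` because `√L ^ (2 (n-1)) = L ^ (n-1)`); `lev s t ≤ s ≤ 1/4`.
-/

open MeasureTheory ProbabilityTheory Function
open scoped ENNReal BigOperators ContDiff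

namespace P347Z

open P347Q P347S

/-- parameters of the family `US V (lev s t)` -/
noncomputable def PU {d : ℕ} (V : E d → ℝ) (s lam : ℝ) : Prm d where
  s := s
  lam := lam
  u := fun p => US V (lev s p.1) p.2

/-- vector of the order one part of a tensor -/
noncomputable def vec {d : ℕ} (F : TF d) (x : TS d) : E d := WithLp.toLp 2 (fun i => F [i] x)

variable {d : ℕ} {V : E d → ℝ} {s lam : ℝ}

theorem cc_eq (t : ℝ) : cc t = qq t := by
  unfold cc qq
  rw [one_div]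

theorem th_eq (t : ℝ) : th t = Real.tanh t := by
  unfold th
  rw [Real.tanh_eq_sinh_div_cosh]

theorem pu_q (t : ℝ) : (PU V s lam).q t = lev s t := by
  unfold Prm.q lev cc PU
  simp only
  rw [inv_pow, div_eq_mul_inv]

theorem wf_lev_pos (hs : 0 < s) (t : ℝ) : 0 < lev s t := by
  have := Real.cosh_pos t
  unfold lev
  positivity

theorem wf_lev_le (hs : 0 < s) (t : ℝ) : lev s t ≤ s := by
  have h1 := Real.one_le_cosh t
  unfold lev
  exact div_le_self hs.le (one_le_pow₀ h1)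

theorem wf_lev_le4 (hs : 0 < s) (hs1 : s ≤ 1 / 4) (t : ℝ) : lev s t ≤ 1 / 4 :=
  (wf_lev_le hs t).trans hs1

theorem wf_lev_deriv (t : ℝ) : HasDerivAt (lev s) (-(2 * ((s * cc t ^ 2) * th t))) t := by
  have h0 : Real.cosh t ≠ 0 := (Real.cosh_pos t).ne'
  have h1 : HasDerivAt (fun t => Real.cosh t ^ 2) (2 * Real.cosh t ^ 1 * Real.sinh t) t := by
    have h := (Real.hasDerivAt_cosh t).fun_pow 2
    simpa using h
  have h2 := (hasDerivAt_const t s).div h1 (pow_ne_zero 2 h0)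
  have h3 : (0 * Real.cosh t ^ 2 - s * (2 * Real.cosh t ^ 1 * Real.sinh t)) /
      (Real.cosh t ^ 2) ^ 2 = -(2 * ((s * cc t ^ 2) * th t)) := by
    unfold cc th
    field_simp
    ring
  rw [h3] at h2
  exact h2

theorem wf_lev_smooth : ContDiff ℝ ∞ (lev s) := by
  have h : lev s = fun t => s * cc t ^ 2 := by
    funext t
    unfold lev cc
    rw [inv_pow, div_eq_mul_inv]
  rw [h]
  exact contDiff_const.mul (smooth_cc.pow 2)

theorem wf_smooth (hV : Pot d V) (hs : 0 < s) :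
    ContDiff ℝ ∞ (fun p : ℝ × E d => US V (lev s p.1) p.2) := by
  have h1 : ContDiff ℝ ∞ (fun p : ℝ × E d => ((lev s p.1, p.2) : ℝ × E d)) :=
    (wf_lev_smooth.comp contDiff_fst).prodMk contDiff_snd
  exact (us_joint hV).comp_contDiff h1 fun p => ⟨wf_lev_pos hs p.1, Set.mem_univ _⟩

theorem fam_us : ∃ B : ℕ → ℝ, ∀ (d : ℕ) (V : E d → ℝ) (s lam : ℝ), Pot d V → 0 < s → s ≤ 1 / 4 →
    0 ≤ lam → lam ≤ 1 → Fam B (PU V s lam) := by
  obtain ⟨B, -, hB⟩ := us_hsb
  refine ⟨B, fun d V s lam hV hs hs1 hl hl1 => ?_⟩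
  have hp := wf_lev_pos hs
  have hle := wf_lev_le4 hs hs1
  refine ⟨hs, ?_, hl, hl1, wf_smooth hV hs, fun t => us_temp hV (hp t) (hle t), fun t Y w => ?_,
    fun t Y w => us_upper hV (hp t) (hle t) Y w, fun t Y => ?_, fun n hn t w Y => ?_⟩
  · change s ≤ 1
    linarith
  · have := us_lower hV (hp t) (hle t) Y w
    change ‖w‖ ^ 2 / 2 ≤ fderiv ℝ (fderiv ℝ (US V (lev s t))) Y w w
    linarith
  · have h1 : HasFDerivAt (fun p : ℝ × E d => US V (lev s p.1) p.2)
        (fderiv ℝ (fun p : ℝ × E d => US V (lev s p.1) p.2) (t, Y)) (t, Y) :=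
      ((wf_smooth hV hs).differentiable (by simp) _).hasFDerivAt
    have h2 : HasDerivAt (fun τ : ℝ => ((τ, Y) : ℝ × E d)) ((1 : ℝ), (0 : E d)) t :=
      (hasDerivAt_id t).prodMk (hasDerivAt_const t Y)
    have h3 : HasDerivAt (fun τ : ℝ => US V (lev s τ) Y)
        (fderiv ℝ (fun p : ℝ × E d => US V (lev s p.1) p.2) (t, Y) (1, 0)) t :=
      HasFDerivAt.comp_hasDerivAt (f := fun τ : ℝ => ((τ, Y) : ℝ × E d)) t h1 h2
    have h4 := (us_pde hV (hp t) Y).comp t (wf_lev_deriv (s := s) t)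
    have h5 := h3.unique h4
    change fderiv ℝ (fun p : ℝ × E d => US V (lev s p.1) p.2) (t, Y) (1, 0) =
      -((s * cc t ^ 2) * th t) *
      (∑ i, fderiv ℝ (fderiv ℝ (US V (lev s t))) Y (bas d i) (bas d i) -
        ∑ i, (fderiv ℝ (US V (lev s t)) Y (bas d i)) ^ 2)
    rw [h5, norm_gradient_sq]
    have h6 : ∑ i, fderiv ℝ (fun x => fderiv ℝ (US V (lev s t)) x (bas d i)) Y (bas d i) =
        ∑ i, fderiv ℝ (fderiv ℝ (US V (lev s t))) Y (bas d i) (bas d i) :=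
      Finset.sum_congr rfl fun i _ => fderiv_dir (us_temp hV (hp t) (hle t)) _ _ _
    rw [h6]
    ring
  · have h1 := hB d V (lev s t) hV (hp t) (hle t) n hn w Y
    have h2 : (√(lev s t)) ^ (2 * (n - 1)) = lev s t ^ (n - 1) := by
      rw [pow_mul, Real.sq_sqrt (hp t).le]
    rw [h2] at h1
    rw [pu_q]
    exact h1

theorem pu_mu (V : E d → ℝ) (s lam t : ℝ) : (PU V s lam).mu t = mu3 V (lev s t) := rfl

theorem wf_H_smooth (hV : Pot d V) (hs : 0 < s) : ContDiff ℝ ∞ (PU V s lam).H := by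
  have h1 : ContDiff ℝ ∞ (fun x : TS d => ((x.1, x.2.1) : ℝ × E d)) :=
    contDiff_fst.prodMk (contDiff_fst.comp contDiff_snd)
  exact (wf_smooth hV hs).comp h1

theorem wf_ddY {F : TS d → ℝ} (hF : ContDiff ℝ ∞ F) (i : Fin d) (t : ℝ) (Y : E d)
    (wz : E d × E d) :
    dd (eY i) F (t, (Y, wz)) = fderiv ℝ (fun Y' => F (t, (Y', wz))) Y (bas d i) :=
  (slice_deriv hF t wz Y (bas d i)).symm

theorem wf_D1 (hV : Pot d V) (hs : 0 < s) (k : Fin d) (t : ℝ) (Y : E d)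
    (wz : E d × E d) :
    dd (eY k) (PU V s lam).H (t, (Y, wz)) = fderiv ℝ (US V (lev s t)) Y (bas d k) :=
  wf_ddY (wf_H_smooth hV hs) k t Y wz

theorem pu_f (hV : Pot d V) (hs : 0 < s) (_hs1 : s ≤ 1 / 4) (t : ℝ) (x : Z3 d) (k : Fin d) :
    (PU V s lam).f k (t, x) = fo V (lev s t) x.1 k := by
  obtain ⟨Y, wz⟩ := x
  have h : (PU V s lam).f k = dd (eY k) (PU V s lam).H := rfl
  rw [h, wf_D1 hV hs, fo, gradient_apply]

theorem wf_T (hV : Pot d V) (hs : 0 < s) (hs1 : s ≤ 1 / 4) (t : ℝ) (Y : E d)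
    (wz : E d × E d) (i j : Fin d) :
    (PU V s lam).T i j (t, (Y, wz)) =
      fderiv ℝ (fderiv ℝ (US V (lev s t))) Y (bas d i) (bas d j) := by
  have h : (PU V s lam).T i j = dd (eY i) (dd (eY j) (PU V s lam).H) := rfl
  rw [h, wf_ddY (dd_smooth (wf_H_smooth hV hs) _)]
  have h2 : (fun Y' => dd (eY j) (PU V s lam).H (t, (Y', wz))) =
      fun Y' => fderiv ℝ (US V (lev s t)) Y' (bas d j) := by
    funext Y'
    exact wf_D1 hV hs j t Y' wz
  rw [h2, fderiv_dir (us_temp hV (wf_lev_pos hs t) (wf_lev_le4 hs hs1 t))]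

theorem wf_T_symm (hV : Pot d V) (hs : 0 < s) (i j : Fin d) :
    (PU V s lam).T i j = (PU V s lam).T j i := by
  have h1 : (PU V s lam).T i j = dd (eY i) (dd (eY j) (PU V s lam).H) := rfl
  have h2 : (PU V s lam).T j i = dd (eY j) (dd (eY i) (PU V s lam).H) := rfl
  rw [h1, h2, dd_comm (wf_H_smooth hV hs)]

theorem wf_grad_smooth {U : E d → ℝ} (hU : HasTemperateGrowth U) :
    ContDiff ℝ ∞ (gradient U) := by
  have h1 : gradient U = fun y => ∑ i, fderiv ℝ U y (bas d i) • bas d i := by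
    funext y
    rw [sum_bas (gradient U y)]
    refine Finset.sum_congr rfl fun i _ => ?_
    rw [gradient_apply]
  rw [h1]
  refine ContDiff.sum fun i _ => ?_
  exact (temp_dir hU (bas d i)).1.smul contDiff_const

/-- components of the derivative -/
theorem wf_comp {f : E d → E d} {Y : E d} (hf : DifferentiableAt ℝ f Y) (v : E d) (i : Fin d) :
    (fderiv ℝ f Y v) i = fderiv ℝ (fun y => f y i) Y v := by
  have h1 := (EuclideanSpace.proj i : E d →L[ℝ] ℝ).hasFDerivAt (x := f Y)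
  have h2 : HasFDerivAt (fun y => f y i)
      ((EuclideanSpace.proj i : E d →L[ℝ] ℝ).comp (fderiv ℝ f Y)) Y :=
    HasFDerivAt.comp Y h1 hf.hasFDerivAt
  rw [h2.fderiv]
  rfl

theorem wf_HV {U : E d → ℝ} (hU : HasTemperateGrowth U) (Y v : E d) (i : Fin d) :
    HV U Y v i = fderiv ℝ (fderiv ℝ U) Y v (bas d i) := by
  unfold HV
  rw [wf_comp ((wf_grad_smooth hU).differentiable (by simp) Y)]
  have h : (fun y => gradient U y i) = fun y => fderiv ℝ U y (bas d i) := by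
    funext y
    exact gradient_apply U y i
  rw [h, fderiv_dir hU]

theorem wf_HV_T (hV : Pot d V) (hs : 0 < s) (hs1 : s ≤ 1 / 4) (t : ℝ) (Y : E d)
    (wz : E d × E d) (v : E d) (i : Fin d) :
    ∑ j, (PU V s lam).T i j (t, (Y, wz)) * v j = HV (US V (lev s t)) Y v i := by
  rw [wf_HV (us_temp hV (wf_lev_pos hs t) (wf_lev_le4 hs hs1 t))]
  conv_rhs => rw [sum_bas v]
  rw [map_sum, sum_apply]
  refine Finset.sum_congr rfl fun j _ => ?_
  rw [wf_T_symm hV hs, wf_T hV hs hs1, map_smul]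
  simp [mul_comm]

theorem pu_T (hV : Pot d V) (hs : 0 < s) (hs1 : s ≤ 1 / 4) (t : ℝ) (x : Z3 d) (v : E d) (i : Fin d) :
    ∑ j, (PU V s lam).T i j (t, x) * v j = HV (US V (lev s t)) x.1 v i :=
  wf_HV_T hV hs hs1 t x.1 x.2 v i

theorem wf_HV_bas (hV : Pot d V) (hs : 0 < s) (hs1 : s ≤ 1 / 4) (t : ℝ) (Y : E d)
    (wz : E d × E d) (i j : Fin d) :
    (PU V s lam).T i j (t, (Y, wz)) = HV (US V (lev s t)) Y (bas d i) j := by
  rw [wf_HV (us_temp hV (wf_lev_pos hs t) (wf_lev_le4 hs hs1 t)), wf_T hV hs hs1]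

theorem pu_LG (hV : Pot d V) (hs : 0 < s) (hs1 : s ≤ 1 / 4) (t : ℝ) (x : Z3 d) (j : Fin d) :
    ∑ l, (PU V s lam).Df [l, l] j (t, x) = LG (US V (lev s t)) x.1 j := by
  obtain ⟨Y, wz⟩ := x
  have hU := us_temp hV (wf_lev_pos hs t) (wf_lev_le4 hs hs1 t)
  have h1 : LG (US V (lev s t)) Y j = ∑ i, (fderiv ℝ (fun y => HV (US V (lev s t)) y (bas d i)) Y
      (bas d i)) j := by
    unfold LG
    rw [WithLp.ofLp_sum, Finset.sum_apply]
  change _ = LG (US V (lev s t)) Y j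
  rw [h1]
  refine Finset.sum_congr rfl fun i _ => ?_
  have hd : DifferentiableAt ℝ (fun y => HV (US V (lev s t)) y (bas d i)) Y := by
    have h2 := (((wf_grad_smooth hU).fderiv_right (m := ∞) (by simp)).differentiable (by simp)) Y
    exact h2.clm_apply (differentiableAt_const _)
  rw [wf_comp hd]
  have h3 : (fun y => HV (US V (lev s t)) y (bas d i) j) =
      fun y => (PU V s lam).T i j (t, (y, wz)) := by
    funext y
    rw [wf_HV_bas hV hs hs1]
  have h4 : (PU V s lam).Df [i, i] j = dd (eY i) ((PU V s lam).T i j) := rfl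
  have h5 : ContDiff ℝ ∞ ((PU V s lam).T i j) :=
    dd_smooth (dd_smooth (wf_H_smooth hV hs) _) _
  rw [h3, h4, wf_ddY h5]

theorem pu_vf (hV : Pot d V) (hs : 0 < s) (hs1 : s ≤ 1 / 4) (t : ℝ) (x : Z3 d) :
    vf (PU V s lam) (t, x) = fo V (lev s t) x.1 := by
  rw [sum_bas (fo V (lev s t) x.1)]
  unfold vf
  refine Finset.sum_congr rfl fun i _ => ?_
  rw [pu_f hV hs hs1]

theorem pu_vTz (hV : Pot d V) (hs : 0 < s) (hs1 : s ≤ 1 / 4) (t : ℝ) (x : Z3 d) :
    vTz (PU V s lam) (t, x) = oA V s t x := by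
  rw [sum_bas (oA V s t x)]
  unfold vTz
  refine Finset.sum_congr rfl fun i _ => ?_
  have := pu_T (lam := lam) hV hs hs1 t x x.2.2 i
  congr 1

theorem pu_vg (hV : Pot d V) (hs : 0 < s) (hs1 : s ≤ 1 / 4) (t : ℝ) (x : Z3 d) :
    vg (PU V s lam) (t, x) = qq t • GG (US V (lev s t)) (rr s t) x.1 x.2.1 := by
  rw [sum_bas (qq t • GG (US V (lev s t)) (rr s t) x.1 x.2.1)]
  unfold vg
  refine Finset.sum_congr rfl fun j _ => ?_
  congr 1
  have h1 := pu_T (lam := lam) hV hs hs1 t x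
    (rr s t • gradient (US V (lev s t)) x.1 + x.2.1) j
  have h2 := pu_LG (lam := lam) hV hs hs1 t x j
  have h3 : (qq t • GG (US V (lev s t)) (rr s t) x.1 x.2.1) j =
      qq t * (HV (US V (lev s t)) x.1 (rr s t • gradient (US V (lev s t)) x.1 + x.2.1) j -
        rr s t * LG (US V (lev s t)) x.1 j) := rfl
  rw [h3, ← h1, ← h2, mul_sub, Finset.mul_sum, Finset.mul_sum, Finset.mul_sum,
    ← Finset.sum_sub_distrib]
  refine Finset.sum_congr rfl fun l _ => ?_
  have h4 : (rr s t • gradient (US V (lev s t)) x.1 + x.2.1) l =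
      rr s t * fo V (lev s t) x.1 l + x.2.1 l := rfl
  rw [h4, ← pu_f (lam := lam) hV hs hs1 t x l, ← cc_eq, wf_T_symm hV hs l j]
  have h5 : rr s t = √s * th t := by rw [rr, th_eq]
  have h6 : cw l ((t, x) : TS d) = x.2.1 l := rfl
  have h7 : (PU V s lam).s = s := rfl
  rw [h5, h6, h7]
  ring

end P347Z
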